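import Crest.Agent.N49.Tw.Base

/-!
# Row 49 (helper17): the expectation calculus of typed structures
-/

set_option autoImplicit false

open Matrix Finset

noncomputable section

namespace Crest.Agent.N49.Tw

open Po

/-- bounded functions -/
def Bb {α E : Type*} [Norm E] (g : α → E) : Prop := ∃ B, ∀ y, ‖g y‖ ≤ B

section bb
variable {α β E : Type*} [SeminormedRing E] {f g : α → E}

theorem Bb.of {E : Type*} [Norm E] {g : α → E} {B : ℝ} (h : ∀ y, ‖g y‖ ≤ B) : Bb g := ⟨B, h⟩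
theorem Bb.of_abs {g : α → ℝ} {B : ℝ} (h : ∀ y, |g y| ≤ B) : Bb g := ⟨B, h⟩
theorem Bb.of_mem {g : α → ℝ} {B : ℝ} (h0 : ∀ y, 0 ≤ g y) (h : ∀ y, g y ≤ B) : Bb g :=
  ⟨B, fun y => by rw [Real.norm_of_nonneg (h0 y)]; exact h y⟩
theorem Bb.const (c : E) : Bb fun _ : α => c := ⟨‖c‖, fun _ => le_rfl⟩
theorem Bb.add (hf : Bb f) (hg : Bb g) : Bb fun y => f y + g y := by
  obtain ⟨A, hA⟩ := hf; obtain ⟨B, hB⟩ := hg
  exact ⟨A + B, fun y => norm_add_le_of_le (hA y) (hB y)⟩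
theorem Bb.neg (hf : Bb f) : Bb fun y => -f y := by
  obtain ⟨A, hA⟩ := hf
  exact ⟨A, fun y => by rw [norm_neg]; exact hA y⟩
theorem Bb.sub (hf : Bb f) (hg : Bb g) : Bb fun y => f y - g y := by
  simpa only [sub_eq_add_neg] using hf.add hg.neg
theorem Bb.mul (hf : Bb f) (hg : Bb g) : Bb fun y => f y * g y := by
  obtain ⟨A, hA⟩ := hf; obtain ⟨B, hB⟩ := hg
  exact ⟨A * B, fun y => (norm_mul_le _ _).trans
    (mul_le_mul (hA y) (hB y) (norm_nonneg _) ((norm_nonneg _).trans (hA y)))⟩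
theorem Bb.comp {E : Type*} [Norm E] {g : α → E} (hg : Bb g) (φ : β → α) : Bb fun y => g (φ y) := by
  obtain ⟨B, hB⟩ := hg
  exact ⟨B, fun _ => hB _⟩
theorem Bb.norm (hf : Bb f) : Bb fun y => ‖f y‖ := by
  obtain ⟨A, hA⟩ := hf
  exact ⟨A, fun y => by rw [norm_norm]; exact hA y⟩
theorem Bb.abs {f : α → ℝ} (hf : Bb f) : Bb fun y => |f y| := hf.norm
theorem Bb.sum {ι : Type*} (s : Finset ι) {F : ι → α → E} (h : ∀ i ∈ s, Bb (F i)) :
    Bb fun y => ∑ i ∈ s, F i y := by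
  classical
  induction s using Finset.induction_on with
  | empty => simpa using Bb.const (0 : E)
  | insert a s ha ih =>
    simp only [sum_insert ha]
    exact (h a (mem_insert_self ..)).add (ih fun i hi => h i (mem_insert_of_mem hi))
theorem Bb.prod {E ι : Type*} [SeminormedCommRing E] (s : Finset ι) {F : ι → α → E}
    (h : ∀ i ∈ s, Bb (F i)) : Bb fun y => ∏ i ∈ s, F i y := by
  classical
  induction s using Finset.induction_on with
  | empty => simpa using Bb.const (1 : E)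
  | insert a s ha ih =>
    simp only [prod_insert ha]
    exact (h a (mem_insert_self ..)).mul (ih fun i hi => h i (mem_insert_of_mem hi))
theorem Bb.pow (hf : Bb f) (n : ℕ) : Bb fun y => f y ^ n := by
  induction n with
  | zero => simpa using Bb.const (1 : E)
  | succ n ih => simpa only [pow_succ] using ih.mul hf
theorem Bb.ofReal {f : α → ℝ} (hf : Bb f) : Bb fun y => (f y : ℂ) := by
  obtain ⟨A, hA⟩ := hf
  exact ⟨A, fun y => by rw [Complex.norm_real]; exact hA y⟩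
theorem Bb.conj {f : α → ℂ} (hf : Bb f) : Bb fun y => (starRingEnd ℂ) (f y) := by
  obtain ⟨A, hA⟩ := hf
  exact ⟨A, fun y => by rw [Complex.norm_conj]; exact hA y⟩
theorem Bb.re {f : α → ℂ} (hf : Bb f) : Bb fun y => (f y).re := by
  obtain ⟨A, hA⟩ := hf
  exact ⟨A, fun y => (Complex.abs_re_le_norm _).trans (hA y)⟩
theorem Bb.im {f : α → ℂ} (hf : Bb f) : Bb fun y => (f y).im := by
  obtain ⟨A, hA⟩ := hf
  exact ⟨A, fun y => (Complex.abs_im_le_norm _).trans (hA y)⟩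
theorem Bb.ee (t : α → ℝ) : Bb fun y => ee (t y) := ⟨1, fun _ => (norm_ee _).le⟩
theorem ind_nonneg (s : Set α) (y : α) : 0 ≤ s.indicator (1 : α → ℝ) y :=
  Set.indicator_nonneg (fun _ _ => zero_le_one) _
theorem ind_le (s : Set α) (y : α) : s.indicator (1 : α → ℝ) y ≤ 1 :=
  Set.indicator_le' (fun _ _ => le_rfl) (fun _ _ => zero_le_one) y
theorem Bb.ind (s : Set α) : Bb (s.indicator (1 : α → ℝ)) := .of_mem (ind_nonneg s) (ind_le s)

end bb

namespace TS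

variable {σ σ' σ'' : Type} {T : TS σ} {T' : TS σ'} {T'' : TS σ''}
  {f g : (T.C → ℤ) → ℝ} {φ ψ : (T.C → ℤ) → ℂ}

theorem Tri.sm (h : T.Tri) (hg : Bb g) : Summable fun y => T.wt y * g y := by
  obtain ⟨B, hB⟩ := hg
  refine .of_norm_bounded (h.summable.mul_right B) fun y => ?_
  rw [norm_mul, Real.norm_of_nonneg (T.wt_pos y).le]
  exact mul_le_mul_of_nonneg_left (hB y) (T.wt_pos y).le

theorem Tri.smc (h : T.Tri) (hg : Bb φ) : Summable fun y => (T.wt y : ℂ) * φ y := by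
  obtain ⟨B, hB⟩ := hg
  exact summable_wt (fun y => (T.wt_pos y).le) h.summable hB

/-! ### unnormalised -/

theorem S_const (T : TS σ) (c : ℝ) : T.S (fun _ => c) = T.Z * c := tsum_mul_right
theorem S_one (T : TS σ) : T.S (fun _ => 1) = T.Z := by rw [S_const, mul_one]
theorem S_mul (T : TS σ) (c : ℝ) (g : (T.C → ℤ) → ℝ) : T.S (fun y => c * g y) = c * T.S g := by
  rw [S, S, ← tsum_mul_left]; exact tsum_congr fun y => mul_left_comm ..
theorem S_neg (T : TS σ) (g : (T.C → ℤ) → ℝ) : T.S (fun y => -g y) = -T.S g := by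
  simpa using T.S_mul (-1) g
theorem Tri.S_add (h : T.Tri) (hf : Bb f) (hg : Bb g) :
    T.S (fun y => f y + g y) = T.S f + T.S g := by
  simp only [S, mul_add]; exact (h.sm hf).tsum_add (h.sm hg)
theorem Tri.S_sub (h : T.Tri) (hf : Bb f) (hg : Bb g) :
    T.S (fun y => f y - g y) = T.S f - T.S g := by
  simp only [S, mul_sub]; exact (h.sm hf).tsum_sub (h.sm hg)
theorem Tri.S_sum (h : T.Tri) {ι : Type*} (s : Finset ι) {F : ι → (T.C → ℤ) → ℝ}
    (hF : ∀ i ∈ s, Bb (F i)) : T.S (fun y => ∑ i ∈ s, F i y) = ∑ i ∈ s, T.S (F i) := by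
  simp only [S, mul_sum]; exact Summable.tsum_finsetSum fun i hi => h.sm (hF i hi)
theorem S_nonneg (hg : ∀ y, 0 ≤ g y) : 0 ≤ T.S g :=
  tsum_nonneg fun y => mul_nonneg (T.wt_pos y).le (hg y)
theorem Tri.S_mono (h : T.Tri) (hf : Bb f) (hg : Bb g) (e : ∀ y, f y ≤ g y) : T.S f ≤ T.S g :=
  (h.sm hf).tsum_le_tsum (fun y => mul_le_mul_of_nonneg_left (e y) (T.wt_pos y).le) (h.sm hg)

theorem Sc_ofReal (T : TS σ) (g : (T.C → ℤ) → ℝ) : T.Sc (fun y => g y) = T.S g := by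
  rw [Sc, S, Complex.ofReal_tsum]; simp
theorem Sc_const (T : TS σ) (c : ℂ) : T.Sc (fun _ => c) = T.Z * c := by
  rw [Sc, tsum_mul_right, Z, Complex.ofReal_tsum]
theorem Sc_mul (T : TS σ) (c : ℂ) (g : (T.C → ℤ) → ℂ) : T.Sc (fun y => c * g y) = c * T.Sc g := by
  rw [Sc, Sc, ← tsum_mul_left]; exact tsum_congr fun y => mul_left_comm ..
theorem Sc_conj (T : TS σ) (g : (T.C → ℤ) → ℂ) :
    T.Sc (fun y => (starRingEnd ℂ) (g y)) = (starRingEnd ℂ) (T.Sc g) := by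
  rw [Sc, Sc, Complex.conj_tsum]; simp
theorem Tri.Sc_add (h : T.Tri) (hf : Bb φ) (hg : Bb ψ) :
    T.Sc (fun y => φ y + ψ y) = T.Sc φ + T.Sc ψ := by
  simp only [Sc, mul_add]; exact (h.smc hf).tsum_add (h.smc hg)
theorem Tri.Sc_sub (h : T.Tri) (hf : Bb φ) (hg : Bb ψ) :
    T.Sc (fun y => φ y - ψ y) = T.Sc φ - T.Sc ψ := by
  simp only [Sc, mul_sub]; exact (h.smc hf).tsum_sub (h.smc hg)
theorem Tri.Sc_sum (h : T.Tri) {ι : Type*} (s : Finset ι) {F : ι → (T.C → ℤ) → ℂ}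
    (hF : ∀ i ∈ s, Bb (F i)) : T.Sc (fun y => ∑ i ∈ s, F i y) = ∑ i ∈ s, T.Sc (F i) := by
  simp only [Sc, mul_sum]; exact Summable.tsum_finsetSum fun i hi => h.smc (hF i hi)
theorem Tri.re_Sc (h : T.Tri) (hf : Bb φ) : (T.Sc φ).re = T.S fun y => (φ y).re := by
  rw [Sc, Complex.re_tsum (h.smc hf), S]; simp
theorem Tri.im_Sc (h : T.Tri) (hf : Bb φ) : (T.Sc φ).im = T.S fun y => (φ y).im := by
  rw [Sc, Complex.im_tsum (h.smc hf), S]; simp
theorem Tri.norm_Sc_le (h : T.Tri) (hg : Bb g) (e : ∀ y, ‖φ y‖ ≤ g y) : ‖T.Sc φ‖ ≤ T.S g :=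
  tsum_of_norm_bounded (h.sm hg).hasSum fun y => by
    rw [norm_mul, Complex.norm_real, Real.norm_of_nonneg (T.wt_pos y).le]
    exact mul_le_mul_of_nonneg_left (e y) (T.wt_pos y).le
theorem Tri.abs_S_le (h : T.Tri) (hg : Bb g) (e : ∀ y, |f y| ≤ g y) : |T.S f| ≤ T.S g := by
  have := h.norm_Sc_le (φ := fun y => f y) hg (by simpa using e)
  rwa [Sc_ofReal, Complex.norm_real] at this
/-- Cauchy-Schwarz -/
theorem Tri.Sc_cs (h : T.Tri) (hf : Bb φ) (hg : Bb ψ) : ‖T.Sc fun y => φ y * ψ y‖ ^ 2 ≤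
    (T.S fun y => ‖φ y‖ ^ 2) * T.S fun y => ‖ψ y‖ ^ 2 := by
  obtain ⟨A, hA⟩ := hf; obtain ⟨B, hB⟩ := hg
  exact wt_cs (B := max A B) (fun y => (T.wt_pos y).le) h.summable
    (fun y => (hA y).trans (le_max_left ..)) fun y => (hB y).trans (le_max_right ..)
theorem Tri.S_cs (h : T.Tri) (hf : Bb f) (hg : Bb g) :
    (T.S fun y => f y * g y) ^ 2 ≤ (T.S fun y => f y ^ 2) * T.S fun y => g y ^ 2 := by
  have := h.Sc_cs hf.ofReal hg.ofReal
  simp only [← Complex.ofReal_mul, Sc_ofReal, Complex.norm_real, Real.norm_eq_abs, sq_abs] at this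
  exact this

/-! ### normalised -/

theorem Tri.E_const (h : T.Tri) (c : ℝ) : T.E (fun _ => c) = c := by
  rw [E, S_const, mul_div_cancel_left₀ _ h.Z_pos.ne']
theorem E_mul (T : TS σ) (c : ℝ) (g : (T.C → ℤ) → ℝ) : T.E (fun y => c * g y) = c * T.E g := by
  rw [E, S_mul, mul_div_assoc, E]
theorem E_neg (T : TS σ) (g : (T.C → ℤ) → ℝ) : T.E (fun y => -g y) = -T.E g := by
  rw [E, S_neg, neg_div, E]
theorem Tri.E_add (h : T.Tri) (hf : Bb f) (hg : Bb g) :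
    T.E (fun y => f y + g y) = T.E f + T.E g := by rw [E, h.S_add hf hg, add_div, E, E]
theorem Tri.E_sub (h : T.Tri) (hf : Bb f) (hg : Bb g) :
    T.E (fun y => f y - g y) = T.E f - T.E g := by rw [E, h.S_sub hf hg, sub_div, E, E]
theorem Tri.E_sum (h : T.Tri) {ι : Type*} (s : Finset ι) {F : ι → (T.C → ℤ) → ℝ}
    (hF : ∀ i ∈ s, Bb (F i)) : T.E (fun y => ∑ i ∈ s, F i y) = ∑ i ∈ s, T.E (F i) := by
  rw [E, h.S_sum s hF, sum_div]; rfl
theorem Z_nonneg (T : TS σ) : 0 ≤ T.Z := tsum_nonneg fun y => (T.wt_pos y).le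
theorem E_nonneg (hg : ∀ y, 0 ≤ g y) : 0 ≤ T.E g := div_nonneg (S_nonneg hg) T.Z_nonneg
theorem Tri.E_mono (h : T.Tri) (hf : Bb f) (hg : Bb g) (e : ∀ y, f y ≤ g y) : T.E f ≤ T.E g :=
  div_le_div_of_nonneg_right (h.S_mono hf hg e) T.Z_nonneg
theorem Tri.E_le (h : T.Tri) (hf : Bb f) {B : ℝ} (e : ∀ y, f y ≤ B) : T.E f ≤ B :=
  (h.E_mono hf (.const B) e).trans_eq (h.E_const B)
theorem Tri.le_E (h : T.Tri) (hf : Bb f) {B : ℝ} (e : ∀ y, B ≤ f y) : B ≤ T.E f :=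
  (h.E_const B).symm.trans_le (h.E_mono (.const B) hf e)
theorem Tri.abs_E_le (h : T.Tri) (hg : Bb g) (e : ∀ y, |f y| ≤ g y) : |T.E f| ≤ T.E g := by
  rw [E, abs_div, abs_of_pos h.Z_pos]
  exact div_le_div_of_nonneg_right (h.abs_S_le hg e) T.Z_nonneg
theorem Tri.abs_E_le' (h : T.Tri) {B : ℝ} (e : ∀ y, |f y| ≤ B) : |T.E f| ≤ B :=
  (h.abs_E_le (.const B) e).trans_eq (h.E_const B)
theorem Tri.exists_ge (h : T.Tri) (hf : Bb f) : ∃ y, T.E f ≤ f y := by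
  by_contra! c
  have := (h.sm hf).tsum_lt_tsum (i := 0) (g := fun y => T.wt y * T.E f)
    (fun y => mul_le_mul_of_nonneg_left (c y).le (T.wt_pos y).le)
    (mul_lt_mul_of_pos_left (c 0) (T.wt_pos 0)) (h.summable.mul_right _)
  rw [tsum_mul_right] at this
  change T.S f < T.Z * (T.S f / T.Z) at this
  rw [mul_div_cancel₀ _ h.Z_pos.ne'] at this
  exact lt_irrefl _ this
theorem Tri.exists_le (h : T.Tri) (hf : Bb f) : ∃ y, f y ≤ T.E f := by
  obtain ⟨y, hy⟩ := h.exists_ge hf.neg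
  rw [E_neg] at hy
  exact ⟨y, neg_le_neg_iff.1 hy⟩
theorem Tri.E_cs (h : T.Tri) (hf : Bb f) (hg : Bb g) :
    (T.E fun y => f y * g y) ^ 2 ≤ (T.E fun y => f y ^ 2) * T.E fun y => g y ^ 2 := by
  rw [E, E, E, div_pow, div_mul_div_comm, ← sq]
  exact div_le_div_of_nonneg_right (h.S_cs hf hg) (sq_nonneg _)
theorem Tri.E_sq (h : T.Tri) (hf : Bb f) : T.E f ^ 2 ≤ T.E fun y => f y ^ 2 := by
  simpa [h.E_const] using h.E_cs hf (.const 1)
/-- Jensen for powers -/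
theorem Tri.E_pow (h : T.Tri) (hf : Bb f) (h0 : ∀ y, 0 ≤ f y) (n : ℕ) :
    T.E f ^ n ≤ T.E fun y => f y ^ n := by
  have ha : 0 ≤ T.E f := E_nonneg h0
  set a := T.E f with e
  have key : ∀ y, a ^ n + n * a ^ (n - 1) * (f y - a) ≤ f y ^ n := fun y => by
    simpa using pow_add_mul_le_add_pow (b := f y - a) ha (by linarith [h0 y]) n
  have := h.E_mono ((Bb.const _).add ((Bb.const _).mul (hf.sub (.const a)))) (hf.pow n) key
  rwa [h.E_add (.const _) ((Bb.const _).mul (hf.sub (.const a))), E_mul, h.E_sub hf (.const a),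
    h.E_const, h.E_const, ← e, sub_self, mul_zero, add_zero] at this

theorem Ec_ofReal (T : TS σ) (g : (T.C → ℤ) → ℝ) : T.Ec (fun y => g y) = T.E g := by
  rw [Ec, Sc_ofReal, E, Complex.ofReal_div]
theorem Tri.Ec_const (h : T.Tri) (c : ℂ) : T.Ec (fun _ => c) = c := by
  rw [Ec, Sc_const, mul_div_cancel_left₀ _ (Complex.ofReal_ne_zero.2 h.Z_pos.ne')]
theorem Ec_mul (T : TS σ) (c : ℂ) (g : (T.C → ℤ) → ℂ) : T.Ec (fun y => c * g y) = c * T.Ec g := by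
  rw [Ec, Sc_mul, mul_div_assoc, Ec]
theorem Ec_conj (T : TS σ) (g : (T.C → ℤ) → ℂ) :
    T.Ec (fun y => (starRingEnd ℂ) (g y)) = (starRingEnd ℂ) (T.Ec g) := by
  rw [Ec, Sc_conj, Ec, map_div₀, Complex.conj_ofReal]
theorem Tri.Ec_add (h : T.Tri) (hf : Bb φ) (hg : Bb ψ) :
    T.Ec (fun y => φ y + ψ y) = T.Ec φ + T.Ec ψ := by rw [Ec, h.Sc_add hf hg, add_div, Ec, Ec]
theorem Tri.Ec_sub (h : T.Tri) (hf : Bb φ) (hg : Bb ψ) :
    T.Ec (fun y => φ y - ψ y) = T.Ec φ - T.Ec ψ := by rw [Ec, h.Sc_sub hf hg, sub_div, Ec, Ec]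
theorem Tri.Ec_sum (h : T.Tri) {ι : Type*} (s : Finset ι) {F : ι → (T.C → ℤ) → ℂ}
    (hF : ∀ i ∈ s, Bb (F i)) : T.Ec (fun y => ∑ i ∈ s, F i y) = ∑ i ∈ s, T.Ec (F i) := by
  rw [Ec, h.Sc_sum s hF, sum_div]; rfl
theorem Tri.re_Ec (h : T.Tri) (hf : Bb φ) : (T.Ec φ).re = T.E fun y => (φ y).re := by
  rw [Ec, Complex.div_ofReal_re, h.re_Sc hf, E]
theorem Tri.im_Ec (h : T.Tri) (hf : Bb φ) : (T.Ec φ).im = T.E fun y => (φ y).im := by
  rw [Ec, Complex.div_ofReal_im, h.im_Sc hf, E]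
theorem Tri.norm_Ec_le (h : T.Tri) (hg : Bb g) (e : ∀ y, ‖φ y‖ ≤ g y) : ‖T.Ec φ‖ ≤ T.E g := by
  rw [Ec, norm_div, Complex.norm_real, Real.norm_of_nonneg T.Z_nonneg]
  exact div_le_div_of_nonneg_right (h.norm_Sc_le hg e) T.Z_nonneg
theorem Tri.norm_Ec_le' (h : T.Tri) {B : ℝ} (e : ∀ y, ‖φ y‖ ≤ B) : ‖T.Ec φ‖ ≤ B :=
  (h.norm_Ec_le (.const B) e).trans_eq (h.E_const B)
theorem Tri.Ec_cs (h : T.Tri) (hf : Bb φ) (hg : Bb ψ) : ‖T.Ec fun y => φ y * ψ y‖ ^ 2 ≤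
    (T.E fun y => ‖φ y‖ ^ 2) * T.E fun y => ‖ψ y‖ ^ 2 := by
  rw [Ec, E, E, norm_div, div_pow, div_mul_div_comm, ← sq, Complex.norm_real,
    Real.norm_of_nonneg T.Z_nonneg]
  exact div_le_div_of_nonneg_right (h.Sc_cs hf hg) (sq_nonneg _)

/-! ### probabilities -/

variable {s t : Set (T.C → ℤ)}

theorem P_nonneg (T : TS σ) (s : Set (T.C → ℤ)) : 0 ≤ T.P s := E_nonneg (ind_nonneg s)
theorem Tri.P_le_one (h : T.Tri) (s : Set (T.C → ℤ)) : T.P s ≤ 1 := h.E_le (.ind s) (ind_le s)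
theorem Tri.P_univ (h : T.Tri) : T.P Set.univ = 1 := by
  rw [P, Set.indicator_univ]; exact h.E_const 1
theorem P_empty (T : TS σ) : T.P ∅ = 0 := by simp [P, E, S]
theorem Tri.P_mono (h : T.Tri) (e : s ⊆ t) : T.P s ≤ T.P t :=
  h.E_mono (.ind s) (.ind t) (Set.indicator_le_indicator_of_subset e fun _ => zero_le_one)
theorem Tri.P_compl (h : T.Tri) (s : Set (T.C → ℤ)) : T.P sᶜ = 1 - T.P s := by
  rw [P, P, ← h.E_const 1, ← h.E_sub (.const 1) (.ind s), Set.indicator_compl]; rfl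
theorem Tri.P_union (h : T.Tri) (s t : Set (T.C → ℤ)) : T.P (s ∪ t) ≤ T.P s + T.P t := by
  rw [P, P, P, ← h.E_add (.ind s) (.ind t)]
  refine h.E_mono (.ind _) ((Bb.ind s).add (.ind t)) fun y => ?_
  by_cases a : y ∈ s <;> by_cases b : y ∈ t <;> simp [a, b]
theorem Tri.P_inter (h : T.Tri) (s t : Set (T.C → ℤ)) : T.P s - T.P tᶜ ≤ T.P (s ∩ t) := by
  have := (h.P_mono (s := s) (t := s ∩ t ∪ tᶜ) fun y hy => by
    by_cases b : y ∈ t <;> simp [hy, b]).trans (h.P_union _ _)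
  linarith
theorem Tri.P_biUnion (h : T.Tri) {ι : Type*} (I : Finset ι) (A : ι → Set (T.C → ℤ)) :
    T.P {y | ∃ i ∈ I, y ∈ A i} ≤ ∑ i ∈ I, T.P (A i) := by
  simp only [P]
  rw [← h.E_sum I fun i _ => .ind (A i)]
  refine h.E_mono (.ind _) (.sum I fun i _ => .ind (A i)) fun y => ?_
  by_cases a : y ∈ {y | ∃ i ∈ I, y ∈ A i}
  · obtain ⟨i, hi, hy⟩ := a
    refine (ind_le _ _).trans (le_trans ?_ (single_le_sum (fun i _ => ind_nonneg (A i) y) hi))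
    simp [hy]
  · rw [Set.indicator_of_notMem a]; exact sum_nonneg fun i _ => ind_nonneg _ _
theorem P_nonempty (e : 0 < T.P s) : s.Nonempty :=
  Set.nonempty_iff_ne_empty.2 fun n => by rw [n, P_empty] at e; exact lt_irrefl _ e
/-- Markov -/
theorem Tri.markov (h : T.Tri) (hf : Bb f) (h0 : ∀ y, 0 ≤ f y) (a : ℝ) :
    a * T.P {y | a ≤ f y} ≤ T.E f := by
  rw [P, ← E_mul]
  refine h.E_mono ((Bb.const a).mul (.ind _)) hf fun y => ?_
  by_cases e : a ≤ f y <;> simp [e, h0 y]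
/-- reverse Markov -/
theorem Tri.E_le_add (h : T.Tri) (hf : Bb f) {a B : ℝ} (ha : 0 ≤ a) (hB : ∀ y, f y ≤ B) :
    T.E f ≤ a + B * T.P {y | a ≤ f y} := by
  rw [P, ← E_mul, ← h.E_const a, ← h.E_add (.const a) ((Bb.const B).mul (.ind _))]
  simp only [h.E_const]
  refine h.E_mono hf ((Bb.const a).add ((Bb.const B).mul (.ind _))) fun y => ?_
  by_cases e : a ≤ f y
  · simp only [Set.indicator_of_mem (show y ∈ {y | a ≤ f y} from e), Pi.one_apply]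
    linarith [hB y]
  · simp only [Set.indicator_of_notMem (show y ∉ {y | a ≤ f y} from e)]
    linarith

/-! ### equivalences and push-forwards -/

variable {U : (T.C → ℤ) ≃ (T'.C → ℤ)}

theorem Eqv.S (h : T.Eqv T' U) (g : (T'.C → ℤ) → ℝ) : T.S (fun y => g (U y)) = T'.S g := by
  rw [TS.S, TS.S, ← U.tsum_eq]; exact tsum_congr fun y => by rw [h y]
theorem Eqv.Sc (h : T.Eqv T' U) (g : (T'.C → ℤ) → ℂ) : T.Sc (fun y => g (U y)) = T'.Sc g := by
  rw [TS.Sc, TS.Sc, ← U.tsum_eq]; exact tsum_congr fun y => by rw [h y]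
theorem Eqv.Z (h : T.Eqv T' U) : T.Z = T'.Z := by rw [← S_one, ← S_one, ← h.S]
theorem Eqv.E (h : T.Eqv T' U) (g : (T'.C → ℤ) → ℝ) : T.E (fun y => g (U y)) = T'.E g := by
  rw [TS.E, TS.E, h.S, h.Z]
theorem Eqv.Ec (h : T.Eqv T' U) (g : (T'.C → ℤ) → ℂ) : T.Ec (fun y => g (U y)) = T'.Ec g := by
  rw [TS.Ec, TS.Ec, h.Sc, h.Z]
theorem Eqv.P (h : T.Eqv T' U) (s : Set (T'.C → ℤ)) : T.P (U ⁻¹' s) = T'.P s := h.E (s.indicator 1)
theorem Eqv.symm (h : T.Eqv T' U) : T'.Eqv T U.symm := fun y => by rw [← h, U.apply_symm_apply]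
theorem Eqv.trans (h : T.Eqv T' U) {V : (T'.C → ℤ) ≃ (T''.C → ℤ)} (h' : T'.Eqv T'' V) :
    T.Eqv T'' (U.trans V) := fun y => (h' _).trans (h y)
theorem Eqv.push (h : T.Eqv T' U) : T.Push T' U 0 := fun g _ => by rw [h.E]; simp

variable {F : (T.C → ℤ) → T'.C → ℤ} {η η' : ℝ}

theorem Push.refl (T : TS σ) : T.Push T id 0 := fun _ _ => by simp
theorem Push.mono (h : T.Push T' F η) (e : η ≤ η') : T.Push T' F η' := fun g hg => (h g hg).trans e
theorem Push.nonneg (h : T.Push T' F η) : 0 ≤ η := (abs_nonneg _).trans (h 0 (by simp))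
theorem Push.trans (h : T.Push T' F η) {G : (T'.C → ℤ) → T''.C → ℤ} (h' : T'.Push T'' G η') :
    T.Push T'' (fun y => G (F y)) (η + η') := fun g hg =>
  (abs_sub_le _ _ _).trans (add_le_add (h (fun y => g (G y)) fun _ => hg _) (h' g hg))
theorem Push.E (h : T.Push T' F η) {g : (T'.C → ℤ) → ℝ} {B : ℝ} (hg : ∀ y, |g y| ≤ B) :
    |T.E (fun y => g (F y)) - T'.E g| ≤ B * η := by
  rcases ((abs_nonneg _).trans (hg 0)).eq_or_lt with rfl | hB
  · have : g = fun _ => 0 := funext fun y => abs_nonpos_iff.1 (hg y)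
    simp [this, TS.E, TS.S]
  · have := h (fun y => B⁻¹ * g y) fun y => by
      rw [abs_mul, abs_of_pos (inv_pos.2 hB), inv_mul_le_iff₀ hB, mul_one]; exact hg y
    rwa [E_mul, E_mul, ← mul_sub, abs_mul, abs_of_pos (inv_pos.2 hB), inv_mul_le_iff₀ hB] at this
theorem Push.P (h : T.Push T' F η) (s : Set (T'.C → ℤ)) : |T.P (F ⁻¹' s) - T'.P s| ≤ η :=
  h (s.indicator 1) fun y => by rw [abs_of_nonneg (ind_nonneg s y)]; exact ind_le s y
theorem Push.Ec (h : T.Push T' F η) (hT : T.Tri) (hT' : T'.Tri) {g : (T'.C → ℤ) → ℂ} {B : ℝ}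
    (hg : ∀ y, ‖g y‖ ≤ B) : ‖T.Ec (fun y => g (F y)) - T'.Ec g‖ ≤ B * η := by
  obtain ⟨c, hc, e⟩ := Complex.exists_norm_eq_mul_self (T.Ec (fun y => g (F y)) - T'.Ec g)
  have hb : Bb fun y => c * g y := (Bb.const c).mul (.of hg)
  have := congrArg Complex.re e
  rw [Complex.ofReal_re, mul_sub, ← Ec_mul, ← Ec_mul, Complex.sub_re, hT.re_Ec (hb.comp F),
    hT'.re_Ec hb] at this
  rw [this]
  refine (le_abs_self _).trans (h.E (g := fun y => (c * g y).re) fun y => ?_)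
  refine (Complex.abs_re_le_norm _).trans ?_
  rw [norm_mul, hc, one_mul]; exact hg y

end TS

end Crest.Agent.N49.Tw

end
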