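import Crest.Agent.N49.Tw.Defs

/-!
# Row 49 (helper71): shapes: errors, gradings, linear part, dual form
-/

set_option autoImplicit false
set_option linter.unusedSectionVars false

open Matrix MvPolynomial Finset

noncomputable section

namespace Crest.Agent.N49.Tw

open Po

/-- gradings of polynomials with polynomial coefficients -/
def Gr {τ ι : Type} (r : (ι →₀ ℕ) → (τ →₀ ℕ) → Prop) (P : MvPolynomial τ (MvPolynomial ι ℝ)) :
    Prop := ∀ μ m, coeff m (coeff μ P) ≠ 0 → r m μ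

namespace Gr
variable {τ ι : Type} {r r' r'' : (ι →₀ ℕ) → (τ →₀ ℕ) → Prop}
  {P Q : MvPolynomial τ (MvPolynomial ι ℝ)}

theorem mono (h : Gr r P) (k : ∀ m μ, r m μ → r' m μ) : Gr r' P := fun μ m a => k m μ (h μ m a)

theorem sum {κ : Type*} (s : Finset κ) {f : κ → MvPolynomial τ (MvPolynomial ι ℝ)}
    (h : ∀ i ∈ s, Gr r (f i)) : Gr r (∑ i ∈ s, f i) := fun μ m a => by
  rw [coeff_sum, coeff_sum] at a
  obtain ⟨i, hi, b⟩ := exists_ne_zero_of_sum_ne_zero a
  exact h i hi μ m b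

theorem mul (h : Gr r P) (h' : Gr r' Q)
    (k : ∀ m μ m' μ', r m μ → r' m' μ' → r'' (m + m') (μ + μ')) : Gr r'' (P * Q) := fun μ m a => by
  classical
  rw [coeff_mul, coeff_sum] at a
  obtain ⟨x, hx, b⟩ := exists_ne_zero_of_sum_ne_zero a
  rw [coeff_mul] at b
  obtain ⟨z, hz, c⟩ := exists_ne_zero_of_sum_ne_zero b
  rw [← mem_antidiagonal.1 hx, ← mem_antidiagonal.1 hz]
  exact k _ _ _ _ (h _ _ (left_ne_zero_of_mul c)) (h' _ _ (right_ne_zero_of_mul c))

theorem mon (μ : τ →₀ ℕ) (m : ι →₀ ℕ) (a : ℝ) (h : r m μ) :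
    Gr r (monomial μ (monomial m a)) := fun μ' m' b => by
  classical
  rw [coeff_monomial] at b
  split_ifs at b with e
  · rw [coeff_monomial] at b
    split_ifs at b with e'
    · rw [← e, ← e']; exact h
    · exact absurd rfl b
  · exact absurd rfl b

theorem alg (a : ℝ) (h : r 0 0) : Gr r (algebraMap ℝ _ a) := mon 0 0 a h

theorem one (h : r 0 0) : Gr r 1 := by simpa using alg 1 h

theorem prod {κ M : Type*} [AddCommMonoid M] {ρ : M → (ι →₀ ℕ) → (τ →₀ ℕ) → Prop} (h0 : ρ 0 0 0)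
    (k : ∀ a b m μ m' μ', ρ a m μ → ρ b m' μ' → ρ (a + b) (m + m') (μ + μ')) (s : Finset κ)
    {f : κ → MvPolynomial τ (MvPolynomial ι ℝ)} {w : κ → M} (h : ∀ i ∈ s, Gr (ρ (w i)) (f i)) :
    Gr (ρ (∑ i ∈ s, w i)) (∏ i ∈ s, f i) := by
  classical
  induction s using Finset.induction_on with
  | empty => simpa using one h0
  | insert i s hi ih =>
    rw [sum_insert hi, prod_insert hi]
    exact (h i (mem_insert_self _ _)).mul (ih fun j hj => h j (mem_insert_of_mem hj)) (k _ _)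

theorem pow {M : Type*} [AddCommMonoid M] {ρ : M → (ι →₀ ℕ) → (τ →₀ ℕ) → Prop} (h0 : ρ 0 0 0)
    (k : ∀ a b m μ m' μ', ρ a m μ → ρ b m' μ' → ρ (a + b) (m + m') (μ + μ')) {w : M}
    (h : Gr (ρ w) P) (n : ℕ) : Gr (ρ (n • w)) (P ^ n) := by
  simpa using prod h0 k (range n) (f := fun _ => P) (w := fun _ => w) fun _ _ => h

end Gr

/-- the polynomials without words in `W` -/
def idl {τ : Type} (R : Type) [CommRing R] {W : Finset (τ →₀ ℕ)} (h : Dn W) :
    Ideal (MvPolynomial τ R) where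
  carrier := {P | ∀ μ ∈ W, coeff μ P = 0}
  add_mem' a b μ k := by rw [coeff_add, a μ k, b μ k, add_zero]
  zero_mem' _ _ := rfl
  smul_mem' Q P a μ k := by
    classical
    rw [smul_eq_mul, coeff_mul]
    exact sum_eq_zero fun x hx => by
      rw [a _ (h μ k _ (by rw [← mem_antidiagonal.1 hx]; exact le_add_self)), mul_zero]

theorem weight_col {τ σ : Type} (col : τ → σ) (μ : τ →₀ ℕ) :
    Finsupp.weight (fun a => Finsupp.single (col a) 1) μ = μ.mapDomain col := by
  simp [Finsupp.weight_apply, Finsupp.mapDomain, Finsupp.smul_single]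

theorem degree_col {τ σ : Type} (col : τ → σ) (μ : τ →₀ ℕ) :
    (μ.mapDomain col).degree = μ.degree := by
  induction μ using Finsupp.induction_linear with
  | zero => simp
  | add a b h k => rw [Finsupp.mapDomain_add, map_add, map_add, h, k]
  | single a n => simp

theorem unit_ext {a b : Unit →₀ ℕ} (h : a.degree = b.degree) : a = b := by
  ext; simpa [Finsupp.degree_eq_sum] using h

theorem weight_hom {ι M N : Type*} [AddCommMonoid M] [AddCommMonoid N] (f : M →+ N) (w : ι → M)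
    (m : ι →₀ ℕ) : Finsupp.weight (fun c => f (w c)) m = f (Finsupp.weight w m) := by
  simp [Finsupp.weight_apply, Finsupp.sum]

namespace TS

variable {σ : Type} (T : TS σ)

theorem hz_map {R R' : Type} [CommRing R] [Algebra ℝ R] [CommRing R'] [Algebra ℝ R']
    (f : R →ₐ[ℝ] R') (e : R) (y : T.C → R) (F : T.C) :
    f (T.hz e y F) = T.hz (f e) (fun c => f (y c)) F := by
  simp only [hz, map_sum, map_mul, map_pow, ← AlgHom.comp_apply, comp_aeval]

theorem hz_one {R : Type} [CommRing R] [Algebra ℝ R] (y : T.C → R) (F : T.C) :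
    T.hz 1 y F = aeval y (T.Φ F) := by
  simp only [hz, one_pow, one_mul]
  rw [← map_sum, ← as_sum]

theorem hz_congr {τ R : Type} [CommRing R] [Algebra ℝ R] {W : Finset (τ →₀ ℕ)} (h : Dn W)
    (e : MvPolynomial τ R) {y y' : T.C → MvPolynomial τ R}
    (k : ∀ F, ∀ μ ∈ W, coeff μ (y F) = coeff μ (y' F)) (F : T.C) {μ : τ →₀ ℕ} (hμ : μ ∈ W) :
    coeff μ (T.hz e y F) = coeff μ (T.hz e y' F) := by
  have : Ideal.Quotient.mkₐ ℝ (idl R h) (T.hz e y F) =
      Ideal.Quotient.mkₐ ℝ (idl R h) (T.hz e y' F) := by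
    rw [hz_map, hz_map]
    refine congrArg (fun z => T.hz _ z F) (funext fun c => Ideal.Quotient.eq.2 fun ν hν => ?_)
    rw [coeff_sub, k c ν hν, sub_self]
  have := Ideal.Quotient.eq.1 this μ hμ
  rwa [coeff_sub, sub_eq_zero] at this

/-- matrices that respect the degrees -/
def Bl (B : Matrix T.C T.C ℝ) : Prop := ∀ F G, B F G ≠ 0 → T.deg F = T.deg G

/-- structures whose shapes behave well: homogeneous, or with one colour -/
def Cl : Prop := T.Tri ∧ ((∀ c, (T.Φ c).IsWeightedHomogeneous T.deg (T.deg c)) ∨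
  ∀ a b : σ →₀ ℕ, a.degree = b.degree → a = b)

variable {T}

theorem Ok.cl (h : T.Ok) : T.Cl := ⟨h.toTri, .inl h.hom⟩

theorem Tri.cl {T : TS Unit} (h : T.Tri) : T.Cl := ⟨h, .inr fun _ _ => unit_ext⟩

theorem Cl.bl (h : T.Cl) : T.Bl T.A := fun F G k => by
  simp only [A, of_apply] at k
  split_ifs at k with e
  · rcases h.2 with a | a
    · have := a F k
      rw [Finsupp.weight_single, one_smul] at this; exact this.symm
    · exact a _ _ e
  · exact absurd rfl k

theorem Bl.inv {B : Matrix T.C T.C ℝ} (h : T.Bl B) : T.Bl B⁻¹ := fun F G k => by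
  classical
  by_cases hd : IsUnit B.det
  swap
  · rw [nonsing_inv_apply_not_isUnit _ hd] at k; exact absurd rfl k
  set P : Matrix T.C T.C ℝ := diagonal fun c => if T.deg c = T.deg F then 1 else 0
  have c : P * B = B * P := by
    ext a b
    rw [diagonal_mul, mul_diagonal, mul_comm]
    by_cases z : B a b = 0
    · simp [z]
    · rw [h a b z]
  have d : B⁻¹ * P = P * B⁻¹ := by
    calc B⁻¹ * P = B⁻¹ * (P * B) * B⁻¹ := by
          rw [Matrix.mul_assoc, Matrix.mul_assoc, mul_nonsing_inv _ hd, Matrix.mul_one]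
      _ = P * B⁻¹ := by rw [c, ← Matrix.mul_assoc, nonsing_inv_mul _ hd, Matrix.one_mul]
  have := congrFun (congrFun d F) G
  rw [diagonal_mul, mul_diagonal, if_pos rfl, one_mul] at this
  by_contra ne
  rw [if_neg (Ne.symm ne), mul_zero] at this
  exact k this.symm

theorem weight_lev (m : T.C →₀ ℕ) :
    Finsupp.weight T.lev m = (Finsupp.weight T.deg m).degree := weight_hom Finsupp.degree T.deg m

variable [DecidableEq σ] {τ τ' : Type} [DecidableEq τ] {col : τ → σ} {W : Finset (τ →₀ ℕ)}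

theorem lev_wd (p : T.Wd col W) : T.lev p.1.1 = p.1.2.1.degree := by
  rw [lev, ← p.2, degree_col]

theorem coeff_Yp {R : Type} [CommSemiring R] (y : T.Wd col W → R) (p : T.Wd col W) :
    coeff p.1.2.1 (T.Yp col W y p.1.1) = y p := by
  rw [Yp, coeff_sum, sum_eq_single p]
  · rw [coeff_monomial, if_pos rfl]
  · intro q hq ne
    rw [coeff_monomial, if_neg fun e => ne (Subtype.ext (Prod.ext (mem_filter.1 hq).2
      (Subtype.ext e)))]
  · intro k; exact absurd (mem_filter.2 ⟨mem_univ p, rfl⟩ : p ∈ univ.filter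
      fun q : T.Wd col W => q.1.1 = p.1.1) k

theorem coeff_Yp_ne {R : Type} [CommSemiring R] {y : T.Wd col W → R} {F : T.C} {μ : τ →₀ ℕ}
    (h : coeff μ (T.Yp col W y F) ≠ 0) : μ ∈ W ∧ μ.mapDomain col = T.deg F := by
  rw [Yp, coeff_sum] at h
  obtain ⟨p, hp, b⟩ := exists_ne_zero_of_sum_ne_zero h
  rw [coeff_monomial] at b
  split_ifs at b with e
  · rw [← e, ← (mem_filter.1 hp).2]; exact ⟨p.1.2.2, p.2⟩
  · exact absurd rfl b

theorem map_Yp {R R' : Type} [CommSemiring R] [CommSemiring R'] (f : R →+* R')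
    (y : T.Wd col W → R) (F : T.C) :
    MvPolynomial.map f (T.Yp col W y F) = T.Yp col W (fun p => f (y p)) F := by
  simp only [Yp, map_sum, map_monomial]

theorem Yp_hom {R : Type} [CommSemiring R] (y : T.Wd col W → R) (F : T.C) :
    (T.Yp col W y F).IsWeightedHomogeneous (fun a => Finsupp.single (col a) 1) (T.deg F) :=
  fun μ h => by rw [weight_col, (coeff_Yp_ne h).2]

theorem Yp_add {R : Type} [CommSemiring R] (y y' : T.Wd col W → R) (F : T.C) :
    T.Yp col W (y + y') F = T.Yp col W y F + T.Yp col W y' F := by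
  simp only [Yp, Pi.add_apply, map_add, sum_add_distrib]

/-- sums over the words of one family -/
theorem sum_wd {M : Type*} [AddCommMonoid M] (F : T.C) (g : (τ →₀ ℕ) → M) :
    ∑ p : T.Wd col W with p.1.1 = F, g p.1.2.1 = ∑ μ ∈ W with μ.mapDomain col = T.deg F, g μ := by
  refine sum_bij (fun p _ => p.1.2.1) (fun p hp => ?_) (fun p hp q hq e => ?_) (fun μ hμ => ?_)
    fun _ _ => rfl
  · exact mem_filter.2 ⟨p.1.2.2, (mem_filter.1 hp).2 ▸ p.2⟩
  · exact Subtype.ext (Prod.ext ((mem_filter.1 hp).2.trans (mem_filter.1 hq).2.symm)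
      (Subtype.ext e))
  · exact ⟨⟨(F, ⟨μ, (mem_filter.1 hμ).1⟩), (mem_filter.1 hμ).2⟩, mem_filter.2 ⟨mem_univ _, rfl⟩,
      rfl⟩

variable [Fintype τ] {ε : τ → ℤ} {Kw : (τ →₀ ℕ) → (τ →₀ ℕ) → ℝ}

theorem shape_lev (p : T.Wd col W) : (T.shape col W ε Kw).lev p = T.lev p.1.1 := (lev_wd p).symm

theorem shape_aeval {R : Type} [CommRing R] [Algebra ℝ R] (y : T.Wd col W → R) (p : T.Wd col W) :
    aeval y ((T.shape col W ε Kw).Φ p) =
      coeff p.1.2.1 (T.hz (∑ a, ε a • X a) (T.Yp col W y) p.1.1) := by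
  have := T.hz_map (mapAlgHom (σ := τ) (aeval (R := ℝ) y)) (∑ a, ε a • X a)
    (T.Yp col W (X (R := ℝ))) p.1.1
  have a : mapAlgHom (σ := τ) (aeval (R := ℝ) y) (∑ a, ε a • X a) = ∑ a, ε a • X a := by
    simp only [map_sum, map_zsmul, mapAlgHom_apply, map_X]
  have b : (fun c => mapAlgHom (σ := τ) (aeval (R := ℝ) y) (T.Yp col W (X (R := ℝ)) c)) =
      T.Yp col W y := funext fun c => by
    rw [mapAlgHom_apply, map_Yp]; congr 1; funext p; simp
  rw [a, b, mapAlgHom_apply] at this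
  rw [← this, coeff_map]; rfl

theorem shape_u (y : T.Wd col W → ℝ) (p : T.Wd col W) : (T.shape col W ε Kw).u y p =
    coeff p.1.2.1 (T.hz (∑ a, ε a • X a) (T.Yp col W y) p.1.1) := shape_aeval y p

omit [Fintype τ] in
theorem gr_mon {M : Type*} [AddCommMonoid M] {ρ : M → (T.Wd col W →₀ ℕ) → (τ →₀ ℕ) → Prop}
    (h0 : ρ 0 0 0) (k : ∀ a b m μ m' μ', ρ a m μ → ρ b m' μ' → ρ (a + b) (m + m') (μ + μ'))
    {w : T.C → M} (hw : ∀ p : T.Wd col W, ρ (w p.1.1) (Finsupp.single p 1) p.1.2.1)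
    (m : T.C →₀ ℕ) (a : ℝ) : Gr (ρ (Finsupp.weight w m))
      (aeval (T.Yp col W (X (R := ℝ))) (monomial m a)) := by
  rw [aeval_monomial, Finsupp.weight_apply, Finsupp.sum, Finsupp.prod]
  refine (Gr.alg a h0).mul (Gr.prod h0 k _ fun c _ => Gr.pow h0 k
    (Gr.sum _ fun p hp => Gr.mon _ _ 1 ((mem_filter.1 hp).2 ▸ hw p)) _) fun _ _ _ _ a b => ?_
  simpa using k _ _ _ _ _ _ a b

theorem gr_eps {ι : Type} {r : (ι →₀ ℕ) → (τ →₀ ℕ) → Prop}
    (h : ∀ a, ε a ≠ 0 → r 0 (Finsupp.single a 1)) : Gr r (∑ a, ε a • X a) :=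
  Gr.sum _ fun a _ => by
    by_cases z : ε a = 0
    · rw [z, zero_smul]; exact fun _ _ b => absurd rfl b
    · have := Gr.mon (r := r) _ _ (ε a) (h a z)
      convert this using 1
      rw [X, ← Int.cast_smul_eq_zsmul (MvPolynomial ι ℝ), smul_monomial]; simp

/-- the general grading lemma for the errors of a shape -/
theorem gr_hz {r : (T.Wd col W →₀ ℕ) → (τ →₀ ℕ) → Prop} (h0 : r 0 0)
    (k : ∀ m μ m' μ', r m μ → r m' μ' → r (m + m') (μ + μ'))
    (hw : ∀ p : T.Wd col W, r (Finsupp.single p 1) p.1.2.1)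
    (he : ∀ a, ε a ≠ 0 → r 0 (Finsupp.single a 1)) (F : T.C) :
    Gr r (T.hz (∑ a, ε a • X a) (T.Yp col W (X (R := ℝ))) F) :=
  Gr.sum _ fun m _ => (Gr.pow (M := Unit) (ρ := fun _ => r) (w := ()) h0 (fun _ _ => k)
    (gr_eps he) _).mul (gr_mon (M := Unit) (ρ := fun _ => r) (w := fun _ => ()) h0 (fun _ _ => k)
      hw m _) k

/-- every monomial of the error of a word uses sub-words -/
theorem shape_le (p : T.Wd col W) {m : T.Wd col W →₀ ℕ}
    (h : coeff m ((T.shape col W ε Kw).Φ p) ≠ 0) :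
    Finsupp.weight (fun q : T.Wd col W => q.1.2.1) m ≤ p.1.2.1 :=
  gr_hz (r := fun m μ => Finsupp.weight (fun q : T.Wd col W => q.1.2.1) m ≤ μ) (by simp)
    (fun _ _ _ _ a b => by rw [map_add]; exact add_le_add a b)
    (fun p => by rw [Finsupp.weight_single, one_smul]) (fun _ _ => by simp) _ _ _ h

theorem shape_vars (p q : T.Wd col W) (h : q ∈ ((T.shape col W ε Kw).Φ p).vars) :
    q.1.2.1 ≤ p.1.2.1 := by
  obtain ⟨m : T.Wd col W →₀ ℕ, hm, hq⟩ := (mem_vars_iff_mem_support _).1 h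
  refine le_trans ?_ (shape_le p (mem_support_iff.1 hm))
  rw [Finsupp.weight_apply, Finsupp.sum]
  refine le_trans ?_ (single_le_sum (f := fun i : T.Wd col W => m i • i.1.2.1)
    (fun _ _ => zero_le) hq)
  obtain ⟨n, hn⟩ := Nat.exists_eq_succ_of_ne_zero (Finsupp.mem_support_iff.1 hq)
  rw [hn, succ_nsmul]; exact le_add_self

/-- down-closed sets of words are low -/
theorem shape_low {W₀ : (τ →₀ ℕ) → Prop} (h : ∀ μ, W₀ μ → ∀ ν, ν ≤ μ → W₀ ν) :
    (T.shape col W ε Kw).Low fun p => W₀ p.1.2.1 := fun p hp q hq => h _ hp _ (shape_vars p q hq)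

/-- homogeneity for every grading that kills the letters with mass -/
theorem shape_gr {M : Type*} [AddCommMonoid M] (f : (τ →₀ ℕ) →+ M)
    (h : ∀ a, ε a ≠ 0 → f (Finsupp.single a 1) = 0) (p : T.Wd col W) :
    ((T.shape col W ε Kw).Φ p).IsWeightedHomogeneous (fun q => f q.1.2.1) (f p.1.2.1) :=
  fun _ hm => gr_hz (r := fun m μ => Finsupp.weight (fun q : T.Wd col W => f q.1.2.1) m = f μ)
    (by simp) (fun _ _ _ _ a b => by rw [map_add, map_add, a, b])
    (fun p => by rw [Finsupp.weight_single, one_smul]) (fun a z => by rw [h a z, map_zero]) _ _ _ hm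

theorem shape_hom (q : τ → Prop) [DecidablePred q] (h : ∀ a, q a → ε a = 0) :
    (T.shape col W ε Kw).Hom q := shape_gr (Finsupp.filterAddHom q) fun a z =>
  Finsupp.filter_single_of_neg _ fun k => z (h a k)

theorem shape_A (p p' : T.Wd col W) :
    (T.shape col W ε Kw).A p p' = T.A p.1.1 p'.1.1 * dk 1 p.1.2.1 p'.1.2.1 := by
  change (if p.1.2.1.degree = p'.1.2.1.degree then coeff (Finsupp.single p' 1) (coeff p.1.2.1
    (T.hz (∑ a, ε a • X a) (T.Yp col W (X (R := ℝ))) p.1.1)) else 0) = _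
  rw [← lev_wd, ← lev_wd, A, of_apply]
  split_ifs with e
  swap
  · rw [zero_mul]
  rw [hz, coeff_sum, coeff_sum, sum_eq_single (Finsupp.single p'.1.1 1)]
  · rw [Finsupp.weight_single, one_smul, e, Nat.sub_self, pow_zero, one_mul, aeval_monomial,
      Finsupp.prod_single_index (by simp), pow_one, ← Algebra.smul_def, coeff_smul, coeff_smul,
      smul_eq_mul, Yp, coeff_sum, coeff_sum, sum_eq_single p']
    · rw [coeff_monomial, dk]
      by_cases z : p.1.2.1 = p'.1.2.1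
      · rw [if_pos z, if_pos z.symm]; simp
      · rw [if_neg z, if_neg (Ne.symm z)]; simp
    · intro q _ ne
      rw [coeff_monomial]
      split_ifs
      · rw [coeff_X, if_neg fun z => ne (Finsupp.single_left_injective one_ne_zero z)]
      · rfl
    · intro k; exact absurd (mem_filter.2 ⟨mem_univ p', rfl⟩ : p' ∈ univ.filter
        fun q : T.Wd col W => q.1.1 = p'.1.1) k
  · intro m _ ne
    by_contra z
    have := ((Gr.pow (M := T.C →₀ ℕ) (w := 0) (ρ := fun a m _ =>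
      Finsupp.weight (fun q : T.Wd col W => Finsupp.single q.1.1 1) m = a) (by simp)
      (fun _ _ _ _ _ _ a b => by rw [map_add, a, b]) (gr_eps (ε := ε) fun _ _ => by simp) _).mul
      (gr_mon (w := fun c => Finsupp.single c 1) (ρ := fun a m _ =>
      Finsupp.weight (fun q : T.Wd col W => Finsupp.single q.1.1 1) m = a) (by simp)
      (fun _ _ _ _ _ _ a b => by rw [map_add, a, b])
      (fun p => by rw [Finsupp.weight_single, one_smul]) m _) (r'' := fun m' _ =>
      Finsupp.weight (fun q : T.Wd col W => Finsupp.single q.1.1 1) m' = m)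
      fun _ _ _ _ a b => by
        rw [map_add, a, b, smul_zero, zero_add]
        exact (weight_col id m).trans Finsupp.mapDomain_id) _ _ z
    simp only [Finsupp.weight_single, one_smul] at this
    exact ne this.symm
  · intro k
    rw [notMem_support_iff.1 k]; simp

variable (T col W) in
/-- tensor products on the coordinates of a shape -/
def kr (B : Matrix T.C T.C ℝ) (Kw : (τ →₀ ℕ) → (τ →₀ ℕ) → ℝ) : Matrix (T.Wd col W) (T.Wd col W) ℝ :=
  Matrix.of fun p p' => B p.1.1 p'.1.1 * Kw p.1.2.1 p'.1.2.1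

theorem shape_A' : (T.shape col W ε Kw).A = T.kr col W T.A (dk 1) :=
  Matrix.ext fun p p' => shape_A p p'

theorem shape_K : (T.shape col W ε Kw).K = T.kr col W T.K Kw := rfl

omit [Fintype τ] in
theorem kr_mul {B : Matrix T.C T.C ℝ} (h : T.Bl B) (B' : Matrix T.C T.C ℝ) :
    T.kr col W B (dk 1) * T.kr col W B' Kw = T.kr col W (B * B') Kw := by
  ext p p'
  simp only [kr, mul_apply, of_apply, sum_mul]
  rw [← sum_filter_of_ne (p := fun q : T.Wd col W => q.1.2 = p.1.2), ← sum_filter_of_ne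
    (s := univ) (p := fun G => T.deg G = T.deg p.1.1)]
  · refine sum_bij (fun q _ => q.1.1) (fun q hq => ?_) (fun q hq q' hq' e => ?_) (fun G hG => ?_)
      fun q hq => ?_
    · exact mem_filter.2 ⟨mem_univ _, by rw [← q.2, ← p.2, (mem_filter.1 hq).2]⟩
    · exact Subtype.ext (Prod.ext e ((mem_filter.1 hq).2.trans (mem_filter.1 hq').2.symm))
    · exact ⟨⟨(G, p.1.2), p.2.trans (mem_filter.1 hG).2.symm⟩, mem_filter.2 ⟨mem_univ _, rfl⟩, rfl⟩
    · rw [(mem_filter.1 hq).2, dk, if_pos rfl, Pi.one_apply]; ring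
  · exact fun G _ z => (h _ _ (left_ne_zero_of_mul (left_ne_zero_of_mul z))).symm
  · intro q _ z
    by_contra ne
    rw [dk, if_neg fun e => ne (Subtype.ext e.symm)] at z
    simp at z

omit [Fintype τ] in
theorem kr_one : T.kr col W 1 (dk 1) = 1 := by
  ext p p'
  simp only [kr, of_apply, one_apply, dk, Pi.one_apply, Subtype.ext_iff, Prod.ext_iff]
  by_cases a : p.1.1 = p'.1.1 <;> simp [a]

omit [Fintype τ] in
theorem kr_transpose (B : Matrix T.C T.C ℝ) :
    (T.kr col W B Kw)ᵀ = T.kr col W Bᵀ fun μ ν => Kw ν μ := rfl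

omit [Fintype τ] in
theorem dk_symm (v : (τ →₀ ℕ) → ℝ) : (fun μ ν => dk v ν μ) = dk v := by
  funext μ ν
  by_cases a : μ = ν
  · rw [a]
  · rw [dk, dk, if_neg a, if_neg (Ne.symm a)]

omit [Fintype τ] in
theorem mul_kr {B : Matrix T.C T.C ℝ} (h : T.Bl B) (B' : Matrix T.C T.C ℝ) :
    T.kr col W B' Kw * T.kr col W Bᵀ (dk 1) = T.kr col W (B' * Bᵀ) Kw := by
  apply transpose_injective
  rw [transpose_mul, kr_transpose, kr_transpose, kr_transpose, dk_symm, transpose_transpose,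
    kr_mul h, transpose_mul, transpose_transpose]

omit [Fintype τ] in
theorem kr_inv {B : Matrix T.C T.C ℝ} (h : T.Bl B) (hd : B.det ≠ 0) :
    (T.kr col W B (dk 1))⁻¹ = T.kr col W B⁻¹ (dk 1) ∧ (T.kr col W B (dk 1)).det ≠ 0 := by
  have e : T.kr col W B (dk 1) * T.kr col W B⁻¹ (dk 1) = 1 := by
    rw [kr_mul h, mul_nonsing_inv _ hd.isUnit, kr_one]
  exact ⟨inv_eq_right_inv e, (isUnit_det_of_right_inverse e).ne_zero⟩

omit [Fintype τ] [DecidableEq τ] [DecidableEq σ] in
theorem _root_.Crest.Agent.N49.Tw.KB.posDef {a b : ℝ} (h : KB W Kw a b) (ha : 0 < a) :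
    (Matrix.of fun μ ν : W => Kw μ ν).PosDef := by
  classical
  refine PosDef.of_dotProduct_mulVec_pos (Matrix.ext fun μ ν => h.sym _ _) fun x hx => ?_
  have := h.lo fun μ => if k : μ ∈ W then x ⟨μ, k⟩ else 0
  simp only [← sum_coe_sort W, coe_mem, dif_pos, Subtype.coe_eta] at this
  obtain ⟨μ, hμ⟩ := Function.ne_iff.1 hx
  refine lt_of_lt_of_le (mul_pos ha (sum_pos' (fun ν _ => sq_nonneg (x ν))
    ⟨μ, mem_univ _, sq_pos_of_ne_zero hμ⟩)) (this.trans_eq ?_)
  simp only [dotProduct, mulVec, star_trivial, of_apply, mul_sum, mul_assoc]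

omit [Fintype τ] in
theorem kr_posDef {B : Matrix T.C T.C ℝ} (hB : B.PosDef)
    (hK : (Matrix.of fun μ ν : W => Kw μ ν).PosDef) : (T.kr col W B Kw).PosDef :=
  (hB.kronecker hK).submatrix Subtype.val_injective

theorem shape_tri' (h : T.Cl) (hK : (Matrix.of fun μ ν : W => Kw μ ν).PosDef)
    (hb : ∀ μ ∈ W, ∀ ν ∈ W, Kw μ ν ≠ 0 → μ.degree = ν.degree) : (T.shape col W ε Kw).Tri where
  tri p m hm := by
    rw [weight_lev]
    exact Finsupp.degree_mono (shape_le p (mem_support_iff.1 hm))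
  ne p e := h.1.ne p.1.1 (by rw [← p.2, show p.1.2.1 = 0 from e, Finsupp.mapDomain_zero])
  det := by rw [shape_A']; exact (kr_inv h.bl h.1.det).2
  pd := kr_posDef h.1.pd hK
  blk p p' k := hb _ p.1.2.2 _ p'.1.2.2 (right_ne_zero_of_mul k)

theorem shape_tri (h : T.Cl) {a b : ℝ} (hK : KB W Kw a b) (ha : 0 < a) :
    (T.shape col W ε Kw).Tri := shape_tri' h (hK.posDef ha) hK.blk

/-- symbol laws are homogeneous -/
theorem shape_ok (h : T.Cl) {a b : ℝ} (hK : KB W Kw a b) (ha : 0 < a) :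
    (T.shape col W 0 Kw).Ok :=
  ⟨shape_tri h hK ha, shape_gr (AddMonoidHom.id _) fun _ z => absurd rfl z⟩

omit [DecidableEq σ] [DecidableEq τ] [Fintype τ] in
theorem Ok.hz (h : T.Ok) {R : Type} [CommRing R] [Algebra ℝ R] (e e' : R) (y : T.C → R) (F : T.C) :
    T.hz e y F = T.hz e' y F := sum_congr rfl fun m hm => by
  rw [weight_lev, h.hom F (mem_support_iff.1 hm), lev, Nat.sub_self, pow_zero, pow_zero]

theorem Ok.shape_eps (h : T.Ok) : T.shape col W ε Kw = T.shape col W 0 Kw := by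
  unfold shape
  congr 1
  exact funext fun p => congrArg _ (h.hz _ _ _ _)

theorem Ok.shape (h : T.Ok) {a b : ℝ} (hK : KB W Kw a b) (ha : 0 < a) :
    (T.shape col W ε Kw).Ok := by rw [h.shape_eps]; exact shape_ok h.cl hK ha

theorem shape_D (h : T.Cl) : (T.shape col W ε Kw).D = T.kr col W T.D Kw := by
  rw [D, shape_A', shape_K]
  change (T.kr col W T.A (dk 1))⁻¹ * T.kr col W T.K Kw * (T.kr col W T.A (dk 1))⁻¹ᵀ = _
  rw [(kr_inv h.bl h.1.det).1, kr_mul h.bl.inv, kr_transpose, dk_symm, mul_kr h.bl.inv, D]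

end TS

end Crest.Agent.N49.Tw

end
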