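import Crest.Agent.N49.Tw.Sh
import Crest.Agent.N49.Tw.Shp

/-!
# Row 49 (helper71): the law of a tower on a general shape: errors, gradings, linear part
-/

set_option autoImplicit false
set_option linter.unusedSectionVars false

open Matrix MvPolynomial Finset

noncomputable section

namespace Crest.Agent.N49.Tw

open Po

theorem rl_mul {m n o : Type} [Fintype n] (U : Matrix m n ℤ) (V : Matrix n o ℤ) :
    rl (U * V) = rl U * rl V := by
  ext i j; simp [rl, mul_apply]

theorem rl_one {n : Type} [DecidableEq n] : rl (1 : Matrix n n ℤ) = 1 :=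
  Matrix.map_one _ Int.cast_zero Int.cast_one

theorem zc_rl {m n : Type} [Fintype n] (U : Matrix m n ℤ) (y : n → ℤ) :
    zc (U *ᵥ y) = rl U *ᵥ zc y := by
  funext i; simp [zc, rl, mulVec, dotProduct]

/-- Gaussians along an invertible map -/
theorem gs_conj {m n : Type} [Fintype m] [Fintype n] [DecidableEq m] [DecidableEq n]
    {K : Matrix n n ℝ} (hK : K.det ≠ 0) {S : Matrix m n ℝ} {N : Matrix n m ℝ} (a : N * S = 1)
    (b : S * N = 1) (x : n → ℝ) : gs (S * K * Sᵀ)⁻¹ (S *ᵥ x) = gs K⁻¹ x := by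
  have c : (S * K * Sᵀ)⁻¹ = Nᵀ * K⁻¹ * N := by
    refine inv_eq_right_inv ?_
    calc S * K * Sᵀ * (Nᵀ * K⁻¹ * N) = S * (K * ((N * S)ᵀ * K⁻¹)) * N := by
          simp only [transpose_mul, Matrix.mul_assoc]
      _ = 1 := by
          rw [a, transpose_one, Matrix.one_mul, mul_nonsing_inv _ hK.isUnit, Matrix.mul_one, b]
  rw [c, gs, qf_conj, mulVec_mulVec, a, one_mulVec, gs]

namespace Sh

variable {σ τ τ' : Type} {S : Sh σ τ} {R R' : Type} [CommRing R] [CommRing R']

theorem cd_degree (w : S.W) : (S.cd w).degree = S.dg w := degree_col _ _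

theorem weight_dg (m : S.W →₀ ℕ) : Finsupp.weight S.dg m = (Finsupp.weight S.cd m).degree := by
  rw [← weight_hom]; exact congrArg (Finsupp.weight · m) (funext fun w => (cd_degree w).symm)

theorem Ok.dg_pos (h : S.Ok) (w : S.W) : 0 < S.dg w :=
  Nat.pos_of_ne_zero fun e => h.ne w ((Finsupp.degree_eq_zero_iff _).1 e)

theorem Ok.gr_dg (h : S.Ok) {w : S.W} {m : S.W →₀ ℕ} (k : S.r w m ≠ 0) :
    Finsupp.weight S.dg m = S.dg w := by rw [weight_dg, h.gr w m k, cd_degree]

theorem Ok.r_zero (h : S.Ok) (w : S.W) : S.r w 0 = 0 :=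
  of_not_not fun z => (h.dg_pos w).ne (by rw [← h.gr_dg z, map_zero])

theorem cf_monomial (w : S.W) (m : S.W →₀ ℕ) (a : R) : S.cf R w (monomial m a) = a * S.r w m := by
  rw [show monomial m a = a • basisMonomials S.W R m by simp [smul_monomial], map_smul, cf,
    Module.Basis.constr_basis, smul_eq_mul]

theorem cf_eq (w : S.W) (P : MvPolynomial S.W R) :
    S.cf R w P = ∑ m ∈ P.support, coeff m P * S.r w m := by
  conv_lhs => rw [P.as_sum]
  simp only [map_sum, cf_monomial]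

theorem cf_ne {w : S.W} {P : MvPolynomial S.W R} (h : S.cf R w P ≠ 0) :
    ∃ m, coeff m P ≠ 0 ∧ S.r w m ≠ 0 := by
  rw [cf_eq] at h
  obtain ⟨m, hm, k⟩ := exists_ne_zero_of_sum_ne_zero h
  exact ⟨m, mem_support_iff.1 hm, fun z => k (by rw [z, Int.cast_zero, mul_zero])⟩

theorem cf_map (f : R →+* R') (w : S.W) (P : MvPolynomial S.W R) :
    S.cf R' w (MvPolynomial.map f P) = f (S.cf R w P) := by
  induction P using MvPolynomial.induction_on' with
  | monomial m a => rw [map_monomial, cf_monomial, cf_monomial, map_mul, map_intCast]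
  | add p q h k => simp only [map_add, h, k]

theorem cf_C_mul (w : S.W) (a : R) (P : MvPolynomial S.W R) :
    S.cf R w (MvPolynomial.C a * P) = a * S.cf R w P := by
  rw [← smul_eq_C_mul, map_smul, smul_eq_mul]

theorem Ok.cf_X (h : S.Ok) (w w' : S.W) : S.cf R w (X w') = if w = w' then 1 else 0 := by
  rw [X, cf_monomial, h.one, one_mul]; simp

theorem Ok.cf_el (h : S.Ok) (w : S.W) (x : S.W → ℤ) : S.cf R w (S.el x) = x w := by
  simp only [el, map_sum, map_zsmul, h.cf_X]; simp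

theorem map_el (f : R →+* R') (x : S.W → ℤ) : MvPolynomial.map f (S.el x) = S.el x := by
  simp only [el, map_sum, map_zsmul, map_X]

/-- reduction is multiplicative -/
theorem Ok.cf_mul (h : S.Ok) (w : S.W) (P Q : MvPolynomial S.W R) : S.cf R w (P * Q) =
    coeff 0 P * S.cf R w Q + ∑ w', S.cf R w' P * S.cf R w (X w' * Q) := by
  induction P using MvPolynomial.induction_on' with
  | add p q a b => simp only [add_mul, map_add, a, b, coeff_add, sum_add_distrib]; ring
  | monomial m a =>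
    induction Q using MvPolynomial.induction_on' with
    | add p q a b => simp only [mul_add, map_add, a, b, sum_add_distrib]; ring
    | monomial m' b =>
      simp only [X, monomial_mul, cf_monomial, coeff_monomial]
      split_ifs with z
      · simp [z, h.r_zero, mul_assoc]
      · rw [h.mul w m m' z]; push_cast
        rw [zero_mul, zero_add, mul_sum]
        exact sum_congr rfl fun _ _ => by ring

variable {S' : Sh σ τ'} {φ : Matrix S'.W S.W ℤ}

variable (S' φ R) in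
/-- the ring homomorphism of a morphism -/
def hA : MvPolynomial S.W R →ₐ[R] MvPolynomial S'.W R := aeval fun w => S'.el fun w' => φ w' w

theorem map_hA (f : R →+* R') (P : MvPolynomial S.W R) :
    MvPolynomial.map f (hA R S' φ P) = hA R' S' φ (MvPolynomial.map f P) := by
  induction P using MvPolynomial.induction_on with
  | C a => simp [hA]
  | add p q h k => simp only [map_add, h, k]
  | mul_X p a h => simp only [map_mul, h]; simp [hA, map_el]

theorem hA_el (x : S.W → ℤ) : hA R S' φ (S.el x) = S'.el (φ *ᵥ x) := by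
  simp only [hA, el, map_sum, map_zsmul, aeval_X, smul_sum, smul_smul, mulVec, dotProduct, sum_smul]
  rw [sum_comm]
  exact sum_congr rfl fun _ _ => sum_congr rfl fun _ _ => by rw [mul_comm]

theorem Hm.cf (h : S.Hm S' φ) (o : S.Ok) (o' : S'.Ok) (w' : S'.W) (P : MvPolynomial S.W R) :
    S'.cf R w' (hA R S' φ P) = ∑ w, φ w' w * S.cf R w P := by
  induction P using MvPolynomial.induction_on' with
  | add p q a b => simp only [map_add, a, b, mul_add, sum_add_distrib]
  | monomial m a =>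
    have e : (monomial m a : MvPolynomial S.W R) =
        a • MvPolynomial.map (Int.castRingHom R) (monomial m 1) := by
      rw [map_monomial, smul_monomial]; simp
    conv_lhs => rw [e, map_smul, map_smul, ← map_hA, cf_map]
    by_cases z : m = 0
    · subst z
      simp only [cf_monomial, o.r_zero]
      rw [show (monomial 0 1 : MvPolynomial S.W ℤ) = 1 from rfl, map_one,
        show (1 : MvPolynomial S'.W ℤ) = monomial 0 1 from rfl, cf_monomial, o'.r_zero]; simp
    · rw [hA, ← h.mul w' m z]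
      simp only [cf_monomial, smul_eq_mul, eq_intCast, Int.cast_sum, Int.cast_mul, mul_sum]
      exact sum_congr rfl fun _ _ => by ring

end Sh

namespace TS

variable {σ τ τ' : Type} [DecidableEq σ] {T : TS σ} {S : Sh σ τ}

theorem lev_cw (p : T.Cw S) : T.lev p.1.1 = S.dg p.1.2 := by rw [lev, ← p.2, Sh.cd_degree]

theorem sh_lev (p : T.Cw S) : (T.sh S).lev p = T.lev p.1.1 := (lev_cw p).symm

theorem map_Yw {R R' : Type} [CommRing R] [CommRing R'] (f : R →+* R') (y : T.Cw S → R) (F : T.C) :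
    MvPolynomial.map f (T.Yw S y F) = T.Yw S (fun p => f (y p)) F := by
  simp only [Yw, map_sum, map_mul, map_C, map_X]

/-- sums over the words of one family -/
theorem sum_cw {M : Type*} [AddCommMonoid M] (F : T.C) (g : S.W → M) :
    ∑ p : T.Cw S with p.1.1 = F, g p.1.2 = ∑ w with S.cd w = T.deg F, g w := by
  refine sum_bij (fun p _ => p.1.2) (fun p hp => ?_) (fun p hp q hq e => ?_) (fun μ hμ => ?_)
    fun _ _ => rfl
  · exact mem_filter.2 ⟨mem_univ _, (mem_filter.1 hp).2 ▸ p.2⟩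
  · exact Subtype.ext (Prod.ext ((mem_filter.1 hp).2.trans (mem_filter.1 hq).2.symm) e)
  · exact ⟨⟨(F, μ), (mem_filter.1 hμ).2⟩, mem_filter.2 ⟨mem_univ _, rfl⟩, rfl⟩

theorem cf_Yw (h : S.Ok) {R : Type} [CommRing R] (y : T.Cw S → R) (p : T.Cw S) :
    S.cf R p.1.2 (T.Yw S y p.1.1) = y p := by
  rw [Yw, map_sum, sum_eq_single p]
  · rw [Sh.cf_C_mul, h.cf_X, if_pos rfl, mul_one]
  · intro q hq ne
    rw [Sh.cf_C_mul, h.cf_X, if_neg fun e => ne (Subtype.ext (Prod.ext (mem_filter.1 hq).2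
      e.symm)), mul_zero]
  · intro k; exact absurd (mem_filter.2 ⟨mem_univ p, rfl⟩ : p ∈ univ.filter
      fun q : T.Cw S => q.1.1 = p.1.1) k

theorem Yw_hom {R : Type} [CommRing R] (y : T.Cw S → R) (F : T.C) :
    (T.Yw S y F).IsWeightedHomogeneous S.cd (T.deg F) :=
  IsWeightedHomogeneous.sum _ _ _ fun p hp => by
    rw [X, C_mul_monomial]
    exact isWeightedHomogeneous_monomial _ _ _
      (by rw [Finsupp.weight_single, one_smul, p.2, (mem_filter.1 hp).2])

theorem sh_aeval {R : Type} [CommRing R] [Algebra ℝ R] (y : T.Cw S → R) (p : T.Cw S) :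
    aeval y ((T.sh S).Φ p) = S.cf R p.1.2 (T.hz (S.el S.ε) (T.Yw S y) p.1.1) := by
  have := T.hz_map (mapAlgHom (σ := S.W) (aeval (R := ℝ) y)) (S.el S.ε)
    (T.Yw S (X (R := ℝ))) p.1.1
  have b : (fun c => mapAlgHom (σ := S.W) (aeval (R := ℝ) y) (T.Yw S (X (R := ℝ)) c)) =
      T.Yw S y := funext fun c => by
    rw [mapAlgHom_apply, map_Yw]; congr 1; funext p; simp
  rw [b, mapAlgHom_apply, mapAlgHom_apply, Sh.map_el] at this
  rw [← this, Sh.cf_map]; rfl

theorem sh_u (y : T.Cw S → ℝ) (p : T.Cw S) :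
    (T.sh S).u y p = S.cf ℝ p.1.2 (T.hz (S.el S.ε) (T.Yw S y) p.1.1) := sh_aeval y p

theorem term_mon (w : S.W) (n : ℕ) (a : T.C →₀ ℕ) (c : ℝ) {m : T.Cw S →₀ ℕ}
    (h : coeff m (S.cf _ w (S.el S.ε ^ n * aeval (T.Yw S (X (R := ℝ))) (monomial a c))) ≠ 0) :
    m.mapDomain (·.1.1) = a ∧ ∃ ν : S.W →₀ ℕ, (∀ w ∈ ν.support, S.ε w ≠ 0) ∧ ν.degree = n ∧
      S.r w (m.mapDomain (·.1.2) + ν) ≠ 0 := by
  classical
  rw [Sh.cf_eq, coeff_sum] at h
  obtain ⟨μ, -, h⟩ := exists_ne_zero_of_sum_ne_zero h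
  rw [mul_comm, ← zsmul_eq_mul, coeff_smul] at h
  let ρ : (T.C →₀ ℕ) × ℕ → (T.Cw S →₀ ℕ) → (S.W →₀ ℕ) → Prop := fun x m μ =>
    m.mapDomain (·.1.1) = x.1 ∧ ∃ ν : S.W →₀ ℕ, (∀ w ∈ ν.support, S.ε w ≠ 0) ∧ ν.degree = x.2 ∧
      μ = m.mapDomain (·.1.2) + ν
  have h0 : ρ 0 0 0 := ⟨by simp, 0, by simp, by simp, by simp⟩
  have k : ∀ a b m μ m' μ', ρ a m μ → ρ b m' μ' → ρ (a + b) (m + m') (μ + μ') := by
    rintro a b m μ m' μ' ⟨a1, ν, a2, a3, rfl⟩ ⟨b1, ν', b2, b3, rfl⟩
    refine ⟨by rw [Finsupp.mapDomain_add, a1, b1]; rfl, ν + ν', fun w hw => ?_,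
      by rw [map_add, a3, b3]; rfl, by rw [Finsupp.mapDomain_add]; abel⟩
    exact (mem_union.1 (Finsupp.support_add hw)).elim (a2 w) (b2 w)
  have e := Gr.pow h0 k (w := (0, 1)) (gr_eps (ε := S.ε) fun w z => ⟨by simp, Finsupp.single w 1,
    fun w' hw => by rwa [mem_singleton.1 (Finsupp.support_single_subset hw)], by simp, by simp⟩) n
  have f : Gr (ρ (∑ c ∈ a.support, a c • (Finsupp.single c 1, 0)))
      (aeval (T.Yw S (X (R := ℝ))) (monomial a c)) := by
    rw [aeval_monomial, Finsupp.prod]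
    refine (Gr.alg _ h0).mul (Gr.prod h0 k _ fun c _ => Gr.pow h0 k (Gr.sum _ fun q hq => ?_) _)
      fun _ _ _ _ a b => zero_add (∑ c ∈ _, _ : (T.C →₀ ℕ) × ℕ) ▸ k _ _ _ _ _ _ a b
    rw [X, X, C_mul_monomial, mul_one]
    exact Gr.mon _ _ 1 ⟨by simp [(mem_filter.1 hq).2], 0, by simp, by simp, by simp⟩
  obtain ⟨g1, ν, g2, g3, g4⟩ := e.mul f (k _ _) μ m (right_ne_zero_of_smul h)
  refine ⟨?_, ν, g2, ?_, g4 ▸ left_ne_zero_of_smul h⟩
  · rw [g1]
    simp only [Prod.fst_add, Prod.smul_fst, smul_zero, zero_add, Prod.fst_sum, Finsupp.smul_single,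
      smul_eq_mul, mul_one]
    exact Finsupp.sum_single a
  · rw [g3]; simp [Prod.snd_sum]

/-- **the monomials of the error of a coordinate** -/
theorem sh_mon (p : T.Cw S) {m : T.Cw S →₀ ℕ} (h : coeff m ((T.sh S).Φ p) ≠ 0) :
    m.mapDomain (·.1.1) ∈ (T.Φ p.1.1).support ∧ ∃ ν : S.W →₀ ℕ, (∀ w ∈ ν.support, S.ε w ≠ 0) ∧
      ν.degree = T.lev p.1.1 - Finsupp.weight T.lev (m.mapDomain (·.1.1)) ∧
      S.r p.1.2 (m.mapDomain (·.1.2) + ν) ≠ 0 := by
  change coeff m (S.cf _ p.1.2 (T.hz (S.el S.ε) (T.Yw S (X (R := ℝ))) p.1.1)) ≠ 0 at h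
  rw [hz, map_sum, coeff_sum] at h
  obtain ⟨a, ha, h⟩ := exists_ne_zero_of_sum_ne_zero h
  obtain ⟨rfl, k⟩ := term_mon _ _ _ _ h
  exact ⟨ha, k⟩

theorem weight_map {ι κ M : Type*} [AddCommMonoid M] (f : ι → κ) (w : κ → M) (m : ι →₀ ℕ) :
    Finsupp.weight w (m.mapDomain f) = Finsupp.weight (fun i => w (f i)) m := by
  induction m using Finsupp.induction_linear with
  | zero => simp
  | add a b h k => rw [Finsupp.mapDomain_add, map_add, map_add, h, k]
  | single a n => simp [Finsupp.weight_single]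

theorem sh_vars (p q : T.Cw S) (h : q ∈ ((T.sh S).Φ p).vars) :
    q.1.1 ∈ (T.Φ p.1.1).vars ∧ ∃ m, S.r p.1.2 m ≠ 0 ∧ q.1.2 ∈ m.support := by
  classical
  obtain ⟨m : T.Cw S →₀ ℕ, hm, hq⟩ := (mem_vars_iff_mem_support _).1 h
  obtain ⟨a, ν, -, -, b⟩ := sh_mon p (mem_support_iff.1 hm)
  have key : ∀ {κ : Type} (f : T.Cw S → κ), f q ∈ (m.mapDomain f).support := fun f =>
    Finsupp.mem_support_iff.2 (Nat.pos_iff_ne_zero.1 (lt_of_lt_of_le
      (Nat.pos_of_ne_zero (Finsupp.mem_support_iff.1 hq)) (by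
        classical
        rw [Finsupp.mapDomain, Finsupp.sum_apply, Finsupp.sum]
        refine le_trans ?_ (single_le_sum (fun _ _ => Nat.zero_le _) hq)
        simp)))
  refine ⟨(mem_vars_iff_mem_support _).2 ⟨_, a, key _⟩, _, b, ?_⟩
  have := Finsupp.mem_support_iff.1 (key (·.1.2))
  rw [Finsupp.mem_support_iff, Finsupp.add_apply]; omega

/-- quotients are low -/
theorem sh_low {p : S.W → Prop} (h : S.Idl p) : (T.sh S).Low fun q => p q.1.2 := fun q hq q' k =>
  let ⟨_, m, a, b⟩ := sh_vars q q' k; h _ m hq a _ b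

/-- low families stay low -/
theorem sh_low_fam {p : T.C → Prop} (h : T.Low p) : (T.sh S).Low fun q => p q.1.1 :=
  fun q hq q' k => h _ hq _ (sh_vars q q' k).1

/-- homogeneity for every grading of the ring that kills the mass -/
theorem sh_gr {M : Type*} [AddCommMonoid M] (f : S.W → M)
    (h : ∀ w m, S.r w m ≠ 0 → Finsupp.weight f m = f w) (he : ∀ w, S.ε w ≠ 0 → f w = 0)
    (p : T.Cw S) : ((T.sh S).Φ p).IsWeightedHomogeneous (fun q : T.Cw S => f q.1.2) (f p.1.2) :=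
  fun m hm => by
  obtain ⟨-, ν, a, -, b⟩ := sh_mon p hm
  have := h _ _ b
  rwa [map_add, weight_map, Finsupp.weight_apply f ν, Finsupp.sum, sum_eq_zero fun w hw => by
    rw [he w (a w hw), smul_zero], add_zero] at this

theorem sh_A (h : S.Ok) (p p' : T.Cw S) :
    (T.sh S).A p p' = T.A p.1.1 p'.1.1 * (1 : Matrix S.W S.W ℝ) p.1.2 p'.1.2 := by
  change (if S.dg p.1.2 = S.dg p'.1.2 then coeff (Finsupp.single p' 1) (S.cf _ p.1.2
    (T.hz (S.el S.ε) (T.Yw S (X (R := ℝ))) p.1.1)) else 0) = _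
  rw [← lev_cw, ← lev_cw, A, of_apply]
  split_ifs with e
  swap
  · rw [zero_mul]
  rw [hz, map_sum, coeff_sum, sum_eq_single (Finsupp.single p'.1.1 1)]
  · rw [Finsupp.weight_single, one_smul, e, Nat.sub_self, pow_zero, one_mul, aeval_monomial,
      Finsupp.prod_single_index (by simp), pow_one, MvPolynomial.algebraMap_apply, Sh.cf_C_mul, algebraMap_eq,
      coeff_C_mul, Yw, map_sum, coeff_sum, sum_eq_single p']
    · rw [Sh.cf_C_mul, h.cf_X, one_apply]
      split_ifs <;> simp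
    · intro q _ ne
      rw [Sh.cf_C_mul, h.cf_X]
      split_ifs
      · rw [mul_one, coeff_X, if_neg fun z => ne (Finsupp.single_left_injective one_ne_zero z)]
      · rw [mul_zero, coeff_zero]
    · intro k; exact absurd (mem_filter.2 ⟨mem_univ p', rfl⟩ : p' ∈ univ.filter
        fun q : T.Cw S => q.1.1 = p'.1.1) k
  · intro m _ ne
    by_contra z
    exact ne ((term_mon _ _ _ _ z).1.symm.trans Finsupp.mapDomain_single)
  · intro k
    rw [notMem_support_iff.1 k]; simp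

variable (T S) in
/-- tensor products on the coordinates of a shape -/
def kw (B : Matrix T.C T.C ℝ) (K : Matrix S.W S.W ℝ) : Matrix (T.Cw S) (T.Cw S) ℝ :=
  Matrix.of fun p p' => B p.1.1 p'.1.1 * K p.1.2 p'.1.2

theorem sh_A' (h : S.Ok) : (T.sh S).A = T.kw S T.A 1 := Matrix.ext fun p p' => sh_A h p p'

theorem sh_K : (T.sh S).K = T.kw S T.K S.K := rfl

theorem kw_transpose (B : Matrix T.C T.C ℝ) (K : Matrix S.W S.W ℝ) :
    (T.kw S B K)ᵀ = T.kw S Bᵀ Kᵀ := rfl

/-- products: the left factor of the shape respects the colours, or the left factor of `T` does -/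
theorem kw_mul {B : Matrix T.C T.C ℝ} {K : Matrix S.W S.W ℝ} (hB : T.Bl B)
    (hK : ∀ w w', K w w' ≠ 0 → S.cd w = S.cd w') (B' : Matrix T.C T.C ℝ) (K' : Matrix S.W S.W ℝ) :
    T.kw S B K * T.kw S B' K' = T.kw S (B * B') (K * K') := by
  ext p p'
  simp only [kw, mul_apply, of_apply, sum_mul_sum]
  rw [← Fintype.sum_prod_type', ← sum_filter_of_ne (s := univ)
    (p := fun x : T.C × S.W => S.cd x.2 = T.deg x.1) fun x _ z =>
      (hK _ _ (left_ne_zero_of_mul (right_ne_zero_of_mul z))).symm.trans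
        (p.2.trans (hB _ _ (left_ne_zero_of_mul (left_ne_zero_of_mul z)))),
    sum_subtype (p := fun x : T.C × S.W => S.cd x.2 = T.deg x.1) _ (by simp)]
  exact sum_congr rfl fun _ _ => by ring

theorem one_cd (w w' : S.W) (h : (1 : Matrix S.W S.W ℝ) w w' ≠ 0) : S.cd w = S.cd w' :=
  congrArg _ (of_not_not fun e => h (one_apply_ne e))

theorem mul_kw {B : Matrix T.C T.C ℝ} {K : Matrix S.W S.W ℝ} (hB : T.Bl B)
    (hK : ∀ w w', K w w' ≠ 0 → S.cd w = S.cd w') (B' : Matrix T.C T.C ℝ) (K' : Matrix S.W S.W ℝ) :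
    T.kw S B' K' * T.kw S Bᵀ Kᵀ = T.kw S (B' * Bᵀ) (K' * Kᵀ) := by
  apply transpose_injective
  simp only [transpose_mul, kw_transpose, transpose_transpose, kw_mul hB hK]

theorem kw_one : T.kw S 1 1 = 1 := by
  ext p p'
  simp only [kw, of_apply, one_apply, Subtype.ext_iff, Prod.ext_iff]
  by_cases a : p.1.1 = p'.1.1 <;> simp [a]

theorem kw_inv {B : Matrix T.C T.C ℝ} {K : Matrix S.W S.W ℝ} (hB : T.Bl B)
    (hK : ∀ w w', K w w' ≠ 0 → S.cd w = S.cd w') (hd : B.det ≠ 0) (hd' : K.det ≠ 0) :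
    (T.kw S B K)⁻¹ = T.kw S B⁻¹ K⁻¹ ∧ (T.kw S B K).det ≠ 0 := by
  have e : T.kw S B K * T.kw S B⁻¹ K⁻¹ = 1 := by
    rw [kw_mul hB hK, mul_nonsing_inv _ hd.isUnit, mul_nonsing_inv _ hd'.isUnit, kw_one]
  exact ⟨inv_eq_right_inv e, (isUnit_det_of_right_inverse e).ne_zero⟩

theorem kw_posDef {B : Matrix T.C T.C ℝ} {K : Matrix S.W S.W ℝ} (hB : B.PosDef) (hK : K.PosDef) :
    (T.kw S B K).PosDef := (hB.kronecker hK).submatrix Subtype.val_injective

theorem sh_tri' (h : T.Tri) (hA : T.Bl T.A) (o : S.Ok) : (T.sh S).Tri where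
  tri p m hm := by
    obtain ⟨-, ν, -, -, b⟩ := sh_mon p (mem_support_iff.1 hm)
    have := o.gr_dg b
    rw [map_add] at this
    exact (weight_map (fun q : T.Cw S => q.1.2) S.dg m).symm.trans_le (le_of_add_le_left this.le)
  ne p := o.ne _
  det := by rw [sh_A' o]; exact (kw_inv hA one_cd h.det (by simp)).2
  pd := kw_posDef h.pd o.pd
  blk p p' k := by
    have := congrArg Finsupp.degree (o.blk _ _ (right_ne_zero_of_mul k))
    rwa [Sh.cd_degree, Sh.cd_degree] at this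

theorem sh_tri (h : T.Cl) (o : S.Ok) : (T.sh S).Tri := sh_tri' h.1 h.bl o

/-- shapes graded by the types, without mass -/
theorem sh_ok (h : T.Cl) (o : S.Ok) (g : ∀ w m, S.r w m ≠ 0 → Finsupp.weight S.ty m = S.ty w)
    (e : S.ε = 0) : (T.sh S).Ok :=
  ⟨sh_tri h o, sh_gr S.ty g fun w z => absurd (congrFun e w) z⟩

theorem sh_D' (h : T.Tri) (hA : T.Bl T.A) (o : S.Ok) : (T.sh S).D = T.kw S T.D S.K := by
  rw [D, sh_A' o, sh_K]
  change (T.kw S T.A 1)⁻¹ * T.kw S T.K S.K * (T.kw S T.A 1)⁻¹ᵀ = _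
  rw [(kw_inv hA one_cd h.det (by simp)).1, inv_one, kw_mul hA.inv one_cd, kw_transpose,
    mul_kw hA.inv one_cd, D, transpose_one, Matrix.one_mul, Matrix.mul_one]

theorem sh_D (h : T.Cl) (o : S.Ok) : (T.sh S).D = T.kw S T.D S.K := sh_D' h.1 h.bl o

end TS

end Crest.Agent.N49.Tw

end
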