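import Crest.Agent.N49.Tw.Sh
import Crest.Agent.N49.Tw.Shp

/-!
# Row 49 (helper9): twisted laws, stages, the Master lemma and its marginal forms (FROZEN)
-/

set_option autoImplicit false

open Matrix MvPolynomial Finset

noncomputable section

namespace Crest.Agent.N49.Tw

open Po

namespace Sh

variable {σ τ τ' : Type} (S : Sh σ τ)

/-- the ring map of a morphism -/
def pu (S' : Sh σ τ') (φ : Matrix S'.W S.W ℤ) : MvPolynomial S.W ℝ →+* MvPolynomial S'.W ℝ :=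
  (aeval fun w => S'.el (R := ℝ) fun w' => φ w' w : MvPolynomial S.W ℝ →ₐ[ℝ] _).toRingHom

/-- the projection to a quotient -/
def prj (p : S.W → Prop) [DecidablePred p] : Matrix (S.sub p).W S.W ℤ :=
  Matrix.of fun w' w => if w = w'.1 then 1 else 0

/-- the diagonal into the double -/
def dia (p : S.W → Prop) [DecidablePred p] : Matrix (S.dbl p).W S.W ℤ :=
  Matrix.of fun w' w => if w = Sum.elim id Subtype.val w' then 1 else 0

/-- a split surjection `φ` with kernel basis `N`, the kernel generated in degree one -/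
structure Spl (S' : Sh σ τ') (n : ℕ) (φ : Matrix S'.W S.W ℤ) (ψ : Matrix S.W S'.W ℤ) {J : Type}
    [Fintype J] [DecidableEq J] (N : Matrix S.W J ℤ) (Q : Matrix J S.W ℤ) (cj : J → σ →₀ ℕ) :
    Prop where
  ok : S'.Ok
  hm : S.Hm S' φ
  K : S'.K = rl φ * S.K * (rl φ)ᵀ
  φψ : φ * ψ = 1
  φN : φ * N = 0
  QN : Q * N = 1
  Qψ : Q * ψ = 0
  one : ψ * φ + N * Q = 1
  cψ : ∀ w w', ψ w w' ≠ 0 → S.cd w = S'.cd w'
  cN : ∀ w j, N w j ≠ 0 ∨ Q j w ≠ 0 → S.cd w = cj j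
  ht : ∀ w w' j, |ψ w w'| ≤ n ∧ |φ w' w| ≤ n ∧ |N w j| ≤ n ∧ |Q j w| ≤ n
  gen : ∀ κ : J → ℤ, ∀ j, κ j ≠ 0 → ∃ (l : ℕ) (j0 : J) (lam : Fin l → S.W),
    l + 1 = (cj j).degree ∧ (cj j0).degree = 1 ∧ (∀ i, S.dg (lam i) = 1) ∧ ∑ w, (κ ᵥ* Q) w *
      ∑ w0, N w0 j0 * S.r w (Finsupp.single w0 1 + ∑ i, Finsupp.single (lam i) 1) ≠ 0

end Sh

namespace TS

variable {σ τ τ' : Type} (T : TS σ)

/-- the stages `st` as levels (same weights) -/
def stg (st : T.C → ℕ) : TS Unit where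
  C := T.C
  deg c := Finsupp.single () (st c)
  Φ := T.Φ
  K := T.K

/-- new errors -/
def setΦ (Φ : T.C → MvPolynomial T.C ℝ) : TS σ where
  C := T.C
  deg := T.deg
  Φ := Φ
  K := T.K

/-- admissible stages (`st = lev` is admissible; geometric values make any order admissible) -/
structure Stg (st : T.C → ℕ) (M : ℕ) : Prop where
  cl : T.Cl
  tri : (T.stg st).Tri
  lev : ∀ c c', st c = st c' → T.lev c = T.lev c'
  le : ∀ c, st c ≤ M ∧ T.lev c ≤ M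

variable [DecidableEq σ] (S : Sh σ τ)

/-- twists: errors with coefficients in the ring of the shape -/
abbrev Twd : Type := T.C → MvPolynomial T.C (MvPolynomial S.W ℝ)

/-- **the twisted law** -/
def tw (Ψ : T.Twd S) : TS τ where
  C := T.Cw S
  deg p := S.ty p.1.2
  Φ p := S.cf _ p.1.2 (eval₂ (MvPolynomial.map (algebraMap ℝ (MvPolynomial (T.Cw S) ℝ)))
    (T.Yw S (X (R := ℝ))) (Ψ p.1.1))
  K := (T.sh S).K

/-- the twist of `sh` -/
def tw0 : T.Twd S := fun F => ∑ m ∈ (T.Φ F).support,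
  monomial m (coeff m (T.Φ F) • S.el S.ε ^ (T.lev F - Finsupp.weight T.lev m))

/-- admissible twists: graded, with the top part of `T` -/
structure Adm (st : T.C → ℕ) (Ψ : T.Twd S) : Prop where
  gr : ∀ F m, (coeff m (Ψ F)).IsWeightedHomogeneous S.dg (T.lev F - Finsupp.weight T.lev m)
  le : ∀ F, ∀ m ∈ (Ψ F).support, Finsupp.weight T.lev m ≤ T.lev F ∧ Finsupp.weight st m ≤ st F
  top : ∀ F m, Finsupp.weight T.lev m = T.lev F → coeff m (Ψ F) = MvPolynomial.C (coeff m (T.Φ F))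

/-- the twist pushed along a morphism -/
def tp (S' : Sh σ τ') (φ : Matrix S'.W S.W ℤ) (Ψ : T.Twd S) : T.Twd S' :=
  fun F => MvPolynomial.map (S.pu S' φ) (Ψ F)

/-- the twisted law with stages -/
def lw (st : T.C → ℕ) (Ψ : T.Twd S) : TS Unit := (T.tw S Ψ).stg fun p => st p.1.1

/-- the point tower seen at the point `χ` -/
def ev (Ψ : T.Twd S) (χ : S.W → ℤ) : TS σ :=
  (T.setΦ fun F => MvPolynomial.map (eval fun w => (χ w : ℝ)) (Ψ F)).shr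
    fun l => √(qf S.K fun w => if S.dg w = l then (χ w : ℝ) else 0)

/-- the symbol bias relative to the stages `< t` -/
def sbS (st : T.C → ℕ) (t : ℕ) {l : ℕ} (col : Fin l → σ) (κ : ℕ → ℝ) (k : T.C → ℤ) : ℝ :=
  ((T.sh (Sh.sym col κ)).stg fun p => st p.1.1).bias t
    fun p => if (Sh.sym col κ).dg p.1.2 = l then k p.1.1 else 0

/-- regularity of the stage `t` -/
def SymS (st : T.C → ℕ) (t : ℕ) (κ : ℕ → ℝ) (R τ : ℝ) : Prop :=
  ∀ (l : ℕ) (col : Fin l → σ) (k : T.C → ℤ), k ≠ 0 →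
    (∀ F, k F ≠ 0 → st F = t ∧ T.deg F = ∑ i, Finsupp.single (col i) 1) →
      qf (T.stg st).D (zc k) ≤ R → T.sbS st t col κ k ≤ τ

/-- the threshold of the stage `t` -/
def LbS (st : T.C → ℕ) (M C n : ℕ) (lb : ℕ → ℝ) (η : ℝ) (t : ℕ) : ℝ :=
  (n + 1) ^ C * (1 + Real.log η⁻¹ + ∑ j ∈ Icc t M,
    (Real.log ((T.stg st).ct j) + (T.stg st).R j * (1 + Real.log (lb j)⁻¹)))

/-- **regularity** for the shapes of size `n`, covariance `≥ a`, with error `η` -/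
def RgS (st : T.C → ℕ) (M C n : ℕ) (a η : ℝ) : Prop := ∃ (κ : ℕ → ℕ → ℝ) (lb : ℕ → ℝ),
  (∀ t ≤ M, 0 < lb t ∧ lb t ≤ 1 ∧ ∀ j, lb t ≤ κ t j ∧ (n + 1) ^ C * κ t j ≤ a) ∧
  (∀ t ≤ M, ∀ t' < t, ∀ j j', (n + 1) ^ C * κ t' j' ≤ κ t j) ∧
  ∀ t ∈ Icc 1 M, T.SymS st t (κ t) (T.LbS st M C n lb η t / lb t)
    (Real.exp (-T.LbS st M C n lb η t))

/-- the semantic form: Master for the stages `< t` on all the shapes and twists -/
def Sem (st : T.C → ℕ) (t n : ℕ) (a η : ℝ) : Prop := ∀ (τ : Type) (S : Sh σ τ) (Ψ : T.Twd S),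
  S.Sz n a → T.Adm S st Ψ → ((T.lw S st Ψ).lt t).Mas η

/-- the standing hypotheses -/
structure Hy (st : T.C → ℕ) (Ψ : T.Twd S) (M C n : ℕ) (a η : ℝ) : Prop where
  stg : T.Stg st M
  adm : T.Adm S st Ψ
  pos : 0 < η
  le : η ≤ 1
  rg : T.RgS st M C n a η
  sz : S.Sz n a

end TS

/-- **the Master lemma** -/
def MAST (M C : ℕ) : Prop := ∀ (σ τ : Type) [DecidableEq σ] (T : TS σ) (S : Sh σ τ) (st : T.C → ℕ)
  (Ψ : T.Twd S) (n : ℕ) (a η : ℝ), T.Hy S st Ψ M C n a η → (T.lw S st Ψ).Mas η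

/-- marginals on quotients by an ideal generated in degree one -/
def MARGT (M C : ℕ) : Prop := ∀ (σ τ : Type) [DecidableEq σ] (T : TS σ) (S : Sh σ τ)
  (st : T.C → ℕ) (Ψ : T.Twd S) (n : ℕ) (a η : ℝ) (p : S.W → Prop) [DecidablePred p],
  T.Hy S st Ψ M C n a η → S.Idl p → S.Gen p →
  (T.tw S Ψ).Push (T.tw (S.sub p) (T.tp S (S.sub p) (S.prj p) Ψ)) (T.rs S p) η

/-- push-forward along a split surjection -/
def MARHT (M C : ℕ) : Prop := ∀ (σ τ τ' J : Type) [DecidableEq σ] [Fintype J] [DecidableEq J]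
  (T : TS σ) (S : Sh σ τ) (st : T.C → ℕ) (Ψ : T.Twd S) (n : ℕ) (a η : ℝ) (S' : Sh σ τ')
  (φ : Matrix S'.W S.W ℤ) (ψ : Matrix S.W S'.W ℤ) (N : Matrix S.W J ℤ) (Q : Matrix J S.W ℤ)
  (cj : J → σ →₀ ℕ), T.Hy S st Ψ M C n a η → S.Spl S' n φ ψ N Q cj →
  (T.tw S Ψ).Push (T.tw S' (T.tp S S' φ Ψ)) (T.hm S S' φ) η

/-- the law of one point -/
def PTMT (M C : ℕ) : Prop := ∀ (τ : Type) (T : TS Unit) (S : Sh Unit τ) (st : T.C → ℕ)
  (Ψ : T.Twd S) (n : ℕ) (a η : ℝ) (χ : S.W → ℤ), T.Hy S st Ψ M C n a η →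
  (∀ m, m ≠ 0 → Finsupp.weight S.dg m ≤ M → m.prod (fun w n => χ w ^ n) = ∑ w, S.r w m * χ w) →
  (∀ w, |χ w| ≤ n) → (∀ j ∈ Icc 1 M, ∃ w, S.dg w = j ∧ χ w = 1) →
  (T.tw S Ψ).Push (T.ev S Ψ χ) (T.pw S χ) η

end Crest.Agent.N49.Tw

end
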