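import Crest.Agent.N49.Tw.Base
import Crest.Agent.N49.Rw.Blk

/-!
# Row 49 (helper64): typed structures are raw towers; the Master estimate from the biases
-/

set_option autoImplicit false

open Matrix MvPolynomial Finset

noncomputable section

namespace Crest.Agent.N49.Tw.TS

open Po

variable {σ : Type} {T : TS σ}

variable (T) in
/-- the continuous partition function of level `l` -/
def dl (l : ℕ) : ℝ := dt (Rw.blk T.lev T.D⁻¹ l)

theorem wt_lt (h : T.Tri) (l : ℕ) (y : Rw.Lo T.lev l → ℤ) :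
    (T.lt l).wt y = Rw.wl T.lev T.D⁻¹ (fun y => T.th (zc y)) l y := by
  have hp : ∀ i j, T.lev i = T.lev j → T.lev i < l → T.lev j < l := fun _ _ e k => e ▸ k
  have hK := Rw.Bk.inv h.blk_K h.pd.det_pos.ne'
  have e : (T.lt l).u (zc y) = T.A.submatrix ((↑) : Rw.Lo T.lev l → T.C) (↑) *ᵥ
      (zc y - fun i : Rw.Lo T.lev l => T.th (zc (Rw.ext T.lev l y)) i) := by
    refine Eq.trans (funext fun c => ((u_cut T _ 0 (zc y) c).trans (by rw [← zc_glue])).trans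
      (congrFun (h.u_eq _) _)) ?_
    refine (Rw.Bk.sub_mulVec hp (blk_A T) _).symm.trans ?_
    congr 1
    funext i
    simp only [Pi.sub_apply, zc, glue, dif_pos i.2]
    rfl
  rw [wt, Rw.wl, e, gs, gs, h.D_inv, Rw.Bk.sub_mul hp (Rw.Bk.mul (Rw.Bk.tr (blk_A T)) hK),
    Rw.Bk.sub_mul hp (Rw.Bk.tr (blk_A T)), ← transpose_submatrix, qf_conj,
    ← Rw.Bk.sub_inv hp h.blk_K h.pd.det_pos.ne']
  rfl

theorem Z_lt (h : T.Tri) (l : ℕ) :
    (T.lt l).Z = Rw.Zl T.lev T.D⁻¹ (fun y => T.th (zc y)) l := tsum_congr (wt_lt h l)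

theorem Z_lt_pos (h : T.Tri) (l : ℕ) : 0 < (T.lt l).Z := by
  rw [Z_lt h]; exact Rw.Zl_pos h.rw_tri h.blk_Di h.pd_Di l

theorem Z_lt_top (h : T.Tri) {s : ℕ} (hs : ∀ c, T.lev c < s) : (T.lt s).Z = T.Z := by
  rw [Z_lt h, ← Rw.Z_eq hs]
  exact (tsum_congr h.wt_eq).symm

theorem Z_lt_zero (h : T.Tri) : (T.lt 0).Z = 1 := by rw [Z_lt h, Rw.Zl_zero]

theorem dl_pos (h : T.Tri) (l : ℕ) : 0 < T.dl l := dt_pos (Rw.blk_pd h.pd_Di l)

theorem Zc_eq_prod (h : T.Tri) {s : ℕ} (hs : ∀ c, T.lev c < s) :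
    T.Zc = ∏ l ∈ range s, T.dl l := Rw.Bk.dt_eq h.blk_Di h.pd_Di hs

theorem lev_inv (h : T.Tri) (l : ℕ) : (Rw.blk T.lev T.D⁻¹ l)⁻¹ =
    T.D.submatrix (Subtype.val : {c // T.lev c = l} → T.C) Subtype.val := by
  rw [Rw.blk, Rw.Bk.sub_inv (fun _ _ e k => e ▸ k) h.blk_Di h.pd_Di.det_pos.ne',
    inv_inv' h.pd_D]

theorem th_blk_inv (h : T.Tri) (l : ℕ) : Po.th (Rw.blk T.lev T.D⁻¹ l)⁻¹ 0 = T.ct l := by
  rw [lev_inv h]; rfl

theorem th_blk (h : T.Tri) (l : ℕ) : Po.th (Rw.blk T.lev T.D⁻¹ l) 0 = T.pt0 l := by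
  rw [pt0, ← lev_inv h, inv_inv' (Rw.blk_pd h.pd_Di l)]

theorem pt0_eq (h : T.Tri) (l : ℕ) : T.pt0 l = T.dl l * T.ct l := by
  rw [← th_blk h, ← th_blk_inv h, th_dual (Rw.blk_pd h.pd_Di l), dl]

theorem one_le_ct (h : T.Tri) (l : ℕ) : 1 ≤ T.ct l := by
  rw [← th_blk_inv h]; exact one_le_th (Rw.blk_pd h.pd_Di l).inv

theorem Z_lt_succ_le (h : T.Tri) (l : ℕ) : (T.lt (l + 1)).Z ≤ T.pt0 l * (T.lt l).Z := by
  rw [Z_lt h, Z_lt h, ← th_blk h]
  exact Rw.Zl_succ_le h.rw_tri h.blk_Di h.pd_Di l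

theorem Z_le_prod (h : T.Tri) {s : ℕ} (hs : ∀ c, T.lev c < s) : T.Z ≤ ∏ l ∈ range s, T.pt0 l := by
  rw [← Z_lt_top h hs, Z_lt h]
  simp only [← th_blk h]
  exact Rw.Zl_le h.rw_tri h.blk_Di h.pd_Di s

theorem Z_le_ct (h : T.Tri) {s : ℕ} (hs : ∀ c, T.lev c < s) :
    T.Z ≤ (∏ l ∈ range s, T.ct l) * T.Zc := by
  rw [Zc_eq_prod h hs, mul_comm, ← prod_mul_distrib]
  simpa only [pt0_eq h] using Z_le_prod h hs

theorem bz_lev (l : ℕ) (r : ℝ) :
    bz (Rw.At T.lev l) r = √2 ^ T.R l * Real.exp (-(Real.pi * r / 2)) := by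
  rw [bz, R, Fintype.card_subtype]

theorem bias_eq (h : T.Tri) (l : ℕ) (k : T.C → ℤ) : T.bias l k =
    ‖∑' y, (Rw.wl T.lev T.D⁻¹ (fun y => T.th (zc y)) l y : ℂ) * T.ph k (Rw.ext T.lev l y)‖ /
      (T.lt l).Z := by
  rw [bias, Ecp, Ec, norm_div, Complex.norm_real]
  congr 1
  · congr 1
    exact tsum_congr fun y => congrArg (fun t : ℝ => (t : ℂ) * _) (wt_lt h l y)
  · exact Real.norm_of_nonneg (Z_lt_pos h l).le

/-- small biases give the raw regularity -/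
theorem reg_of_bias (h : T.Tri) {l : ℕ} {r τ : ℝ} (hb : ∀ k : T.C → ℤ, k ≠ 0 →
    (∀ c, T.lev c ≠ l → k c = 0) → qf T.D (zc k) < r → T.bias l k ≤ τ) :
    Rw.Reg T.lev T.D⁻¹ (fun y => T.th (zc y)) l r τ := fun m m0 hm => by
  have k0 : ∀ c, T.lev c ≠ l → glue (fun c => T.lev c = l) (-m) 0 c = 0 := fun c k => dif_neg k
  have k1 : ∀ c : Rw.At T.lev l, glue (fun c => T.lev c = l) (-m) 0 c = -m c := fun c => dif_pos c.2
  have := hb (glue (fun c => T.lev c = l) (-m) 0)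
    (fun e => m0 (funext fun c => neg_eq_zero.1 ((k1 c).symm.trans (congrFun e c)))) k0 (by
      rw [← Rw.Bk.qf_ext (p := fun c => T.lev c = l) _ _ fun c k => by simp [zc, k0 c k],
        ← lev_inv h, ← qf_neg]
      convert hm using 2
      funext c
      simp [zc, k1])
  rw [bias_eq h, div_le_iff₀ (Z_lt_pos h l), Z_lt h] at this
  refine le_of_eq_of_le (congrArg _ (tsum_congr fun y => congrArg _ ?_)) this
  rw [ph, dotProduct, dotProduct,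
    ← Rw.Bk.sum_sub (p := fun c => T.lev c = l) _ fun c k => by simp [zc, k0 c k]]
  simp [zc, k1, Rw.cen]

/-- one level of the Master estimate -/
theorem Z_lt_succ (h : T.Tri) {l : ℕ} {r τ η : ℝ} (hτ : 0 ≤ τ) (hb : ∀ k : T.C → ℤ, k ≠ 0 →
    (∀ c, T.lev c ≠ l → k c = 0) → qf T.D (zc k) < r → T.bias l k ≤ τ)
    (he : (τ + √2 ^ T.R l * Real.exp (-(Real.pi * r / 2))) * T.ct l ≤ η) :
    |(T.lt (l + 1)).Z - T.dl l * (T.lt l).Z| ≤ η * (T.dl l * (T.lt l).Z) := by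
  have := Rw.master_succ h.rw_tri h.blk_Di h.pd_Di hτ (reg_of_bias h hb)
  rw [← Z_lt h, ← Z_lt h, Rw.er, th_blk_inv h, bz_lev] at this
  refine this.trans ?_
  rw [mul_left_comm]
  exact mul_le_mul_of_nonneg_right (by nlinarith) (mul_pos (dl_pos h l) (Z_lt_pos h l)).le

/-- **first jump**: a level that violates the Master estimate has a short biased frequency -/
theorem jump (h : T.Tri) {l : ℕ} {r τ η : ℝ} (hτ : 0 ≤ τ)
    (he : (τ + √2 ^ T.R l * Real.exp (-(Real.pi * r / 2))) * T.ct l ≤ η)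
    (hj : η * (T.dl l * (T.lt l).Z) < |(T.lt (l + 1)).Z - T.dl l * (T.lt l).Z|) :
    ∃ k : T.C → ℤ, k ≠ 0 ∧ (∀ c, T.lev c ≠ l → k c = 0) ∧ qf T.D (zc k) < r ∧ τ < T.bias l k := by
  by_contra a
  exact absurd hj (not_lt.2 (Z_lt_succ h hτ
    (fun k k0 k1 k2 => not_lt.1 fun b => a ⟨k, k0, k1, k2, b⟩) he))

theorem prod_one_add_le {s : Finset ℕ} {η : ℕ → ℝ} (h0 : ∀ l ∈ s, 0 ≤ η l) (h1 : ∑ l ∈ s, η l ≤ 1) :
    ∏ l ∈ s, (1 + η l) ≤ 1 + 2 * ∑ l ∈ s, η l := by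
  have s0 := sum_nonneg h0
  calc _ ≤ ∏ l ∈ s, Real.exp (η l) := prod_le_prod (fun l k => by linarith [h0 l k])
        fun l _ => by linarith [Real.add_one_le_exp (η l)]
    _ = Real.exp (∑ l ∈ s, η l) := (Real.exp_sum _ _).symm
    _ ≤ _ := by
      have := (abs_le.1 (Real.abs_exp_sub_one_le (x := ∑ l ∈ s, η l) (by rwa [abs_of_nonneg s0]))).2
      rw [abs_of_nonneg s0] at this
      linarith

theorem le_prod_one_sub {s : Finset ℕ} {η : ℕ → ℝ} (h0 : ∀ l ∈ s, 0 ≤ η l)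
    (h1 : ∀ l ∈ s, η l ≤ 1) : 1 - ∑ l ∈ s, η l ≤ ∏ l ∈ s, (1 - η l) := by
  induction s using Finset.induction_on with
  | empty => simp
  | insert a s ha ih =>
    rw [sum_insert ha, prod_insert ha]
    have := ih (fun l k => h0 l (mem_insert_of_mem k)) fun l k => h1 l (mem_insert_of_mem k)
    have a0 := h0 a (mem_insert_self _ _)
    have a1 := h1 a (mem_insert_self _ _)
    have := sum_nonneg fun l k => h0 l (mem_insert_of_mem (b := a) k)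
    nlinarith

/-- the Master estimate from the level steps -/
theorem mas_of_steps (h : T.Tri) {s : ℕ} (hs : ∀ c, T.lev c < s) {η : ℕ → ℝ}
    (h1 : ∑ l ∈ range s, η l ≤ 1) (hz : ∀ l < s,
      |(T.lt (l + 1)).Z - T.dl l * (T.lt l).Z| ≤ η l * (T.dl l * (T.lt l).Z)) :
    T.Mas (2 * ∑ l ∈ range s, η l) := by
  have h0 : ∀ l ∈ range s, 0 ≤ η l := fun l k => nonneg_of_mul_nonneg_left
    ((abs_nonneg _).trans (hz l (mem_range.1 k))) (mul_pos (dl_pos h l) (Z_lt_pos h l))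
  have h2 : ∀ l ∈ range s, η l ≤ 1 := fun l k => (single_le_sum h0 k).trans h1
  have key : ∀ n ≤ s, (∏ l ∈ range n, (1 - η l)) * ∏ l ∈ range n, T.dl l ≤ (T.lt n).Z ∧
      (T.lt n).Z ≤ (∏ l ∈ range n, (1 + η l)) * ∏ l ∈ range n, T.dl l := fun n hn => by
    induction n with
    | zero => simp [Z_lt_zero h]
    | succ n ih =>
      obtain ⟨i1, i2⟩ := ih (by omega)
      obtain ⟨m1, m2⟩ := abs_le.1 (hz n hn)
      have d0 := dl_pos h n
      have e0 := h0 n (mem_range.2 hn)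
      have e1 := h2 n (mem_range.2 hn)
      simp only [prod_range_succ]
      constructor
      · have := mul_le_mul_of_nonneg_left i1 (mul_nonneg (sub_nonneg.2 e1) d0.le)
        nlinarith
      · have := mul_le_mul_of_nonneg_left i2 (mul_nonneg (by linarith : 0 ≤ 1 + η n) d0.le)
        nlinarith
  obtain ⟨k1, k2⟩ := key s le_rfl
  rw [Z_lt_top h hs, ← Zc_eq_prod h hs] at k1 k2
  have c0 : 0 < T.Zc := dt_pos h.pd_Di
  have p1 := mul_le_mul_of_nonneg_right (prod_one_add_le h0 h1) c0.le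
  have p2 := mul_le_mul_of_nonneg_right (le_prod_one_sub h0 h2) c0.le
  have := mul_nonneg (sum_nonneg h0) c0.le
  rw [Mas, abs_le]
  constructor <;> nlinarith

/-- **the Master estimate from the biases** -/
theorem mas_of_bias (h : T.Tri) {s : ℕ} (hs : ∀ c, T.lev c < s) {r τ η : ℕ → ℝ}
    (hτ : ∀ l < s, 0 ≤ τ l) (hb : ∀ l < s, ∀ k : T.C → ℤ, k ≠ 0 →
      (∀ c, T.lev c ≠ l → k c = 0) → qf T.D (zc k) < r l → T.bias l k ≤ τ l)
    (he : ∀ l < s, (τ l + √2 ^ T.R l * Real.exp (-(Real.pi * r l / 2))) * T.ct l ≤ η l)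
    (h1 : ∑ l ∈ range s, η l ≤ 1) : T.Mas (2 * ∑ l ∈ range s, η l) :=
  mas_of_steps h hs h1 fun l k => Z_lt_succ h (hτ l k) (hb l k) (he l k)

end Crest.Agent.N49.Tw.TS
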