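import Crest.Agent.N49.Tw.Api
import Crest.Agent.N49.La.Cost

/-!
# Row 49 (helper71): twisted laws: morphisms, points, costs
-/

set_option autoImplicit false
set_option linter.unusedSectionVars false

open Matrix MvPolynomial Finset
open scoped Kronecker

noncomputable section

namespace Crest.Agent.N49.Tw

open Po

namespace TS

variable {σ τ τ' τ'' : Type} {T : TS σ} {st : T.C → ℕ} {M : ℕ} [DecidableEq σ] {S : Sh σ τ}
  {S' : Sh σ τ'} {φ : Matrix S'.W S.W ℤ} {Ψ : T.Twd S}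

variable (T S S') in
/-- the matrix of a morphism on the coordinates -/
def hmM {R : Type} [Zero R] (φ : Matrix S'.W S.W R) : Matrix (T.Cw S') (T.Cw S) R :=
  Matrix.of fun p' p => if p.1.1 = p'.1.1 then φ p'.1.2 p.1.2 else 0

theorem hmM_mulVec {R : Type} [CommRing R] (φ : Matrix S'.W S.W R) (y : T.Cw S → R)
    (p' : T.Cw S') : (T.hmM S S' φ *ᵥ y) p' =
      ∑ p : T.Cw S with p.1.1 = p'.1.1, φ p'.1.2 p.1.2 * y p := by
  simp only [mulVec, dotProduct, hmM, of_apply, sum_filter, ite_mul, zero_mul]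

theorem hm_eq (y : T.Cw S → ℤ) : T.hm S S' φ y = T.hmM S S' φ *ᵥ y :=
  funext fun p => (hmM_mulVec φ y p).symm

theorem rl_hmM : rl (T.hmM S S' φ) = T.hmM S S' (rl φ) := by
  ext p' p
  simp only [rl, hmM, map_apply, of_apply]
  split_ifs <;> simp

theorem zc_hm (y : T.Cw S → ℤ) : zc (T.hm S S' φ y) = T.hmM S S' (rl φ) *ᵥ zc y := by
  rw [hm_eq, zc_rl, rl_hmM]

theorem sum_hmM {R : Type} [CommRing R] {φ : Matrix S'.W S.W R}
    (hc : ∀ w' w, φ w' w ≠ 0 → S'.cd w' = S.cd w) (p' : T.Cw S') (g : T.C → S.W → R) :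
    ∑ p : T.Cw S, T.hmM S S' φ p' p * g p.1.1 p.1.2 = ∑ w, φ p'.1.2 w * g p'.1.1 w := by
  refine (hmM_mulVec φ (fun p => g p.1.1 p.1.2) p').trans ?_
  rw [sum_congr rfl (g := fun p : T.Cw S => φ p'.1.2 p.1.2 * g p'.1.1 p.1.2) fun p hp => by
    rw [(mem_filter.1 hp).2], sum_cw p'.1.1 fun w => φ p'.1.2 w * g p'.1.1 w]
  exact sum_filter_of_ne fun w _ z => (hc _ _ (left_ne_zero_of_mul z)).symm.trans p'.2

theorem hmM_mul {R : Type} [CommRing R] {S'' : Sh σ τ''} {ψ : Matrix S''.W S'.W R}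
    (hc : ∀ w'' w', ψ w'' w' ≠ 0 → S''.cd w'' = S'.cd w') (φ : Matrix S'.W S.W R) :
    T.hmM S' S'' ψ * T.hmM S S' φ = T.hmM S S'' (ψ * φ) := by
  ext p'' p
  refine (sum_hmM hc p'' fun F w => if p.1.1 = F then φ w p.1.2 else 0).trans ?_
  simp only [hmM, of_apply, mul_apply]
  split_ifs <;> simp

theorem hmM_one {R : Type} [CommRing R] : T.hmM S S (1 : Matrix S.W S.W R) = 1 := by
  ext p p'
  simp only [hmM, of_apply, one_apply, Subtype.ext_iff, Prod.ext_iff]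
  by_cases a : p'.1.1 = p.1.1
  · simp [a]
  · simp [a, Ne.symm a]

theorem hm_hm {S'' : Sh σ τ''} {ψ : Matrix S''.W S'.W ℤ}
    (hc : ∀ w'' w', ψ w'' w' ≠ 0 → S''.cd w'' = S'.cd w') (y : T.Cw S → ℤ) :
    T.hm S' S'' ψ (T.hm S S' φ y) = T.hm S S'' (ψ * φ) y := by
  rw [hm_eq, hm_eq, hm_eq, mulVec_mulVec, hmM_mul hc]

theorem hm_one (y : T.Cw S → ℤ) : T.hm S S 1 y = y := by rw [hm_eq, hmM_one, one_mulVec]

theorem rl_cd (hc : ∀ w' w, φ w' w ≠ 0 → S'.cd w' = S.cd w) (w' : S'.W) (w : S.W)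
    (z : rl φ w' w ≠ 0) : S'.cd w' = S.cd w := hc w' w fun e => z (by simp [rl, e])

/-- the pushed covariance -/
theorem hmM_kw {φ : Matrix S'.W S.W ℝ} (hc : ∀ w' w, φ w' w ≠ 0 → S'.cd w' = S.cd w)
    (B : Matrix T.C T.C ℝ) (K : Matrix S.W S.W ℝ) :
    T.hmM S S' φ * T.kw S B K * (T.hmM S S' φ)ᵀ = T.kw S' B (φ * K * φᵀ) := by
  ext p p'
  have a : ∀ q : T.Cw S, (T.hmM S S' φ * T.kw S B K) p q = B p.1.1 q.1.1 * (φ * K) p.1.2 q.1.2 :=
    fun q => (sum_hmM hc p fun F w => B F q.1.1 * K w q.1.2).trans (by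
      rw [mul_apply, mul_sum]; exact sum_congr rfl fun _ _ => by ring)
  rw [mul_apply]
  simp only [a, transpose_apply, mul_comm _ (T.hmM S S' φ p' _)]
  refine (sum_hmM hc p' fun G w => B p.1.1 G * (φ * K) p.1.2 w).trans ?_
  rw [kw, of_apply, mul_apply (M := φ * K), mul_sum]
  exact sum_congr rfl fun _ _ => by rw [transpose_apply]; ring

theorem hA_Yw {R : Type} [CommRing R] (hc : ∀ w' w, φ w' w ≠ 0 → S'.cd w' = S.cd w)
    (y : T.Cw S → R) (F : T.C) : Sh.hA R S' φ (T.Yw S y F) =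
      T.Yw S' (T.hmM S S' (φ.map (Int.cast : ℤ → R)) *ᵥ y) F := by
  have e : ∀ p : T.Cw S, p.1.1 = F → Sh.hA R S' φ (MvPolynomial.C (y p) * X p.1.2) =
      ∑ p' : T.Cw S' with p'.1.1 = F, MvPolynomial.C ((φ p'.1.2 p.1.2 : R) * y p) * X p'.1.2 :=
    fun p hp => by
      rw [sum_cw F fun w' => MvPolynomial.C ((φ w' p.1.2 : R) * y p) * X w', sum_filter_of_ne
        fun w' _ z => (hc w' p.1.2 fun e => z (by simp [e])).trans (hp ▸ p.2), map_mul, algHom_C,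
        Sh.hA, aeval_X, Sh.el, mul_sum]
      exact sum_congr rfl fun _ _ => by rw [zsmul_eq_mul, map_mul, map_intCast, algebraMap_eq]; ring
  rw [Yw, map_sum, sum_congr rfl fun p hp => e p (mem_filter.1 hp).2, sum_comm, Yw]
  refine sum_congr rfl fun p' hp => ?_
  rw [hmM_mulVec, (mem_filter.1 hp).2, map_sum, sum_mul]; rfl

/-- **the errors are linear-functorial** -/
theorem u_hmM (h : S.Hm S' φ) (o : S.Ok) (o' : S'.Ok) (y : T.Cw S → ℝ) :
    (T.tw S' (T.tp S S' φ Ψ)).u (T.hmM S S' (rl φ) *ᵥ y) =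
      T.hmM S S' (rl φ) *ᵥ (T.tw S Ψ).u y := by
  refine funext fun p' : T.Cw S' =>
    (tw_u (Ψ := T.tp S S' φ Ψ) (T.hmM S S' (rl φ) *ᵥ y) p').trans ?_
  have e : eval (T.Yw S' (T.hmM S S' (rl φ) *ᵥ y)) (T.tp S S' φ Ψ p'.1.1) =
      Sh.hA ℝ S' φ (eval (T.Yw S y) (Ψ p'.1.1)) := by
    rw [tp, eval_map, ← Sh.pu_eq, eval, coe_eval₂Hom, eval₂_comp_left, RingHom.comp_id]
    congr 1
    exact funext fun F => (hA_Yw h.cd y F).symm
  rw [e, h.cf o o']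
  exact (sum_hmM (rl_cd h.cd) p' fun F w => S.cf ℝ w (eval (T.Yw S y) (Ψ F))).symm.trans
    (sum_congr rfl fun p _ => congrArg _ (tw_u y p).symm)

theorem u_hm (h : S.Hm S' φ) (o : S.Ok) (o' : S'.Ok) (y : T.Cw S → ℤ) :
    (T.tw S' (T.tp S S' φ Ψ)).u (zc (T.hm S S' φ y)) =
      T.hmM S S' (rl φ) *ᵥ (T.tw S Ψ).u (zc y) :=
  (congrArg (T.tw S' (T.tp S S' φ Ψ)).u (zc_hm y)).trans (u_hmM h o o' _)

theorem sh_u_hm (h : S.Hm S' φ) (o : S.Ok) (o' : S'.Ok) (y : T.Cw S → ℤ) :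
    (T.sh S').u (zc (T.hm S S' φ y)) = T.hmM S S' (rl φ) *ᵥ (T.sh S).u (zc y) := by
  have := u_hm (Ψ := T.tw0 S) h o o' y
  rw [tp_tw0 h.mass] at this
  exact (congrFun (congrArg (fun Φ (y : T.Cw S' → ℝ) c => eval y (Φ c))
    (show (T.sh S').Φ = (T.tw S' (T.tw0 S')).Φ from funext fun p =>
      congrArg (S'.cf _ p.1.2) (eval₂_tw0 _ _).symm)) _).trans (this.trans (congrArg _
        (congrFun (congrArg (fun Φ (y : T.Cw S → ℝ) c => eval y (Φ c))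
          (show (T.tw S (T.tw0 S)).Φ = (T.sh S).Φ from funext fun p =>
            congrArg (S.cf _ p.1.2) (eval₂_tw0 _ _))) _)))

/-- weights along an invertible morphism -/
theorem wt_hm {ψ : Matrix S.W S'.W ℤ} (h : S.Hm S' φ) (o : S.Ok) (o' : S'.Ok) (hK : T.K.PosDef)
    (hc : ∀ w w', ψ w w' ≠ 0 → S.cd w = S'.cd w') (h1 : ψ * φ = 1) (h2 : φ * ψ = 1)
    (k : S'.K = rl φ * S.K * (rl φ)ᵀ) (y : T.Cw S → ℤ) :
    (T.tw S' (T.tp S S' φ Ψ)).wt (T.hm S S' φ y) = (T.tw S Ψ).wt y := by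
  have := gs_conj (kw_posDef (S := S) hK o.pd).det_pos.ne' (S := T.hmM S S' (rl φ))
    (N := T.hmM S' S (rl ψ)) (by rw [hmM_mul (rl_cd hc), ← rl_mul, h1, rl_one, hmM_one])
    (by rw [hmM_mul (rl_cd h.cd), ← rl_mul, h2, rl_one, hmM_one]) ((T.tw S Ψ).u (zc y))
  rw [hmM_kw (rl_cd h.cd), ← k] at this
  exact (congrArg (gs _) (u_hm h o o' y)).trans this

theorem eqv_hm {ψ : Matrix S.W S'.W ℤ} (h : S.Hm S' φ) (o : S.Ok) (o' : S'.Ok) (hK : T.K.PosDef)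
    (hc : ∀ w w', ψ w w' ≠ 0 → S.cd w = S'.cd w') (h1 : ψ * φ = 1) (h2 : φ * ψ = 1)
    (k : S'.K = rl φ * S.K * (rl φ)ᵀ) :
    ∃ U : (T.Cw S → ℤ) ≃ (T.Cw S' → ℤ), (∀ y, U y = T.hm S S' φ y) ∧
      (∀ y, U.symm y = T.hm S' S ψ y) ∧ (T.tw S Ψ).Eqv (T.tw S' (T.tp S S' φ Ψ)) U :=
  ⟨⟨T.hm S S' φ, T.hm S' S ψ, fun y => by rw [hm_hm hc, h1, hm_one],
    fun y => by rw [hm_hm h.cd, h2, hm_one]⟩, fun _ => rfl, fun _ => rfl,
    wt_hm h o o' hK hc h1 h2 k⟩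

theorem hm_prj (p : S.W → Prop) [DecidablePred p] (y : T.Cw S → ℤ) :
    T.hm S (S.sub p) (S.prj p) y = T.rs S p y := by
  funext q
  rw [hm, sum_eq_single ⟨(q.1.1, q.1.2.1), q.2⟩]
  · simp [Sh.prj, rs]
  · intro r hr ne
    rw [Sh.prj, of_apply, if_neg fun e => ne (Subtype.ext (Prod.ext (mem_filter.1 hr).2 e)),
      zero_mul]
  · intro k; exact absurd (mem_filter.2 ⟨mem_univ _, rfl⟩ : (⟨(q.1.1, q.1.2.1), q.2⟩ : T.Cw S) ∈
      univ.filter fun r : T.Cw S => r.1.1 = q.1.1) k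

theorem Yw_dg {R : Type} [CommRing R] (y : T.Cw S → R) (F : T.C) :
    (T.Yw S y F).IsWeightedHomogeneous S.dg (T.lev F) := fun m z => by
  rw [Sh.weight_dg, Yw_hom y F z]; rfl

theorem Adm.hom (h : T.Adm S st Ψ) (y : T.Cw S → ℝ) (F : T.C) :
    (eval (T.Yw S y) (Ψ F)).IsWeightedHomogeneous S.dg (T.lev F) := by
  rw [eval_eq]
  refine IsWeightedHomogeneous.sum _ _ _ fun m hm => ?_
  rw [← Nat.sub_add_cancel (h.le F m hm).1]
  refine (h.gr F m).mul ?_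
  rw [Finsupp.weight_apply, Finsupp.sum]
  exact IsWeightedHomogeneous.prod _ _ _ fun c _ => (Yw_dg y c).pow _

theorem zc_pw (χ : S.W → ℤ) (y : T.Cw S → ℤ) (F : T.C) :
    zc (T.pw S χ y) F = eval (fun w => (χ w : ℝ)) (T.Yw S (zc y) F) := by
  simp [zc, pw, Yw, mul_comm]

/-- the error of a point, all colours -/
theorem u_ev' (h : T.Adm S st Ψ) {χ : S.W → ℤ} (hχ : ∀ m, m ≠ 0 → Finsupp.weight S.dg m ≤ M →
    m.prod (fun w n => χ w ^ n) = ∑ w, S.r w m * χ w) (y : T.Cw S → ℤ) {F : T.C}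
    (h0 : 0 < T.lev F) (hM : T.lev F ≤ M) : (T.ev S Ψ χ).u (zc (T.pw S χ y)) F =
      ∑ w, χ w * S.cf ℝ w (eval (T.Yw S (zc y)) (Ψ F)) := by
  rw [← Sh.aeval_pt hχ (h.hom _ F) h0 hM]
  change eval (zc (T.pw S χ y)) (MvPolynomial.map (eval fun w => (χ w : ℝ)) (Ψ F)) = _
  rw [eval_map, show eval (T.Yw S (zc y)) (Ψ F) = eval₂ (RingHom.id _) (T.Yw S (zc y)) (Ψ F)
    from rfl, eval₂_comp_left, RingHom.comp_id]
  congr 1
  exact funext (zc_pw χ y)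

/-- **the error of a point is the sum of the errors of its words** -/
theorem u_ev {T : TS Unit} {st : T.C → ℕ} {S : Sh Unit τ} {Ψ : T.Twd S} (h : T.Adm S st Ψ)
    (o : S.Ok) {χ : S.W → ℤ} (hχ : ∀ m, m ≠ 0 → Finsupp.weight S.dg m ≤ M →
      m.prod (fun w n => χ w ^ n) = ∑ w, S.r w m * χ w) (y : T.Cw S → ℤ) {F : T.C}
    (h0 : 0 < T.lev F) (hM : T.lev F ≤ M) : (T.ev S Ψ χ).u (zc (T.pw S χ y)) F =
      ∑ p : T.Cw S with p.1.1 = F, χ p.1.2 * (T.tw S Ψ).u (zc y) p := by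
  rw [u_ev' h hχ y h0 hM, sum_congr rfl (g := fun p : T.Cw S => χ p.1.2 * S.cf ℝ p.1.2
    (eval (T.Yw S (zc y)) (Ψ F))) fun p hp => by rw [← (mem_filter.1 hp).2]; exact congrArg _ (tw_u _ p),
    sum_cw F fun w => χ w * S.cf ℝ w (eval (T.Yw S (zc y)) (Ψ F))]
  refine (sum_filter_of_ne fun w _ z => unit_ext ?_).symm
  obtain ⟨m, a, b⟩ := Sh.cf_ne (right_ne_zero_of_mul z)
  rw [Sh.cd_degree, ← o.gr_dg b, h.hom _ F a]; rfl

theorem ev_tw0 {χ : S.W → ℤ} (h : ∑ w, S.ε w * χ w = 1) (F : T.C) :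
    (T.ev S (T.tw0 S) χ).Φ F = T.Φ F := by
  change MvPolynomial.map (eval fun w => (χ w : ℝ)) (T.tw0 S F) = _
  ext m
  have : eval (fun w => (χ w : ℝ)) (S.el S.ε) = 1 := by
    simp only [Sh.el, map_sum, zsmul_eq_mul, map_mul, map_intCast, eval_X]; exact_mod_cast h
  rw [coeff_map, coeff_tw0, smul_eq_C_mul, map_mul, eval_C, map_pow, this, one_pow, mul_one]

theorem ev_tw0' {χ : S.W → ℤ} (h : ∑ w, S.ε w * χ w = 1) : T.ev S (T.tw0 S) χ =
    T.shr fun l => √(qf S.K fun w => if S.dg w = l then (χ w : ℝ) else 0) :=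
  congrArg (fun Φ => (T.setΦ Φ).shr _) (funext (ev_tw0 h))

/-- the error of a point of an untwisted law -/
theorem u_pw {T : TS Unit} {S : Sh Unit τ} (h : T.Tri) (o : S.Ok) {χ : S.W → ℤ} (hχ : S.Pt M χ)
    (y : T.Cw S → ℤ) {F : T.C} (hM : T.lev F ≤ M) :
    T.u (zc (T.pw S χ y)) F = ∑ p : T.Cw S with p.1.1 = F, χ p.1.2 * (T.sh S).u (zc y) p := by
  have := u_ev (adm_tw0' (st := T.lev) h h.tri o) o hχ.mul y (h.lev_pos F) hM
  refine (congrArg (eval _) (ev_tw0 hχ.mass F)).symm.trans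
    (this.trans (sum_congr rfl fun p _ => congrArg _ ?_))
  exact congrArg (eval (zc y)) (congrArg (S.cf _ p.1.2) (eval₂_tw0 _ _))

theorem lw_R (t : ℕ) : (T.lw S st Ψ).R t ≤ (T.stg st).R t * Fintype.card S.W := by
  rw [R, R, ← card_univ, ← card_product]
  refine card_le_card_of_injOn (fun p : T.Cw S => p.1) (fun p hp => ?_) Subtype.val_injective.injOn
  exact mem_coe.2 (mem_product.2 ⟨mem_filter.2 ⟨mem_univ _, (mem_filter.1 (mem_coe.1 hp)).2⟩,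
    mem_univ _⟩)

end TS

/-- theta functions of principal submatrices -/
theorem th_submatrix {d e : Type} [Fintype d] [Fintype e] [DecidableEq d] [DecidableEq e]
    {M : Matrix d d ℝ} (hM : M.PosDef) {f : e → d} (hf : Function.Injective f) :
    th (M.submatrix f f) 0 ≤ th M 0 := by
  have := La.th_sub hM (Matrix.of fun i j => if i = f j then 1 else 0) fun x y h => funext fun j => by
    simpa [mulVec, dotProduct, hf.eq_iff] using congrFun h (f j)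
  convert this using 2
  ext i j
  simp [La.rm, mul_apply]

/-- theta functions of tensor products -/
theorem th_kron {d e : Type} [Fintype d] [Fintype e] [DecidableEq d] [DecidableEq e]
    {D : Matrix d d ℝ} (hD : D.PosDef) {K : Matrix e e ℝ} (hK : K.PosDef) {a : ℝ} (h0 : 0 < a)
    (h1 : a ≤ 1) (h : ∀ x, a * ∑ w, x w ^ 2 ≤ qf K x) :
    th (K ⊗ₖ D) 0 ≤ ((√a)⁻¹ ^ Fintype.card d * th D 0) ^ Fintype.card e := by
  have p : (K - a • (1 : Matrix e e ℝ)).PosSemidef :=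
    PosSemidef.of_dotProduct_mulVec_nonneg (hK.1.sub (by simp [IsHermitian])) fun x => by
      have := h x
      simp only [qf, sq] at this
      simp only [star_trivial, sub_mulVec, dotProduct_sub, smul_mulVec, one_mulVec,
        dotProduct_smul, smul_eq_mul]
      exact sub_nonneg.2 this
  refine (th_mono (PosDef.one.kronecker (hD.smul h0)) (hK.kronecker hD) (fun x => ?_) 0).trans ?_
  · have := (p.kronecker hD.posSemidef).dotProduct_mulVec_nonneg x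
    rw [show (K - a • (1 : Matrix e e ℝ)) ⊗ₖ D = K ⊗ₖ D - (1 : Matrix e e ℝ) ⊗ₖ (a • D) by
      ext i j; simp [kroneckerMap_apply]; ring, sub_mulVec, dotProduct_sub] at this
    exact sub_nonneg.1 this
  · rw [La.th_one_kron (hD.smul h0)]
    exact pow_le_pow_left₀ (th_nonneg _ _) (th_scale hD h0 h1 0) _

namespace TS

variable {σ τ : Type} {T : TS σ} {st : T.C → ℕ} {M : ℕ} [DecidableEq σ] {S : Sh σ τ} {Ψ : T.Twd S}

/-- **the cost of a stage of a shape** -/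
theorem lw_ct (hs : T.Stg st M) (h : T.Adm S st Ψ) (o : S.Ok) {a : ℝ} (h0 : 0 < a) (h1 : a ≤ 1)
    (lo : ∀ x, a * ∑ w, x w ^ 2 ≤ qf S.K x) (t : ℕ) : (T.lw S st Ψ).ct t ≤
      ((√a)⁻¹ ^ (T.stg st).R t * (T.stg st).ct t) ^ Fintype.card S.W := by
  have hD := hs.tri.pd_D.submatrix
    (Subtype.val_injective : Function.Injective (Subtype.val : {c // (T.stg st).lev c = t} → _))
  have := (th_submatrix (o.pd.kronecker hD) (f := fun p : {p // (T.lw S st Ψ).lev p = t} =>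
    (p.1.1.2, ⟨p.1.1.1, p.2⟩)) fun p q e => Subtype.ext (Subtype.ext (Prod.ext
      (congrArg (·.2.1) e) (congrArg (·.1) e)))).trans (th_kron hD o.pd h0 h1 lo)
  rw [Fintype.card_subtype] at this
  refine le_trans (le_of_eq ?_) this
  rw [ct, lw_D hs h o]
  congr 1
  ext p q
  exact mul_comm _ _

end TS

end Crest.Agent.N49.Tw

end
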