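import Crest.Agent.N49.Tw.Dbl

/-!
# Row 49 (helper65): renaming the coordinates of a typed structure
-/

set_option autoImplicit false

open Matrix MvPolynomial Finset

noncomputable section

namespace Crest.Agent.N49.Tw

open Po

namespace TS

variable {σ σ' : Type} {T : TS σ} {T' : TS σ'}

/-- `T'` is `T` with the coordinates renamed along `e` -/
structure Ren (T : TS σ) (T' : TS σ') (e : T.C ≃ T'.C) : Prop where
  lev : ∀ c, T'.lev (e c) = T.lev c
  Φ : ∀ c, T'.Φ (e c) = rename e (T.Φ c)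
  K : ∀ c c', T'.K (e c) (e c') = T.K c c'

/-- the configurations renamed along `e` -/
def ren {C C' : Type} (e : C ≃ C') : (C → ℤ) ≃ (C' → ℤ) := e.arrowCongr (Equiv.refl ℤ)

theorem ren_apply {C C' : Type} (e : C ≃ C') (y : C → ℤ) (c : C') : ren e y c = y (e.symm c) := rfl

theorem ren_symm {C C' : Type} (e : C ≃ C') (y : C' → ℤ) (c : C) : (ren e).symm y c = y (e c) := rfl

variable {e : T.C ≃ T'.C}

theorem Ren.symm (h : T.Ren T' e) : T'.Ren T e.symm where
  lev c := by rw [← h.lev, e.apply_symm_apply]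
  Φ c := by
    have := h.Φ (e.symm c)
    rw [e.apply_symm_apply] at this
    rw [this, rename_rename, e.symm_comp_self, rename_id_apply]
  K c c' := by rw [← h.K, e.apply_symm_apply, e.apply_symm_apply]

theorem Ren.K_eq (h : T.Ren T' e) : T.K = T'.K.submatrix e e := by
  ext c c'; exact (h.K c c').symm

theorem Ren.A_eq (h : T.Ren T' e) : T.A = T'.A.submatrix e e := by
  ext c c'
  change (if _ then _ else _) = if T'.lev (e c) = T'.lev (e c') then
    coeff (Finsupp.single (e c') 1) (T'.Φ (e c)) else 0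
  rw [h.lev, h.lev, h.Φ, coeff_ren e.injective]

theorem Ren.D_eq (h : T.Ren T' e) : T.D = T'.D.submatrix e e := by
  rw [D, D, h.A_eq, h.K_eq, inv_submatrix_equiv, transpose_submatrix, submatrix_mul_equiv,
    submatrix_mul_equiv]

theorem Ren.Zc (h : T.Ren T' e) : T.Zc = T'.Zc := by
  rw [TS.Zc, TS.Zc, h.D_eq, inv_submatrix_equiv, dt, dt, det_submatrix_equiv_self]

theorem Ren.u (h : T.Ren T' e) (y : T'.C → ℝ) (c : T.C) :
    T'.u y (e c) = T.u (fun c => y (e c)) c := by
  rw [TS.u, h.Φ]; exact eval_rename _ _ _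

theorem qf_ren {C C' : Type} [Fintype C] [Fintype C'] (e : C ≃ C') (M : Matrix C' C' ℝ)
    (x : C' → ℝ) : qf (M.submatrix e e) (fun c => x (e c)) = qf M x := by
  rw [qf, qf, submatrix_mulVec_equiv]
  refine (e.sum_comp fun c => x c * (M *ᵥ ((fun c => x (e c)) ∘ e.symm)) c).trans ?_
  rw [show (fun c => x (e c)) ∘ e.symm = x from funext fun c => by simp]; rfl

theorem Ren.wt (h : T.Ren T' e) (y : T'.C → ℤ) : T.wt (fun c => y (e c)) = T'.wt y := by
  rw [TS.wt, TS.wt, gs, gs, h.K_eq, inv_submatrix_equiv, ← qf_ren e T'.K⁻¹]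
  congr 4
  exact funext fun c => (h.u (zc y) c).symm

theorem Ren.eqv (h : T.Ren T' e) : T.Eqv T' (ren e) := fun y => by
  rw [← h.wt]; simp [ren_apply]

theorem Ren.Z (h : T.Ren T' e) : T.Z = T'.Z := h.eqv.Z

theorem Ren.mas (h : T.Ren T' e) {η : ℝ} : T.Mas η ↔ T'.Mas η := by rw [Mas, Mas, h.Z, h.Zc]

theorem Ren.E (h : T.Ren T' e) (g : (T.C → ℤ) → ℝ) : T'.E (fun y => g fun c => y (e c)) = T.E g :=
  h.eqv.symm.E g

theorem Ren.Ec (h : T.Ren T' e) (g : (T.C → ℤ) → ℂ) :
    T'.Ec (fun y => g fun c => y (e c)) = T.Ec g := h.eqv.symm.Ec g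

theorem Ren.S (h : T.Ren T' e) (g : (T.C → ℤ) → ℝ) : T'.S (fun y => g fun c => y (e c)) = T.S g :=
  h.eqv.symm.S g

theorem Ren.Sc (h : T.Ren T' e) (g : (T.C → ℤ) → ℂ) :
    T'.Sc (fun y => g fun c => y (e c)) = T.Sc g := h.eqv.symm.Sc g

theorem Ren.tri (h : T.Ren T' e) (ht : T.Tri) : T'.Tri where
  tri c m hm := by
    obtain ⟨c, rfl⟩ := e.surjective c
    rw [h.Φ] at hm
    obtain ⟨u, rfl, hu⟩ := coeff_rename_ne_zero _ _ _ (mem_support_iff.1 hm)
    rw [weight_mapD, _root_.funext h.lev, h.lev]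
    exact ht.tri c u (mem_support_iff.2 hu)
  ne c k := by
    obtain ⟨c, rfl⟩ := e.surjective c
    have := ht.lev_pos c
    rw [← h.lev, TS.lev, k] at this
    simp at this
  det := by rw [← det_submatrix_equiv_self e, ← h.A_eq]; exact ht.det
  pd := by rw [h.symm.K_eq]; exact ht.pd.submatrix e.symm.injective
  blk c c' k := by
    obtain ⟨c, rfl⟩ := e.surjective c
    obtain ⟨c', rfl⟩ := e.surjective c'
    rw [h.K] at k
    rw [h.lev, h.lev, ht.blk c c' k]

end TS

end Crest.Agent.N49.Tw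

end
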