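import Crest.Agent.N49.Tw.Defs

/-!
# Row 49 (helper19): the covariance of two conditionally independent clones (linear algebra)
-/

set_option autoImplicit false

open Matrix Finset

noncomputable section

namespace Crest.Agent.N49.Tw.Db

open Po

variable {C : Type} [Fintype C] [DecidableEq C] (p : C → Prop) [DecidablePred p]

/-- merge the coordinates in `p` and outside `p` -/
def mg {R : Type} (a : {c // p c} → R) (z : {c // ¬ p c} → R) : C → R :=
  fun c => if h : p c then a ⟨c, h⟩ else z ⟨c, h⟩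

/-- the splitting of the configurations -/
def spl (R : Type) : ({c // p c} → R) × ({c // ¬ p c} → R) ≃ (C → R) :=
  (Equiv.piEquivPiSubtypeProd p fun _ => R).symm

omit [Fintype C] [DecidableEq C] in
theorem spl_apply {R : Type} (x : ({c // p c} → R) × ({c // ¬ p c} → R)) :
    spl p R x = mg p x.1 x.2 := rfl

omit [Fintype C] [DecidableEq C] in
@[simp] theorem mg_pos {R : Type} (a : {c // p c} → R) (z : {c // ¬ p c} → R) (c : {c // p c}) :
    mg p a z c = a c := dif_pos c.2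

omit [Fintype C] [DecidableEq C] in
@[simp] theorem mg_neg {R : Type} (a : {c // p c} → R) (z : {c // ¬ p c} → R)
    (c : {c // ¬ p c}) : mg p a z c = z c := dif_neg c.2

omit [Fintype C] [DecidableEq C] in
theorem mg_self {R : Type} (x : C → R) : mg p (fun c => x c) (fun c => x c) = x :=
  funext fun c => by by_cases h : p c <;> simp [mg, h]

omit [DecidableEq C] in
theorem sum_spl (f : C → ℝ) : ∑ c, f c = ∑ c : {c // p c}, f c + ∑ c : {c // ¬ p c}, f c :=
  (Fintype.sum_subtype_add_sum_subtype p f).symm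

omit [DecidableEq C] in
theorem dot_mg (x : C → ℝ) (a : {c // p c} → ℝ) (z : {c // ¬ p c} → ℝ) :
    x ⬝ᵥ mg p a z = (fun c : {c // p c} => x c) ⬝ᵥ a + (fun c : {c // ¬ p c} => x c) ⬝ᵥ z := by
  simp [dotProduct, sum_spl p]

/-- the block on `p` -/
abbrev pp (K : Matrix C C ℝ) : Matrix {c // p c} {c // p c} ℝ := K.submatrix (↑) (↑)

/-- the cross covariance -/
def cr (K : Matrix C C ℝ) : Matrix C C ℝ :=
  K.submatrix id (Subtype.val : {c // p c} → C) * (pp p K)⁻¹ *
    K.submatrix (Subtype.val : {c // p c} → C) id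

/-- the covariance of the two clones -/
def k2 (K : Matrix C C ℝ) : Matrix (C ⊕ {c // ¬ p c}) (C ⊕ {c // ¬ p c}) ℝ :=
  fromBlocks K ((cr p K).submatrix id Subtype.val) ((cr p K).submatrix Subtype.val id)
    (K.submatrix Subtype.val Subtype.val)

variable {p} {K : Matrix C C ℝ}

omit [Fintype C] [DecidableEq C] [DecidablePred p] in
theorem pd_pp (hK : K.PosDef) : (pp p K).PosDef := hK.submatrix Subtype.val_injective

omit [DecidableEq C] in
theorem mulVec_mg (K : Matrix C C ℝ) (a : {c // p c} → ℝ) (z : {c // ¬ p c} → ℝ) (i : C) :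
    (K *ᵥ mg p a z) i = (K.submatrix id Subtype.val *ᵥ a) i + (K.submatrix id Subtype.val *ᵥ z) i :=
  dot_mg p (K i) a z

theorem cr_mulVec (K : Matrix C C ℝ) (x : C → ℝ) : cr p K *ᵥ x =
    K.submatrix id Subtype.val *ᵥ ((pp p K)⁻¹ *ᵥ fun c : {c // p c} => (K *ᵥ x) c) := by
  rw [cr, ← mulVec_mulVec, ← mulVec_mulVec]; rfl

theorem inv_mulVec {d : Type} [Fintype d] [DecidableEq d] {M : Matrix d d ℝ} (hM : M.PosDef)
    (x : d → ℝ) : M⁻¹ *ᵥ (M *ᵥ x) = x := by
  rw [mulVec_mulVec, nonsing_inv_mul _ hM.det_pos.ne'.isUnit, one_mulVec]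

theorem mulVec_inv {d : Type} [Fintype d] [DecidableEq d] {M : Matrix d d ℝ} (hM : M.PosDef)
    (x : d → ℝ) : M *ᵥ (M⁻¹ *ᵥ x) = x := by
  rw [mulVec_mulVec, mul_nonsing_inv _ hM.det_pos.ne'.isUnit, one_mulVec]

theorem cr_mg (hK : K.PosDef) (a : {c // p c} → ℝ) :
    cr p K *ᵥ mg p a 0 = K.submatrix id Subtype.val *ᵥ a := by
  have : (fun c : {c // p c} => (K *ᵥ mg p a 0) c) = pp p K *ᵥ a := funext fun c => by
    rw [mulVec_mg, mulVec_zero, Pi.zero_apply, add_zero]; rfl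
  rw [cr_mulVec, this, inv_mulVec (pd_pp hK)]

/-- the solution of `k2 w = (x, z)` -/
def sol (K : Matrix C C ℝ) (x : C → ℝ) (z : {c // ¬ p c} → ℝ) : C ⊕ {c // ¬ p c} → ℝ :=
  Sum.elim (K⁻¹ *ᵥ x + mg p ((fun c : {c // p c} => (K⁻¹ *ᵥ mg p (fun c => x c) z) c) -
    (pp p K)⁻¹ *ᵥ fun c => x c) 0) fun c => (K⁻¹ *ᵥ mg p (fun c => x c) z) c

theorem k2_sol (hK : K.PosDef) (x : C → ℝ) (z : {c // ¬ p c} → ℝ) :
    k2 p K *ᵥ sol K x z = Sum.elim x z := by
  set a' := K⁻¹ *ᵥ mg p (fun c => x c) z with ha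
  set c0 := (pp p K)⁻¹ *ᵥ fun c : {c // p c} => x c with hc
  have e1 : K *ᵥ a' = mg p (fun c => x c) z := mulVec_inv hK _
  have e2 : ∀ i, (K.submatrix id Subtype.val *ᵥ fun c : {c // p c} => a' c) i +
      (K.submatrix id Subtype.val *ᵥ fun c : {c // ¬ p c} => a' c) i =
        mg p (fun c => x c) z i := fun i => by rw [← mulVec_mg, mg_self, e1]
  have e3 : cr p K *ᵥ a' = K.submatrix id Subtype.val *ᵥ c0 := by
    rw [cr_mulVec, e1]; simp [hc]
  have e4 : cr p K *ᵥ (K⁻¹ *ᵥ x) = K.submatrix id Subtype.val *ᵥ c0 := by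
    rw [cr_mulVec, mulVec_inv hK]
  have e5 : ∀ i, ((cr p K).submatrix id Subtype.val *ᵥ fun c : {c // ¬ p c} => a' c) i =
      (K.submatrix id Subtype.val *ᵥ c0) i -
        (K.submatrix id Subtype.val *ᵥ fun c : {c // p c} => a' c) i := fun i => by
    have h1 := mulVec_mg (cr p K) (fun c : {c // p c} => a' c) (fun c : {c // ¬ p c} => a' c) i
    have h2 := mulVec_mg (cr p K) (fun c : {c // p c} => a' c) 0 i
    rw [mg_self, e3] at h1
    rw [cr_mg hK, mulVec_zero, Pi.zero_apply, add_zero] at h2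
    linarith
  rw [k2, sol, fromBlocks_mulVec]
  funext i
  rcases i with i | i
  · simp only [Sum.elim_inl, Pi.add_apply, Function.comp_def, Sum.elim_inr]
    have := mulVec_mg K ((fun c : {c // p c} => a' c) - c0) 0 i
    rw [mulVec_zero, mulVec_sub] at this
    have t : (K *ᵥ fun j => (K⁻¹ *ᵥ x) j + mg p ((fun c : {c // p c} => a' c) - c0) 0 j) i =
        x i + (K *ᵥ mg p ((fun c : {c // p c} => a' c) - c0) 0) i := by
      rw [← Pi.add_def, mulVec_add, mulVec_inv hK, Pi.add_apply]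
    rw [t, this, e5]
    simp only [Pi.sub_apply, Pi.zero_apply]; ring
  · simp only [Sum.elim_inl, Pi.add_apply, Function.comp_def, Sum.elim_inr]
    have t : ((cr p K).submatrix Subtype.val id *ᵥ fun j =>
        (K⁻¹ *ᵥ x) j + mg p ((fun c : {c // p c} => a' c) - c0) 0 j) i =
        (cr p K *ᵥ (K⁻¹ *ᵥ x + mg p ((fun c : {c // p c} => a' c) - c0) 0)) i := rfl
    have t2 : (K.submatrix Subtype.val Subtype.val *ᵥ fun c : {c // ¬ p c} => a' c) i =
        (K.submatrix id Subtype.val *ᵥ fun c : {c // ¬ p c} => a' c) i := rfl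
    have := e2 i
    rw [mg_neg] at this
    rw [t, t2, mulVec_add, e4, cr_mg hK, mulVec_sub, ← this]
    simp

theorem tr_eq {d : Type} {M : Matrix d d ℝ} (hM : M.PosDef) : Mᵀ = M := by
  simpa [conjTranspose_eq_transpose_of_trivial] using hM.1.eq

theorem cr_tr (hK : K.PosDef) : (cr p K)ᵀ = cr p K := by
  rw [cr, transpose_mul, transpose_mul, transpose_submatrix, transpose_submatrix, tr_eq hK,
    tr_eq (pd_pp hK).inv, Matrix.mul_assoc]

theorem qf_cr (hK : K.PosDef) (x : C → ℝ) :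
    qf (cr p K) x = qf (pp p K)⁻¹ fun c : {c // p c} => (K *ᵥ x) c := by
  rw [qf, cr_mulVec, qf, dotProduct_mulVec, ← mulVec_transpose, transpose_submatrix, tr_eq hK]
  rfl

theorem qf_cr_le (hK : K.PosDef) (x : C → ℝ) : qf (cr p K) x ≤ qf K x := by
  rw [qf_cr hK]
  set k := fun c : {c // p c} => (K *ᵥ x) c
  set c0 := (pp p K)⁻¹ *ᵥ k
  have e1 : qf (pp p K)⁻¹ k = mg p c0 0 ⬝ᵥ K *ᵥ x := by
    rw [dotProduct_comm, dot_mg, dotProduct_zero, add_zero]; rfl
  have e2 : qf K (mg p c0 0) = qf (pp p K)⁻¹ k := by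
    rw [qf, dotProduct_comm, dot_mg, dotProduct_zero, add_zero]
    have : (fun c : {c // p c} => (K *ᵥ mg p c0 0) c) = k := funext fun c => by
      rw [mulVec_mg, mulVec_zero, Pi.zero_apply, add_zero]
      exact congrFun (mulVec_inv (pd_pp hK) k) c
    rw [this]; rfl
  have h := dot_sq_le hK (mg p c0 0) x
  rw [← e1, e2] at h
  have h0 := qf_nonneg (pd_pp (p := p) hK).inv k
  have h1 := qf_nonneg hK x
  nlinarith

theorem pd_k2 (hK : K.PosDef) : (k2 p K).PosDef := by
  have s : (k2 p K)ᵀ = k2 p K := by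
    rw [k2, fromBlocks_transpose, transpose_submatrix, transpose_submatrix, transpose_submatrix,
      cr_tr hK, tr_eq hK]
  have ps : (k2 p K).PosSemidef := by
    refine PosSemidef.of_dotProduct_mulVec_nonneg
      (by simpa [IsHermitian, conjTranspose_eq_transpose_of_trivial] using s) fun v => ?_
    obtain ⟨x, z, rfl⟩ : ∃ x z, v = Sum.elim x z :=
      ⟨fun i => v (.inl i), fun i => v (.inr i), funext fun i => by cases i <;> rfl⟩
    have m : ∀ (M : Matrix C C ℝ) (i : C),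
        (M *ᵥ mg p 0 z) i = (M.submatrix id Subtype.val *ᵥ z) i := fun M i => by
      rw [mulVec_mg, mulVec_zero, Pi.zero_apply, zero_add]
    have d : ∀ w : C → ℝ, mg p 0 z ⬝ᵥ w = z ⬝ᵥ fun c : {c // ¬ p c} => w c := fun w => by
      rw [dotProduct_comm, dot_mg, dotProduct_zero, zero_add, dotProduct_comm]
    have e : star (Sum.elim x z) ⬝ᵥ k2 p K *ᵥ Sum.elim x z = (qf K x - qf (cr p K) x) +
        (qf K (mg p 0 z) - qf (cr p K) (mg p 0 z)) + qf (cr p K) (x + mg p 0 z) := by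
      simp only [star_trivial, k2, fromBlocks_mulVec, sumElim_dotProduct_sumElim, qf,
        dotProduct_add, add_dotProduct, mulVec_add, d, Sum.elim_comp_inl, Sum.elim_comp_inr]
      have a1 : x ⬝ᵥ cr p K *ᵥ mg p 0 z = x ⬝ᵥ (cr p K).submatrix id Subtype.val *ᵥ z := by
        rw [funext (m (cr p K))]
      have a2 : (z ⬝ᵥ fun c : {c // ¬ p c} => (K *ᵥ mg p 0 z) c) =
          z ⬝ᵥ K.submatrix Subtype.val Subtype.val *ᵥ z := by
        simp only [m]; rfl
      have a3 : (z ⬝ᵥ fun c : {c // ¬ p c} => (cr p K *ᵥ x) c) =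
          z ⬝ᵥ (cr p K).submatrix Subtype.val id *ᵥ x := rfl
      rw [a1, a2, a3]; ring
    rw [e]
    have := qf_cr_le (p := p) hK x
    have := qf_cr_le (p := p) hK (mg p 0 z)
    have : 0 ≤ qf (cr p K) (x + mg p 0 z) := by
      rw [qf_cr hK]; exact qf_nonneg (pd_pp hK).inv _
    linarith
  refine ps.posDef_iff_isUnit.2 (mulVec_surjective_iff_isUnit.1 fun v => ?_)
  exact ⟨sol K (fun i => v (.inl i)) fun i => v (.inr i), by
    rw [k2_sol hK]; exact funext fun i => by cases i <;> rfl⟩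

/-- the precision form of the two clones -/
theorem qf_k2 (hK : K.PosDef) (x : C → ℝ) (z : {c // ¬ p c} → ℝ) :
    qf (k2 p K)⁻¹ (Sum.elim x z) = qf K⁻¹ x + qf K⁻¹ (mg p (fun c => x c) z) -
      qf (pp p K)⁻¹ fun c => x c := by
  have e : (k2 p K)⁻¹ *ᵥ Sum.elim x z = sol K x z := by
    rw [← k2_sol hK, inv_mulVec (pd_k2 hK)]
  rw [qf, e, sol, sumElim_dotProduct_sumElim, dotProduct_add, dot_mg, dotProduct_zero,
    dotProduct_sub, qf, qf, qf, dotProduct_comm (mg p _ z), dot_mg,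
    dotProduct_comm _ (fun c : {c // p c} => x c), dotProduct_comm _ z]
  ring

/-- the marginal form is smaller -/
theorem qf_pp_le (hK : K.PosDef) (x : C → ℝ) : (qf (pp p K)⁻¹ fun c => x c) ≤ qf K⁻¹ x := by
  have h := qf_cr_le (p := p) hK (K⁻¹ *ᵥ x)
  rw [qf_cr hK, mulVec_inv hK] at h
  refine h.trans_eq ?_
  rw [qf, mulVec_inv hK, qf, dotProduct_comm]

/-- matrices that are block diagonal for a grading -/
theorem blk_iff {d : Type} [Fintype d] [DecidableEq d] (l : d → ℕ) (M : Matrix d d ℝ) :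
    (∀ i j, M i j ≠ 0 → l i = l j) ↔
      M * diagonal (fun i => (l i : ℝ)) = diagonal (fun i => (l i : ℝ)) * M := by
  simp only [← Matrix.ext_iff, mul_diagonal, diagonal_mul]
  refine forall₂_congr fun i j => ⟨fun h => ?_, fun h h0 => ?_⟩
  · by_cases h0 : M i j = 0
    · simp [h0]
    · rw [h h0, mul_comm]
  · rw [mul_comm] at h
    exact_mod_cast (mul_right_cancel₀ h0 h).symm

theorem blk_inv {d : Type} [Fintype d] [DecidableEq d] {l : d → ℕ} {M : Matrix d d ℝ}
    (h : ∀ i j, M i j ≠ 0 → l i = l j) : ∀ i j, M⁻¹ i j ≠ 0 → l i = l j := by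
  by_cases u : IsUnit M.det
  · rw [blk_iff] at h ⊢
    calc M⁻¹ * diagonal _ = M⁻¹ * (diagonal _ * M) * M⁻¹ := by
          rw [Matrix.mul_assoc, Matrix.mul_assoc, mul_nonsing_inv _ u, Matrix.mul_one]
      _ = _ := by rw [← h, ← Matrix.mul_assoc, nonsing_inv_mul _ u, Matrix.one_mul]
  · simp [nonsing_inv_apply_not_isUnit _ u]

theorem blk_cr {l : C → ℕ} (h : ∀ i j, K i j ≠ 0 → l i = l j) :
    ∀ i j, cr p K i j ≠ 0 → l i = l j := fun i j h0 => by
  rw [cr, mul_apply] at h0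
  obtain ⟨b, -, hb⟩ := exists_ne_zero_of_sum_ne_zero h0
  have h1 := left_ne_zero_of_mul hb
  rw [mul_apply] at h1
  obtain ⟨a, -, ha⟩ := exists_ne_zero_of_sum_ne_zero h1
  exact ((h _ _ (left_ne_zero_of_mul ha)).trans (blk_inv (l := fun c : {c // p c} => l c)
    (fun _ _ k => h _ _ k) _ _ (right_ne_zero_of_mul ha))).trans (h _ _ (right_ne_zero_of_mul hb))

/-- without coupling the form splits -/
theorem qf_sep (hK : K.PosDef) (hs : ∀ c c', p c → ¬ p c' → K c c' = 0) (x : C → ℝ) :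
    qf K⁻¹ x = (qf (pp p K)⁻¹ fun c => x c) + qf (pp (fun c => ¬ p c) K)⁻¹ fun c => x c := by
  have hs' : ∀ c c', ¬ p c → p c' → K c c' = 0 := fun c c' a b => by
    rw [← tr_eq hK, transpose_apply, hs _ _ b a]
  have e : K *ᵥ mg p ((pp p K)⁻¹ *ᵥ fun c => x c) ((pp (fun c => ¬ p c) K)⁻¹ *ᵥ fun c => x c) =
      x := funext fun i => by
    rw [mulVec_mg]
    by_cases h : p i
    · have := congrFun (mulVec_inv (pd_pp (p := p) hK) fun c => x c) ⟨i, h⟩
      have z : ∀ v : {c // ¬ p c} → ℝ, (K.submatrix id Subtype.val *ᵥ v) i = 0 := fun v => by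
        simp [mulVec, dotProduct, fun c : {c // ¬ p c} => hs i c h c.2]
      rw [z, add_zero]; exact this
    · have := congrFun (mulVec_inv (pd_pp (p := fun c => ¬ p c) hK) fun c => x c) ⟨i, h⟩
      have z : ∀ v : {c // p c} → ℝ, (K.submatrix id Subtype.val *ᵥ v) i = 0 := fun v => by
        simp [mulVec, dotProduct, fun c : {c // p c} => hs' i c h c.2]
      rw [z, zero_add]; exact this
  have e2 := inv_mulVec hK
    (mg p ((pp p K)⁻¹ *ᵥ fun c => x c) ((pp (fun c => ¬ p c) K)⁻¹ *ᵥ fun c => x c))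
  rw [e] at e2
  rw [qf, e2, dot_mg]; rfl

end Crest.Agent.N49.Tw.Db

end
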