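import Crest.Agent.N49.Tw.Mh0
import Crest.Agent.N49.Tw.Db0

/-! # Row 49 (helper80): the double of a shape -/

set_option autoImplicit false

open Matrix MvPolynomial Finset

noncomputable section

namespace Crest.Agent.N49.Tw

open Po

section lin
variable {d : Type} [Fintype d] [DecidableEq d] {M : Matrix d d ℝ}

theorem qf_inv_le_of_lo (hM : M.PosDef) {a : ℝ} (h : ∀ x, a * ∑ i, x i ^ 2 ≤ qf M x)
    (x : d → ℝ) : a * qf M⁻¹ x ≤ ∑ i, x i ^ 2 := by
  have e : qf M (M⁻¹ *ᵥ x) = qf M⁻¹ x := by rw [qf, Db.mulVec_inv hM, qf, dotProduct_comm]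
  have h1 := h (M⁻¹ *ᵥ x)
  have h2 : qf M⁻¹ x ^ 2 ≤ (∑ i, x i ^ 2) * ∑ i, (M⁻¹ *ᵥ x) i ^ 2 := sum_mul_sq_le_sq_mul_sq _ _ _
  have h3 := qf_nonneg hM.inv x
  have h4 : 0 ≤ ∑ i, x i ^ 2 := by positivity
  rw [e] at h1
  rcases h3.eq_or_lt with z | z
  · rw [← z, mul_zero]; exact h4
  · rcases le_total a 0 with ha | ha
    · nlinarith
    · refine le_of_mul_le_mul_right ?_ z
      nlinarith [mul_le_mul_of_nonneg_left h1 h4, mul_le_mul_of_nonneg_left h2 ha]

theorem lo_of_qf_inv_le (hM : M.PosDef) {a : ℝ} (h : ∀ x, a * qf M⁻¹ x ≤ ∑ i, x i ^ 2)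
    (x : d → ℝ) : a * ∑ i, x i ^ 2 ≤ qf M x := by
  have h2 := dot_sq_le hM x (M⁻¹ *ᵥ x)
  have e : qf M (M⁻¹ *ᵥ x) = qf M⁻¹ x := by rw [qf, Db.mulVec_inv hM, qf, dotProduct_comm]
  have e' : x ⬝ᵥ x = ∑ i, x i ^ 2 := by simp [dotProduct, sq]
  rw [e, Db.mulVec_inv hM, e'] at h2
  have h1 := h x
  have h3 := qf_nonneg hM x
  have h4 : 0 ≤ ∑ i, x i ^ 2 := by positivity
  rcases h4.eq_or_lt with z | z
  · rw [← z, mul_zero]; exact h3
  · rcases le_total a 0 with ha | ha
    · nlinarith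
    · refine le_of_mul_le_mul_right ?_ z
      nlinarith [mul_le_mul_of_nonneg_left h1 h3, mul_le_mul_of_nonneg_left h2 ha]

theorem k2_lo (hM : M.PosDef) (p : d → Prop) [DecidablePred p] {a : ℝ}
    (h : ∀ x, a * ∑ i, x i ^ 2 ≤ qf M x) (x : d ⊕ {c // ¬ p c} → ℝ) :
    a / 2 * ∑ i, x i ^ 2 ≤ qf (Db.k2 p M) x := by
  rcases le_total a 0 with ha | ha
  · have := qf_nonneg (Db.pd_k2 (p := p) hM) x
    have : 0 ≤ ∑ i, x i ^ 2 := by positivity
    nlinarith
  refine lo_of_qf_inv_le (Db.pd_k2 hM) (fun v => ?_) x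
  obtain ⟨y, z, rfl⟩ : ∃ y z, v = Sum.elim y z :=
    ⟨fun i => v (.inl i), fun i => v (.inr i), funext fun i => by cases i <;> rfl⟩
  have h1 := qf_inv_le_of_lo hM h y
  have h2 := qf_inv_le_of_lo hM h (Db.mg p (fun c => y c) z)
  have h3 := mul_nonneg ha (qf_nonneg (Db.pd_pp (p := p) hM).inv fun c => y c)
  rw [Db.sum_spl p] at h1 h2
  simp only [Db.mg_pos, Db.mg_neg] at h2
  rw [Db.qf_k2 hM, Fintype.sum_sum_type, Db.sum_spl p]
  simp only [Sum.elim_inl, Sum.elim_inr]
  have : 0 ≤ ∑ c : {c // ¬ p c}, y c ^ 2 := by positivity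
  have : 0 ≤ ∑ c : {c // ¬ p c}, z c ^ 2 := by positivity
  nlinarith

theorem blk_cr' {L : Type} {l : d → L} (p : d → Prop) [DecidablePred p]
    (h : ∀ i j, M i j ≠ 0 → l i = l j) (i j : d) (k : Db.cr p M i j ≠ 0) : l i = l j := by
  classical
  have := Db.blk_cr (l := fun c => if l i = l c then 0 else 1) (fun a b z => by rw [h a b z]) i j k
  by_contra z; simp [z] at this

end lin

/-- substitution of variables or zero -/
theorem aeval_ite {A B R : Type} [CommRing R] (q : A → Prop) [DecidablePred q] (f : A → B)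
    (m : A →₀ ℕ) (c : R) [Decidable (∀ a, ¬ q a → m a = 0)] :
    aeval (fun a => if q a then X (f a) else 0 : A → MvPolynomial B R) (monomial m c) =
      if ∀ a, ¬ q a → m a = 0 then monomial (m.mapDomain f) c else 0 := by
  split_ifs with h
  · rw [← rename_monomial, rename_eq_aeval, aeval_monomial, aeval_monomial]
    congr 1
    exact Finsupp.prod_congr fun a ha => by
      rw [if_pos (of_not_not fun z => Finsupp.mem_support_iff.1 ha (h a z))]; rfl
  · push Not at h
    obtain ⟨a, h, k⟩ := h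
    rw [aeval_monomial, Finsupp.prod, prod_eq_zero (Finsupp.mem_support_iff.2 k)
      (by rw [if_neg h, zero_pow k]), mul_zero]

theorem mapD_mem {A B : Type} (f : A → B) {m : A →₀ ℕ} {a : A} (h : m a ≠ 0) :
    f a ∈ (m.mapDomain f).support := by
  classical
  rw [Finsupp.mem_support_iff, Finsupp.mapDomain, Finsupp.sum_apply, Finsupp.sum]
  refine (lt_of_lt_of_le (Nat.pos_of_ne_zero h) ?_).ne'
  refine le_trans ?_ (single_le_sum (fun _ _ => Nat.zero_le _) (Finsupp.mem_support_iff.2 h))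
  simp

theorem sum_single_ne {ι A : Type} [Fintype ι] {lam : ι → A} {a : A} :
    (∑ i, Finsupp.single (lam i) 1 : A →₀ ℕ) a ≠ 0 ↔ ∃ i, lam i = a := by
  classical
  simp [Finsupp.finsetSum_apply, Finsupp.single_apply]

namespace Sh

variable {σ τ : Type} {S : Sh σ τ} {p : S.W → Prop} [DecidablePred p]

variable (S p) in
/-- the words of the double -/
abbrev DW : Type := S.W ⊕ {w // ¬ p w}

variable (S p) in
/-- the word under a word of the double -/
def fo : S.DW p → S.W := Sum.elim id Subtype.val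

variable (S p) in
/-- the second copy of a word -/
def sn (w : S.W) : S.DW p := if h : p w then .inl w else .inr ⟨w, h⟩

variable (S p) in
/-- the multiplication of the double -/
def rd (w : S.DW p) (m : S.DW p →₀ ℕ) : ℤ := (S.dbl p).r w m

omit [DecidablePred p] in
@[simp] theorem fo_inl (w : S.W) : S.fo p (.inl w) = w := rfl
omit [DecidablePred p] in
@[simp] theorem fo_inr (w : {w // ¬ p w}) : S.fo p (.inr w) = w.1 := rfl
theorem sn_pos {w : S.W} (h : p w) : S.sn p w = .inl w := dif_pos h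
theorem sn_neg {w : S.W} (h : ¬ p w) : S.sn p w = .inr ⟨w, h⟩ := dif_neg h
@[simp] theorem fo_sn (w : S.W) : S.fo p (S.sn p w) = w := by
  by_cases h : p w
  exacts [congrArg _ (sn_pos h), congrArg _ (sn_neg h)]

theorem dbl_ty (w : S.DW p) : (S.dbl p).ty w = S.ty (S.fo p w) := by cases w <;> rfl
theorem dbl_cd (w : S.DW p) : (S.dbl p).cd w = S.cd (S.fo p w) := by cases w <;> rfl
theorem dbl_dg (w : S.DW p) : (S.dbl p).dg w = S.dg (S.fo p w) := by cases w <;> rfl
theorem dbl_ε (w : S.DW p) : (S.dbl p).ε w = S.ε (S.fo p w) := by cases w <;> rfl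
theorem dbl_K : (S.dbl p).K = Db.k2 p S.K := rfl

theorem rd_inl (w : S.W) (m : S.DW p →₀ ℕ) : S.rd p (.inl w) m =
    if ∀ w', m (.inr w') = 0 then S.r w (m.mapDomain (S.fo p)) else 0 := rfl

theorem rd_inr (w : {w // ¬ p w}) (m : S.DW p →₀ ℕ) : S.rd p (.inr w) m =
    if ∀ w', ¬ p w' → m (.inl w') = 0 then S.r w.1 (m.mapDomain (S.fo p)) else 0 := rfl

theorem rd_ne {w : S.DW p} {m : S.DW p →₀ ℕ} (h : S.rd p w m ≠ 0) :
    S.rd p w m = S.r (S.fo p w) (m.mapDomain (S.fo p)) := by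
  rcases w with w | w
  · rw [rd_inl] at h ⊢
    split_ifs at h ⊢
    exacts [rfl, absurd rfl h]
  · rw [rd_inr] at h ⊢
    split_ifs at h ⊢
    exacts [rfl, absurd rfl h]

theorem rd_one (h : S.Ok) (w w' : S.DW p) :
    S.rd p w (Finsupp.single w' 1) = if w = w' then 1 else 0 := by
  rcases w with a | a <;> rcases w' with b | b
  · simp [rd_inl, h.one]
  · rw [rd_inl, if_neg fun z => by simpa using z b, if_neg Sum.inl_ne_inr]
  · rw [rd_inr, if_neg Sum.inr_ne_inl]
    split_ifs with z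
    · rw [Finsupp.mapDomain_single, h.one, if_neg]
      rintro rfl
      simpa using z _ a.2
    · rfl
  · simp [rd_inr, h.one, Subtype.ext_iff]

theorem rd_mul (h : S.Ok) (hI : S.Idl p) (w : S.DW p) (m m' : S.DW p →₀ ℕ) (m0 : m ≠ 0) :
    S.rd p w (m + m') = ∑ w', S.rd p w' m * S.rd p w (Finsupp.single w' 1 + m') := by
  have M0 : m.mapDomain (S.fo p) ≠ 0 := fun z => by
    obtain ⟨a, ha⟩ := Finsupp.ne_iff.1 m0
    simpa [z] using mapD_mem (S.fo p) ha
  rw [Fintype.sum_sum_type]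
  rcases w with a | a
  · have e : ∀ b, S.rd p (.inl a) (Finsupp.single (.inr b) 1 + m') = 0 := fun b =>
      if_neg fun z => by simpa using z b
    simp only [e, mul_zero, sum_const_zero, add_zero]
    simp only [rd_inl, Finsupp.mapDomain_add, Finsupp.mapDomain_single,
      Finsupp.add_apply, Nat.add_eq_zero_iff, forall_and, h.mul _ _ _ M0]
    by_cases h1 : ∀ w', m (.inr w') = 0
    · by_cases h2 : ∀ w', m' (.inr w') = 0 <;> simp [h1, h2]
    · rw [if_neg fun z => h1 z.1]; simp only [if_neg h1]; simp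
  · by_cases h2 : ∀ w', ¬ p w' → m' (.inl w') = 0
    swap
    · have e : ∀ x, S.rd p (.inr a) (x + m') = 0 := fun x => if_neg fun z => h2 fun w n =>
        (Nat.add_eq_zero_iff.1 (z w n)).2
      simp [e]
    have e : ∀ b : {w // ¬ p w}, S.rd p (.inr a) (Finsupp.single (.inl b.1) 1 + m') = 0 :=
      fun b => if_neg fun z => by simpa using z b b.2
    have e1 : ∀ b : {w // p w}, S.rd p (.inr a) (Finsupp.single (.inl b.1) 1 + m') =
        S.r a (Finsupp.single b.1 1 + m'.mapDomain (S.fo p)) := fun b => by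
      rw [rd_inr, if_pos fun w n => by
        rw [Finsupp.add_apply, h2 w n, Finsupp.single_eq_of_ne fun z => n (by cases z; exact b.2)]]
      simp [Finsupp.mapDomain_add]
    have e2 : ∀ b, S.rd p (.inr a) (Finsupp.single (.inr b) 1 + m') =
        S.r a (Finsupp.single b.1 1 + m'.mapDomain (S.fo p)) := fun b => by
      rw [rd_inr, if_pos fun w n => by simp [h2 w n]]
      simp [Finsupp.mapDomain_add]
    have e3 : ∀ b : {w // p w}, S.rd p (.inl b.1) m =
        if ∀ w', ¬ p w' → m (.inl w') = 0 then S.r b (m.mapDomain (S.fo p)) else 0 := fun b => by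
      by_cases z : S.r b (m.mapDomain (S.fo p)) = 0
      · simp [rd_inl, z]
      · rw [rd_inl, if_pos fun w' => of_not_not fun y => w'.2 (hI _ _ b.2 z _ (mapD_mem (S.fo p) y)),
          if_pos fun w' n => of_not_not fun y => n (hI _ _ b.2 z _ (mapD_mem (S.fo p) y))]
    rw [← Fintype.sum_subtype_add_sum_subtype p]
    simp only [e, e1, e2, e3, mul_zero, sum_const_zero, add_zero]
    simp only [rd_inr, Finsupp.mapDomain_add, Finsupp.add_apply, Nat.add_eq_zero_iff, imp_and,
      forall_and, h.mul _ _ _ M0, ← Fintype.sum_subtype_add_sum_subtype p]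
    by_cases h1 : ∀ w', ¬ p w' → m (.inl w') = 0
    · rw [if_pos ⟨h1, h2⟩]; simp only [if_pos h1]
    · rw [if_neg fun z => h1 z.1]; simp only [if_neg h1]; simp

/-- **the double is well formed** -/
theorem dbl_ok (h : S.Ok) (hI : S.Idl p) : (S.dbl p).Ok where
  ne w := dbl_ty w ▸ h.ne _
  one := rd_one h
  gr (w : S.DW p) (m : S.DW p →₀ ℕ) (e : S.rd p w m ≠ 0) := by
    have := h.gr _ _ (rd_ne e ▸ e)
    rw [Mh.weight_mapDomain] at this
    exact (congrArg (Finsupp.weight · m) (funext dbl_cd)).trans (this.trans (dbl_cd w).symm)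
  mul := rd_mul h hI
  eps w e := (dbl_dg w).trans (h.eps _ (dbl_ε w ▸ e))
  pd := Db.pd_k2 h.pd
  blk := by
    rintro (a | a) (b | b) e
    exacts [h.blk _ _ e, blk_cr' p h.blk _ _ e, blk_cr' p h.blk _ _ e, h.blk _ _ e]

theorem rd_fst {ι : Type} [Fintype ι] (lam : ι → S.W) (b : S.W) :
    S.rd p (.inl b) (∑ i, Finsupp.single (.inl (lam i)) 1) = S.r b (∑ i, Finsupp.single (lam i) 1) := by
  rw [rd_inl, if_pos fun w => of_not_not fun z => by simpa using sum_single_ne.1 z]
  simp [Finsupp.mapDomain_finsetSum]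

theorem rd_snd {ι : Type} [Fintype ι] (lam : ι → S.W) (b : {w // ¬ p w}) :
    S.rd p (.inr b) (∑ i, Finsupp.single (S.sn p (lam i)) 1) =
      S.r b (∑ i, Finsupp.single (lam i) 1) := by
  rw [rd_inr, if_pos fun w n => of_not_not fun z => ?_]
  · simp [Finsupp.mapDomain_finsetSum]
  · obtain ⟨i, e⟩ := sum_single_ne.1 z
    have : lam i = w := by simpa using congrArg (S.fo p) e
    rw [this, sn_neg n] at e
    cases e

/-- detection of a word of the second copy -/
theorem gen_snd (g : S.Gen p) (κ : S.DW p → ℤ) (a : {w // ¬ p w}) (k : κ (.inr a) ≠ 0) :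
    ∃ (l : ℕ) (lam : Fin (l + 1) → S.DW p), l + 1 = S.dg a ∧ (∀ i, S.dg (S.fo p (lam i)) = 1) ∧
      (∃ b, lam 0 = .inr b) ∧ ∑ w', κ w' * S.rd p w' (∑ i, Finsupp.single (lam i) 1) ≠ 0 := by
  obtain ⟨l, lam, e1, e2, e3, e4⟩ := g (fun w => if h : p w then 0 else κ (.inr ⟨w, h⟩))
    (fun w hw => dif_pos hw) a (by rwa [dif_neg a.2])
  refine ⟨l, fun i => S.sn p (lam i), e1, by simpa using e2, ⟨_, sn_neg e3⟩, ?_⟩
  have e : ∀ b, S.rd p (.inl b) (∑ i, Finsupp.single (S.sn p (lam i)) 1) = 0 := fun b =>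
    if_neg fun z => sum_single_ne.2 ⟨0, sn_neg e3⟩ (z _)
  rw [← Fintype.sum_subtype_add_sum_subtype p, sum_eq_zero fun b _ => by
    rw [dif_pos b.2, zero_mul], zero_add] at e4
  simp only [Fintype.sum_sum_type, e, rd_snd, mul_zero, sum_const_zero, zero_add]
  exact fun z => e4 ((sum_congr rfl fun b _ => by rw [dif_neg b.2]).trans z)

/-- the quotient on the first copy -/
theorem dbl_idl1 : (S.dbl p).Idl fun w : S.DW p => w.isLeft := by
  rintro (a | a) (m : S.DW p →₀ ℕ) hw (e : S.rd p _ m ≠ 0) (b | b) hb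
  · rfl
  · exact absurd (if_neg fun z => Finsupp.mem_support_iff.1 hb (z b)) e
  all_goals cases hw

theorem dbl_gen1 (g : S.Gen p) : (S.dbl p).Gen fun w : S.DW p => w.isLeft := by
  rintro (κ : S.DW p → ℤ) hκ (a | a) k
  · exact absurd (hκ _ rfl) k
  · obtain ⟨l, lam, e1, e2, ⟨b, e3⟩, e4⟩ := gen_snd g κ a k
    exact ⟨l, lam, e1, fun i => (dbl_dg _).trans (e2 i), by simp [e3], e4⟩

/-- ideals of `S` lift to the double -/
theorem dbl_idl {q : S.W → Prop} (hq : S.Idl q) : (S.dbl p).Idl fun w => q (S.fo p w) :=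
  fun _ (_ : S.DW p →₀ ℕ) hw e _ hb => hq _ _ hw (rd_ne e ▸ e) _
    (mapD_mem (S.fo p) (Finsupp.mem_support_iff.1 hb))

/-- generation of the lifted ideals -/
theorem dbl_gen (h : S.Ok) (g : S.Gen p) {q : S.W → Prop} (g' : S.Gen q) (i : ∀ w, q w → p w) :
    (S.dbl p).Gen fun w => q (S.fo p w) := by
  rintro (κ : S.DW p → ℤ) hκ (w : S.DW p) k
  by_cases c : ∃ a : {w // ¬ p w}, κ (.inr a) ≠ 0 ∧ S.dg a = S.dg (S.fo p w)
  · obtain ⟨a, k', d⟩ := c
    obtain ⟨l, lam, e1, e2, ⟨b, e3⟩, e4⟩ := gen_snd g κ a k'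
    exact ⟨l, lam, e1.trans (d.trans (dbl_dg w).symm), fun i => (dbl_dg _).trans (e2 i),
      fun z => b.2 (i _ (by simpa [e3] using z)), e4⟩
  · rcases w with a | a
    swap
    · exact absurd ⟨a, k, rfl⟩ c
    obtain ⟨l, lam, e1, e2, e3, e4⟩ := g' (fun w => κ (.inl w)) (fun w hw => hκ _ hw) a k
    refine ⟨l, fun i => .inl (lam i), e1, e2, e3, ?_⟩
    change ∑ w' : S.DW p, κ w' * S.rd p w' (∑ i, Finsupp.single (.inl (lam i)) 1) ≠ 0
    rw [Fintype.sum_sum_type, sum_eq_zero (s := (univ : Finset {w // ¬ p w})) fun b _ => ?_]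
    · simpa only [rd_fst, add_zero] using e4
    · refine of_not_not fun z => c ⟨b, left_ne_zero_of_mul z, ?_⟩
      have y := right_ne_zero_of_mul z
      have := Mh.wt_dg h (rd_ne y ▸ y)
      simp only [Finsupp.mapDomain_finsetSum, Finsupp.mapDomain_single, fo_inl, fo_inr, map_sum,
        Finsupp.weight_single, e2] at this
      simpa [← e1] using this.symm

/-- **the size of the double** -/
theorem dbl_sz {n : ℕ} {a : ℝ} (h : S.Sz n a) (hI : S.Idl p) (g : S.Gen p) :
    (S.dbl p).Sz (2 * n) (a / 2) where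
  toOk := dbl_ok h.toOk hI
  card := by
    change Fintype.card (S.DW p) ≤ _
    have := Fintype.card_subtype_le fun w => ¬ p w
    have := h.card
    rw [Fintype.card_sum]; omega
  ht w m := by
    by_cases e : S.rd p w m = 0
    · exact (congrArg abs e).trans_le (by simp)
    · refine (congrArg abs (rd_ne e)).trans_le ((h.ht _ _).trans ?_)
      push_cast; omega
  lo := k2_lo h.pd p h.lo
  gen := dbl_gen h.toOk g h.gen fun _ => False.elim

theorem Sz.mono {n n' : ℕ} {a a' : ℝ} (h : S.Sz n a) (hn : n ≤ n') (ha : a' ≤ a) : S.Sz n' a' where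
  toOk := h.toOk
  card := h.card.trans hn
  ht w m := (h.ht w m).trans (by exact_mod_cast hn)
  lo x := (mul_le_mul_of_nonneg_right ha (by positivity)).trans (h.lo x)
  gen := h.gen

theorem dbl_sz3 {n : ℕ} {a : ℝ} (h : S.Sz n a) (ha : 0 ≤ a) (hI : S.Idl p) (g : S.Gen p) :
    (S.dbl p).Sz (2 * n) (a / 3) := (dbl_sz h hI g).mono le_rfl (by linarith)

section hom
variable (R : Type) [CommRing R]

variable (S p) in
/-- the first projection of the ring of the double -/
def π1 : MvPolynomial (S.DW p) R →ₐ[R] MvPolynomial S.W R :=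
  aeval fun w => if w.isLeft then X (S.fo p w) else 0

variable (S p) in
/-- the second projection of the ring of the double -/
def π2 : MvPolynomial (S.DW p) R →ₐ[R] MvPolynomial S.W R :=
  aeval fun w => if w.isRight ∨ p (S.fo p w) then X (S.fo p w) else 0

variable {R}

theorem dbl_cf (w : S.DW p) (m : S.DW p →₀ ℕ) (c : R) :
    (S.dbl p).cf R w (monomial m c) = c * S.rd p w m := Mh.cf_mon _ _ _ _

theorem cf_inl (a : S.W) (P : MvPolynomial (S.DW p) R) :
    (S.dbl p).cf R (.inl a) P = S.cf R a (S.π1 p R P) := by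
  classical
  induction P using MvPolynomial.induction_on' with
  | add P Q h k => rw [map_add, map_add, ← h, ← k]; exact map_add _ _ _
  | monomial m c =>
    rw [dbl_cf, π1, aeval_ite, rd_inl]
    simp only [Sum.forall, Sum.isLeft_inl, Sum.isLeft_inr, not_true, false_imp_iff, implies_true,
      true_and, Bool.false_eq_true, not_false_iff, true_imp_iff]
    split_ifs <;> simp [Mh.cf_mon]

theorem cf_inr (a : {w // ¬ p w}) (P : MvPolynomial (S.DW p) R) :
    (S.dbl p).cf R (.inr a) P = S.cf R a (S.π2 p R P) := by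
  classical
  induction P using MvPolynomial.induction_on' with
  | add P Q h k => rw [map_add, map_add, ← h, ← k]; exact map_add _ _ _
  | monomial m c =>
    rw [dbl_cf, π2, aeval_ite, rd_inr]
    simp only [Sum.forall, Sum.isRight_inl, Sum.isRight_inr, not_true, false_imp_iff, implies_true,
      and_true, Bool.false_eq_true, false_or, true_or, fo_inl]
    split_ifs <;> simp [Mh.cf_mon]

theorem dia_apply (w' : S.DW p) (w : S.W) : S.dia p w' w = if w = S.fo p w' then 1 else 0 := rfl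

variable (S p) in
/-- `dia` on the raw type of words -/
def dia' : Matrix (S.DW p) S.W ℤ := S.dia p

theorem dia'_apply (w' : S.DW p) (w : S.W) : S.dia' p w' w = if w = S.fo p w' then 1 else 0 := rfl

theorem pu_dia (a : S.W) : Mh.pu R (S.dia' p) (X a) =
    X (.inl a) + if h : p a then 0 else X (.inr ⟨a, h⟩) := by
  rw [Mh.pu_X, Fintype.sum_sum_type, sum_eq_single a (fun b _ n => by
    rw [dia'_apply, if_neg (c := a = S.fo p (.inl b)) n.symm, zero_smul]) fun z => absurd (mem_univ _) z, dia'_apply,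
    if_pos (fo_inl a).symm, one_smul]
  congr 1
  split_ifs with h
  · exact sum_eq_zero fun b _ => by
      rw [dia'_apply, if_neg fun z : a = S.fo p (.inr b) => b.2 ((show a = b.1 from z) ▸ h), zero_smul]
  · rw [sum_eq_single ⟨a, h⟩ (fun b _ n => by
      rw [dia'_apply, if_neg fun z : a = S.fo p (.inr b) => n (Subtype.ext z.symm), zero_smul])
      fun z => absurd (mem_univ _) z, dia'_apply, if_pos (fo_inr ⟨a, h⟩).symm, one_smul]

theorem π1_dia (P : MvPolynomial S.W R) : S.π1 p R (Mh.pu R (S.dia' p) P) = P := by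
  have : (S.π1 p R).comp (Mh.pu R (S.dia' p)) = AlgHom.id R _ := algHom_ext fun a => by
    rw [AlgHom.comp_apply, pu_dia]
    split_ifs <;> simp [π1]
  exact DFunLike.congr_fun this P

theorem π2_dia (P : MvPolynomial S.W R) : S.π2 p R (Mh.pu R (S.dia' p) P) = P := by
  have : (S.π2 p R).comp (Mh.pu R (S.dia' p)) = AlgHom.id R _ := algHom_ext fun a => by
    rw [AlgHom.comp_apply, pu_dia]
    split_ifs with h <;> simp [π2, h]
  exact DFunLike.congr_fun this P

/-- **the diagonal is a morphism** -/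
theorem hm_dia : S.Hm (S.dbl p) (S.dia p) where
  cd (x : S.DW p) w e := by
    rw [dbl_cd, show w = S.fo p x from of_not_not fun z => e (if_neg z)]
  mul (x : S.DW p) m _ := by
    change ∑ w, S.dia p x w * S.r w m = (S.dbl p).cf ℤ x (Mh.pu ℤ (S.dia' p) _)
    simp only [dia_apply, ite_mul, one_mul, zero_mul, sum_ite_eq', mem_univ, if_true]
    rcases x with a | a
    · rw [cf_inl, π1_dia, Mh.cf_mon1, fo_inl]
    · rw [cf_inr, π2_dia, Mh.cf_mon1, fo_inr]
  mass := funext fun x : S.DW p => by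
    change ∑ w, S.dia p x w * S.ε w = _
    simp [dia_apply, dbl_ε]

end hom

end Sh

end Crest.Agent.N49.Tw

end
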