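import Crest.Agent.N49.Tw.Exp
import Crest.Agent.N49.Tw.Db0

/-!
# Row 49 (helper19): clones (`dbl`), fibre kernels, Fubini and Cauchy–Schwarz
-/

set_option autoImplicit false

open Matrix MvPolynomial Finset

noncomputable section

namespace Crest.Agent.N49.Tw

open Po Db

theorem weight_mapD {α β M : Type} [AddCommMonoid M] (w : β → M) (f : α → β) (m : α →₀ ℕ) :
    Finsupp.weight w (m.mapDomain f) = Finsupp.weight (fun a => w (f a)) m := by
  induction m using Finsupp.induction_linear with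
  | zero => simp
  | add m m' h h' => rw [Finsupp.mapDomain_add, map_add, map_add, h, h']
  | single c k => rw [Finsupp.mapDomain_single, Finsupp.weight_single, Finsupp.weight_single]

theorem weight_sub_eq {C M : Type} [AddCommMonoid M] (p : C → Prop) [DecidablePred p] (w : C → M)
    (m : C →₀ ℕ) (h : ∀ c, m c ≠ 0 → p c) :
    Finsupp.weight (fun c : {c // p c} => w c.1) (m.subtypeDomain p) = Finsupp.weight w m := by
  rw [← weight_mapD w Subtype.val]
  congr 1
  ext c
  by_cases hc : p c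
  · exact Finsupp.mapDomain_apply Subtype.val_injective _ ⟨c, hc⟩
  · rw [Finsupp.mapDomain_of_notMem_range _ _ (by simpa using hc)]
    exact (by_contra fun n => hc (h c (Ne.symm n)))

theorem tsum_cs {X : Type*} {r f g : X → ℝ} (hf : ∀ x, 0 ≤ f x) (hg : ∀ x, 0 ≤ g x)
    (sf : Summable f) (sg : Summable g) (hr : ∀ x, 0 ≤ r x) (h : ∀ x, r x ^ 2 ≤ f x * g x) :
    Summable r ∧ (∑' x, r x) ^ 2 ≤ (∑' x, f x) * ∑' x, g x := by
  have sr : Summable r := (sf.add sg).of_nonneg_of_le hr fun x =>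
    (abs_le_of_sq_le_sq' (a := r x) (b := f x + g x) (by
      nlinarith [h x, mul_nonneg (hf x) (hg x), sq_nonneg (f x), sq_nonneg (g x)])
      (add_nonneg (hf x) (hg x))).2
  refine ⟨sr, le_of_tendsto' (sr.hasSum.pow 2) fun s => ?_⟩
  exact (sum_sq_le_sum_mul_sum_of_sq_le_mul s (fun x _ => hf x) (fun x _ => hg x)
    fun x _ => h x).trans (mul_le_mul (sf.sum_le_tsum s fun x _ => hf x)
      (sg.sum_le_tsum s fun x _ => hg x) (sum_nonneg fun x _ => hg x) (tsum_nonneg hf))

theorem HasSum.congr' {X E : Type*} [AddCommMonoid E] [TopologicalSpace E] {f g : X → E} {a : E}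
    (h : HasSum f a) (e : ∀ x, f x = g x) : HasSum g a := (funext e : f = g) ▸ h

section fub
variable {C : Type} (p : C → Prop) [DecidablePred p]

/-- the splitting of the configurations of two clones -/
def spl2 (R : Type) : ({c // p c} → R) × ({c // ¬ p c} → R) × ({c // ¬ p c} → R) ≃
    (C ⊕ {c // ¬ p c} → R) where
  toFun x := Sum.elim (mg p x.1 x.2.1) x.2.2
  invFun y := (fun c => y (.inl c.1), fun c => y (.inl c.1), fun c => y (.inr c))
  left_inv x := by simp
  right_inv y := funext fun c => by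
    rcases c with c | c
    · exact congrFun (mg_self p fun c => y (.inl c)) c
    · rfl

variable {E : Type*} [NormedAddCommGroup E] [CompleteSpace E]

theorem summable_fib {F : (C → ℤ) → E} (h : Summable F) (a : {c // p c} → ℤ) :
    Summable fun z => F (mg p a z) :=
  ((spl p ℤ).summable_iff.2 h).prod_factor a

theorem hasSum_fib {F : (C → ℤ) → E} (h : Summable F) :
    HasSum (fun a => ∑' z, F (mg p a z)) (∑' y, F y) :=
  ((spl p ℤ).hasSum_iff.2 h.hasSum).prod_fiberwise fun a => (summable_fib p h a).hasSum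

theorem hasSum_fib2 {F : (C ⊕ {c // ¬ p c} → ℤ) → E} (h : Summable F) :
    HasSum (fun a => ∑' z : ({c // ¬ p c} → ℤ) × ({c // ¬ p c} → ℤ),
      F (Sum.elim (mg p a z.1) z.2)) (∑' y, F y) :=
  ((spl2 p ℤ).hasSum_iff.2 h.hasSum).prod_fiberwise fun a =>
    (((spl2 p ℤ).summable_iff.2 h).prod_factor a).hasSum

theorem glue_mg {R : Type} (a a' : {c // p c} → R) (z z' : {c // ¬ p c} → R) :
    glue (fun c => ¬ p c) z (mg p a z') = mg p a z ∧ glue p a (mg p a' z) = mg p a z := by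
  constructor <;> funext c <;> by_cases h : p c <;> simp [glue, mg, h]

theorem mg_res {R : Type} (a : {c // p c} → R) (z : {c // ¬ p c} → R) :
    (fun c : {c // p c} => mg p a z c.1) = a := funext (mg_pos p a z)

theorem zc_mg (a : {c // p c} → ℤ) (z : {c // ¬ p c} → ℤ) :
    zc (mg p a z) = mg p (zc a) (zc z) := funext fun c => by
  by_cases h : p c <;> simp [zc, mg, h]

end fub

namespace TS

variable {σ : Type} {T : TS σ} {p : T.C → Prop} [DecidablePred p]

omit [DecidablePred p] in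
theorem Low.u_congr (hp : T.Low p) {y y' : T.C → ℝ} (e : ∀ c, p c → y c = y' c) {c : T.C}
    (hc : p c) : T.u y c = T.u y' c :=
  eval₂_congr _ _ _ fun {i m} hi hm => e _ (hp c hc i
    ((mem_vars_iff_mem_support _).2 ⟨m, mem_support_iff.2 hm, hi⟩))

omit [DecidablePred p] in
theorem Low.u_cg (hp : T.Low p) {y y' : T.C → ℝ} (e : ∀ c, p c → y c = y' c) {c : T.C}
    (hc : p c) : T.u y c = T.u y' c := hp.u_congr e hc

theorem Low.u_cut (hp : T.Low p) (b : T.C → ℤ) (y : T.C → ℝ) (c : {c // p c}) :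
    (T.cut p b).u (fun c => y c.1) c = T.u y c.1 :=
  (T.u_cut p b _ c).trans (hp.u_congr (fun _ h => glue_pos _ _ h) c.2)

theorem Low.wt_cut (hp : T.Low p) (b b' : T.C → ℤ) : (T.cut p b).wt = (T.cut p b').wt := by
  refine funext fun a : {c // p c} → ℤ => ?_
  have : ∀ b : T.C → ℤ, (T.cut p b).u (zc a) = fun c => T.u (mg p (zc a) 0) c.1 := fun b =>
    funext fun c => (T.u_cut p b _ c).trans (hp.u_congr (fun _ h => (dif_pos h).trans (dif_pos h).symm) c.2)
  exact congrArg (gs (pp p T.K)⁻¹) ((this b).trans (this b').symm)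

theorem snd_pos {c : T.C} (h : p c) : T.snd p c = .inl c := dif_pos h

theorem snd_neg (c : {c // ¬ p c}) : T.snd p c.1 = .inr c := dif_neg c.2

theorem snd_inj : Function.Injective (T.snd p) := fun c c' e => by
  by_cases h : p c <;> by_cases h' : p c' <;> simp_all [snd]

theorem snd_mg {R : Type} (y : T.C ⊕ {c // ¬ p c} → R) :
    (fun c => y (T.snd p c)) = mg p (fun c => y (.inl c.1)) fun c => y (.inr c) :=
  funext fun c => by by_cases h : p c <;> simp [snd, mg, h]

theorem elim_snd {R : Type} (a : {c // p c} → R) (z z' : {c // ¬ p c} → R) :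
    (fun c => Sum.elim (mg p a z) z' (T.snd p c)) = mg p a z' := by
  rw [snd_mg]; simp

theorem deg_snd (c : T.C) : (T.dbl p).deg (T.snd p c) = T.deg c := by
  by_cases h : p c <;> simp [snd, h, dbl]

theorem lev_snd (c : T.C) : (T.dbl p).lev (T.snd p c) = T.lev c :=
  congrArg Finsupp.degree (deg_snd c)

theorem u_dbl_inl (y : T.C ⊕ {c // ¬ p c} → ℝ) (c : T.C) :
    (T.dbl p).u y (.inl c) = T.u (fun c => y (.inl c)) c := eval_rename _ _ _

theorem u_dbl_inr (y : T.C ⊕ {c // ¬ p c} → ℝ) (c : {c // ¬ p c}) :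
    (T.dbl p).u y (.inr c) = T.u (fun c => y (T.snd p c)) c.1 := eval_rename _ _ _

theorem Low.u_dbl_snd (hp : T.Low p) (y : T.C ⊕ {c // ¬ p c} → ℝ) (c : T.C) :
    (T.dbl p).u y (T.snd p c) = T.u (fun c => y (T.snd p c)) c := by
  by_cases h : p c
  · rw [snd_pos h, u_dbl_inl]
    exact hp.u_congr (fun _ h => by rw [snd_pos h]) h
  · rw [snd_neg ⟨c, h⟩, u_dbl_inr]

theorem K_dbl (T : TS σ) (p : T.C → Prop) [DecidablePred p] : (T.dbl p).K = k2 p T.K := rfl

theorem coeff_ren {α β : Type} {f : α → β} (hf : Function.Injective f) (P : MvPolynomial α ℝ)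
    (a : α) : coeff (Finsupp.single (f a) 1) (rename f P) = coeff (Finsupp.single a 1) P := by
  rw [← Finsupp.mapDomain_single, coeff_rename_mapDomain f hf]

theorem coeff_ren0 {α β : Type} {f : α → β} (P : MvPolynomial α ℝ) {b : β} (hb : ∀ a, f a ≠ b) :
    coeff (Finsupp.single b 1) (rename f P) = 0 := by
  by_contra n
  obtain ⟨u, e, -⟩ := coeff_rename_ne_zero _ _ _ n
  have := Finsupp.mapDomain_of_notMem_range (f := f) u b (by simpa using hb)
  simp [e] at this

theorem A_dbl (T : TS σ) (p : T.C → Prop) [DecidablePred p] : (T.dbl p).A = fromBlocks T.A 0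
    (Matrix.of fun (c : {c // ¬ p c}) c' => if p c' then T.A c.1 c' else 0)
    (T.A.submatrix Subtype.val Subtype.val) := by
  refine funext fun c : T.C ⊕ {c // ¬ p c} => funext fun c' : T.C ⊕ {c // ¬ p c} => ?_
  rcases c with c | c <;> rcases c' with c' | c'
  · exact if_congr Iff.rfl (coeff_ren Sum.inl_injective _ _) rfl
  · exact (if_congr Iff.rfl (coeff_ren0 _ fun _ => Sum.inl_ne_inr) rfl).trans (ite_self _)
  · by_cases h : p c'
    · refine Eq.trans ?_ (if_pos h).symm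
      refine if_congr Iff.rfl ?_ rfl
      rw [← snd_pos h]; exact coeff_ren snd_inj _ _
    · refine Eq.trans ?_ (if_neg h).symm
      refine (if_congr Iff.rfl (coeff_ren0 _ fun a e => ?_) rfl).trans (ite_self _)
      by_cases k : p a
      · rw [snd_pos k] at e; exact h (Sum.inl_injective e ▸ k)
      · rw [snd_neg ⟨a, k⟩] at e; exact Sum.inr_ne_inl e
  · refine if_congr Iff.rfl ?_ rfl
    rw [← snd_neg c']; exact coeff_ren snd_inj _ _

theorem det_A_dbl (T : TS σ) (p : T.C → Prop) [DecidablePred p] :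
    (T.dbl p).A.det = T.A.det * (pp (fun c => ¬ p c) T.A).det := by
  rw [A_dbl]; exact det_fromBlocks_zero₁₂ _ _ _

theorem det_dblA (T : TS σ) (p : T.C → Prop) [DecidablePred p] :
    (T.dbl p).A.det = T.A.det * (pp (fun c => ¬ p c) T.A).det := det_A_dbl T p

theorem Low.det_A (hp : T.Low p) : T.A.det = (pp p T.A).det * (pp (fun c => ¬ p c) T.A).det := by
  rw [twoBlockTriangular_det' _ p fun _ hc _ hc' => hp.A_eq hc hc']
  congr 1

/-- the complement of a low set, with frozen low coordinates -/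
theorem Tri.cut_not (h : T.Tri) (hp : T.Low p) (b : T.C → ℤ) : (T.cut (fun c => ¬ p c) b).Tri :=
  h.cut _ b (.inr fun _ hc _ hc' => hp.A_eq (not_not.1 hc) hc')

theorem Tri.dbl (h : T.Tri) (hp : T.Low p) : (T.dbl p).Tri where
  tri c m hm := by
    rcases c with c | c
    · obtain ⟨u, rfl, hu⟩ := coeff_rename_ne_zero _ _ _ (mem_support_iff.1 hm)
      exact (weight_mapD _ _ _).trans_le (h.tri c u (mem_support_iff.2 hu))
    · obtain ⟨u, rfl, hu⟩ := coeff_rename_ne_zero _ _ _ (mem_support_iff.1 hm)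
      refine (weight_mapD _ _ _).trans_le ?_
      rw [_root_.funext lev_snd]; exact h.tri c.1 u (mem_support_iff.2 hu)
  ne c := by rcases c with c | c <;> exact h.ne _
  det := by
    have := h.det
    rw [hp.det_A] at this
    rw [det_A_dbl]; exact mul_ne_zero h.det (right_ne_zero_of_mul this)
  pd := pd_k2 h.pd
  blk c c' := by
    rcases c with c | c <;> rcases c' with c' | c'
    · exact h.blk _ _
    · exact blk_cr (l := T.lev) h.blk _ _
    · exact blk_cr (l := T.lev) h.blk _ _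
    · exact h.blk _ _

theorem Hom.dbl {q : σ → Prop} [DecidablePred q] (h : T.Hom q) : (T.dbl p).Hom q := by
  rintro (c | c) m hm
  · obtain ⟨u, rfl, hu⟩ := coeff_rename_ne_zero _ _ _ hm
    exact (weight_mapD _ _ _).trans (h c hu)
  · obtain ⟨u, rfl, hu⟩ := coeff_rename_ne_zero _ _ _ hm
    refine (weight_mapD _ _ _).trans ?_
    simp only [deg_snd]; exact h c.1 hu

theorem Ok.dbl (h : T.Ok) (hp : T.Low p) : (T.dbl p).Ok := ⟨h.toTri.dbl hp, by
  rintro (c | c) m hm
  · obtain ⟨u, rfl, hu⟩ := coeff_rename_ne_zero _ _ _ hm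
    exact (weight_mapD _ _ _).trans (h.hom c hu)
  · obtain ⟨u, rfl, hu⟩ := coeff_rename_ne_zero _ _ _ hm
    refine (weight_mapD _ _ _).trans ?_
    rw [_root_.funext deg_snd]; exact h.hom c.1 hu⟩

/-- cutting at `0` keeps weighted homogeneity -/
theorem hom_cut0 {M : Type} [AddCommMonoid M] {w : T.C → M} {d : M} {c : {c // p c}}
    (h : (T.Φ c.1).IsWeightedHomogeneous w d) :
    ((T.cut p 0).Φ c).IsWeightedHomogeneous (fun c : {c // p c} => w c.1) d :=
  fun (n : {c // p c} →₀ ℕ) hn => by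
  obtain ⟨m, hm, h0⟩ := exists_ne_zero_of_sum_ne_zero
    ((coeff_cut p (fun c => ((0 : T.C → ℤ) c : ℝ)) (T.Φ c.1) n).symm.trans_ne hn)
  obtain ⟨h2, rfl⟩ := mem_filter.1 hm
  exact (weight_sub_eq p w m fun i hi => by_contra fun k => right_ne_zero_of_mul h0
    (prod_eq_zero (Finsupp.mem_support_iff.2 hi) (by simp [k, hi]))).trans
    (h (mem_support_iff.1 h2))

theorem Ok.cut0 (h : T.Ok) (ht : (T.cut p 0).Tri) : (T.cut p 0).Ok :=
  ⟨ht, fun c => hom_cut0 (h.hom c.1)⟩

theorem Hom.cut0 {q : σ → Prop} [DecidablePred q] (h : T.Hom q) : (T.cut p 0).Hom q :=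
  fun c => hom_cut0 (w := fun c => (T.deg c).filter q) (d := (T.deg c.1).filter q) (h c.1)

theorem low_dbl (T : TS σ) (p : T.C → Prop) [DecidablePred p] :
    (T.dbl p).Low fun c : T.C ⊕ {c // ¬ p c} => c.isLeft = true := by
  intro (c : T.C ⊕ {c // ¬ p c}) hc (c' : T.C ⊕ {c // ¬ p c}) h'
  rcases c with c | c
  · have h2 : c' ∈ (rename (Sum.inl : T.C → T.C ⊕ {c // ¬ p c}) (T.Φ c)).vars := h'
    obtain ⟨i, -, rfl⟩ := mem_vars_rename _ _ h2
    rfl
  · exact absurd hc Bool.false_ne_true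

/-! ### the fibre kernel -/

variable (T p) in
/-- the conditional weight of the coordinates outside `p` -/
def ker (a : {c // p c} → ℤ) (z : {c // ¬ p c} → ℤ) : ℝ := T.wt (mg p a z) / (T.cut p 0).wt a

theorem wt_mg (a : {c // p c} → ℤ) (z : {c // ¬ p c} → ℤ) :
    T.wt (mg p a z) = (T.cut p 0).wt a * T.ker p a z :=
  (mul_div_cancel₀ _ (wt_pos _ _).ne').symm

theorem ker_pos (a : {c // p c} → ℤ) (z : {c // ¬ p c} → ℤ) : 0 < T.ker p a z :=
  div_pos (wt_pos _ _) (wt_pos _ _)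

theorem Low.wt_cut0 (hp : T.Low p) (y : T.C → ℤ) :
    (T.cut p 0).wt (fun c : {c // p c} => y c.1) = gs (pp p T.K)⁻¹ fun c => T.u (zc y) c.1 :=
  congrArg (gs (pp p T.K)⁻¹) (funext (hp.u_cut 0 (zc y)))

theorem Tri.wt_le_cut (h : T.Tri) (hp : T.Low p) (y : T.C → ℤ) :
    T.wt y ≤ (T.cut p 0).wt fun c : {c // p c} => y c.1 := by
  rw [hp.wt_cut0]
  exact Real.exp_le_exp.2 (neg_le_neg (mul_le_mul_of_nonneg_left (qf_pp_le h.pd _) Real.pi_pos.le))

theorem Tri.ker_le (h : T.Tri) (hp : T.Low p) (a : {c // p c} → ℤ) (z : {c // ¬ p c} → ℤ) :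
    T.ker p a z ≤ 1 := by
  refine (div_le_one (wt_pos _ _)).2 ?_
  have := h.wt_le_cut hp (mg p a z)
  rwa [mg_res] at this

/-- the weight of the two clones -/
theorem Tri.wt_dbl (h : T.Tri) (hp : T.Low p) (y : T.C ⊕ {c // ¬ p c} → ℤ) :
    (T.dbl p).wt y = T.wt (fun c => y (.inl c)) * T.wt (fun c => y (T.snd p c)) /
      (T.cut p 0).wt fun c : {c // p c} => y (.inl c.1) := by
  have e : (T.dbl p).u (zc y) = Sum.elim (T.u (zc fun c => y (.inl c)))
      fun c : {c // ¬ p c} => T.u (zc fun c => y (T.snd p c)) c.1 := funext fun c => by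
    rcases c with c | c
    · exact u_dbl_inl _ c
    · exact u_dbl_inr _ c
  have e2 : mg p (fun c => T.u (zc fun c => y (.inl c)) c.1)
      (fun c : {c // ¬ p c} => T.u (zc fun c => y (T.snd p c)) c.1) =
      T.u (zc fun c => y (T.snd p c)) := by
    refine Eq.trans ?_ (mg_self p _)
    congr 1
    exact funext fun c => hp.u_congr (fun _ k => by simp [zc, snd_pos k]) c.2
  refine (congrArg (gs (k2 p T.K)⁻¹) e).trans ?_
  rw [hp.wt_cut0 fun c => y (.inl c), gs, qf_k2 h.pd, e2, wt, wt, gs, gs, gs, ← Real.exp_add,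
    ← Real.exp_sub]
  congr 1; ring

theorem Tri.wt_elim (h : T.Tri) (hp : T.Low p) (a : {c // p c} → ℤ) (z z' : {c // ¬ p c} → ℤ) :
    (T.dbl p).wt (Sum.elim (mg p a z) z') = (T.cut p 0).wt a * (T.ker p a z * T.ker p a z') := by
  rw [h.wt_dbl hp, elim_snd]
  simp only [Sum.elim_inl]
  rw [mg_res, wt_mg, wt_mg]
  field_simp [(wt_pos (T.cut p 0) a).ne']

/-- without coupling the kernel is the Gibbs weight of the fibre -/
theorem Tri.ker_sep (h : T.Tri) (hp : T.Low p) (hs : T.Sep p) (a : {c // p c} → ℤ)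
    (z : {c // ¬ p c} → ℤ) : T.ker p a z = (T.cut (fun c => ¬ p c) (mg p a 0)).wt z := by
  have e := hp.wt_cut0 (mg p a z)
  rw [mg_res] at e
  have e2 : (T.cut (fun c => ¬ p c) (mg p a 0)).u (zc z) = fun c => T.u (zc (mg p a z)) c.1 :=
    funext fun c => (T.u_cut _ _ _ c).trans (by
      rw [zc_mg, zc_mg]; exact congrArg (T.u · c.1) (glue_mg p _ (zc a) _ _).1)
  refine Eq.trans ?_ (congrArg (gs (pp (fun c => ¬ p c) T.K)⁻¹) e2).symm
  refine (div_eq_iff (wt_pos _ _).ne').2 ?_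
  rw [e, wt]
  simp only [gs]
  rw [qf_sep h.pd hs, ← Real.exp_add, mul_add, neg_add, add_comm]
  congr!

theorem Tri.summable_ker (h : T.Tri) (a : {c // p c} → ℤ) : Summable (T.ker p a) :=
  (summable_fib p h.summable a).div_const _

/-! ### Fubini -/

variable (T p) in
/-- the fibre sum -/
def fib (g : (T.C → ℤ) → ℂ) (a : {c // p c} → ℤ) : ℂ := ∑' z, (T.ker p a z : ℂ) * g (mg p a z)

variable (T p) in
/-- the real fibre sum -/
def fibR (g : (T.C → ℤ) → ℝ) (a : {c // p c} → ℤ) : ℝ := ∑' z, T.ker p a z * g (mg p a z)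

theorem fib_ofReal (g : (T.C → ℤ) → ℝ) (a : {c // p c} → ℤ) :
    T.fib p (fun y => g y) a = T.fibR p g a := by
  simp [fib, fibR, Complex.ofReal_tsum]

theorem fib_mul (f : ({c // p c} → ℤ) → ℂ) (g : (T.C → ℤ) → ℂ) (a : {c // p c} → ℤ) :
    T.fib p (fun y => f (fun c => y c.1) * g y) a = f a * T.fib p g a := by
  simp only [fib, mg_res, ← tsum_mul_left, mul_left_comm]

theorem fib_conj (g : (T.C → ℤ) → ℂ) (a : {c // p c} → ℤ) :
    T.fib p (fun y => (starRingEnd ℂ) (g y)) a = (starRingEnd ℂ) (T.fib p g a) := by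
  simp [fib, Complex.conj_tsum]

variable {g g' : (T.C → ℤ) → ℂ} {B B' : ℝ}

theorem Tri.hasSum_Sc (h : T.Tri) (hg : ∀ y, ‖g y‖ ≤ B) :
    HasSum (fun a : {c // p c} → ℤ => ((T.cut p 0).wt a : ℂ) * T.fib p g a) (T.Sc g) := by
  have := hasSum_fib p (summable_wt (fun y => (T.wt_pos y).le) h.summable hg)
  simp only [wt_mg, Complex.ofReal_mul, mul_assoc, tsum_mul_left] at this
  exact this

theorem Tri.hasSum_S (h : T.Tri) {g : (T.C → ℤ) → ℝ} (hg : ∀ y, |g y| ≤ B) :
    HasSum (fun a : {c // p c} → ℤ => (T.cut p 0).wt a * T.fibR p g a) (T.S g) := by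
  have := h.hasSum_Sc (p := p) (g := fun y => g y) (B := B) (by simpa using hg)
  simp only [fib_ofReal, Sc_ofReal] at this
  exact_mod_cast this

theorem Tri.hasSum_Z (h : T.Tri) :
    HasSum (fun a : {c // p c} → ℤ => (T.cut p 0).wt a * ∑' z, T.ker p a z) T.Z := by
  have := hasSum_fib p h.summable
  simp only [wt_mg, tsum_mul_left] at this
  exact this

theorem Tri.summable_fib (h : T.Tri) (hg : ∀ y, ‖g y‖ ≤ B) (a : {c // p c} → ℤ) :
    Summable fun z => ‖(T.ker p a z : ℂ) * g (mg p a z)‖ :=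
  (summable_wt (fun z => (ker_pos a z).le) (h.summable_ker a) fun z => hg (mg p a z)).norm

theorem Tri.norm_fib_le (h : T.Tri) (hg : ∀ y, ‖g y‖ ≤ B) (a : {c // p c} → ℤ) :
    ‖T.fib p g a‖ ≤ B * ∑' z, T.ker p a z := by
  exact norm_wt_le (fun z => (ker_pos a z).le) (h.summable_ker a) fun z => hg (mg p a z)

theorem Tri.hasSum_dbl (h : T.Tri) (hp : T.Low p) (hg : ∀ y, ‖g y‖ ≤ B) (hg' : ∀ y, ‖g' y‖ ≤ B') :
    HasSum (fun a : {c // p c} → ℤ => ((T.cut p 0).wt a : ℂ) * (T.fib p g a * T.fib p g' a))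
      ((T.dbl p).Sc fun y => g (fun c => y (.inl c)) * g' fun c => y (T.snd p c)) := by
  have := hasSum_fib2 p (F := fun y => ((T.dbl p).wt y : ℂ) *
      (g (fun c => y (.inl c)) * g' fun c => y (T.snd p c)))
    (summable_wt (B := B * B') (fun y => (wt_pos _ y).le) (h.dbl hp).summable fun y => by
      rw [norm_mul]
      exact mul_le_mul (hg _) (hg' _) (norm_nonneg _) ((norm_nonneg _).trans (hg 0)))
  refine HasSum.congr' this fun a => Eq.symm ?_
  rw [fib, fib, tsum_mul_tsum_of_summable_norm (h.summable_fib hg a) (h.summable_fib hg' a),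
    ← tsum_mul_left]
  refine tsum_congr fun z => ?_
  rw [h.wt_elim hp, elim_snd]
  simp only [Sum.elim_inl]
  push_cast; ring

theorem Tri.hasSum_dblR (h : T.Tri) (hp : T.Low p) {g g' : (T.C → ℤ) → ℝ} (hg : ∀ y, |g y| ≤ B)
    (hg' : ∀ y, |g' y| ≤ B') :
    HasSum (fun a : {c // p c} → ℤ => (T.cut p 0).wt a * (T.fibR p g a * T.fibR p g' a))
      ((T.dbl p).S fun y => g (fun c => y (.inl c)) * g' fun c => y (T.snd p c)) := by
  have := h.hasSum_dbl hp (g := fun y => g y) (g' := fun y => g' y) (B := B) (B' := B')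
    (by simpa using hg) (by simpa using hg')
  simp only [fib_ofReal, ← Complex.ofReal_mul, Sc_ofReal] at this
  exact_mod_cast this

theorem Tri.hasSum_dblZ (h : T.Tri) (hp : T.Low p) :
    HasSum (fun a : {c // p c} → ℤ => (T.cut p 0).wt a * (∑' z, T.ker p a z) ^ 2) (T.dbl p).Z := by
  simpa [fibR, S, Z, sq] using h.hasSum_dblR hp (g := fun _ => 1) (g' := fun _ => 1) (B := 1)
    (B' := 1) (by simp) (by simp)

theorem Tri.hasSum_dbl_sq (h : T.Tri) (hp : T.Low p) (hg : ∀ y, ‖g y‖ ≤ B) :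
    HasSum (fun a : {c // p c} → ℤ => (T.cut p 0).wt a * ‖T.fib p g a‖ ^ 2)
      ((T.dbl p).Sc fun y => g (fun c => y (.inl c)) *
        (starRingEnd ℂ) (g fun c => y (T.snd p c))).re := by
  have := Complex.hasSum_re (h.hasSum_dbl hp hg (g' := fun y => (starRingEnd ℂ) (g y)) (B' := B)
    (by simpa using hg))
  simpa only [fib_conj, Complex.mul_conj, Complex.normSq_eq_norm_sq, ← Complex.ofReal_mul,
    Complex.ofReal_re] using this

/-- **Cauchy–Schwarz by cloning** -/
theorem Tri.cs_dbl (h : T.Tri) (hp : T.Low p) {f : ({c // p c} → ℤ) → ℂ} {A : ℝ}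
    (hf : ∀ a, ‖f a‖ ≤ A) (hg : ∀ y, ‖g y‖ ≤ B) :
    ‖T.Sc fun y => f (fun c => y c.1) * g y‖ ^ 2 ≤
      (T.cut p 0).S (fun a : {c // p c} → ℤ => ‖f a‖ ^ 2) *
      ((T.dbl p).Sc fun y => g (fun c => y (.inl c)) *
        (starRingEnd ℂ) (g fun c => y (T.snd p c))).re := by
  have h1 := h.hasSum_Sc (p := p) (g := fun y => f (fun c => y c.1) * g y) (B := A * B) fun y => by
    rw [norm_mul]
    exact mul_le_mul (hf _) (hg _) (norm_nonneg _) ((norm_nonneg _).trans (hf 0))
  have h2 := h.hasSum_dbl_sq hp hg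
  have w := fun a : {c // p c} → ℤ => (wt_pos (T.cut p 0) a).le
  have h3 : Summable fun a : {c // p c} → ℤ => (T.cut p 0).wt a * ‖f a‖ ^ 2 :=
    ((h.cut_low hp 0).summable.mul_right (A ^ 2)).of_nonneg_of_le
      (fun a => mul_nonneg (w a) (sq_nonneg _)) fun a =>
      mul_le_mul_of_nonneg_left (pow_le_pow_left₀ (norm_nonneg _) (hf a) 2) (w a)
  obtain ⟨h4, h5⟩ := tsum_cs (r := fun a : {c // p c} → ℤ => ‖((T.cut p 0).wt a : ℂ) *
      T.fib p (fun y => f (fun c => y c.1) * g y) a‖) (fun a => mul_nonneg (w a) (sq_nonneg _))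
    (fun a => mul_nonneg (w a) (sq_nonneg _)) h3 h2.summable (fun _ => norm_nonneg _) fun a => by
      rw [fib_mul, norm_mul, norm_mul, Complex.norm_of_nonneg (w a)]
      exact le_of_eq (by ring)
  rw [h2.tsum_eq] at h5
  rw [← h1.tsum_eq]
  exact (pow_le_pow_left₀ (norm_nonneg _) (norm_tsum_le_tsum_norm h4) 2).trans h5

/-- real version -/
theorem Tri.cs_dblR (h : T.Tri) (hp : T.Low p) {f : ({c // p c} → ℤ) → ℝ} {g : (T.C → ℤ) → ℝ}
    {A : ℝ} (hf : ∀ a, |f a| ≤ A) (hg : ∀ y, |g y| ≤ B) :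
    (T.S fun y => f (fun c => y c.1) * g y) ^ 2 ≤
      (T.cut p 0).S (fun a : {c // p c} → ℤ => f a ^ 2) *
      (T.dbl p).S fun y => g (fun c => y (.inl c)) * g fun c => y (T.snd p c) := by
  have := h.cs_dbl hp (f := fun a => f a) (g := fun y => g y) (A := A) (B := B)
    (by simpa using hf) (by simpa using hg)
  simpa only [Complex.conj_ofReal, ← Complex.ofReal_mul, Sc_ofReal, Complex.norm_real,
    Real.norm_eq_abs, sq_abs, Complex.ofReal_re] using this

/-! ### no coupling: the tower property -/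

theorem Tri.fib_sep (h : T.Tri) (hp : T.Low p) (hs : T.Sep p) (g : (T.C → ℤ) → ℂ)
    (a : {c // p c} → ℤ) :
    T.fib p g a = (T.cut (fun c => ¬ p c) (mg p a 0)).Sc fun z => g (mg p a z) := by
  simp only [fib, h.ker_sep hp hs]; rfl

theorem Tri.fibR_sep (h : T.Tri) (hp : T.Low p) (hs : T.Sep p) (g : (T.C → ℤ) → ℝ)
    (a : {c // p c} → ℤ) :
    T.fibR p g a = (T.cut (fun c => ¬ p c) (mg p a 0)).S fun z => g (mg p a z) := by
  simp only [fibR, h.ker_sep hp hs]; rfl

theorem Tri.ker_sum_sep (h : T.Tri) (hp : T.Low p) (hs : T.Sep p) (a : {c // p c} → ℤ) :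
    ∑' z, T.ker p a z = (T.cut (fun c => ¬ p c) (mg p a 0)).Z := by
  simp only [h.ker_sep hp hs]; rfl

omit [DecidablePred p] in
/-- the levels are never coupled -/
theorem Tri.sep_lev (h : T.Tri) (q : ℕ → Prop) : T.Sep fun c => q (T.lev c) :=
  fun c c' a b => by_contra fun n => b (show q _ from h.blk c c' n ▸ a)

end TS

end Crest.Agent.N49.Tw

end
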