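import Crest.Agent.N49.Tw.Mp0
import Crest.Agent.N49.Tw.Dbl

/-!
# Row 49 (helper32): second moments control the marginals (MASTER+ on typed structures)
-/

set_option autoImplicit false

open Matrix MvPolynomial Finset

noncomputable section

namespace Crest.Agent.N49.Tw

open Po

namespace TS

variable {σ : Type} {T : TS σ}

theorem Tri.Zc_sq (h : T.Tri) : T.Zc ^ 2 * T.A.det ^ 2 = T.K.det := by
  have e : T.D.det * T.A.det ^ 2 = T.K.det := by
    rw [D, det_mul, det_mul, det_transpose, det_nonsing_inv, Ring.inverse_eq_inv']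
    field_simp [h.det]
  rw [Zc, dt_inv, dt, inv_inv, Real.sq_sqrt h.pd_D.det_pos.le, e]

variable {p : T.C → Prop} [DecidablePred p]

/-- the continuous partition function of a clone -/
theorem Tri.Zc_dbl (h : T.Tri) (hp : T.Low p) (b : T.C → ℤ) :
    (T.dbl p).Zc * (T.cut p b).Zc = T.Zc ^ 2 := by
  have hd := h.dbl hp
  have hc := h.cut_low hp b
  have a1 := hd.Zc_sq
  have a2 := hc.Zc_sq
  have a3 : (T.dbl p).K.det * (T.cut p b).K.det = T.K.det ^ 2 := Mp.det_dbl p h.pd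
  have a4 : T.A.det = (T.A.submatrix (Subtype.val : {c // p c} → T.C) Subtype.val).det *
      (T.A.submatrix (Subtype.val : {c // ¬ p c} → T.C) Subtype.val).det :=
    twoBlockTriangular_det' T.A p fun i hi j hj => hp.A_eq hi hj
  first | rw [det_A_dbl] at a1 | rw [det_dblA] at a1
  have a5 : (T.cut p b).A.det =
      (T.A.submatrix (Subtype.val : {c // p c} → T.C) Subtype.val).det := by
    rw [h.A_cut]; rfl
  rw [a5] at a2
  rw [← a1, ← a2, ← h.Zc_sq] at a3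
  refine (pow_left_inj₀ (mul_pos hd.Zc_pos hc.Zc_pos).le (sq_nonneg _) two_ne_zero).1
    (mul_right_cancel₀ (pow_ne_zero 4 h.det) ?_)
  rw [← sub_eq_zero] at a4
  linear_combination a3 + ((T.dbl p).Zc * (T.cut p b).Zc * T.A.det) ^ 2 * (T.A.det +
    (T.A.submatrix (Subtype.val : {c // p c} → T.C) Subtype.val).det *
      (T.A.submatrix (Subtype.val : {c // ¬ p c} → T.C) Subtype.val).det) * a4

variable (T p) in
/-- the mass of the fibre over `a` relative to the weight of `a` -/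
def fsum (a : {c // p c} → ℤ) : ℝ := (∑' z, T.wt (Db.mg p a z)) / (T.cut p 0).wt a

theorem fsum_nonneg (a : {c // p c} → ℤ) : 0 ≤ T.fsum p a :=
  div_nonneg (tsum_nonneg fun _ => (T.wt_pos _).le) ((T.cut p 0).wt_pos _).le

theorem Tri.sm_fib (h : T.Tri) (a : {c // p c} → ℤ) : Summable fun z => T.wt (Db.mg p a z) :=
  ((Db.spl p ℤ).summable_iff.2 h.summable).prod_factor a

theorem Tri.hasSum_fsum (h : T.Tri) {g : ({c // p c} → ℤ) → ℝ} (hg : Bb g) :
    HasSum (fun a => (T.cut p 0).wt a * T.fsum p a * g a) (T.S fun y => g fun c => y c.1) := by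
  refine ((Db.spl p ℤ).hasSum_iff.2 (h.sm (hg.comp fun y c => y c.1)).hasSum).prod_fiberwise
    fun a => ?_
  rw [fsum, mul_div_cancel₀ _ ((T.cut p 0).wt_pos a).ne']
  simpa [Db.spl_apply] using (h.sm_fib a).hasSum.mul_right (g a)

theorem fsum_eq (a : {c // p c} → ℤ) : T.fsum p a = ∑' z, T.ker p a z := tsum_div_const.symm

theorem Tri.hasSum_fsum_sq (h : T.Tri) (hp : T.Low p) :
    HasSum (fun a => (T.cut p 0).wt a * T.fsum p a ^ 2) (T.dbl p).Z :=
  (h.hasSum_dblZ hp).congr_fun fun a => by rw [fsum_eq a]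

theorem Tri.moments (h : T.Tri) (hp : T.Low p) {η : ℝ}
    (m0 : (T.cut p 0).Mas η) (m1 : T.Mas η) (m2 : (T.dbl p).Mas η) :
    ∑' a, (T.cut p 0).wt a ≤ (1 + η) * (T.cut p 0).Zc ∧
    (1 - η) * (T.Zc / (T.cut p 0).Zc * (T.cut p 0).Zc) ≤ ∑' a, (T.cut p 0).wt a * T.fsum p a ∧
    ∑' a, (T.cut p 0).wt a * T.fsum p a ^ 2 ≤
      (1 + η) * ((T.Zc / (T.cut p 0).Zc) ^ 2 * (T.cut p 0).Zc) := by
  have c0 := (h.cut_low hp 0).Zc_pos
  have e1 := (h.hasSum_fsum (p := p) (Bb.const 1)).tsum_eq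
  simp only [mul_one, S_one] at e1
  have e2 : (T.Zc / (T.cut p 0).Zc) ^ 2 * (T.cut p 0).Zc = (T.dbl p).Zc := by
    rw [div_pow, ← h.Zc_dbl hp 0]; field_simp
  rw [e1, e2, (h.hasSum_fsum_sq hp).tsum_eq, div_mul_cancel₀ _ c0.ne']
  have := (abs_le.1 m0).2
  have := (abs_le.1 m1).1
  have := (abs_le.1 m2).2
  exact ⟨by change (T.cut p 0).Z ≤ _; linarith, by linarith, by linarith⟩

/-- **MASTER+**, unnormalised: the fibre sums are close to `Zc / Zc_cut` in `L¹` -/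
theorem Tri.mplus_l1 (h : T.Tri) (hp : T.Low p) {η : ℝ} (hη : 0 < η)
    (m0 : (T.cut p 0).Mas η) (m1 : T.Mas η) (m2 : (T.dbl p).Mas η) {g : ({c // p c} → ℤ) → ℝ}
    (hg : ∀ a, |g a| ≤ 1) : |(T.S fun y => g fun c => y c.1) -
      T.Zc / (T.cut p 0).Zc * (T.cut p 0).S g| ≤ (2 + η) * √η * T.Zc := by
  have hc := h.cut_low hp 0
  obtain ⟨h0, h1, h2⟩ := h.moments hp m0 m1 m2
  have s1 := (h.hasSum_fsum (p := p) (Bb.const 1)).summable
  simp only [mul_one] at s1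
  obtain ⟨s, b⟩ := Mp.l1 (fun a => ((T.cut p 0).wt_pos a).le) hc.summable s1
    (h.hasSum_fsum_sq hp).summable (div_pos h.Zc_pos hc.Zc_pos) hη h0 h1 h2
  rw [div_mul_cancel₀ _ hc.Zc_pos.ne'] at b
  have t := (h.hasSum_fsum (Bb.of_abs hg)).sub
    ((hc.sm (Bb.of_abs hg)).hasSum.mul_left (T.Zc / (T.cut p 0).Zc))
  refine (t.norm_le_of_bounded s.hasSum fun a => ?_).trans b
  rw [Real.norm_eq_abs, show _ - _ = (T.cut p 0).wt a * (T.fsum p a - T.Zc / (T.cut p 0).Zc) * g a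
    by ring, abs_mul, abs_mul, abs_of_pos ((T.cut p 0).wt_pos a)]
  exact mul_le_of_le_one_right (mul_nonneg ((T.cut p 0).wt_pos a).le (abs_nonneg _)) (hg a)

/-- **MASTER+**: three Master estimates give the marginal -/
theorem Tri.mplus (h : T.Tri) (hp : T.Low p) {η : ℝ} (hη : 0 < η)
    (m0 : (T.cut p 0).Mas η) (m1 : T.Mas η) (m2 : (T.dbl p).Mas η) :
    T.Push (T.cut p 0) (fun y c => y c.1) (10 * √η) := fun g hg => by
  have hc := h.cut_low hp 0
  obtain ⟨h0, h1, h2⟩ := h.moments hp m0 m1 m2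
  have s1 := h.hasSum_fsum (p := p) (Bb.const 1)
  simp only [mul_one, S_one] at s1
  have := Mp.tv (fun a => ((T.cut p 0).wt_pos a).le) fsum_nonneg hc.summable s1.summable
    (h.hasSum_fsum_sq hp).summable (div_pos h.Zc_pos hc.Zc_pos) hc.Zc_pos hη h0 h1 h2 hc.Z_pos
    (s1.tsum_eq ▸ h.Z_pos) hg
  rwa [s1.tsum_eq, (h.hasSum_fsum (Bb.of_abs hg)).tsum_eq] at this

end TS

end Crest.Agent.N49.Tw

end
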