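import Crest.Agent.N49.Tw.Api
import Crest.Agent.N49.Tw.ConD
import Crest.Agent.N49.Tw.Iso
import Crest.Agent.N49.Tw.Mp

/-!
# Row 49 (helper65): quotients and doubles of shapes are cuts and clones of the twisted law
-/

set_option autoImplicit false

open Matrix MvPolynomial Finset

noncomputable section

namespace Crest.Agent.N49.Tw

open Po Db

namespace Sh

variable {σ τ τ' : Type} {S : Sh σ τ} {S' : Sh σ τ'}

/-- the word `w'` of `S'` multiplies as the word `w` of `S`, the words outside `ι` being killed -/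
structure Res (S : Sh σ τ) (S' : Sh σ τ') (ι : S.W → S'.W) (w : S.W) (w' : S'.W) : Prop where
  eq : ∀ m, S'.r w' (m.mapDomain ι) = S.r w m
  zero : ∀ m, ∀ i ∈ m.support, i ∉ Set.range ι → S'.r w' m = 0

theorem Res.cf {ι : S.W → S'.W} {w : S.W} {w' : S'.W} (h : Res S S' ι w w')
    (hι : Function.Injective ι) {R : Type} [CommRing R] (P : MvPolynomial S'.W R) :
    S'.cf R w' P = S.cf R w (killCompl hι P) := by
  induction P using MvPolynomial.induction_on' with
  | add P Q a b => rw [map_add, map_add, map_add, a, b]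
  | monomial m a =>
    by_cases k : (m.support : Set S'.W) ⊆ Set.range ι
    · rw [killCompl_monomial_eq_monomial_comapDomain_of_subset hι a k, cf_monomial, cf_monomial,
        ← h.eq, m.mapDomain_comapDomain ι hι k]
    · obtain ⟨i, hi, n⟩ := Set.not_subset.1 k
      rw [killCompl_monomial_eq_zero_of_notMem_range hι a hi n, cf_monomial, h.zero m i hi n]
      simp

theorem kill_XB {α β R : Type} [CommRing R] {ι : α → β} (hι : Function.Injective ι) (a : α) :
    killCompl hι (X (ι a) : MvPolynomial β R) = X a := by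
  rw [← rename_X, killCompl_rename_app]

theorem kill_X0B {α β R : Type} [CommRing R] {ι : α → β} (hι : Function.Injective ι) {b : β}
    (h : b ∉ Set.range ι) : killCompl hι (X b : MvPolynomial β R) = 0 :=
  killCompl_monomial_eq_zero_of_notMem_range hι 1 (a := b) (by simp) h

theorem kill_eval {α β γ R : Type} [CommRing R] [Algebra ℝ R] {ι : α → β}
    (hι : Function.Injective ι) (Y : γ → MvPolynomial β R) (P : MvPolynomial γ (MvPolynomial β ℝ)) :
    killCompl hι (eval₂ (MvPolynomial.map (algebraMap ℝ R)) Y P) =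
      eval₂ (MvPolynomial.map (algebraMap ℝ R)) (fun i => killCompl hι (Y i))
        (MvPolynomial.map (killCompl (R := ℝ) hι).toRingHom P) := by
  induction P using MvPolynomial.induction_on with
  | C a => rw [map_C, eval₂_C, eval₂_C]; exact killCompl_map (p := a) hι (algebraMap ℝ R)
  | add P Q a b => rw [map_add, eval₂_add, eval₂_add, map_add, a, b]
  | mul_X P i a => rw [map_mul, map_X, eval₂_mul, eval₂_mul, eval₂_X, eval₂_X, map_mul, a]

variable {p : S.W → Prop} [DecidablePred p]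

theorem res_sub (h : S.Idl p) (w : (S.sub p).W) : Res (S.sub p) S Subtype.val w w.1 :=
  ⟨fun _ => rfl, fun m i hi n => of_not_not fun k => n ⟨⟨i, h _ m w.2 k i hi⟩, rfl⟩⟩

theorem sn_inj' : Function.Injective (S.sn p) := Function.LeftInverse.injective (g := S.fo p) fo_sn

theorem sn_ne' {w w' : S.W} (h : ¬ p w') : S.sn p w ≠ .inl w' := fun e => by
  by_cases k : p w
  · rw [sn_pos k] at e; exact h (Sum.inl_injective e ▸ k)
  · rw [sn_neg k] at e; exact Sum.inr_ne_inl e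

theorem cd_sn' (w : S.W) : (S.dbl p).cd (S.sn p w) = S.cd w := by rw [dbl_cd, fo_sn]

theorem res_inl (w : S.W) : Res S (S.dbl p) Sum.inl w (.inl w) where
  eq m := by
    refine (if_pos fun w' => Finsupp.mapDomain_of_notMem_range _ _ (by simp)).trans ?_
    exact congrArg (S.r w) (Finsupp.mapDomain_comp.symm.trans Finsupp.mapDomain_id)
  zero m i hi n := by
    rcases i with i | i
    · exact absurd ⟨i, rfl⟩ n
    · exact if_neg fun k => Finsupp.mem_support_iff.1 hi (k i)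

theorem res_inr (w : {w // ¬ p w}) : Res S (S.dbl p) (S.sn p) w.1 (.inr w) where
  eq m := by
    refine (if_pos fun w' h => Finsupp.mapDomain_of_notMem_range _ _
      fun ⟨_, e⟩ => sn_ne' h e).trans ?_
    exact congrArg (S.r w.1) (Finsupp.mapDomain_comp.symm.trans
      ((congrArg (Finsupp.mapDomain · m) (funext fo_sn)).trans Finsupp.mapDomain_id))
  zero m i hi n := by
    rcases i with i | i
    · exact if_neg fun k => Finsupp.mem_support_iff.1 hi (k i fun h => n ⟨i, sn_pos h⟩)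
    · exact absurd ⟨i.1, sn_neg i.2⟩ n

theorem pu_X' (φ : Matrix S'.W S.W ℤ) (w : S.W) :
    S.pu S' φ (X w) = ∑ w', φ w' w • X w' := aeval_X _ _

theorem pu_C (φ : Matrix S'.W S.W ℤ) (a : ℝ) : S.pu S' φ (C a) = C a := algHom_C _ _

theorem pu_prjB : S.pu (S.sub p) (S.prj p) =
    (killCompl (R := ℝ) (Subtype.val_injective (p := p))).toRingHom := by
  refine ringHom_ext (fun a => (pu_C _ a).trans (killCompl_C _ a).symm) fun w => ?_
  rw [pu_X']
  by_cases h : p w
  · refine Eq.trans ?_ (kill_XB Subtype.val_injective ⟨w, h⟩).symm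
    refine (sum_eq_single (ι := (S.sub p).W) ⟨w, h⟩ ?_ fun n => absurd (mem_univ _) n).trans ?_
    · exact fun w' _ n => (congrArg (· • _) (if_neg fun e => n (Subtype.ext e.symm))).trans
        (zero_smul _ _)
    · exact (congrArg (· • _) (if_pos rfl)).trans (one_smul _ _)
  · refine Eq.trans ?_ (kill_X0B Subtype.val_injective fun ⟨a, e⟩ => h (e ▸ a.2)).symm
    exact sum_eq_zero fun w' _ => (congrArg (· • _) (if_neg fun e : w = w'.1 =>
      h (e ▸ w'.2))).trans (zero_smul _ _)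

theorem kill_diaB {ι : S.W → (S.dbl p).W} (hι : Function.Injective ι)
    (e : ∀ w, Sum.elim id Subtype.val (ι w) = w) :
    (killCompl (R := ℝ) hι).toRingHom.comp (S.pu (S.dbl p) (S.dia p)) = RingHom.id _ := by
  refine ringHom_ext (fun a => (congrArg _ (pu_C _ a)).trans (killCompl_C _ a)) fun w => ?_
  change killCompl hι (S.pu (S.dbl p) (S.dia p) (X w)) = X w
  rw [pu_X', map_sum, sum_eq_single (ι w)]
  · rw [map_zsmul, kill_XB]
    exact (congrArg (· • _) (if_pos (e w).symm)).trans (one_smul _ _)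
  · intro w' _ n
    rw [map_zsmul]
    by_cases k : w' ∈ Set.range ι
    · obtain ⟨a, rfl⟩ := k
      exact (congrArg (· • _) (if_neg fun z => n (by rw [z, e]))).trans (zero_smul _ _)
    · rw [kill_X0B hι k, smul_zero]
  · exact fun n => absurd (mem_univ _) n

end Sh

namespace TS

variable {σ τ τ' : Type} [DecidableEq σ] {T : TS σ} {S : Sh σ τ} {S' : Sh σ τ'}

variable (T) in
/-- the coordinates along a map of words -/
def cwm (ι : S.W → S'.W) (hc : ∀ w, S'.cd (ι w) = S.cd w) (c : T.Cw S) : T.Cw S' :=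
  ⟨(c.1.1, ι c.1.2), (hc _).trans c.2⟩

theorem kill_YwB {ι : S.W → S'.W} (hι : Function.Injective ι) (hc : ∀ w, S'.cd (ι w) = S.cd w)
    {R : Type} [CommRing R] (y : T.Cw S' → R) (F : T.C) :
    killCompl hι (T.Yw S' y F) = T.Yw S (fun c => y (T.cwm ι hc c)) F := by
  rw [Yw, Yw, map_sum]
  refine (sum_of_injOn (T.cwm ι hc) (fun c _ c' _ e => ?_) (fun c h => ?_) (fun c h n => ?_)
    fun c _ => ?_).symm
  · exact Subtype.ext (Prod.ext (congrArg (·.1.1) e :) (hι (congrArg (·.1.2) e :)))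
  · exact mem_filter.2 ⟨mem_univ _, (mem_filter.1 h).2⟩
  · rw [map_mul, Sh.kill_X0B hι, mul_zero]
    rintro ⟨w, e⟩
    exact n ⟨⟨(c.1.1, w), by rw [← hc, e]; exact c.2⟩, mem_coe.2 (mem_filter.2
      ⟨mem_univ _, (mem_filter.1 h).2⟩), Subtype.ext (Prod.ext rfl e)⟩
  · rw [map_mul, killCompl_C]; exact congrArg _ (Sh.kill_XB hι _).symm

/-- the errors along a restriction -/
theorem tw_res {ι : S.W → S'.W} (hι : Function.Injective ι) (hc : ∀ w, S'.cd (ι w) = S.cd w)
    {Ψ : T.Twd S} {Ψ' : T.Twd S'}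
    (hΨ : ∀ F, Ψ F = MvPolynomial.map (killCompl (R := ℝ) hι).toRingHom (Ψ' F))
    (c : T.Cw S) (c' : T.Cw S') (e : c'.1.1 = c.1.1) (h : Sh.Res S S' ι c.1.2 c'.1.2) :
    (T.tw S' Ψ').Φ c' = rename (T.cwm ι hc) ((T.tw S Ψ).Φ c) := by
  have e1 := tw_aeval (Ψ := Ψ) (R := MvPolynomial (T.Cw S') ℝ) (X ∘ T.cwm ι hc) c
  have e2 : killCompl hι (eval₂ (MvPolynomial.map (algebraMap ℝ (MvPolynomial (T.Cw S') ℝ)))
      (T.Yw S' X) (Ψ' c'.1.1)) = eval₂ (MvPolynomial.map (algebraMap ℝ (MvPolynomial (T.Cw S') ℝ)))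
        (T.Yw S (X ∘ T.cwm ι hc)) (Ψ c.1.1) := by
    rw [hΨ, e, Sh.kill_eval]
    simp only [kill_YwB hι hc]
    rfl
  rw [← e2, ← h.cf hι, ← rename_eq_aeval] at e1
  exact e1.symm

variable {p : S.W → Prop} [DecidablePred p] {st : T.C → ℕ} {Ψ : T.Twd S}

variable (T S p) in
/-- the coordinates of a quotient -/
def cs : T.Cw (S.sub p) → T.Cw S := T.cwm (S := S.sub p) Subtype.val fun _ => rfl

theorem tw_sub (h : S.Idl p) (Ψ : T.Twd S) (c : T.Cw (S.sub p)) :
    (T.tw S Ψ).Φ (T.cs S p c) = rename (T.cs S p)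
      ((T.tw (S.sub p) (T.tp S (S.sub p) (S.prj p) Ψ)).Φ c) :=
  tw_res Subtype.val_injective _ (fun F => congrArg (MvPolynomial.map · (Ψ F)) Sh.pu_prjB) c _ rfl
    (Sh.res_sub h _)

variable (T S p) in
/-- the coordinates of a quotient -/
def eS : T.Cw (S.sub p) ≃ {c : T.Cw S // p c.1.2} where
  toFun c := ⟨T.cs S p c, c.1.2.2⟩
  invFun c := ⟨(c.1.1.1, ⟨c.1.1.2, c.2⟩), c.1.2⟩
  left_inv _ := rfl
  right_inv _ := rfl

/-- **the law of a quotient is a cut** -/
theorem ren_sub (h : S.Idl p) (st : T.C → ℕ) (Ψ : T.Twd S) :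
    (T.lw (S.sub p) st (T.tp S (S.sub p) (S.prj p) Ψ)).Ren
      ((T.lw S st Ψ).cut (fun c => p c.1.2) 0) (T.eS S p) where
  lev _ := rfl
  K _ _ := rfl
  Φ := fun c : T.Cw (S.sub p) => by
    have e : ∀ P : MvPolynomial (T.Cw (S.sub p)) ℝ, aeval (glue (fun c : T.Cw S => p c.1.2) X
        fun _ => MvPolynomial.C ((0 : ℤ) : ℝ)) (rename (T.cs S p) P) = rename (T.eS S p) P :=
      fun P => by
        rw [aeval_rename, rename_eq_aeval]
        exact congrArg (aeval · P) (funext fun a => glue_val _ _ (T.eS S p a))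
    exact (congrArg _ (tw_sub h Ψ c)).trans (e _)

variable (T S p) in
/-- the coordinates of a double -/
def eD : T.Cw S ⊕ {c : T.Cw S // ¬ p c.1.2} ≃ T.Cw (S.dbl p) where
  toFun := Sum.elim (T.cwm Sum.inl fun _ => rfl) fun c => ⟨(c.1.1.1, .inr ⟨c.1.1.2, c.2⟩), c.1.2⟩
  invFun c := match c with
    | ⟨(F, .inl w), h⟩ => .inl ⟨(F, w), h⟩
    | ⟨(F, .inr w), h⟩ => .inr ⟨⟨(F, w.1), h⟩, w.2⟩
  left_inv c := by rcases c with c | c <;> rfl
  right_inv c := by rcases c with ⟨⟨F, w | w⟩, h⟩ <;> rfl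

theorem eD_snd (c : T.Cw S) : T.eD S p ((T.lw S st Ψ).snd (fun c => p c.1.2) c) =
    T.cwm (S.sn p) Sh.cd_sn' c := by
  by_cases h : p c.1.2
  · exact (congrArg (T.eD S p) (dif_pos h)).trans (Subtype.ext (Prod.ext rfl (Sh.sn_pos h).symm))
  · exact (congrArg (T.eD S p) (dif_neg h)).trans
      (Subtype.ext (Prod.ext rfl (Sh.sn_neg h).symm))

theorem blk_inv' {d M : Type} [Fintype d] [DecidableEq d] {l : d → M} {K : Matrix d d ℝ}
    (h : ∀ i j, K i j ≠ 0 → l i = l j) (i j : d) (k : K⁻¹ i j ≠ 0) : l i = l j := by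
  classical
  have := Db.blk_inv (l := fun a => if l i = l a then 1 else 0) (fun a b z => by rw [h a b z]) i j k
  by_contra n
  simp [n] at this

/-- the cross covariance of a tensor product -/
theorem cr_kwB (o : S.Ok) {B : Matrix T.C T.C ℝ} (hB : B.PosDef) :
    cr (fun c : T.Cw S => p c.1.2) (T.kw S B S.K) = T.kw S B (cr p S.K) := by
  set N := S.K.submatrix id (Subtype.val : {w // p w} → S.W) * (pp p S.K)⁻¹ with hN
  have bN : ∀ w w', N w w' ≠ 0 → S.cd w = S.cd w'.1 := fun w w' k => by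
    obtain ⟨a, -, ha⟩ := exists_ne_zero_of_sum_ne_zero k
    exact (o.blk _ _ (left_ne_zero_of_mul ha)).trans (blk_inv' (l := fun w : {w // p w} => S.cd w.1)
      (fun _ _ z => o.blk _ _ z) _ _ (right_ne_zero_of_mul ha))
  set M : Matrix (T.Cw S) {c : T.Cw S // p c.1.2} ℝ :=
    Matrix.of fun c c' => if c'.1.1.1 = c.1.1 then N c.1.2 ⟨c'.1.1.2, c'.2⟩ else 0 with hM
  have e1 : M * (T.kw S B S.K).submatrix Subtype.val id = T.kw S B (cr p S.K) := by
    ext c c''
    change ∑ c' : {c : T.Cw S // p c.1.2}, M c c' * (B c'.1.1.1 c''.1.1 * S.K c'.1.1.2 c''.1.2) =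
      B c.1.1 c''.1.1 * ∑ w : {w // p w}, N c.1.2 w * S.K w.1 c''.1.2
    rw [mul_sum]
    refine sum_bij_ne_zero (fun c' _ _ => ⟨c'.1.1.2, c'.2⟩) (fun _ _ _ => mem_univ _)
      (fun a _ ha b _ hb e => ?_) (fun w _ hw => ?_) fun a _ ha => ?_
    · have h1 : a.1.1.1 = c.1.1 := of_not_not fun n => left_ne_zero_of_mul ha (if_neg n)
      have h2 : b.1.1.1 = c.1.1 := of_not_not fun n => left_ne_zero_of_mul hb (if_neg n)
      exact Subtype.ext (Subtype.ext (Prod.ext (h1.trans h2.symm) (congrArg Subtype.val e)))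
    · have := bN _ _ (left_ne_zero_of_mul (right_ne_zero_of_mul hw))
      refine ⟨⟨⟨(c.1.1, w.1), this.symm.trans c.2⟩, w.2⟩, mem_univ _, ?_, rfl⟩
      rw [hM, of_apply, if_pos rfl, mul_left_comm]; exact hw
    · have h1 : a.1.1.1 = c.1.1 := of_not_not fun n => left_ne_zero_of_mul ha (if_neg n)
      rw [hM, of_apply, if_pos h1, h1, mul_left_comm]
  have e2 : (cr p S.K).submatrix id (Subtype.val : {w // p w} → S.W) =
      S.K.submatrix id Subtype.val := by
    change N * pp p S.K = _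
    rw [hN, nonsing_inv_mul_cancel_right _ _ (pd_pp o.pd).det_pos.ne'.isUnit]
  have e3 : M * pp (fun c : T.Cw S => p c.1.2) (T.kw S B S.K) =
      (T.kw S B S.K).submatrix id Subtype.val := by
    ext c c'
    exact (congrFun₂ e1 c c'.1).trans (congrArg (B c.1.1 c'.1.1.1 * ·)
      (congrFun₂ e2 c.1.2 ⟨c'.1.1.2, c'.2⟩))
  rw [cr, ← e3, mul_nonsing_inv_cancel_right _ _
    (pd_pp (kw_posDef hB o.pd)).det_pos.ne'.isUnit]
  exact e1

omit [DecidableEq σ] in
theorem tp_dia {ι : S.W → (S.dbl p).W} (hι : Function.Injective ι)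
    (e : ∀ w, Sum.elim id Subtype.val (ι w) = w) (Ψ : T.Twd S) (F : T.C) :
    Ψ F = MvPolynomial.map (killCompl (R := ℝ) hι).toRingHom
      (T.tp S (S.dbl p) (S.dia p) Ψ F) := by
  rw [tp, MvPolynomial.map_map, Sh.kill_diaB hι e, MvPolynomial.map_id]

theorem tw_inl (Ψ : T.Twd S) (c : T.Cw S) :
    (T.tw (S.dbl p) (T.tp S (S.dbl p) (S.dia p) Ψ)).Φ (T.eD S p (.inl c)) =
      rename (T.cwm (S' := S.dbl p) Sum.inl fun _ => rfl) ((T.tw S Ψ).Φ c) :=
  tw_res (S' := S.dbl p) Sum.inl_injective _ (tp_dia _ (fun _ => rfl) Ψ) c _ rfl (Sh.res_inl _)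

theorem tw_inr (Ψ : T.Twd S) (c : {c : T.Cw S // ¬ p c.1.2}) :
    (T.tw (S.dbl p) (T.tp S (S.dbl p) (S.dia p) Ψ)).Φ (T.eD S p (.inr c)) =
      rename (T.cwm (S.sn p) Sh.cd_sn') ((T.tw S Ψ).Φ c.1) :=
  tw_res Sh.sn_inj' _ (tp_dia _ Sh.fo_sn Ψ) c.1 _ rfl (Sh.res_inr ⟨_, c.2⟩)

theorem K_eD (o : S.Ok) (hK : T.K.PosDef) (c c' : T.Cw S ⊕ {c : T.Cw S // ¬ p c.1.2}) :
    T.kw (S.dbl p) T.K (k2 p S.K) (T.eD S p c) (T.eD S p c') =
      k2 (fun c : T.Cw S => p c.1.2) (T.kw S T.K S.K) c c' := by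
  rw [k2, k2, cr_kwB o hK]
  rcases c with c | c <;> rcases c' with c' | c' <;> rfl

/-- **the law of a double is a clone** -/
theorem ren_dbl (o : S.Ok) (hK : T.K.PosDef) (st : T.C → ℕ) (Ψ : T.Twd S) :
    ((T.lw S st Ψ).dbl fun c => p c.1.2).Ren
      (T.lw (S.dbl p) st (T.tp S (S.dbl p) (S.dia p) Ψ)) (T.eD S p) where
  lev c := by rcases c with c | c <;> rfl
  K := K_eD o hK
  Φ c := by
    rcases c with c | c
    · exact (tw_inl Ψ c).trans (rename_rename Sum.inl (T.eD S p) ((T.tw S Ψ).Φ c)).symm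
    · refine (tw_inr Ψ c).trans (Eq.trans ?_ (rename_rename
        ((T.lw S st Ψ).snd fun c => p c.1.2) (T.eD S p) ((T.tw S Ψ).Φ c.1)).symm)
      exact congrArg (rename · ((T.tw S Ψ).Φ c.1)) (funext fun a => (eD_snd a).symm)

/-- three Master estimates give the marginal on a quotient -/
theorem marg0 (o : S.Ok) (hK : T.K.PosDef) (h : S.Idl p) (ht : (T.lw S st Ψ).Tri) {η : ℝ}
    (hη : 0 < η) (m0 : (T.lw (S.sub p) st (T.tp S (S.sub p) (S.prj p) Ψ)).Mas η)
    (m1 : (T.lw S st Ψ).Mas η) (m2 : (T.lw (S.dbl p) st (T.tp S (S.dbl p) (S.dia p) Ψ)).Mas η) :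
    (T.lw S st Ψ).Push (T.lw (S.sub p) st (T.tp S (S.sub p) (S.prj p) Ψ)) (T.rs S p)
      (10 * √η) := by
  have := (ht.mplus (lw_low h) hη ((ren_sub h st Ψ).mas.1 m0) m1
    ((ren_dbl o hK st Ψ).mas.2 m2)).trans (ren_sub h st Ψ).eqv.symm.push
  rw [add_zero] at this
  exact this

end TS

end Crest.Agent.N49.Tw

end
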