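import Crest.Agent.N49.Tw.Ch
import Crest.Agent.N49.Tw.Mas0
import Crest.Agent.N49.Tw.Exp

/-!
# Row 49 (helper59): truncated Master estimates, monotonicity of the regularity
-/

set_option autoImplicit false

open Matrix MvPolynomial Finset

noncomputable section

namespace Crest.Agent.N49.Tw

open Po

namespace TS

variable {σ σ' : Type} {T : TS σ}

theorem Tri.Di_lt (h : T.Tri) (l : ℕ) : (T.lt l).D⁻¹ =
    T.D⁻¹.submatrix ((↑) : {c // T.lev c < l} → T.C) ((↑) : {c // T.lev c < l} → T.C) := by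
  have hp : ∀ i j, T.lev i = T.lev j → T.lev i < l → T.lev j < l := fun _ _ e k => e ▸ k
  have hK := Rw.Bk.inv h.blk_K h.pd.det_pos.ne'
  rw [(h.lt l).D_inv, h.D_inv, Rw.Bk.sub_mul hp (Rw.Bk.mul (Rw.Bk.tr (blk_A T)) hK),
    Rw.Bk.sub_mul hp (Rw.Bk.tr (blk_A T)), ← transpose_submatrix,
    ← Rw.Bk.sub_inv hp h.blk_K h.pd.det_pos.ne', show (T.lt l).A = _ from h.A_cut _ 0]
  rfl

theorem Tri.dl_lt (h : T.Tri) {l s : ℕ} (e : l < s) : (T.lt s).dl l = T.dl l := by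
  let f : Rw.At (T.lt s).lev l ≃ Rw.At T.lev l :=
    ⟨fun c => ⟨c.1.1, c.2⟩, fun c => ⟨⟨c.1, c.2.trans_lt e⟩, c.2⟩, fun _ => rfl, fun _ => rfl⟩
  rw [dl, dl, dt, dt, h.Di_lt, ← det_submatrix_equiv_self f]
  rfl

theorem Tri.Zc_lt (h : T.Tri) (s : ℕ) : (T.lt s).Zc = ∏ l ∈ range s, T.dl l := by
  rw [Zc_eq_prod (h.lt s) (s := s) fun c => c.2]
  exact prod_congr rfl fun l k => h.dl_lt (mem_range.1 k)

theorem Tri.mas_top (h : T.Tri) {s : ℕ} (hs : ∀ c, T.lev c < s) {η : ℝ} (m : (T.lt s).Mas η) :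
    T.Mas η := by
  rwa [Mas, Z_lt_top h hs, h.Zc_lt, ← Zc_eq_prod h hs] at m

theorem Tri.mas_lt (h : T.Tri) {s : ℕ} (hs : ∀ c, T.lev c < s) {η : ℝ} (m : T.Mas η) :
    (T.lt s).Mas η := by
  rwa [Mas, Z_lt_top h hs, h.Zc_lt, ← Zc_eq_prod h hs]

/-- one more level -/
theorem Tri.mas_succ (h : T.Tri) {l : ℕ} {r τ η ε : ℝ} (m : (T.lt l).Mas η) (h1 : η ≤ 1)
    (hτ : 0 ≤ τ) (hb : ∀ k : T.C → ℤ, k ≠ 0 → (∀ c, T.lev c ≠ l → k c = 0) →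
      qf T.D (zc k) < r → T.bias l k ≤ τ)
    (he : (τ + √2 ^ T.R l * Real.exp (-(Real.pi * r / 2))) * T.ct l ≤ ε) :
    (T.lt (l + 1)).Mas (η + 2 * ε) := by
  have a := abs_le.1 (Z_lt_succ h hτ hb he)
  have e0 : 0 ≤ ε := le_trans (mul_nonneg (by positivity) (zero_le_one.trans (one_le_ct h l))) he
  have e : (T.lt (l + 1)).Zc = T.dl l * (T.lt l).Zc := by
    rw [h.Zc_lt, h.Zc_lt, prod_range_succ, mul_comm]
  have d := dl_pos h l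
  have z := (h.lt l).Zc_pos
  have b := abs_le.1 m
  rw [Mas, e]
  have b1 := mul_le_mul_of_nonneg_left b.1 d.le
  have b2 := mul_le_mul_of_nonneg_left b.2 d.le
  have b3 : ε * (T.dl l * (T.lt l).Z) ≤ ε * (2 * (T.dl l * (T.lt l).Zc)) :=
    mul_le_mul_of_nonneg_left (by nlinarith [mul_pos d z]) e0
  exact abs_le.2 ⟨by linarith [a.1], by linarith [a.2]⟩

theorem wt_empty (T : TS σ) [IsEmpty T.C] (y : T.C → ℤ) : T.wt y = 1 := by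
  simp [wt, gs, qf, dotProduct]

theorem Z_empty (T : TS σ) [IsEmpty T.C] : T.Z = 1 := by
  rw [Z, tsum_fintype, Fintype.sum_unique, wt_empty]

theorem mas_empty (T : TS σ) [IsEmpty T.C] {η : ℝ} (h : 0 ≤ η) : T.Mas η := by
  rw [Mas, Z_empty, Zc, dt, det_isEmpty]
  simpa using h

theorem push_empty (T : TS σ) (T' : TS σ') [IsEmpty T.C] [IsEmpty T'.C]
    (f : (T.C → ℤ) → T'.C → ℤ) {η : ℝ} (h : 0 ≤ η) : T.Push T' f η := fun g _ => by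
  rw [E, E, Z_empty, Z_empty, S, S, tsum_fintype, tsum_fintype, Fintype.sum_unique,
    Fintype.sum_unique, wt_empty, wt_empty, one_mul, one_mul, div_one, div_one,
    sub_eq_zero.2 (congrArg g (Subsingleton.elim _ _)), abs_zero]
  exact h

variable [DecidableEq σ] {st : T.C → ℕ}

theorem SymS.mono {t : ℕ} {κ : ℕ → ℝ} {R τ R' τ' : ℝ} (h : T.SymS st t κ R τ) (hR : R' ≤ R)
    (hτ : τ ≤ τ') : T.SymS st t κ R' τ' :=
  fun l col k a b c => (h l col k a b (c.trans hR)).trans hτ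

variable (T st) in
/-- the cost of the stage `j` -/
def cst (lb : ℕ → ℝ) (j : ℕ) : ℝ :=
  Real.log ((T.stg st).ct j) + (T.stg st).R j * (1 + Real.log (lb j)⁻¹)

variable (T st) in
/-- regularity with real parameters and explicit witnesses -/
structure RgP (M : ℕ) (P a l : ℝ) (κ : ℕ → ℕ → ℝ) (lb : ℕ → ℝ) : Prop where
  lo : ∀ t ≤ M, 0 < lb t ∧ lb t ≤ 1 ∧ ∀ j, lb t ≤ κ t j ∧ P * κ t j ≤ a
  sep : ∀ t ≤ M, ∀ t' < t, ∀ j j', P * κ t' j' ≤ κ t j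
  sym : ∀ t ∈ Icc 1 M, T.SymS st t (κ t) (P * (1 + l + ∑ j ∈ Icc t M, T.cst st lb j) / lb t)
    (Real.exp (-(P * (1 + l + ∑ j ∈ Icc t M, T.cst st lb j))))

theorem rgS_iff {M C n : ℕ} {a η : ℝ} : T.RgS st M C n a η ↔
    ∃ κ lb, T.RgP st M ((n + 1) ^ C) a (Real.log η⁻¹) κ lb :=
  ⟨fun ⟨κ, lb, a, b, c⟩ => ⟨κ, lb, a, b, c⟩, fun ⟨κ, lb, a, b, c⟩ => ⟨κ, lb, a, b, c⟩⟩

theorem log_inv_nonneg {η : ℝ} (h0 : 0 < η) (h1 : η ≤ 1) : 0 ≤ Real.log η⁻¹ :=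
  Real.log_nonneg ((one_le_inv₀ h0).2 h1)

omit [DecidableEq σ] in
theorem cst_nonneg (h : (T.stg st).Tri) {lb : ℕ → ℝ} {j : ℕ} (h0 : 0 < lb j) (h1 : lb j ≤ 1) :
    0 ≤ T.cst st lb j := add_nonneg (Real.log_nonneg (one_le_ct h j))
  (mul_nonneg (Nat.cast_nonneg _) (add_nonneg zero_le_one (log_inv_nonneg h0 h1)))

variable {M : ℕ} {P a l : ℝ} {κ : ℕ → ℕ → ℝ} {lb : ℕ → ℝ}

theorem RgP.sum_nonneg (h : T.RgP st M P a l κ lb) (ht : (T.stg st).Tri) (t : ℕ) {s : ℕ}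
    (hs : s ≤ M) : 0 ≤ ∑ j ∈ Icc t s, T.cst st lb j := Finset.sum_nonneg fun j k =>
  let ⟨a, b, _⟩ := h.lo j ((mem_Icc.1 k).2.trans hs); cst_nonneg ht a b

theorem RgP.mono (h : T.RgP st M P a l κ lb) {M' : ℕ} {P' a' l' : ℝ} (hM : M' ≤ M) (hP : P' ≤ P)
    (ha : ∀ t ≤ M', ∀ j, P' * κ t j ≤ a')
    (hl : ∀ t ∈ Icc 1 M', P' * (1 + l' + ∑ j ∈ Icc t M', T.cst st lb j) ≤
      P * (1 + l + ∑ j ∈ Icc t M, T.cst st lb j)) : T.RgP st M' P' a' l' κ lb where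
  lo t k := let ⟨a, b, c⟩ := h.lo t (k.trans hM); ⟨a, b, fun j => ⟨(c j).1, ha t k j⟩⟩
  sep t k t' k' j j' :=
    let ⟨a, _, c⟩ := h.lo t' ((k'.le.trans k).trans hM)
    (mul_le_mul_of_nonneg_right hP (a.le.trans (c j').1)).trans (h.sep t (k.trans hM) t' k' j j')
  sym t k :=
    have k' := (mem_Icc.1 k).2.trans hM
    (h.sym t (mem_Icc.2 ⟨(mem_Icc.1 k).1, k'⟩)).mono
      (div_le_div_of_nonneg_right (hl t k) (h.lo t k').1.le)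
      (Real.exp_le_exp.2 (neg_le_neg (hl t k)))

/-- the same stages, new parameters: `Q` pays for the error -/
theorem RgP.mono' (h : T.RgP st M P a l κ lb) (ht : (T.stg st).Tri) {P' a' l' Q : ℝ} (h0 : 0 < P')
    (hQ : 1 ≤ Q) (hP : Q * P' ≤ P) (ha : P' * a ≤ P * a') (l0 : 0 ≤ l)
    (hl : 1 + l' ≤ Q * (1 + l)) : T.RgP st M P' a' l' κ lb := by
  have p : P' ≤ P := by nlinarith
  refine h.mono le_rfl p (fun t k j => le_of_mul_le_mul_left ?_ (h0.trans_le p)) fun t _ => ?_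
  · have := mul_le_mul_of_nonneg_left ((h.lo t k).2.2 j).2 h0.le
    nlinarith
  · have s := h.sum_nonneg ht t le_rfl
    calc _ ≤ P' * (Q * (1 + l + ∑ j ∈ Icc t M, T.cst st lb j)) :=
          mul_le_mul_of_nonneg_left (by nlinarith) h0.le
      _ = Q * P' * (1 + l + ∑ j ∈ Icc t M, T.cst st lb j) := by ring
      _ ≤ _ := mul_le_mul_of_nonneg_right hP (by linarith)

/-- **monotonicity of the regularity** -/
theorem RgS.mono'' {C n C' n' : ℕ} {η a' η' Q : ℝ} (h : T.RgS st M C n a η) (ht : (T.stg st).Tri)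
    (h0 : 0 < η) (h1 : η ≤ 1) (hQ : 1 ≤ Q) (hP : Q * (n' + 1) ^ C' ≤ (n + 1) ^ C)
    (ha : (n' + 1) ^ C' * a ≤ (n + 1) ^ C * a')
    (hl : 1 + Real.log η'⁻¹ ≤ Q * (1 + Real.log η⁻¹)) : T.RgS st M C' n' a' η' :=
  let ⟨κ, lb, k⟩ := rgS_iff.1 h
  rgS_iff.2 ⟨κ, lb, k.mono' ht (by positivity) hQ hP ha (log_inv_nonneg h0 h1) hl⟩

theorem RgS.mono' {C n C' n' : ℕ} {η a' : ℝ} (h : T.RgS st M C n a η) (ht : (T.stg st).Tri)
    (h0 : 0 < η) (h1 : η ≤ 1) (hP : ((n' : ℝ) + 1) ^ C' ≤ (n + 1) ^ C)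
    (ha : (n' + 1) ^ C' * a ≤ (n + 1) ^ C * a') : T.RgS st M C' n' a' η :=
  h.mono'' ht h0 h1 le_rfl (by rwa [one_mul]) ha (one_mul _).ge

theorem RgS.pos {C n : ℕ} {η : ℝ} (h : T.RgS st M C n a η) : 0 < a :=
  let ⟨_, _, k⟩ := rgS_iff.1 h
  let ⟨x, _, y⟩ := k.lo 0 (Nat.zero_le _)
  (mul_pos (by positivity) (x.trans_le (y 0).1)).trans_le (y 0).2

theorem Hy.mono_C {τ : Type} {S : Sh σ τ} {Ψ : T.Twd S} {C C' n : ℕ} {η : ℝ}
    (h : T.Hy S st Ψ M C' n a η) (e : C ≤ C') : T.Hy S st Ψ M C n a η :=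
  have p : ((n : ℝ) + 1) ^ C ≤ (n + 1) ^ C' :=
    pow_le_pow_right₀ (le_add_of_nonneg_left (Nat.cast_nonneg n)) e
  { h with rg := h.rg.mono' h.stg.tri h.pos h.le p (mul_le_mul_of_nonneg_right p h.rg.pos.le) }

end TS

theorem MAST.mono {M C C' : ℕ} (h : MAST M C) (e : C ≤ C') : MAST M C' :=
  fun σ τ _ T S st Ψ n a η k => h σ τ T S st Ψ n a η (k.mono_C e)

theorem MARGT.mono {M C C' : ℕ} (h : MARGT M C) (e : C ≤ C') : MARGT M C' :=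
  fun σ τ _ T S st Ψ n a η p _ k => h σ τ T S st Ψ n a η p (k.mono_C e)

theorem MARHT.mono {M C C' : ℕ} (h : MARHT M C) (e : C ≤ C') : MARHT M C' :=
  fun σ τ τ' J _ _ _ T S st Ψ n a η S' φ ψ N Q cj k =>
    h σ τ τ' J T S st Ψ n a η S' φ ψ N Q cj (k.mono_C e)

theorem PTMT.mono {M C C' : ℕ} (h : PTMT M C) (e : C ≤ C') : PTMT M C' :=
  fun τ T S st Ψ n a η χ k => h τ T S st Ψ n a η χ (k.mono_C e)

/-- the polynomial losses -/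
theorem loss (c C : ℕ) {n : ℕ} (h : 1 ≤ n) :
    (((n + 2) ^ c : ℕ) + 1 : ℝ) ^ C * (1 + 5 * n * (n + 2) ^ c) ≤
      (n + 1) ^ ((2 * c + 1) * C + (2 * c + 4)) := by
  have a : (1 : ℝ) ≤ n := by exact_mod_cast h
  have b : ((n : ℝ) + 2) ^ c ≤ (n + 1) ^ (2 * c) := by
    rw [pow_mul]; exact pow_le_pow_left₀ (by positivity) (by nlinarith) c
  have d : (1 : ℝ) ≤ (n + 2) ^ c := one_le_pow₀ (by linarith)
  have e : (8 : ℝ) ≤ (n + 1) ^ 3 := by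
    have := pow_le_pow_left₀ (by norm_num : (0 : ℝ) ≤ 2) (by linarith : (2 : ℝ) ≤ n + 1) 3
    linarith
  rw [pow_add, pow_mul]
  refine mul_le_mul (pow_le_pow_left₀ (by positivity) ?_ C) ?_ (by positivity) (by positivity)
  · push_cast
    rw [pow_succ]; nlinarith
  · calc (1 : ℝ) + 5 * n * (n + 2) ^ c ≤ (n + 2) ^ c * (8 * (n + 1)) := by nlinarith
      _ ≤ (n + 1) ^ (2 * c) * ((n + 1) ^ 3 * (n + 1)) := by gcongr
      _ = _ := by ring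

end Crest.Agent.N49.Tw

end
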