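import Crest.Agent.N49.Tw.Cbr
import Crest.Agent.N49.Tw.Mast0

/-!
# Row 49 (helper10): the semantic hypothesis for the tower of the earlier stages
-/

set_option autoImplicit false
set_option linter.unusedSectionVars false

open Matrix MvPolynomial Finset

noncomputable section

namespace Crest.Agent.N49.Tw

open Po

namespace TS

variable {σ τ : Type} {T : TS σ} {st : T.C → ℕ} {M : ℕ} [DecidableEq σ] {S : Sh σ τ}

variable (T S) in
/-- extend a twist of the families `p` by the standard twist -/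
def xt (p : T.C → Prop) [DecidablePred p] (Ψ : (T.cut p 0).Twd S) : T.Twd S := fun F =>
  if h : p F then rename (Subtype.val : {c // p c} → T.C) (Ψ ⟨F, h⟩) else T.tw0 S F

theorem rt_xt (p : T.C → Prop) [DecidablePred p] (Ψ : (T.cut p 0).Twd S) :
    T.rt S p (T.xt S p Ψ) = Ψ := funext fun F =>
  (congrArg (killCompl Subtype.val_injective) (dif_pos F.2)).trans (killCompl_rename_app _ _)

theorem Adm.xt {p : T.C → Prop} [DecidablePred p] {Ψ : (T.cut p 0).Twd S} (hs : T.Stg st M)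
    (o : S.Ok) (hp : T.Low p) (h : (T.cut p 0).Adm S (fun F => st F.1) Ψ) :
    T.Adm S st (T.xt S p Ψ) := by
  have a := hs.adm o
  have e : ∀ F (k : p F), T.xt S p Ψ F = rename (Subtype.val : {c // p c} → T.C) (Ψ ⟨F, k⟩) :=
    fun F k => dif_pos k
  have e' : ∀ F, ¬ p F → T.xt S p Ψ F = T.tw0 S F := fun F k => dif_neg k
  have c1 : ∀ F (k : p F) (m : {c // p c} →₀ ℕ),
      coeff (m.mapDomain Subtype.val) (T.xt S p Ψ F) = coeff m (Ψ ⟨F, k⟩) := fun F k m => by
    rw [e F k]; exact coeff_rename_mapDomain _ Subtype.val_injective _ _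
  have c2 : ∀ F, p F → ∀ m, coeff m (T.xt S p Ψ F) ≠ 0 →
      ∃ m' : {c // p c} →₀ ℕ, m'.mapDomain Subtype.val = m := fun F k m z => by
    rw [e F k] at z
    obtain ⟨u, b, -⟩ := coeff_rename_ne_zero _ _ _ z
    exact ⟨u, b⟩
  refine ⟨fun F m => ?_, fun F m hm => ?_, fun F m hm => ?_⟩ <;> by_cases k : p F
  · by_cases z : coeff m (T.xt S p Ψ F) = 0
    · rw [z]; exact isWeightedHomogeneous_zero _ _ _
    obtain ⟨m, rfl⟩ := c2 F k m z
    rw [c1 F k, weight_map]
    exact h.gr ⟨F, k⟩ m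
  · rw [e' F k]; exact a.gr F m
  · obtain ⟨m, rfl⟩ := c2 F k m (mem_support_iff.1 hm)
    rw [mem_support_iff, c1 F k] at hm
    rw [weight_map, weight_map]
    exact h.le ⟨F, k⟩ m (mem_support_iff.2 hm)
  · rw [e' F k] at hm; exact a.le F m hm
  · by_cases z : ∃ m' : {c // p c} →₀ ℕ, m'.mapDomain Subtype.val = m
    · obtain ⟨m, rfl⟩ := z
      rw [weight_map] at hm
      rw [c1 F k, ← coeff_cut0 p ⟨F, k⟩]
      exact h.top ⟨F, k⟩ m hm
    · rw [of_not_not fun n => z (c2 F k m n), of_not_not fun n : coeff m (T.Φ F) ≠ 0 => z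
        ⟨m.subtypeDomain p, ?_⟩, map_zero]
      ext c
      by_cases b : p c
      · exact Finsupp.mapDomain_apply Subtype.val_injective _ ⟨c, b⟩
      · rw [Finsupp.mapDomain_of_notMem_range _ _ (by simpa using b)]
        exact (of_not_not fun x => b (hp F k c ((mem_vars_iff_mem_support _).2
          ⟨m, mem_support_iff.2 n, Finsupp.mem_support_iff.2 x⟩))).symm
  · rw [e' F k]; exact a.top F m hm

theorem Sem.hm {t n : ℕ} {a η : ℝ} (hs : T.Stg st M) (h : T.Sem st t n a η) :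
    (T.cut (fun F => st F < t) 0).HM (fun F => st F.1) n a η := fun τ S Ψ b z => by
  have c := b.xt hs z.toOk (hs.low_lt t)
  have := (lt_mas hs z.toOk c t η).1 (h τ S _ z c)
  rwa [rt_xt] at this

theorem HM.sem {n : ℕ} {a η : ℝ} (hs : T.Stg st M) (h : T.HM st n a η) :
    T.Sem st (M + 1) n a η := fun τ S Ψ z b =>
  (lw_tri hs b z.toOk).mas_lt (fun c => (lw_lev c).trans_lt (Nat.lt_succ_of_le (hs.le _).1))
    (h τ S Ψ b z)

end TS

theorem lsem : LSem := fun _ _ _ _ _ t _ _ _ hs h =>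
  ⟨(h.hm hs).sem (hs.cut_lt t), h.hm hs⟩

end Crest.Agent.N49.Tw

end
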