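import Crest.Agent.N49.Tw.Ch

/-!
# Row 49 (helper61): definitions and leaves of the block CHAR (bias of one stage on a shape)
-/

set_option autoImplicit false

open Matrix MvPolynomial Finset

noncomputable section

namespace Crest.Agent.N49.Tw

open Po

/-- words of an extension -/
abbrev XW (W : Type) [Fintype W] [DecidableEq W] {L : Type} [DecidableEq L]
    (B : Finset (L →₀ ℕ)) : Type :=
  {x // x ∈ ((univ : Finset (Option W)) ×ˢ B).erase (none, 0)}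

/-- the fresh monomials after `j` clonings -/
def Bj (l s j : ℕ) : Finset (Fin l × Bool →₀ ℕ) := (full (Fin l × Bool) s).filter fun β =>
  (∀ i, β (i, false) = 0 ∨ β (i, true) = 0) ∧ ∀ i : Fin l, j ≤ i.1 → β (i, true) = 0

namespace Sh

variable {σ τ τ' : Type} (S : Sh σ τ)

/-- structure constants with a unit -/
def ru (o : Option S.W) (m : S.W →₀ ℕ) : ℤ := o.elim (if m = 0 then 1 else 0) fun w => S.r w m
/-- a word or the unit as a monomial -/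
def sg (o : Option S.W) : S.W →₀ ℕ := o.elim 0 fun w => Finsupp.single w 1

section ext
variable {L : Type} [DecidableEq L]

/-- the length of a word of an extension -/
def xd (x : Option S.W × (L →₀ ℕ)) : ℕ := x.1.elim 0 S.dg + x.2.degree

/-- adjoin letters `L` (monomials in `B`); the new words are independent of variance `v` -/
def ext (cl : L → σ) (B : Finset (L →₀ ℕ)) (v : ℕ → ℝ) : Sh σ σ where
  W := XW S.W B
  col := id
  ty x := x.1.1.elim 0 S.cd + x.1.2.mapDomain cl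
  r x m := if Finsupp.weight (fun y : XW S.W B => y.1.2) m = x.1.2 then
    S.ru x.1.1 (Finsupp.weight (fun y : XW S.W B => S.sg y.1.1) m) else 0
  ε x := if x.1.2 = 0 then x.1.1.elim 0 S.ε else 0
  K := Matrix.of fun x x' => if x.1.2 = 0 ∧ x'.1.2 = 0 then
    x.1.1.elim 0 (fun w => x'.1.1.elim 0 fun w' => S.K w w') else if x = x' then v (S.xd x.1) else 0

/-- the old words -/
def inc {B : Finset (L →₀ ℕ)} (h : 0 ∈ B) (w : S.W) : XW S.W B := ⟨(some w, 0), by simp [h]⟩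

/-- the substitution of `lam a` for the letter `a` -/
def f0 (B : Finset (L →₀ ℕ)) (lam : L → S.W) : Matrix S.W (XW S.W B) ℤ :=
  Matrix.of fun w x => S.r w (S.sg x.1.1 + x.1.2.mapDomain lam)

/-- the covariance left for the old words -/
def k0 (B : Finset (L →₀ ℕ)) (lam : L → S.W) (v : ℕ → ℝ) : Matrix S.W S.W ℝ :=
  S.K - Matrix.of fun w w' => ∑ x : XW S.W B,
    if x.1.2 = 0 then 0 else v (S.xd x.1) * (S.f0 B lam w x * S.f0 B lam w' x)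

end ext

/-- old words to zero, `h i ↦ d i`, `h' i ↦ - d i` -/
def f1 {l : ℕ} (B : Finset (Fin l × Bool →₀ ℕ)) (col : Fin l → σ) (κ : ℕ → ℝ) :
    Matrix (sym col κ).W (XW S.W B) ℤ := Matrix.of fun d x =>
  if x.1.1 = none ∧ x.1.2.mapDomain Prod.fst = d.1 then (-1) ^ ∑ i, x.1.2 (i, true) else 0

/-- generation in degree one, with monomials -/
def Gen' (p : S.W → Prop) : Prop := ∀ κ : S.W → ℤ, (∀ w, p w → κ w = 0) → ∀ w, κ w ≠ 0 →
  ∃ m : S.W →₀ ℕ, m.degree = S.dg w ∧ (∀ x ∈ m.support, S.dg x = 1) ∧ (∃ x ∈ m.support, ¬ p x) ∧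
    ∑ w', κ w' * S.r w' m ≠ 0

/-- a surjection with a section `ι` on the words, the kernel generated in degree one -/
structure Sec (S' : Sh σ τ') (n : ℕ) (φ : Matrix S'.W S.W ℤ) (ι : S'.W → S.W) : Prop where
  ok : S'.Ok
  hm : S.Hm S' φ
  K : S'.K = rl φ * S.K * (rl φ)ᵀ
  sec : ∀ w w', φ w (ι w') = if w = w' then 1 else 0
  ht : ∀ w x, |φ w x| ≤ n
  gen : ∀ κ : S.W → ℤ, (∀ w, κ (ι w) = 0) → ∀ x, κ x ≠ 0 → ∃ (j : S.W) (m : S.W →₀ ℕ),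
    j ∉ Set.range ι ∧ S.dg j = 1 ∧ m.degree + 1 = S.dg x ∧ (∀ y ∈ m.support, S.dg y = 1) ∧
      ∑ y, κ y * (S.r y (Finsupp.single j 1 + m) -
        ∑ w, φ w j * S.r y (Finsupp.single (ι w) 1 + m)) ≠ 0

/-- `S` is the quotient of `S'` by the words outside the range of `e` -/
structure Ch (S' : Sh σ τ') (e : S.W → S'.W) : Prop where
  inj : Function.Injective e
  cd : ∀ w, S'.cd (e w) = S.cd w
  r1 : ∀ w m, S'.r (e w) (m.mapDomain e) = S.r w m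
  r2 : ∀ w m, S'.r (e w) m ≠ 0 → ∀ x ∈ m.support, x ∈ Set.range e

/-- `S'` consists of two copies of `S` that are independent over the words `q` -/
structure Cn (S' : Sh σ τ') (q : S.W → Prop) (e1 e2 : S.W → S'.W) : Prop where
  c1 : S.Ch S' e1
  c2 : S.Ch S' e2
  eq : ∀ w, q w → e1 w = e2 w
  ne : ∀ w w', e1 w = e2 w' → q w'
  all : ∀ x, x ∈ Set.range e1 ∨ x ∈ Set.range e2
  idl : S.Idl q
  sep : ∀ w w', q w → ¬ q w' → S.K w w' = 0
  k1 : ∀ w w', S'.K (e1 w) (e1 w') = S.K w w'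
  k2 : ∀ w w', S'.K (e2 w) (e2 w') = S.K w w'
  k3 : ∀ w w', ¬ q w → ¬ q w' → S'.K (e1 w) (e2 w') = 0

end Sh

namespace TS

variable {σ τ τ' : Type} (T : TS σ) [DecidableEq σ] (S : Sh σ τ)

/-- the configuration on the words `e w` -/
def pb {R : Type} {S' : Sh σ τ'} {e : S.W → S'.W} (h : S.Ch S' e) (y : T.Cw S' → R) : T.Cw S → R :=
  fun p => y ⟨(p.1.1, e p.1.2), (h.cd _).trans p.2⟩

/-- the value of a family of polynomials indexed by the words -/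
def val (Θ : S.W → MvPolynomial T.C (MvPolynomial S.W ℝ)) (y : T.Cw S → ℤ) : ℝ :=
  ∑ w, S.cf ℝ w (eval (T.Yw S (zc y)) (Θ w))

/-- the twist restricted to the families `p` -/
def rt (p : T.C → Prop) [DecidablePred p] (Ψ : T.Twd S) : (T.cut p 0).Twd S :=
  fun F => killCompl Subtype.val_injective (Ψ F.1)

/-- keep the constant coefficients -/
def c0 (S' : Sh σ τ') (P : MvPolynomial T.C (MvPolynomial S.W ℝ)) :
    MvPolynomial T.C (MvPolynomial S'.W ℝ) := map (MvPolynomial.C.comp constantCoeff) P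

/-- the phase polynomials of a frequency `k` (levels `st`), on the families `p` -/
def θk (st : T.C → ℕ) (p : T.C → Prop) (Ψ : T.Twd S) (k : T.Cw S → ℤ) (w : S.W) :
    MvPolynomial {F // p F} (MvPolynomial S.W ℝ) := ∑ x : T.Cw S with x.1.2 = w, ∑ F,
  (-(k x : ℝ) * (T.stg st).A⁻¹ x.1.1 F) • killCompl Subtype.val_injective (Ψ F)

/-- Master estimate for all the shapes of a class -/
def HM (st : T.C → ℕ) (n : ℕ) (a η : ℝ) : Prop := ∀ (τ : Type) (S : Sh σ τ) (Ψ : T.Twd S),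
  T.Adm S st Ψ → S.Sz n a → (T.lw S st Ψ).Mas η

/-- push-forward along split surjections for all the shapes of a class -/
def HP (st : T.C → ℕ) (n : ℕ) (a η : ℝ) : Prop := ∀ (τ τ' J : Type) [Fintype J] [DecidableEq J]
  (S : Sh σ τ) (Ψ : T.Twd S) (S' : Sh σ τ') (φ : Matrix S'.W S.W ℤ) (ψ : Matrix S.W S'.W ℤ)
  (N : Matrix S.W J ℤ) (Q : Matrix J S.W ℤ) (cj : J → σ →₀ ℕ), T.Adm S st Ψ → S.Sz n a →
  S.Spl S' n φ ψ N Q cj → (T.tw S Ψ).Push (T.tw S' (T.tp S S' φ Ψ)) (T.hm S S' φ) η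

end TS

/-- leaf: generation with monomials, lengths -/
def LGen : Prop := ∀ (σ τ : Type) (S : Sh σ τ), (∀ p, S.Gen p ↔ S.Gen' p) ∧
  ∀ n a, S.Sz n a → ∀ w, S.dg w ≤ n

/-- leaf: sections give splittings -/
def LSec : Prop := ∀ (σ τ τ' : Type) (S : Sh σ τ) (S' : Sh σ τ') (n : ℕ) (φ : Matrix S'.W S.W ℤ)
  (ι : S'.W → S.W), S.Sec S' n φ ι → 1 ≤ n → ∃ (J : Type) (_ : Fintype J) (_ : DecidableEq J)
    (ψ : Matrix S.W S'.W ℤ) (N : Matrix S.W J ℤ) (Q : Matrix J S.W ℤ) (cj : J → σ →₀ ℕ),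
    S.Spl S' n φ ψ N Q cj

/-- leaf: extensions are shapes -/
def LExt : Prop := ∀ (σ τ L : Type) [DecidableEq L] (S : Sh σ τ) (cl : L → σ)
  (B : Finset (L →₀ ℕ)) (v : ℕ → ℝ) (n N : ℕ) (a : ℝ), S.Sz n a → Dn B → 0 ∈ B → #B ≤ N → 0 < a →
  (∀ j, a ≤ v j) → (S.ext cl B v).Sz ((n + 1) * N) a

/-- leaf: the first map -/
def LS0 : Prop := ∀ (σ τ : Type) (S : Sh σ τ) (l n s : ℕ) (a : ℝ) (col : Fin l → σ)
  (lam : Fin l → S.W) (v : ℕ → ℝ) (h0 : 0 ∈ Bj l s 0), S.Sz n a → 0 < a → (∀ w, S.dg w ≤ s) →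
  (∀ i, S.cd (lam i) = Finsupp.single (col i) 1) →
  (∀ j, 0 ≤ v j ∧ 2 * ((n + 1) ^ 4 * #(Bj l s 0)) * v j ≤ a) →
  (S.setK (S.k0 (Bj l s 0) (fun x => lam x.1) v)).Sz n (a / 2) ∧
    ((S.setK (S.k0 (Bj l s 0) (fun x => lam x.1) v)).ext (fun x => col x.1) (Bj l s 0) v).Sec S n
      (S.f0 (Bj l s 0) fun x => lam x.1) (S.inc h0)

/-- leaf: the last map -/
def LS1 : Prop := ∀ (σ τ : Type) (S : Sh σ τ) (l n s : ℕ) (a : ℝ) (col : Fin l → σ) (κ : ℕ → ℝ),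
  S.Sz n a → l ≤ s → (∀ j, 0 < κ j) → ∃ ι,
    (S.ext (fun x => col x.1) (Bj l s l) fun j => κ j / 2 ^ min j l).Sec (Sh.sym col κ) 1
      (S.f1 (Bj l s l) col κ) ι

/-- leaf: Cauchy-Schwarz on shapes -/
def LCs : Prop := ∀ (σ τ τ' : Type) [DecidableEq σ] (T : TS σ) (S : Sh σ τ) (S' : Sh σ τ')
  (st : T.C → ℕ) (M : ℕ) (Ψ : T.Twd S) (Ψ' : T.Twd S') (q : S.W → Prop) [DecidablePred q]
  (e1 e2 : S.W → S'.W) (h : S.Cn S' q e1 e2) (η : ℝ) (g : (T.Cw S → ℤ) → ℂ),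
  T.Stg st M → S.Ok → S'.Ok → T.Adm S st Ψ → T.Adm S' st Ψ' →
  (∀ F, map (killCompl h.c1.inj).toRingHom (Ψ' F) = Ψ F) →
  (∀ F, map (killCompl h.c2.inj).toRingHom (Ψ' F) = Ψ F) → 0 ≤ η → η ≤ 1 / 8 →
  (T.lw S st Ψ).Mas η → (T.lw S' st Ψ').Mas η →
  (T.lw (S.sub q) st (T.tp S (S.sub q) (S.prj q) Ψ)).Mas η → (∀ y, ‖g y‖ ≤ 1) →
  ‖(T.tw S Ψ).Ec g‖ ^ 2 ≤ 2 * ‖(T.tw S' Ψ').Ec fun y =>
    g (T.pb S h.c1 y) * (starRingEnd ℂ) (g (T.pb S h.c2 y))‖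

/-- leaf: the bias as an expectation on the tower of the earlier stages -/
def LBr : Prop := ∀ (σ τ : Type) [DecidableEq σ] (T : TS σ) (S : Sh σ τ) (st : T.C → ℕ) (M t : ℕ)
  (Ψ : T.Twd S), T.Stg st M → S.Ok → T.Adm S st Ψ →
  (T.cut (fun F => st F < t) 0).Stg (fun F => st F.1) M ∧
  (T.cut (fun F => st F < t) 0).Adm S (fun F => st F.1) (T.rt S _ Ψ) ∧
  ∀ k : T.Cw S → ℤ, (∀ p, k p ≠ 0 → st p.1.1 = t) → (T.lw S st Ψ).bias t k =
    ‖((T.cut (fun F => st F < t) 0).tw S (T.rt S _ Ψ)).Ec fun y =>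
      ee ((T.cut (fun F => st F < t) 0).val S (T.θk S st (fun F => st F < t) Ψ k) y)‖

/-- the core estimate -/
def CH0 : Prop := ∀ M : ℕ, ∃ c : ℕ, ∀ (σ τ : Type) [DecidableEq σ] (T : TS σ) (S : Sh σ τ)
  (st : T.C → ℕ) (Ψ : T.Twd S) (n l : ℕ) (a η lb ρ : ℝ) (κ : ℕ → ℝ) (col : Fin l → σ)
  (lam : Fin l → S.W) (Θ : S.W → MvPolynomial T.C (MvPolynomial S.W ℝ)), T.Stg st M →
  T.Adm S st Ψ → S.Sz n a → 1 ≤ l → l ≤ M → (∀ i, S.cd (lam i) = Finsupp.single (col i) 1) →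
  (∀ w, Θ w ≠ 0 → S.dg w = l) → 0 < lb → (∀ j, lb ≤ κ j ∧ (n + 1) ^ c * κ j ≤ a) → 0 ≤ η →
  η ≤ 1 / 8 → T.HM st ((n + 1) ^ c) (lb / (n + 1) ^ c) η →
  T.HP st ((n + 1) ^ c) (lb / (n + 1) ^ c) η → 0 ≤ ρ → ρ ≤ 1 →
  ‖(T.tw (Sh.sym col κ) fun F => T.c0 S _ (Ψ F)).Ec fun y => ee (T.val (Sh.sym col κ) (fun d =>
    if (Sh.sym col κ).dg d = l then
      T.c0 S _ (∑ w, S.r w (∑ i, Finsupp.single (lam i) 1) • Θ w) else 0) y)‖ + 2 * η ≤ ρ ^ 2 ^ M →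
  ‖(T.tw S Ψ).Ec fun y => ee (T.val S Θ y)‖ ≤ 2 * η + 2 * ρ

/-- leaf: the semantic hypothesis for the tower of the earlier stages -/
def LSem : Prop := ∀ (σ : Type) [DecidableEq σ] (T : TS σ) (st : T.C → ℕ) (M t n : ℕ) (a η : ℝ),
  T.Stg st M → T.Sem st t n a η →
  (T.cut (fun F => st F < t) 0).Sem (fun F => st F.1) (M + 1) n a η ∧
    (T.cut (fun F => st F < t) 0).HM (fun F => st F.1) n a η

/-- leaf: the last glue -/
def LFin : Prop := CH0 → LBr → LSem → ∀ M c, MARHS M c → ∃ c', CHAR M c'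

end Crest.Agent.N49.Tw

end
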