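import Crest.Agent.N49.Tw.Mast0
import Crest.Agent.N49.Tw.ConD
import Crest.Agent.N49.Tw.Cd

/-! # Row 49 (helper26): monotonicity of `Mas`, `Sem`, `RgS`, `Hy`; derived shapes -/

set_option autoImplicit false

open Matrix MvPolynomial Finset

noncomputable section

namespace Crest.Agent.N49.Tw

open Po

namespace TS

variable {σ τ τ' : Type} {T : TS σ}

theorem Zc_nonneg (T : TS σ) : 0 ≤ T.Zc := inv_nonneg.2 (Real.sqrt_nonneg _)

theorem Mas.mono {η η' : ℝ} (h : T.Mas η) (e : η ≤ η') : T.Mas η' :=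
  le_trans h (mul_le_mul_of_nonneg_right e T.Zc_nonneg)

variable [DecidableEq σ] {st : T.C → ℕ} {M C C' n n' t : ℕ} {a a' η η' : ℝ}

theorem Sem.mono (h : T.Sem st t n a η) (hn : n' ≤ n) (ha : a ≤ a') (e : η ≤ η') :
    T.Sem st t n' a' η' := fun τ S Ψ s k => (h τ S Ψ (s.mono hn ha) k).mono e

theorem HM.mono (h : T.HM st n a η) (hn : n' ≤ n) (ha : a ≤ a') (e : η ≤ η') :
    T.HM st n' a' η' := fun τ S Ψ k s => (h τ S Ψ k (s.mono hn ha)).mono e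

theorem pw_le (hn : n' ≤ n) (hC : C' ≤ C) : ((n' : ℝ) + 1) ^ C' ≤ (n + 1) ^ C :=
  (pow_le_pow_left₀ (by positivity) (by exact_mod_cast Nat.succ_le_succ hn) _).trans
    (pow_le_pow_right₀ (le_add_of_nonneg_left (Nat.cast_nonneg n)) hC)

/-- plain monotonicity -/
theorem RgS.mono (h : T.RgS st M C n a η) (ht : (T.stg st).Tri) (h0 : 0 < η) (h1 : η ≤ 1)
    (hC : C' ≤ C) (hn : n' ≤ n) (ha : a ≤ a') (e : η ≤ η') : T.RgS st M C' n' a' η' :=
  h.mono'' ht h0 h1 le_rfl (by rw [one_mul]; exact pw_le hn hC)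
    (mul_le_mul (pw_le hn hC) ha h.pos.le (by positivity)) (by
      rw [one_mul]
      exact add_le_add_right (Real.log_le_log (inv_pos.2 (h0.trans_le e)) (inv_anti₀ h0 e)) 1)

/-- fewer stages -/
theorem RgS.mono_M (h : T.RgS st M C n a η) (ht : (T.stg st).Tri) {M' : ℕ} (e : M' ≤ M) :
    T.RgS st M' C n a η :=
  let ⟨κ, lb, k⟩ := rgS_iff.1 h
  rgS_iff.2 ⟨κ, lb, k.mono e le_rfl (fun t m j => ((k.lo t (m.trans e)).2.2 j).2) fun _ _ =>
    mul_le_mul_of_nonneg_left (add_le_add_right (sum_le_sum_of_subset_of_nonneg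
      (Icc_subset_Icc_right e) fun j m _ =>
        let ⟨x, y, _⟩ := k.lo j (mem_Icc.1 m).2; cst_nonneg ht x y) _) (by positivity)⟩

/-- all polynomial losses at once: size `n'`, covariance `a / Q`, error `η ^ r / Q` -/
theorem RgS.loss (h : T.RgS st M C n a η) (ht : (T.stg st).Tri) (h0 : 0 < η) (h1 : η ≤ 1)
    {Q : ℝ} {r : ℕ} (hQ : 1 ≤ Q) (hr : (r : ℝ) ≤ Q) (hP : Q * (n' + 1) ^ C' ≤ (n + 1) ^ C)
    (ha : a / Q ≤ a') (e : η ^ r / Q ≤ η') : T.RgS st M C' n' a' η' := by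
  have q : 0 < Q := by linarith
  refine h.mono'' ht h0 h1 hQ hP ?_ ?_
  · have p := h.pos
    rw [div_le_iff₀ q] at ha
    have : 0 ≤ a' := by by_contra k; nlinarith [mul_pos (sub_pos.2 (not_le.1 k)) q]
    calc _ ≤ (n' + 1 : ℝ) ^ C' * (a' * Q) := by gcongr
      _ = Q * (n' + 1) ^ C' * a' := by ring
      _ ≤ _ := by gcongr
  · have l := log_inv_nonneg h0 h1
    have p : 0 < η ^ r / Q := by positivity
    have k := Real.log_le_log (inv_pos.2 (p.trans_le e)) (inv_anti₀ p e)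
    rw [inv_div, Real.log_div q.ne' (by positivity), Real.log_pow] at k
    rw [Real.log_inv η] at l ⊢
    have := Real.log_le_sub_one_of_pos q
    nlinarith [mul_le_mul_of_nonneg_right hr l]

theorem der_pow (n c C : ℕ) (h : 1 ≤ n) :
    ((n : ℝ) + 2) ^ c * ((((n + 2) ^ c : ℕ) : ℝ) + 1) ^ C ≤ (n + 1) ^ (2 * c + (2 * c + 1) * C) := by
  have a : (1 : ℝ) ≤ n := by exact_mod_cast h
  have b : ((n : ℝ) + 2) ^ c ≤ (n + 1) ^ (2 * c) := by
    rw [pow_mul]; exact pow_le_pow_left₀ (by positivity) (by nlinarith) c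
  have d : (1 : ℝ) ≤ (n + 2) ^ c := one_le_pow₀ (by linarith)
  rw [pow_add, pow_mul _ (2 * c + 1)]
  refine mul_le_mul b (pow_le_pow_left₀ (by positivity) ?_ C) (by positivity) (by positivity)
  push_cast
  rw [pow_succ]; nlinarith

/-- derived shapes: with `N = (n + 2) ^ c`, size `N`, covariance `a / N`, error `η ^ r / N`, `r ≤ N` -/
theorem RgS.der {c r : ℕ} (h : T.RgS st M (2 * c + (2 * c + 1) * C) n a η) (ht : (T.stg st).Tri)
    (h0 : 0 < η) (h1 : η ≤ 1) (hn : 1 ≤ n) (hr : r ≤ (n + 2) ^ c) :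
    T.RgS st M C ((n + 2) ^ c) (a / (n + 2) ^ c) (η ^ r / (n + 2) ^ c) :=
  h.loss ht h0 h1 (one_le_pow₀ (by linarith [(Nat.cast_nonneg n : (0 : ℝ) ≤ n)]))
    (by exact_mod_cast hr) (der_pow n c C hn) le_rfl le_rfl

variable {S : Sh σ τ} {S' : Sh σ τ'} {Ψ : T.Twd S} {Ψ' : T.Twd S'}

/-- another shape and twist of the same class -/
theorem Hy.shape (h : T.Hy S st Ψ M C n a η) (k : T.Adm S' st Ψ') (s : S'.Sz n' a') (hn : n' ≤ n)
    (ha : a ≤ a') : T.Hy S' st Ψ' M C n a η :=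
  ⟨h.stg, k, h.pos, h.le, h.rg, s.mono hn ha⟩

theorem Hy.twist (h : T.Hy S st Ψ M C n a η) {Ψ₁ : T.Twd S} (k : T.Adm S st Ψ₁) :
    T.Hy S st Ψ₁ M C n a η := h.shape k h.sz le_rfl le_rfl

theorem Hy.mono_η (h : T.Hy S st Ψ M C n a η) (e : η ≤ η') (e' : η' ≤ 1) :
    T.Hy S st Ψ M C n a η' :=
  ⟨h.stg, h.adm, h.pos.trans_le e, e', h.rg.mono h.stg.tri h.pos h.le le_rfl le_rfl le_rfl e, h.sz⟩

/-- the standing hypotheses from a regular tower -/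
theorem RgS.hy (h : T.RgS st M C n a η) (g : T.Stg st M) (h0 : 0 < η) (h1 : η ≤ 1)
    (k : T.Adm S st Ψ) (s : S.Sz n' a') (hn : n' ≤ n) (ha : a ≤ a') : T.Hy S st Ψ M C n a η :=
  ⟨g, k, h0, h1, h, s.mono hn ha⟩

/-- general form for derived shapes -/
theorem Hy.loss (h : T.Hy S st Ψ M C n a η) {Q : ℝ} {r : ℕ} (hQ : 1 ≤ Q) (hr : (r : ℝ) ≤ Q)
    (hP : Q * (n' + 1) ^ C' ≤ (n + 1) ^ C) (ha : a / Q ≤ a') (e : η ^ r / Q ≤ η') (e' : η' ≤ 1)
    (k : T.Adm S' st Ψ') (s : S'.Sz n' a') : T.Hy S' st Ψ' M C' n' a' η' :=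
  ⟨h.stg, k, (div_pos (pow_pos h.pos r) (by linarith)).trans_le e, e',
    h.rg.loss h.stg.tri h.pos h.le hQ hr hP ha e, s⟩

/-- derived shapes of size `≤ N = (n + 2) ^ c` and covariance `≥ a / N`, error `η ^ r / N` -/
theorem Hy.der {c r : ℕ} (h : T.Hy S st Ψ M (2 * c + (2 * c + 1) * C) n a η) (hn : 1 ≤ n)
    (hr : r ≤ (n + 2) ^ c) (k : T.Adm S' st Ψ') (s : S'.Sz n' a') (hn' : n' ≤ (n + 2) ^ c)
    (ha : a / (n + 2) ^ c ≤ a') :
    T.Hy S' st Ψ' M C ((n + 2) ^ c) (a / (n + 2) ^ c) (η ^ r / (n + 2) ^ c) :=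
  have p : (1 : ℝ) ≤ (n + 2) ^ c := one_le_pow₀ (by linarith [(Nat.cast_nonneg n : (0 : ℝ) ≤ n)])
  (h.rg.der h.stg.tri h.pos h.le hn hr).hy h.stg (div_pos (pow_pos h.pos r) (by linarith))
    ((div_le_one (by linarith)).2 ((pow_le_one₀ h.pos.le h.le).trans p)) k s hn' ha

end TS

end Crest.Agent.N49.Tw

end
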