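import Crest.Agent.N49.Tw.Defs
import Crest.Agent.N49.Rw.Tw

/-!
# Row 49 (helper17): typed structures are raw Gaussian towers; the basic expectation calculus
-/

set_option autoImplicit false

open Matrix MvPolynomial Finset

noncomputable section

namespace Crest.Agent.N49.Tw

open Po

section blk
variable {ι : Type} [Fintype ι] [DecidableEq ι] {lev : ι → ℕ} {M M' : Matrix ι ι ℝ}

theorem blk_iff : Rw.Blk lev M ↔
    M * diagonal (fun i => (lev i : ℝ)) = diagonal (fun i => (lev i : ℝ)) * M := by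
  constructor
  · intro h
    ext i j
    rw [mul_diagonal, diagonal_mul]
    by_cases e : lev i = lev j
    · rw [e, mul_comm]
    · simp [h i j e]
  · intro h i j e
    have := congrFun (congrFun h i) j
    rw [mul_diagonal, diagonal_mul, mul_comm] at this
    by_contra c
    exact e (by exact_mod_cast (mul_right_cancel₀ c this).symm)

theorem blk_mul (h : Rw.Blk lev M) (h' : Rw.Blk lev M') : Rw.Blk lev (M * M') := by
  rw [blk_iff] at *
  rw [Matrix.mul_assoc, h', ← Matrix.mul_assoc, h, Matrix.mul_assoc]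

omit [Fintype ι] [DecidableEq ι] in
theorem blk_tr (h : Rw.Blk lev M) : Rw.Blk lev Mᵀ := fun i j e => h j i (Ne.symm e)

theorem blk_inv (h : Rw.Blk lev M) : Rw.Blk lev M⁻¹ := by
  by_cases hd : IsUnit M.det
  · rw [blk_iff] at *
    calc M⁻¹ * diagonal (fun i => (lev i : ℝ))
        = M⁻¹ * (diagonal (fun i => (lev i : ℝ)) * M) * M⁻¹ := by
          rw [Matrix.mul_assoc, Matrix.mul_assoc, mul_nonsing_inv _ hd, Matrix.mul_one]
      _ = _ := by rw [← h, ← Matrix.mul_assoc, nonsing_inv_mul _ hd, Matrix.one_mul]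
  · intro i j _
    simp [nonsing_inv_apply_not_isUnit _ hd]

end blk

theorem glue_pos {C R : Type} {p : C → Prop} [DecidablePred p] (y : {c // p c} → R) (b : C → R)
    {c : C} (h : p c) : glue p y b c = y ⟨c, h⟩ := dif_pos h

theorem glue_val {C R : Type} {p : C → Prop} [DecidablePred p] (y : {c // p c} → R) (b : C → R)
    (c : {c // p c}) : glue p y b c.1 = y c := dif_pos c.2

theorem glue_neg {C R : Type} {p : C → Prop} [DecidablePred p] (y : {c // p c} → R) (b : C → R)
    {c : C} (h : ¬ p c) : glue p y b c = b c := dif_neg h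

theorem map_glue {C R R' : Type} {p : C → Prop} [DecidablePred p] (f : R → R')
    (y : {c // p c} → R) (b : C → R) (c : C) :
    f (glue p y b c) = glue p (fun c => f (y c)) (fun c => f (b c)) c := by
  unfold glue; split_ifs <;> rfl

theorem zc_glue {C : Type} {p : C → Prop} [DecidablePred p] (y : {c // p c} → ℤ) (b : C → ℤ) :
    zc (glue p y b) = glue p (zc y) (zc b) :=
  funext fun c => map_glue (Int.cast : ℤ → ℝ) y b c

theorem sub_single {C : Type} (p : C → Prop) (c : {c // p c}) (k : ℕ) :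
    (Finsupp.single c.1 k).subtypeDomain p = Finsupp.single c k := by
  classical
  ext c'
  rw [Finsupp.subtypeDomain_apply, Finsupp.single_apply, Finsupp.single_apply]
  simp only [Subtype.ext_iff]

theorem sub_single' {C : Type} (p : C → Prop) {c : C} (h : ¬ p c) (k : ℕ) :
    (Finsupp.single c k).subtypeDomain p = 0 := by
  ext c'
  have : c'.1 ≠ c := fun e => h (e ▸ c'.2)
  rw [Finsupp.subtypeDomain_apply, Finsupp.single_eq_of_ne this]; rfl

theorem cut_monomial {C : Type} (p : C → Prop) [DecidablePred p] (b : C → ℝ) (m : C →₀ ℕ)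
    (a : ℝ) : aeval (glue p X fun c => MvPolynomial.C (b c)) (monomial m a) =
      monomial (m.subtypeDomain p) (a * m.prod fun c k => if p c then 1 else b c ^ k) := by
  have : aeval (glue p X fun c => MvPolynomial.C (b c)) (monomial m (1 : ℝ)) =
      monomial (m.subtypeDomain p) (m.prod fun c k => if p c then (1 : ℝ) else b c ^ k) := by
    induction m using Finsupp.induction_linear with
    | zero => simp
    | add m m' h h' =>
      have e : monomial (m + m') (1 : ℝ) = monomial m 1 * monomial m' 1 := by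
        rw [monomial_mul, one_mul]
      rw [e, map_mul, h, h', monomial_mul,
        Finsupp.subtypeDomain_add, Finsupp.prod_add_index']
      · simp
      · intro c k l; split_ifs <;> simp [pow_add]
    | single c k =>
      rw [aeval_monomial, Finsupp.prod_single_index (by simp), Finsupp.prod_single_index (by simp)]
      by_cases h : p c
      · rw [sub_single p ⟨c, h⟩, glue_pos _ _ h, if_pos h, X_pow_eq_monomial]; simp
      · rw [sub_single' p h, glue_neg _ _ h, if_neg h]; simp
  rw [← mul_one a, ← C_mul_monomial, map_mul, this, aeval_C, mul_one, algebraMap_eq,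
    C_mul_monomial]

theorem coeff_cut {C : Type} [DecidableEq C] (p : C → Prop) [DecidablePred p] (b : C → ℝ)
    (P : MvPolynomial C ℝ) (n : {c // p c} →₀ ℕ) :
    coeff n (aeval (glue p X fun c => MvPolynomial.C (b c)) P) =
      ∑ m ∈ P.support with m.subtypeDomain p = n,
        coeff m P * m.prod fun c k => if p c then 1 else b c ^ k := by
  conv_lhs => rw [P.as_sum, map_sum, coeff_sum]
  rw [sum_filter]
  exact sum_congr rfl fun m _ => by rw [cut_monomial, coeff_monomial]

theorem weight_sub_le {C : Type} (p : C → Prop) [DecidablePred p] (w : C → ℕ) (m : C →₀ ℕ) :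
    Finsupp.weight (fun c : {c // p c} => w c.1) (m.subtypeDomain p) ≤ Finsupp.weight w m := by
  induction m using Finsupp.induction_linear with
  | zero => simp
  | add m m' h h' => rw [Finsupp.subtypeDomain_add, map_add, map_add]; omega
  | single c k =>
    by_cases h : p c
    · rw [sub_single p ⟨c, h⟩, Finsupp.weight_single, Finsupp.weight_single]
    · rw [sub_single' p h]; simp

namespace TS

variable {σ σ' : Type} {T : TS σ}

theorem blk_A (T : TS σ) : Rw.Blk T.lev T.A := fun _ _ e => if_neg e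

theorem Tri.blk_K (h : T.Tri) : Rw.Blk T.lev T.K := fun c c' e => by_contra fun n => e (h.blk c c' n)

theorem Tri.lev_pos (h : T.Tri) (c : T.C) : 0 < T.lev c :=
  Nat.pos_of_ne_zero fun e => h.ne c ((Finsupp.degree_eq_zero_iff _).1 e)

theorem Tri.unit (h : T.Tri) : IsUnit T.A.det := h.det.isUnit

/-- a monomial of `Φ c` with a variable of level `≥ lev c` is linear -/
theorem Tri.eq_single (h : T.Tri) {c c' : T.C} {m : T.C →₀ ℕ} (hm : m ∈ (T.Φ c).support)
    (hc : m c' ≠ 0) (hl : T.lev c ≤ T.lev c') : m = Finsupp.single c' 1 ∧ T.lev c = T.lev c' := by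
  have h1 := h.tri c m hm
  rw [Finsupp.weight_apply, Finsupp.sum,
    ← add_sum_erase _ _ (Finsupp.mem_support_iff.2 hc), smul_eq_mul] at h1
  have h2 := h.lev_pos c'
  have h3 : m c' = 1 := by
    by_contra e
    have : 2 * T.lev c' ≤ m c' * T.lev c' := Nat.mul_le_mul_right _ (by omega)
    omega
  rw [h3] at h1
  refine ⟨?_, by omega⟩
  ext i
  by_cases e : i = c'
  · rw [e, h3, Finsupp.single_eq_same]
  · rw [Finsupp.single_eq_of_ne e]
    by_contra n
    have h4 := single_le_sum (f := fun i => m i • T.lev i) (fun _ _ => Nat.zero_le _)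
      (mem_erase.2 ⟨e, Finsupp.mem_support_iff.2 n⟩)
    have := Nat.mul_pos (Nat.pos_of_ne_zero n) (h.lev_pos i)
    simp only [smul_eq_mul] at h4 h1
    omega

variable (T) in
/-- the part of `Φ c` in the lower levels -/
def low (c : T.C) : MvPolynomial T.C ℝ := T.Φ c - ∑ c', MvPolynomial.C (T.A c c') * X c'

theorem Tri.low_lt (h : T.Tri) {c c' : T.C} {m : T.C →₀ ℕ} (hm : coeff m (T.low c) ≠ 0)
    (hc : m c' ≠ 0) : T.lev c' < T.lev c := by
  by_contra n
  apply hm
  rw [low, coeff_sub, coeff_sum]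
  simp only [coeff_C_mul, coeff_X]
  by_cases e : m ∈ (T.Φ c).support
  · obtain ⟨rfl, e2⟩ := h.eq_single e hc (not_lt.1 n)
    simp [Finsupp.single_left_inj, A, e2]
  · rw [notMem_support_iff.1 e, zero_sub, neg_eq_zero]
    refine sum_eq_zero fun i _ => ?_
    split_ifs with e2
    · subst e2
      simp [A, notMem_support_iff.1 e]
    · simp

theorem u_low (T : TS σ) (y : T.C → ℝ) : T.u y = T.A *ᵥ y + fun c => eval y (T.low c) := by
  funext c
  simp [u, low, mulVec, dotProduct]

theorem Tri.th_eq (h : T.Tri) (y : T.C → ℝ) :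
    T.th y = -(T.A⁻¹ *ᵥ fun c => eval y (T.low c)) := by
  rw [th, u_low, mulVec_add, mulVec_mulVec, nonsing_inv_mul _ h.unit, one_mulVec]
  abel

theorem Tri.eval_low (h : T.Tri) {y y' : T.C → ℝ} {c : T.C}
    (e : ∀ j, T.lev j < T.lev c → y j = y' j) : eval y (T.low c) = eval y' (T.low c) :=
  eval₂_congr _ _ _ fun hi hc => e _ (h.low_lt hc (Finsupp.mem_support_iff.1 hi))

/-- the centre depends only on the lower levels -/
theorem Tri.th_low (h : T.Tri) {y y' : T.C → ℝ} {c : T.C}
    (e : ∀ j, T.lev j < T.lev c → y j = y' j) : T.th y c = T.th y' c := by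
  rw [h.th_eq, h.th_eq]
  simp only [Pi.neg_apply, mulVec, dotProduct, neg_inj]
  refine sum_congr rfl fun i _ => ?_
  by_cases e2 : T.lev c = T.lev i
  · rw [h.eval_low (e2 ▸ e)]
  · simp [blk_inv T.blk_A c i e2]

/-- the errors of level `≤ l` depend only on the levels `≤ l` -/
theorem Tri.u_le (h : T.Tri) {y y' : T.C → ℝ} {c : T.C}
    (e : ∀ j, T.lev j ≤ T.lev c → y j = y' j) : T.u y c = T.u y' c :=
  eval₂_congr _ _ _ fun {i m} hi hc => e _ (by
    by_contra n
    have := (h.eq_single (mem_support_iff.2 hc) (Finsupp.mem_support_iff.1 hi) (by omega)).2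
    omega)

theorem Tri.u_eq (h : T.Tri) (y : T.C → ℝ) : T.u y = T.A *ᵥ (y - T.th y) := by
  rw [th, sub_sub_cancel, mulVec_mulVec, mul_nonsing_inv _ h.unit, one_mulVec]

theorem Tri.rw_tri (h : T.Tri) : Rw.Tri T.lev fun y => T.th (zc y) :=
  fun _ _ _ e => h.th_low fun j hj => by simp [zc, e j hj]

theorem Tri.pd_D (h : T.Tri) : T.D.PosDef := by
  have := posDef_conj h.pd (B := T.A⁻¹ᵀ) (mulVec_injective_iff_isUnit.2
    ((isUnit_iff_isUnit_det _).2 (by rw [det_transpose]; exact isUnit_nonsing_inv_det _ h.unit)))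
  rwa [transpose_transpose] at this

theorem Tri.D_inv (h : T.Tri) : T.D⁻¹ = T.Aᵀ * T.K⁻¹ * T.A := by
  rw [D, Matrix.mul_inv_rev, Matrix.mul_inv_rev, ← transpose_nonsing_inv,
    nonsing_inv_nonsing_inv _ h.unit, Matrix.mul_assoc]

theorem Tri.pd_Di (h : T.Tri) : T.D⁻¹.PosDef := h.pd_D.inv

theorem Tri.blk_D (h : T.Tri) : Rw.Blk T.lev T.D :=
  blk_mul (blk_mul (blk_inv T.blk_A) h.blk_K) (blk_tr (blk_inv T.blk_A))

theorem Tri.blk_Di (h : T.Tri) : Rw.Blk T.lev T.D⁻¹ := blk_inv h.blk_D

theorem Tri.gs_u (h : T.Tri) (y : T.C → ℝ) : gs T.K⁻¹ (T.u y) = gs T.D⁻¹ (y - T.th y) := by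
  rw [h.D_inv, gs, gs, qf_conj, ← h.u_eq]

theorem Tri.wt_eq (h : T.Tri) (y : T.C → ℤ) : T.wt y = gs T.D⁻¹ (zc y - T.th (zc y)) := h.gs_u _

theorem Tri.wt_rw (h : T.Tri) : T.wt = Rw.wt T.D⁻¹ fun y => T.th (zc y) := funext h.wt_eq

theorem wt_pos (T : TS σ) (y : T.C → ℤ) : 0 < T.wt y := gs_pos _ _

theorem Tri.wt_le (h : T.Tri) (y : T.C → ℤ) : T.wt y ≤ 1 := gs_le_one h.pd.inv _

theorem Tri.summable (h : T.Tri) : Summable T.wt := by
  rw [h.wt_rw]; exact Rw.summable_wt' h.rw_tri h.blk_Di h.pd_Di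

theorem Tri.Z_pos (h : T.Tri) : 0 < T.Z :=
  h.summable.tsum_pos (fun y => (T.wt_pos y).le) 0 (T.wt_pos 0)

theorem Tri.Zc_pos (h : T.Tri) : 0 < T.Zc := dt_pos h.pd_Di

/-! ### operations -/

theorem u_cut (T : TS σ) (p : T.C → Prop) [DecidablePred p] (b : T.C → ℤ) (y : {c // p c} → ℝ)
    (c : {c // p c}) : (T.cut p b).u y c = T.u (glue p y (zc b)) c.1 := by
  change eval y (aeval _ (T.Φ c.1)) = eval _ (T.Φ c.1)
  rw [← coe_aeval_eq_eval, ← coe_aeval_eq_eval]
  change ((aeval y).comp (aeval _)) _ = aeval _ _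
  rw [comp_aeval]
  congr 2
  funext i
  by_cases h : p i
  · simp [glue_pos _ _ h]
  · simp [glue_neg _ _ h, zc]

theorem Tri.A_cut (h : T.Tri) (p : T.C → Prop) [DecidablePred p] (b : T.C → ℤ) :
    (T.cut p b).A = T.A.submatrix Subtype.val Subtype.val := by
  refine funext fun c : {c // p c} => funext fun c' : {c // p c} => ?_
  change (if T.lev c.1 = T.lev c'.1 then coeff (Finsupp.single c' 1) (aeval _ (T.Φ c.1)) else 0) =
    if T.lev c.1 = T.lev c'.1 then _ else 0
  split_ifs with e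
  · have e1 := sub_single p c' 1
    refine (coeff_cut p (fun c => (b c : ℝ)) _ _).trans ?_
    rw [sum_eq_single (Finsupp.single c'.1 1)]
    · rw [Finsupp.prod_single_index (by simp), if_pos c'.2, mul_one]
    · intro m hm n
      obtain ⟨h1, h2⟩ := mem_filter.1 hm
      have : m c'.1 = 1 := (DFunLike.congr_fun h2 c').trans Finsupp.single_eq_same
      exact (n (h.eq_single h1 (by omega) e.le).1).elim
    · intro n
      rw [notMem_support_iff.1 fun k => n (mem_filter.2 ⟨k, e1⟩), zero_mul]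
  · rfl

/-- freezing coordinates -/
theorem Tri.cut' (h : T.Tri) (p : T.C → Prop) [DecidablePred p] (b : T.C → ℤ)
    (hd : (T.A.submatrix (Subtype.val : {c // p c} → T.C) Subtype.val).det ≠ 0) :
    (T.cut p b).Tri where
  tri := fun (c : {c // p c}) (n : {c // p c} →₀ ℕ) hn => by
    have h1 := mem_support_iff.1 hn
    obtain ⟨m, hm, -⟩ := exists_ne_zero_of_sum_ne_zero
      ((coeff_cut p (fun c => (b c : ℝ)) (T.Φ c.1) n).symm.trans_ne h1)
    obtain ⟨h2, rfl⟩ := mem_filter.1 hm
    exact (weight_sub_le p T.lev m).trans (h.tri _ _ h2)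
  ne c := h.ne c.1
  det := by rwa [h.A_cut]
  pd := h.pd.submatrix Subtype.val_injective
  blk c c' := h.blk c.1 c'.1

/-- freezing coordinates, when `A` is block triangular -/
theorem Tri.cut (h : T.Tri) (p : T.C → Prop) [DecidablePred p] (b : T.C → ℤ)
    (hp : (∀ c, p c → ∀ c', ¬ p c' → T.A c c' = 0) ∨ ∀ c, ¬ p c → ∀ c', p c' → T.A c c' = 0) :
    (T.cut p b).Tri := by
  refine h.cut' p b fun e => h.det ?_
  rcases hp with hp | hp
  · rw [twoBlockTriangular_det' _ p hp]
    exact mul_eq_zero_of_left (by convert e using 2; rfl) _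
  · rw [twoBlockTriangular_det _ p hp]
    exact mul_eq_zero_of_left (by convert e using 2; rfl) _

theorem Low.A_eq {p : T.C → Prop} (hp : T.Low p) {c c' : T.C} (h : p c) (h' : ¬ p c') :
    T.A c c' = 0 := by
  change (if _ then _ else _) = _
  split_ifs
  · by_contra n
    exact h' (hp c h c' ((mem_vars_iff_mem_support _).2 ⟨_, mem_support_iff.2 n, by simp⟩))
  · rfl

theorem Tri.cut_low (h : T.Tri) {p : T.C → Prop} [DecidablePred p] (hp : T.Low p) (b : T.C → ℤ) :
    (T.cut p b).Tri := h.cut p b (.inl fun _ hc _ hc' => hp.A_eq hc hc')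

theorem Tri.cut_hi (h : T.Tri) {p : T.C → Prop} [DecidablePred p] (hp : T.Low fun c => ¬ p c)
    (b : T.C → ℤ) : (T.cut p b).Tri :=
  h.cut p b (.inr fun _ hc _ hc' => hp.A_eq hc (not_not.2 hc'))

theorem Tri.cut_lev (h : T.Tri) (q : ℕ → Prop) [DecidablePred q] (b : T.C → ℤ) :
    (T.cut (fun c => q (T.lev c)) b).Tri :=
  h.cut _ b (.inl fun c hc c' hc' => T.blk_A c c' fun e => hc' (e ▸ hc))

theorem Tri.lt (h : T.Tri) (l : ℕ) : (T.lt l).Tri := h.cut_lev (· < l) 0

theorem Tri.low_lev (h : T.Tri) (l : ℕ) : T.Low fun c => T.lev c < l := fun c hc c' h' => by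
  obtain ⟨m, h1, h2⟩ := (mem_vars_iff_mem_support _).1 h'
  by_contra n
  have := (h.eq_single h1 (Finsupp.mem_support_iff.1 h2) (by omega)).2
  omega

theorem Tri.setK (h : T.Tri) {K : Matrix T.C T.C ℝ} (hK : K.PosDef) (hb : Rw.Blk T.lev K) :
    (T.setK K).Tri :=
  ⟨h.tri, h.ne, h.det, hK, fun c c' n => by_contra fun e => n (hb c c' e)⟩

theorem shr_K (T : TS σ) (κ : ℕ → ℝ) : (T.shr κ).K =
    diagonal (fun c => κ (T.lev c)) * T.K * diagonal fun c => κ (T.lev c) := by
  refine funext fun c : T.C => funext fun c' : T.C => Eq.symm ?_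
  rw [mul_diagonal, diagonal_mul]; rfl

theorem Tri.shr (h : T.Tri) {κ : ℕ → ℝ} (hκ : ∀ l, κ l ≠ 0) : (T.shr κ).Tri := by
  refine h.setK ?_ fun c c' e => by simp [h.blk_K c c' e]
  have := posDef_conj h.pd (B := diagonal fun c => κ (T.lev c)) (mulVec_injective_iff_isUnit.2
    ((isUnit_iff_isUnit_det _).2 (by
      rw [det_diagonal]; exact (prod_ne_zero_iff.2 fun _ _ => hκ _).isUnit)))
  rw [diagonal_transpose, ← shr_K] at this
  exact this

theorem Tri.regr (h : T.Tri) {f : (σ →₀ ℕ) → σ' →₀ ℕ}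
    (hf : ∀ c, (f (T.deg c)).degree = (T.deg c).degree) : (T.regr f).Tri := by
  have e : (T.regr f).lev = T.lev := funext hf
  have eA : (T.regr f).A = T.A := by unfold A; rw [e]; rfl
  refine ⟨by rw [e]; exact h.tri, fun c n => ?_, by rw [eA]; exact h.det, h.pd, by rw [e]; exact h.blk⟩
  have h1 := h.lev_pos c
  rw [← e] at h1
  exact h1.ne' ((Finsupp.degree_eq_zero_iff _).2 n)

theorem Tri.recol (h : T.Tri) (f : σ → σ') : (T.recol f).Tri :=
  h.regr fun _ => Finsupp.degree_mapDomain ..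

end TS

end Crest.Agent.N49.Tw

end
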