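import Crest.Agent.N49.Tw.Tw
import Crest.Agent.N49.Tw.Sa
import Crest.Agent.N49.Tw.Base

/-!
# Row 49 (helper71): twisted laws: errors, morphisms, points, stages
-/

set_option autoImplicit false
set_option linter.unusedSectionVars false

open Matrix MvPolynomial Finset

noncomputable section

namespace Crest.Agent.N49.Tw

open Po

namespace Sh

variable {σ τ τ' τ'' : Type} {S : Sh σ τ} {S' : Sh σ τ'} {φ : Matrix S'.W S.W ℤ}

theorem pu_eq (P : MvPolynomial S.W ℝ) : S.pu S' φ P = hA ℝ S' φ P := rfl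

theorem el_hom {R M : Type} [CommRing R] [AddCommMonoid M] {w : S.W → M} {n : M} {x : S.W → ℤ}
    (h : ∀ v, x v ≠ 0 → w v = n) : (S.el (R := R) x).IsWeightedHomogeneous w n :=
  IsWeightedHomogeneous.sum _ _ _ fun v _ => by
    by_cases z : x v = 0
    · rw [z, zero_smul]; exact isWeightedHomogeneous_zero _ _ _
    · rw [X, smul_monomial]
      exact isWeightedHomogeneous_monomial _ _ _ (by rw [Finsupp.weight_single, one_smul, h v z])

theorem hA_hom {R M : Type} [CommRing R] [AddCommMonoid M] {w : S.W → M} {w' : S'.W → M}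
    (h : ∀ v' v, φ v' v ≠ 0 → w' v' = w v) {P : MvPolynomial S.W R} {n : M}
    (hP : P.IsWeightedHomogeneous w n) : (hA R S' φ P).IsWeightedHomogeneous w' n := by
  rw [P.as_sum, map_sum]
  refine IsWeightedHomogeneous.sum _ _ _ fun m hm => ?_
  rw [hA, aeval_monomial, ← hP (mem_support_iff.1 hm), Finsupp.weight_apply, Finsupp.sum,
    Finsupp.prod, ← zero_add (∑ _ ∈ _, _)]
  exact (isWeightedHomogeneous_C _ _).mul (IsWeightedHomogeneous.prod _ _ _ fun v _ =>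
    (el_hom fun v' z => h v' v z).pow _)

theorem Hm.dg (h : S.Hm S' φ) (v' : S'.W) (v : S.W) (z : φ v' v ≠ 0) : S'.dg v' = S.dg v := by
  rw [← cd_degree, ← cd_degree, h.cd v' v z]

theorem hA_hA {R : Type} [CommRing R] {S'' : Sh σ τ''} (ψ : Matrix S''.W S'.W ℤ)
    (P : MvPolynomial S.W R) : hA R S'' ψ (hA R S' φ P) = hA R S'' (ψ * φ) P := by
  rw [← AlgHom.comp_apply]
  congr 1
  ext1 a
  rw [AlgHom.comp_apply]
  conv_lhs => rw [hA, hA, aeval_X, ← hA, hA_el]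
  rw [hA, aeval_X]; rfl

theorem hA_one {R : Type} [CommRing R] (P : MvPolynomial S.W R) : hA R S 1 P = P := by
  rw [← AlgHom.id_apply (R := R) P]
  congr 1
  ext1 a
  simp [hA, el, one_apply]

theorem hm_one : S.Hm S 1 where
  cd w' w z := congrArg _ (of_not_not fun e => z (one_apply_ne e))
  mul w' m _ := by
    rw [← hA, hA_one, cf_monomial]; simp [one_apply]
  mass := one_mulVec _

theorem Hm.comp {S'' : Sh σ τ''} {ψ : Matrix S''.W S'.W ℤ} (h : S.Hm S' φ) (h' : S'.Hm S'' ψ)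
    (o : S.Ok) (o' : S'.Ok) (o'' : S''.Ok) : S.Hm S'' (ψ * φ) where
  cd w'' w z := by
    obtain ⟨w', -, k⟩ := exists_ne_zero_of_sum_ne_zero z
    exact (h'.cd _ _ (left_ne_zero_of_mul k)).trans (h.cd _ _ (right_ne_zero_of_mul k))
  mul w'' m _ := by
    rw [← hA, ← hA_hA, h'.cf o' o'']
    simp only [h.cf o o', cf_monomial, mul_apply, sum_mul, mul_sum, Int.cast_id, one_mul, mul_assoc]
    exact sum_comm
  mass := by rw [← mulVec_mulVec, h.mass, h'.mass]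

/-- evaluation at a character -/
theorem aeval_pt {R : Type} [CommRing R] {χ : S.W → ℤ} {M : ℕ} (hχ : ∀ m, m ≠ 0 →
    Finsupp.weight S.dg m ≤ M → m.prod (fun w n => χ w ^ n) = ∑ w, S.r w m * χ w)
    {P : MvPolynomial S.W R} {n : ℕ} (hP : P.IsWeightedHomogeneous S.dg n) (h0 : 0 < n)
    (hn : n ≤ M) : eval (fun w => (χ w : R)) P = ∑ w, χ w * S.cf R w P := by
  simp only [cf_eq, mul_sum]
  rw [eval_eq, sum_comm]
  refine sum_congr rfl fun m hm => ?_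
  have e := hP (mem_support_iff.1 hm)
  have := congrArg (Int.cast : ℤ → R) (hχ m (fun z => by rw [z, map_zero] at e; omega) (e ▸ hn))
  simp only [Finsupp.prod, Int.cast_prod, Int.cast_pow, Int.cast_sum, Int.cast_mul] at this
  rw [this, mul_sum]
  exact sum_congr rfl fun _ _ => by ring

end Sh

namespace TS

variable {σ τ τ' τ'' : Type} {T : TS σ} {st : T.C → ℕ} {M : ℕ}

theorem stg_lev (c : T.C) : (T.stg st).lev c = st c := Finsupp.degree_single _ _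

theorem stg_lev' : (T.stg st).lev = st := funext stg_lev

theorem stg_A (c c' : T.C) : (T.stg st).A c c' =
    if st c = st c' then coeff (Finsupp.single c' 1) (T.Φ c) else 0 := by
  rw [← stg_lev (st := st) c, ← stg_lev (st := st) c']; rfl

theorem stg_A_lev : (T.stg T.lev).A = T.A := Matrix.ext fun c c' => stg_A c c'

theorem Stg.A (h : T.Stg st M) (c c' : T.C) :
    (T.stg st).A c c' = if st c = st c' then T.A c c' else 0 := by
  rw [stg_A]
  split_ifs with e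
  · rw [TS.A, of_apply, if_pos (h.lev c c' e)]
  · rfl

theorem Stg.bl (h : T.Stg st M) : T.Bl (T.stg st).A := fun c c' z => by
  rw [h.A] at z
  split_ifs at z
  · exact h.cl.bl _ _ z
  · exact absurd rfl z

theorem Stg.wt (h : T.Stg st M) (c : T.C) {m : T.C →₀ ℕ} (hm : m ∈ (T.Φ c).support) :
    Finsupp.weight st m ≤ st c := by
  have := h.tri.tri c m hm
  rwa [stg_lev'] at this

theorem Stg.blk (h : T.Stg st M) {c c' : T.C} (z : T.K c c' ≠ 0) : st c = st c' := by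
  have := h.tri.blk c c' z
  rwa [stg_lev'] at this

theorem Stg.pos (h : T.Stg st M) (c : T.C) : 0 < st c := by
  have := h.tri.lev_pos c
  rwa [stg_lev'] at this

/-- a constructor for staged structures -/
theorem stg_tri (h1 : ∀ c, ∀ m ∈ (T.Φ c).support, Finsupp.weight st m ≤ st c)
    (h2 : ∀ c, st c ≠ 0) (h3 : (T.stg st).A.det ≠ 0) (h4 : T.K.PosDef)
    (h5 : ∀ c c', T.K c c' ≠ 0 → st c = st c') : (T.stg st).Tri :=
  ⟨by rw [stg_lev']; exact h1, fun c e => h2 c (Finsupp.single_eq_zero.1 e), h3, h4,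
    by rw [stg_lev']; exact h5⟩

theorem Tri.stg (h : T.Tri) : (T.stg T.lev).Tri :=
  stg_tri h.tri (fun c => (h.lev_pos c).ne') (by rw [stg_A_lev]; exact h.det) h.pd h.blk

theorem Cl.stg (h : T.Cl) (hM : ∀ c, T.lev c ≤ M) : T.Stg T.lev M :=
  ⟨h, h.1.stg, fun _ _ e => e, fun c => ⟨hM c, hM c⟩⟩

theorem stg_D_lev : (T.stg T.lev).D = T.D := by rw [D, stg_A_lev]; rfl

variable [DecidableEq σ] {S : Sh σ τ} {S' : Sh σ τ'} {φ : Matrix S'.W S.W ℤ} {Ψ : T.Twd S}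

theorem tw_aeval {R : Type} [CommRing R] [Algebra ℝ R] (y : T.Cw S → R) (p : T.Cw S) :
    aeval y ((T.tw S Ψ).Φ p) = S.cf R p.1.2
      (eval₂ (MvPolynomial.map (algebraMap ℝ R)) (T.Yw S y) (Ψ p.1.1)) := by
  refine (Sh.cf_map (aeval (R := ℝ) y).toRingHom p.1.2 _).symm.trans (congrArg _ ?_)
  rw [eval₂_comp_left]
  congr 1
  · refine RingHom.ext fun P => ?_
    rw [RingHom.comp_apply, MvPolynomial.map_map]; congr 2; ext1 a; simp
  · funext F
    rw [Function.comp_apply, map_Yw]; congr 1; funext q; simp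

theorem tw_u (y : T.Cw S → ℝ) (p : T.Cw S) :
    (T.tw S Ψ).u y p = S.cf ℝ p.1.2 (eval (T.Yw S y) (Ψ p.1.1)) := by
  refine (tw_aeval y p).trans (congrArg _ ?_)
  rw [eval, coe_eval₂Hom]; congr 1; ext1 <;> simp

theorem eval₂_tw0 {R : Type} [CommRing R] [Algebra ℝ R] (Y : T.C → MvPolynomial S.W R) (F : T.C) :
    eval₂ (MvPolynomial.map (algebraMap ℝ R)) Y (T.tw0 S F) = T.hz (S.el S.ε) Y F := by
  rw [tw0, eval₂_sum, hz]
  refine sum_congr rfl fun m _ => ?_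
  rw [eval₂_monomial, aeval_monomial, smul_eq_C_mul, map_mul, map_pow, Sh.map_el, map_C,
    MvPolynomial.algebraMap_apply]
  ring

theorem tw_tw0 : T.tw S (T.tw0 S) = T.sh S := by
  have : (T.tw S (T.tw0 S)).Φ = (T.sh S).Φ :=
    funext fun p => congrArg (S.cf _ p.1.2) (eval₂_tw0 _ _)
  exact congrArg (fun Φ => (T.sh S).setΦ Φ) this

theorem coeff_tw0 (F : T.C) (m : T.C →₀ ℕ) : coeff m (T.tw0 S F) =
    coeff m (T.Φ F) • S.el S.ε ^ (T.lev F - Finsupp.weight T.lev m) := by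
  rw [tw0, coeff_sum, sum_eq_single m]
  · rw [coeff_monomial, if_pos rfl]
  · intro m' _ ne; rw [coeff_monomial, if_neg ne]
  · intro k; rw [notMem_support_iff.1 k, zero_smul, map_zero, coeff_zero]

theorem adm_tw0' (h : T.Tri) (hs : ∀ c, ∀ m ∈ (T.Φ c).support, Finsupp.weight st m ≤ st c)
    (o : S.Ok) : T.Adm S st (T.tw0 S) where
  gr F m := by
    rw [coeff_tw0, smul_eq_C_mul]
    simpa using (isWeightedHomogeneous_C S.dg _).mul ((Sh.el_hom o.eps).pow _)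
  le F m hm := by
    have : m ∈ (T.Φ F).support := mem_support_iff.2 fun z => mem_support_iff.1 hm (by
      rw [coeff_tw0, z, zero_smul])
    exact ⟨h.tri F m this, hs F m this⟩
  top F m e := by rw [coeff_tw0, e, Nat.sub_self, pow_zero, smul_eq_C_mul, mul_one]

theorem Stg.adm (h : T.Stg st M) (o : S.Ok) : T.Adm S st (T.tw0 S) :=
  adm_tw0' h.cl.1 (fun c _ => h.wt c) o

theorem Adm.tp (h : T.Adm S st Ψ) (k : ∀ v' v, φ v' v ≠ 0 → S'.dg v' = S.dg v) :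
    T.Adm S' st (T.tp S S' φ Ψ) where
  gr F m := by rw [TS.tp, coeff_map]; exact Sh.hA_hom k (h.gr F m)
  le F m hm := h.le F m (support_map_subset _ _ hm)
  top F m e := by rw [TS.tp, coeff_map, h.top F m e, Sh.pu_eq, algHom_C]; rfl

theorem tp_tw0 (h : φ *ᵥ S.ε = S'.ε) : T.tp S S' φ (T.tw0 S) = T.tw0 S' := by
  funext F
  ext1 m
  rw [tp, coeff_map, coeff_tw0, coeff_tw0, Sh.pu_eq, map_smul, map_pow, Sh.hA_el, h]

theorem tp_tp {S'' : Sh σ τ''} (ψ : Matrix S''.W S'.W ℤ) :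
    T.tp S' S'' ψ (T.tp S S' φ Ψ) = T.tp S S'' (ψ * φ) Ψ := by
  funext F
  ext1 m
  simp only [tp, coeff_map, Sh.pu_eq, Sh.hA_hA]

theorem tp_one : T.tp S S 1 Ψ = Ψ := by
  funext F
  ext1 m
  simp only [tp, coeff_map, Sh.pu_eq, Sh.hA_one]

theorem term_tw (w : S.W) (a : T.C →₀ ℕ) (c : MvPolynomial S.W ℝ) {m : T.Cw S →₀ ℕ}
    (h : coeff m (S.cf _ w (eval₂ (MvPolynomial.map (algebraMap ℝ (MvPolynomial (T.Cw S) ℝ)))
      (T.Yw S (X (R := ℝ))) (monomial a c))) ≠ 0) :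
    m.mapDomain (·.1.1) = a ∧ ∃ ν, coeff ν c ≠ 0 ∧ S.r w (m.mapDomain (·.1.2) + ν) ≠ 0 := by
  classical
  rw [Sh.cf_eq, coeff_sum] at h
  obtain ⟨μ, -, h⟩ := exists_ne_zero_of_sum_ne_zero h
  rw [mul_comm, ← zsmul_eq_mul, coeff_smul] at h
  let ρ : (T.C →₀ ℕ) → (T.Cw S →₀ ℕ) → (S.W →₀ ℕ) → Prop := fun x m μ =>
    m.mapDomain (·.1.1) = x ∧ μ = m.mapDomain (·.1.2)
  have h0 : ρ 0 0 0 := ⟨by simp, by simp⟩
  have k : ∀ a b m μ m' μ', ρ a m μ → ρ b m' μ' → ρ (a + b) (m + m') (μ + μ') := by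
    rintro a b m μ m' μ' ⟨rfl, rfl⟩ ⟨rfl, rfl⟩
    exact ⟨Finsupp.mapDomain_add, Finsupp.mapDomain_add.symm⟩
  have e : Gr (fun m ν => m = 0 ∧ coeff ν c ≠ 0)
      (MvPolynomial.map (algebraMap ℝ (MvPolynomial (T.Cw S) ℝ)) c) := fun ν m z => by
    rw [coeff_map, algebraMap_eq, coeff_C] at z
    split_ifs at z with e
    · exact ⟨e.symm, z⟩
    · exact absurd rfl z
  have f : Gr (ρ (∑ c ∈ a.support, a c • Finsupp.single c 1))
      (∏ c ∈ a.support, T.Yw S (X (R := ℝ)) c ^ a c) :=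
    Gr.prod h0 k _ fun c _ => Gr.pow h0 k (Gr.sum _ fun q hq => by
      rw [X, X, C_mul_monomial, mul_one]
      exact Gr.mon _ _ 1 ⟨by simp [(mem_filter.1 hq).2], by simp⟩) _
  rw [eval₂_monomial] at h
  obtain ⟨g1, ν, g2, g3⟩ := e.mul f (r'' := fun m μ => m.mapDomain (·.1.1) = a ∧
    ∃ ν, coeff ν c ≠ 0 ∧ μ = m.mapDomain (·.1.2) + ν) (by
      rintro m ν m' μ ⟨rfl, z⟩ ⟨b, rfl⟩
      refine ⟨?_, ν, z, by rw [zero_add, add_comm]⟩
      rw [zero_add, b]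
      simp only [Finsupp.smul_single, smul_eq_mul, mul_one]
      exact Finsupp.sum_single a) μ m (right_ne_zero_of_smul h)
  exact ⟨g1, ν, g2, g3 ▸ left_ne_zero_of_smul h⟩

theorem tw_Φ (p : T.Cw S) : (T.tw S Ψ).Φ p = ∑ a ∈ (Ψ p.1.1).support,
    S.cf _ p.1.2 (eval₂ (MvPolynomial.map (algebraMap ℝ (MvPolynomial (T.Cw S) ℝ)))
      (T.Yw S (X (R := ℝ))) (monomial a (coeff a (Ψ p.1.1)))) := by
  rw [← map_sum, ← eval₂_sum, ← as_sum]; rfl

/-- **the monomials of the twisted errors** -/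
theorem tw_mon (p : T.Cw S) {m : T.Cw S →₀ ℕ} (h : coeff m ((T.tw S Ψ).Φ p) ≠ 0) :
    ∃ ν, coeff ν (coeff (m.mapDomain (·.1.1)) (Ψ p.1.1)) ≠ 0 ∧
      S.r p.1.2 (m.mapDomain (·.1.2) + ν) ≠ 0 := by
  rw [tw_Φ, coeff_sum] at h
  obtain ⟨a, -, h⟩ := exists_ne_zero_of_sum_ne_zero h
  obtain ⟨rfl, k⟩ := term_tw _ _ _ h
  exact k

theorem mem_mapD {ι κ : Type} (f : ι → κ) {m : ι →₀ ℕ} {q : ι} (hq : q ∈ m.support) :
    f q ∈ (m.mapDomain f).support := by
  classical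
  refine Finsupp.mem_support_iff.2 (Nat.pos_iff_ne_zero.1 (lt_of_lt_of_le
    (Nat.pos_of_ne_zero (Finsupp.mem_support_iff.1 hq)) ?_))
  rw [Finsupp.mapDomain, Finsupp.sum_apply, Finsupp.sum]
  refine le_trans ?_ (single_le_sum (fun _ _ => Nat.zero_le _) hq)
  simp

theorem tw_vars (p q : T.Cw S) (h : q ∈ ((T.tw S Ψ).Φ p).vars) :
    q.1.1 ∈ (Ψ p.1.1).vars ∧ ∃ m, S.r p.1.2 m ≠ 0 ∧ q.1.2 ∈ m.support := by
  obtain ⟨m : T.Cw S →₀ ℕ, hm, hq⟩ := (mem_vars_iff_mem_support _).1 h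
  obtain ⟨ν, a, b⟩ := tw_mon p (mem_support_iff.1 hm)
  refine ⟨(mem_vars_iff_mem_support _).2 ⟨_, mem_support_iff.2 fun z => a (by rw [z, coeff_zero]),
    mem_mapD (·.1.1) hq⟩, _, b, ?_⟩
  have := Finsupp.mem_support_iff.1 (mem_mapD (·.1.2) hq)
  rw [Finsupp.mem_support_iff, Finsupp.add_apply]; omega

theorem tw_low {p : S.W → Prop} (h : S.Idl p) : (T.tw S Ψ).Low fun q => p q.1.2 := fun q hq q' k =>
  let ⟨_, m, a, b⟩ := tw_vars q q' k; h _ m hq a _ b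

theorem lw_low {p : S.W → Prop} (h : S.Idl p) : (T.lw S st Ψ).Low fun q => p q.1.2 := tw_low h

theorem tw_lev (p : T.Cw S) : (T.tw S Ψ).lev p = T.lev p.1.1 := (lev_cw p).symm

theorem lw_lev (p : T.Cw S) : (T.lw S st Ψ).lev p = st p.1.1 :=
  stg_lev (T := T.tw S Ψ) p

theorem tw_K : (T.tw S Ψ).K = T.kw S T.K S.K := rfl

theorem lw_K : (T.lw S st Ψ).K = T.kw S T.K S.K := rfl

theorem lw_wt : (T.lw S st Ψ).wt = (T.tw S Ψ).wt := rfl

theorem lw_Z : (T.lw S st Ψ).Z = (T.tw S Ψ).Z := rfl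

theorem tw_lin (h : T.Adm S st Ψ) (o : S.Ok) (p p' : T.Cw S) (e : T.lev p.1.1 = T.lev p'.1.1) :
    coeff (Finsupp.single p' 1) ((T.tw S Ψ).Φ p) =
      T.A p.1.1 p'.1.1 * (1 : Matrix S.W S.W ℝ) p.1.2 p'.1.2 := by
  rw [tw_Φ, coeff_sum, sum_eq_single (Finsupp.single p'.1.1 1)]
  · rw [h.top _ _ (by rw [Finsupp.weight_single, one_smul, e]), eval₂_monomial, map_C,
      Finsupp.prod_single_index (by simp), pow_one, Sh.cf_C_mul, algebraMap_eq, coeff_C_mul, A,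
      of_apply, if_pos e, Yw, map_sum, coeff_sum, sum_eq_single p']
    · rw [Sh.cf_C_mul, o.cf_X, one_apply]
      split_ifs <;> simp
    · intro q _ ne
      rw [Sh.cf_C_mul, o.cf_X]
      split_ifs
      · rw [mul_one, coeff_X, if_neg fun z => ne (Finsupp.single_left_injective one_ne_zero z)]
      · rw [mul_zero, coeff_zero]
    · intro k; exact absurd (mem_filter.2 ⟨mem_univ p', rfl⟩ : p' ∈ univ.filter
        fun q : T.Cw S => q.1.1 = p'.1.1) k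
  · intro m _ ne
    by_contra z
    exact ne ((term_tw _ _ _ z).1.symm.trans Finsupp.mapDomain_single)
  · intro k
    have := h.top p.1.1 (Finsupp.single p'.1.1 1) (by rw [Finsupp.weight_single, one_smul, e])
    rw [notMem_support_iff.1 k]; simp

theorem tw_A (h : T.Adm S st Ψ) (o : S.Ok) : (T.tw S Ψ).A = T.kw S T.A 1 := by
  refine Matrix.ext fun (p : T.Cw S) (p' : T.Cw S) => ?_
  change (if S.dg p.1.2 = S.dg p'.1.2 then _ else 0) = T.A p.1.1 p'.1.1 * _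
  rw [← lev_cw, ← lev_cw]
  split_ifs with e
  · exact tw_lin h o p p' e
  · rw [blk_A T _ _ e, zero_mul]

theorem lw_A (hs : T.Stg st M) (h : T.Adm S st Ψ) (o : S.Ok) :
    (T.lw S st Ψ).A = T.kw S (T.stg st).A 1 := by
  refine Matrix.ext fun (p : T.Cw S) (p' : T.Cw S) => (stg_A (T := T.tw S Ψ) p p').trans ?_
  change _ = (T.stg st).A p.1.1 p'.1.1 * _
  rw [hs.A]
  split_ifs with e
  · exact tw_lin h o p p' (hs.lev _ _ e)
  · rw [zero_mul]

theorem tw_tri (hc : T.Cl) (h : T.Adm S st Ψ) (o : S.Ok) : (T.tw S Ψ).Tri where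
  tri p m hm := by
    obtain ⟨ν, -, b⟩ := tw_mon p (mem_support_iff.1 hm)
    have := o.gr_dg b
    rw [map_add] at this
    exact (weight_map (fun q : T.Cw S => q.1.2) S.dg m).symm.trans_le (le_of_add_le_left this.le)
  ne p := o.ne _
  det := by rw [tw_A h o]; exact (kw_inv hc.bl one_cd hc.1.det (by simp)).2
  pd := kw_posDef hc.1.pd o.pd
  blk p p' k := by
    have := congrArg Finsupp.degree (o.blk _ _ (right_ne_zero_of_mul k))
    rwa [Sh.cd_degree, Sh.cd_degree] at this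

theorem lw_tri (hs : T.Stg st M) (h : T.Adm S st Ψ) (o : S.Ok) : (T.lw S st Ψ).Tri :=
  stg_tri (T := T.tw S Ψ) (fun p m hm => by
      obtain ⟨ν, a, -⟩ := tw_mon p (mem_support_iff.1 hm)
      exact (weight_map (fun q : T.Cw S => q.1.1) st m).symm.trans_le
        (h.le _ _ (mem_support_iff.2 fun z => a (by rw [z, coeff_zero]))).2)
    (fun p => (hs.pos _).ne')
    ((congrArg det (lw_A hs h o)).trans_ne (kw_inv hs.bl one_cd hs.tri.det (by simp)).2)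
    (kw_posDef hs.cl.1.pd o.pd) fun _ _ z => hs.blk (left_ne_zero_of_mul z)

theorem kw_D {B : Matrix T.C T.C ℝ} (hB : T.Bl B) (hd : B.det ≠ 0) :
    (T.kw S B 1)⁻¹ * T.kw S T.K S.K * (T.kw S B 1)⁻¹ᵀ = T.kw S (B⁻¹ * T.K * B⁻¹ᵀ) S.K := by
  rw [(kw_inv hB one_cd hd (by simp)).1, inv_one, kw_mul hB.inv one_cd, kw_transpose,
    mul_kw hB.inv one_cd, transpose_one, Matrix.one_mul, Matrix.mul_one]

theorem tw_D (hc : T.Cl) (h : T.Adm S st Ψ) (o : S.Ok) : (T.tw S Ψ).D = T.kw S T.D S.K := by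
  rw [D, tw_A h o]; exact kw_D hc.bl hc.1.det

theorem lw_D (hs : T.Stg st M) (h : T.Adm S st Ψ) (o : S.Ok) :
    (T.lw S st Ψ).D = T.kw S (T.stg st).D S.K := by
  rw [D, lw_A hs h o]; exact kw_D hs.bl hs.tri.det

theorem lw_Zc (hs : T.Stg st M) (h : T.Adm S st Ψ) (o : S.Ok) :
    (T.lw S st Ψ).Zc = dt (T.kw S (T.stg st).D S.K)⁻¹ := by
  rw [Zc, lw_D hs h o]; rfl

theorem Hy.tri {C n : ℕ} {a η : ℝ} (h : T.Hy S st Ψ M C n a η) : (T.lw S st Ψ).Tri :=
  lw_tri h.stg h.adm h.sz.toOk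

theorem Hy.tw_tri {C n : ℕ} {a η : ℝ} (h : T.Hy S st Ψ M C n a η) : (T.tw S Ψ).Tri :=
  TS.tw_tri h.stg.cl h.adm h.sz.toOk

end TS

end Crest.Agent.N49.Tw

end
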