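import Crest.Agent.N49.Tw.Defs

/-!
# Row 49 (helper9): general shapes = graded rings with a basis of words (FROZEN definitions)

`S.r w m` is the coefficient of the word `w` in the product `∏ w' ^ m w'` of words.
-/

set_option autoImplicit false

open Matrix MvPolynomial Finset

noncomputable section

namespace Crest.Agent.N49.Tw

open Po

/-- an integer matrix as a real matrix -/
def rl {m n : Type} (U : Matrix m n ℤ) : Matrix m n ℝ := U.map fun z => (z : ℝ)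

/-- shapes: words `W` with a type `ty` in the letters `τ`, colours `col`, multiplication `r`,
mass `ε` and covariance `K` -/
structure Sh (σ τ : Type) where
  W : Type
  [fin : Fintype W]
  [dec : DecidableEq W]
  col : τ → σ
  ty : W → τ →₀ ℕ
  r : W → (W →₀ ℕ) → ℤ
  ε : W → ℤ
  K : Matrix W W ℝ

attribute [instance] Sh.fin Sh.dec

namespace Sh

variable {σ τ τ' : Type} (S : Sh σ τ)

/-- the length of a word -/
def dg (w : S.W) : ℕ := (S.ty w).degree
/-- the colour of a word -/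
def cd (w : S.W) : σ →₀ ℕ := (S.ty w).mapDomain S.col
/-- the coefficient of `w` after reduction -/
def cf (R : Type) [CommRing R] (w : S.W) : MvPolynomial S.W R →ₗ[R] R :=
  (basisMonomials S.W R).constr R fun m => (S.r w m : R)
/-- an element of the ring as a linear polynomial -/
def el {R : Type} [CommRing R] (x : S.W → ℤ) : MvPolynomial S.W R := ∑ w, x w • X w

/-- well-formed shapes -/
structure Ok : Prop where
  ne : ∀ w, S.ty w ≠ 0
  one : ∀ w w', S.r w (Finsupp.single w' 1) = if w = w' then 1 else 0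
  gr : ∀ w m, S.r w m ≠ 0 → Finsupp.weight S.cd m = S.cd w
  mul : ∀ w m m', m ≠ 0 → S.r w (m + m') = ∑ w', S.r w' m * S.r w (Finsupp.single w' 1 + m')
  eps : ∀ w, S.ε w ≠ 0 → S.dg w = 1
  pd : S.K.PosDef
  blk : ∀ w w', S.K w w' ≠ 0 → S.cd w = S.cd w'

/-- the words outside `p` span an ideal -/
def Idl (p : S.W → Prop) : Prop := ∀ w m, p w → S.r w m ≠ 0 → ∀ w' ∈ m.support, p w'

/-- the ideal of the words outside `p` is spanned by products of words of length one, the first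
one outside `p` (`p = ⊥`: the ring is generated in degree one) -/
def Gen (p : S.W → Prop) : Prop := ∀ κ : S.W → ℤ, (∀ w, p w → κ w = 0) → ∀ w, κ w ≠ 0 →
  ∃ (l : ℕ) (lam : Fin (l + 1) → S.W), l + 1 = S.dg w ∧ (∀ i, S.dg (lam i) = 1) ∧ ¬ p (lam 0) ∧
    ∑ w', κ w' * S.r w' (∑ i, Finsupp.single (lam i) 1) ≠ 0

/-- size: at most `n` words, heights `≤ n`, covariance `≥ a`, generated in degree one -/
structure Sz (n : ℕ) (a : ℝ) : Prop extends S.Ok where
  card : Fintype.card S.W ≤ n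
  ht : ∀ w m, |S.r w m| ≤ n
  lo : ∀ x, a * ∑ w, x w ^ 2 ≤ qf S.K x
  gen : S.Gen fun _ => False

/-- points of mass one (for the levels `≤ s`) -/
structure Pt (s : ℕ) (χ : S.W → ℤ) : Prop where
  mul : ∀ m, m ≠ 0 → Finsupp.weight S.dg m ≤ s → m.prod (fun w n => χ w ^ n) = ∑ w, S.r w m * χ w
  mass : ∑ w, S.ε w * χ w = 1

/-- morphisms: the word `w` goes to `∑ φ w' w • w'` -/
structure Hm (S' : Sh σ τ') (φ : Matrix S'.W S.W ℤ) : Prop where
  cd : ∀ w' w, φ w' w ≠ 0 → S'.cd w' = S.cd w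
  mul : ∀ w' m, m ≠ 0 → ∑ w, φ w' w * S.r w m =
    S'.cf ℤ w' (aeval (fun w => S'.el fun w'' => φ w'' w) (monomial m (1 : ℤ)))
  mass : φ *ᵥ S.ε = S'.ε

/-- a new covariance -/
def setK (K : Matrix S.W S.W ℝ) : Sh σ τ := { S with K := K }

/-- the quotient by the words outside `p` -/
def sub (p : S.W → Prop) [DecidablePred p] : Sh σ τ where
  W := {w // p w}
  col := S.col
  ty w := S.ty w.1
  r w m := S.r w.1 (m.mapDomain Subtype.val)
  ε w := S.ε w.1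
  K := S.K.submatrix Subtype.val Subtype.val

/-- new types -/
def rety (col : τ' → σ) (ty : S.W → τ' →₀ ℕ) : Sh σ τ' := { S with col := col, ty := ty }

/-- the fibre product over the quotient `p` (independent clones of the words outside `p`) -/
def dbl (p : S.W → Prop) [DecidablePred p] : Sh σ τ where
  W := S.W ⊕ {w // ¬ p w}
  col := S.col
  ty := Sum.elim S.ty fun w => S.ty w.1
  r := Sum.elim
    (fun w m => if ∀ w', m (.inr w') = 0 then S.r w (m.mapDomain (Sum.elim id Subtype.val))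
      else 0)
    fun w m => if ∀ w', ¬ p w' → m (.inl w') = 0 then
      S.r w.1 (m.mapDomain (Sum.elim id Subtype.val)) else 0
  ε := Sum.elim S.ε fun w => S.ε w.1
  K :=
    let X : Matrix S.W S.W ℝ := S.K.submatrix id (Subtype.val : {w // p w} → S.W) *
      (S.K.submatrix (Subtype.val : {w // p w} → S.W) (Subtype.val : {w // p w} → S.W))⁻¹ *
      S.K.submatrix (Subtype.val : {w // p w} → S.W) id
    Matrix.fromBlocks S.K (X.submatrix id Subtype.val) (X.submatrix Subtype.val id)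
      (S.K.submatrix Subtype.val Subtype.val)

/-- change of basis: the new word `j` is `∑ U w j • w`, `V = U⁻¹` -/
def bc {J : Type} [Fintype J] [DecidableEq J] (ty : J → τ →₀ ℕ) (U : Matrix S.W J ℤ)
    (V : Matrix J S.W ℤ) : Sh σ τ where
  W := J
  col := S.col
  ty := ty
  r j m := ∑ w, V j w * S.cf ℤ w (aeval (fun j' => S.el fun w' => U w' j') (monomial m (1 : ℤ)))
  ε := V *ᵥ S.ε
  K := rl V * S.K * (rl V)ᵀ

/-- monomial shapes -/
def mono [DecidableEq τ] (col : τ → σ) (W : Finset (τ →₀ ℕ)) (ε : τ → ℤ)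
    (Kw : (τ →₀ ℕ) → (τ →₀ ℕ) → ℝ) : Sh σ τ where
  W := {μ // μ ∈ W.erase 0}
  col := col
  ty w := w.1
  r w m := if Finsupp.weight Subtype.val m = w.1 then 1 else 0
  ε w := w.1.sum fun a _ => if w.1 = Finsupp.single a 1 then ε a else 0
  K := Matrix.of fun w w' => Kw w.1 w'.1

/-- shapes with a monomial normal form `nf` (`none` = zero), e.g. idempotent letters -/
def nfm [DecidableEq τ] (col : τ → σ) (W : Finset (τ →₀ ℕ)) (nf : (τ →₀ ℕ) → Option (τ →₀ ℕ))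
    (ε : τ → ℤ) (Kw : (τ →₀ ℕ) → (τ →₀ ℕ) → ℝ) : Sh σ τ :=
  { mono col W ε Kw with r := fun w m => if nf (Finsupp.weight Subtype.val m) = some w.1 then 1 else 0 }

/-- the symbol shape on `l` letters; the words of length `j` have variance `κ j` -/
def sym {l : ℕ} (col : Fin l → σ) (κ : ℕ → ℝ) : Sh σ (Fin l) :=
  mono col (sqf (Fin l) l) 0 (dk fun μ => κ μ.degree)

end Sh

namespace TS

variable {σ τ τ' : Type} [DecidableEq σ] (T : TS σ) (S : Sh σ τ)

/-- the coordinates on a shape -/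
abbrev Cw : Type := {p : T.C × S.W // S.cd p.2 = T.deg p.1}

/-- the element of the ring attached to the family `F` -/
def Yw {R : Type} [CommRing R] (y : T.Cw S → R) (F : T.C) : MvPolynomial S.W R :=
  ∑ p : T.Cw S with p.1.1 = F, MvPolynomial.C (y p) * X p.1.2

/-- **the law of `T` on the shape `S`** -/
def sh : TS τ where
  C := T.Cw S
  deg p := S.ty p.1.2
  Φ p := S.cf _ p.1.2 (T.hz (S.el S.ε) (T.Yw S (X (R := ℝ))) p.1.1)
  K := Matrix.of fun p p' => T.K p.1.1 p'.1.1 * S.K p.1.2 p'.1.2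

/-- the point `χ` of a configuration -/
def pw (χ : S.W → ℤ) (y : T.Cw S → ℤ) : T.C → ℤ :=
  fun F => ∑ p : T.Cw S with p.1.1 = F, χ p.1.2 * y p

/-- the image of a configuration under a morphism -/
def hm (S' : Sh σ τ') (φ : Matrix S'.W S.W ℤ) (y : T.Cw S → ℤ) : T.Cw S' → ℤ :=
  fun p' => ∑ p : T.Cw S with p.1.1 = p'.1.1, φ p'.1.2 p.1.2 * y p

/-- restriction to a quotient -/
def rs (p : S.W → Prop) [DecidablePred p] (y : T.Cw S → ℤ) : T.Cw (S.sub p) → ℤ :=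
  fun q => y ⟨(q.1.1, q.1.2.1), q.2⟩

/-- the first and the second configuration of a double -/
def d1 (p : S.W → Prop) [DecidablePred p] (y : T.Cw (S.dbl p) → ℤ) : T.Cw S → ℤ :=
  fun q => y ⟨(q.1.1, .inl q.1.2), q.2⟩
/-- the second configuration -/
def d2 (p : S.W → Prop) [DecidablePred p] (y : T.Cw (S.dbl p) → ℤ) : T.Cw S → ℤ :=
  fun q => if h : p q.1.2 then y ⟨(q.1.1, .inl q.1.2), q.2⟩ else y ⟨(q.1.1, .inr ⟨q.1.2, h⟩), q.2⟩

/-- the bias of `k` times the symbol of level `l` -/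
def sb0 {l : ℕ} (col : Fin l → σ) (κ : ℕ → ℝ) (k : T.C → ℤ) : ℝ :=
  (T.sh (Sh.sym col κ)).bias l fun p => if (Sh.sym col κ).dg p.1.2 = l then k p.1.1 else 0

/-- **regularity of level `l`**: short frequencies have small symbol bias -/
def Sym (l : ℕ) (κ : ℕ → ℝ) (R τ : ℝ) : Prop := ∀ (col : Fin l → σ) (k : T.C → ℤ), k ≠ 0 →
  (∀ F, k F ≠ 0 → T.deg F = ∑ i, Finsupp.single (col i) 1) → qf T.D (zc k) ≤ R → T.sb0 col κ k ≤ τ

/-- the threshold of level `l` -/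
def Lb (s C n : ℕ) (lb η : ℝ) (l : ℕ) : ℝ := (n + 1) ^ C * (1 + Real.log η⁻¹ +
  ∑ j ∈ Icc l s, (Real.log (T.ct j) + T.R j * (1 + Real.log lb⁻¹)))

/-- **`T` is regular** for the shapes of size `n`, covariance `≥ a`, with error `η` -/
def Rg (s C n : ℕ) (a η : ℝ) : Prop := ∃ (κ : ℕ → ℕ → ℝ) (lb : ℝ), 0 < lb ∧ lb ≤ 1 ∧
  (∀ l ≤ s, ∀ j, lb ≤ κ l j ∧ (n + 1) ^ C * κ l j ≤ a) ∧
  (∀ l ≤ s, ∀ l' < l, ∀ j j', (n + 1) ^ C * κ l' j' ≤ κ l j) ∧
  ∀ l ∈ Icc 1 s, T.Sym l (κ l) (T.Lb s C n lb η l / lb) (Real.exp (-T.Lb s C n lb η l))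

end TS

/-- the Master lemma -/
def MASTER (s C : ℕ) : Prop := ∀ (σ τ : Type) [DecidableEq σ] (T : TS σ) (S : Sh σ τ) (n : ℕ)
  (a η : ℝ), T.Tri → (∀ F, T.lev F ≤ s) → 0 < η → η ≤ 1 → T.Rg s C n a η → S.Sz n a → (T.sh S).Mas η

/-- marginals on quotients by an ideal generated in degree one -/
def MARG (s C : ℕ) : Prop := ∀ (σ τ : Type) [DecidableEq σ] (T : TS σ) (S : Sh σ τ) (n : ℕ)
  (a η : ℝ) (p : S.W → Prop) [DecidablePred p], T.Tri → (∀ F, T.lev F ≤ s) → 0 < η → η ≤ 1 →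
  T.Rg s C n a η → S.Sz n a → S.Idl p → S.Gen p → (T.sh S).Push (T.sh (S.sub p)) (T.rs S p) η

/-- push-forward along a split surjective morphism whose kernel `N` is generated in degree one -/
def MARH (s C : ℕ) : Prop := ∀ (σ τ τ' J : Type) [DecidableEq σ] [Fintype J] [DecidableEq J]
  (T : TS σ) (S : Sh σ τ) (S' : Sh σ τ') (n : ℕ) (a η : ℝ) (φ : Matrix S'.W S.W ℤ)
  (ψ : Matrix S.W S'.W ℤ) (N : Matrix S.W J ℤ) (Q : Matrix J S.W ℤ) (cj : J → σ →₀ ℕ),
  T.Tri → (∀ F, T.lev F ≤ s) → 0 < η → η ≤ 1 → T.Rg s C n a η → S.Sz n a → S'.Ok → S.Hm S' φ →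
  S'.K = rl φ * S.K * (rl φ)ᵀ → φ * ψ = 1 → φ * N = 0 → Q * N = 1 → Q * ψ = 0 →
  ψ * φ + N * Q = 1 → (∀ w w', ψ w w' ≠ 0 → S.cd w = S'.cd w') →
  (∀ w j, N w j ≠ 0 ∨ Q j w ≠ 0 → S.cd w = cj j) →
  (∀ w w' j, |ψ w w'| ≤ n ∧ |φ w' w| ≤ n ∧ |N w j| ≤ n ∧ |Q j w| ≤ n) →
  (∀ κ : J → ℤ, ∀ j, κ j ≠ 0 → ∃ (l : ℕ) (j0 : J) (lam : Fin l → S.W), l + 1 = (cj j).degree ∧
    (cj j0).degree = 1 ∧ (∀ i, S.dg (lam i) = 1) ∧ ∑ w, (κ ᵥ* Q) w *
      ∑ w0, N w0 j0 * S.r w (Finsupp.single w0 1 + ∑ i, Finsupp.single (lam i) 1) ≠ 0) →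
  (T.sh S).Push (T.sh S') (T.hm S S' φ) η

/-- the law of one point -/
def PTM (s C : ℕ) : Prop := ∀ (τ : Type) (T : TS Unit) (S : Sh Unit τ) (n : ℕ) (a η : ℝ)
  (χ : S.W → ℤ), T.Tri → (∀ F, T.lev F ≤ s) → 0 < η → η ≤ 1 → T.Rg s C n a η → S.Sz n a →
  S.Pt s χ → (∀ w, |χ w| ≤ n) → (∀ j ∈ Icc 1 s, ∃ w, S.dg w = j ∧ χ w = 1) →
  (T.sh S).Push (T.shr fun l => √(qf S.K fun w => if S.dg w = l then (χ w : ℝ) else 0))
    (T.pw S χ) η

end Crest.Agent.N49.Tw

end
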