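import Crest.Agent.N49.Tw.Mas0
import Crest.Agent.N49.Tw.Exp
import Crest.Agent.N49.Tw.Sh

/-!
# Row 49 (helper64): morphisms and isomorphisms of typed structures (changes of coordinates)
-/

set_option autoImplicit false

open Matrix MvPolynomial Finset

noncomputable section

namespace Crest.Agent.N49.Tw

open Po

section lin
variable {a b c : Type}

theorem rl_apply (U : Matrix a b ℤ) (i : a) (j : b) : rl U i j = U i j := rfl

theorem rl_mulC [Fintype b] (U : Matrix a b ℤ) (V : Matrix b c ℤ) : rl (U * V) = rl U * rl V := by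
  ext i j; simp [rl, mul_apply]

theorem rl_oneC [DecidableEq a] : rl (1 : Matrix a a ℤ) = 1 := by
  ext i j; simp [rl, one_apply]

theorem rl_tr (U : Matrix a b ℤ) : rl Uᵀ = (rl U)ᵀ := rfl

theorem zc_mv [Fintype b] (U : Matrix a b ℤ) (x : b → ℤ) : zc (U *ᵥ x) = rl U *ᵥ zc x := by
  funext i; simp [zc, rl, mulVec, dotProduct]

theorem zc_vm [Fintype a] (U : Matrix a b ℤ) (x : a → ℤ) : zc (x ᵥ* U) = (rl U)ᵀ *ᵥ zc x := by
  funext i; simp [zc, rl, mulVec, vecMul, dotProduct, mul_comm]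

theorem sum_sub' {R : Type} [AddCommMonoid R] [Fintype b] {q : b → Prop} [DecidablePred q]
    (f : b → R) (h : ∀ i, ¬ q i → f i = 0) : ∑ i : {i // q i}, f i = ∑ i, f i := by
  rw [← Finset.sum_subtype (Finset.univ.filter q) (by simp) f, Finset.sum_filter]
  exact Finset.sum_congr rfl fun i _ => by split_ifs with k; exacts [rfl, (h i k).symm]

theorem sub_mul' {R : Type} [Semiring R] [Fintype b] {a' c' : Type} {q : b → Prop} [DecidablePred q]
    (M : Matrix a b R) (N : Matrix b c R) (f : a' → a) (g : c' → c)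
    (h : ∀ i j k, M (f i) j ≠ 0 → N j (g k) ≠ 0 → q j) :
    (M * N).submatrix f g =
      M.submatrix f ((↑) : {j // q j} → b) * N.submatrix ((↑) : {j // q j} → b) g := by
  ext i k
  simp only [submatrix_apply, mul_apply]
  refine (sum_sub' (fun j => M (f i) j * N j (g k)) fun j n => ?_).symm
  by_cases e : M (f i) j = 0
  · rw [e, zero_mul]
  · rw [not_not.1 fun e' => n (h i j k e e'), mul_zero]

theorem sub_mv' {R : Type} [Semiring R] [Fintype b] {q : b → Prop} [DecidablePred q]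
    (M : Matrix a b R) (x : b → R) {a' : Type} (f : a' → a) (i : a') (h : ∀ j, M (f i) j ≠ 0 → q j) :
    (M.submatrix f ((↑) : {j // q j} → b) *ᵥ fun j => x j) i = (M *ᵥ x) (f i) :=
  sum_sub' (fun j => M (f i) j * x j) fun j n => by rw [not_not.1 fun e => n (h j e), zero_mul]

variable [Fintype a] [DecidableEq a] [Fintype b] [DecidableEq b]

theorem inv_conj {B : Matrix a b ℝ} {B' : Matrix b a ℝ} (r : B * B' = 1) (l : B' * B = 1)
    {K : Matrix b b ℝ} (hK : K.det ≠ 0) : (B * K * Bᵀ)⁻¹ = B'ᵀ * K⁻¹ * B' := by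
  refine inv_eq_right_inv ?_
  calc _ = B * (K * ((B' * B)ᵀ * K⁻¹)) * B' := by simp only [transpose_mul, Matrix.mul_assoc]
    _ = 1 := by rw [l, transpose_one, Matrix.one_mul, mul_nonsing_inv _ hK.isUnit, Matrix.mul_one, r]

theorem gs_conjC {B : Matrix a b ℝ} {B' : Matrix b a ℝ} (r : B * B' = 1) (l : B' * B = 1)
    {K : Matrix b b ℝ} (hK : K.det ≠ 0) (x : b → ℝ) : gs (B * K * Bᵀ)⁻¹ (B *ᵥ x) = gs K⁻¹ x := by
  rw [inv_conj r l hK, gs, gs, qf_conj, mulVec_mulVec, l, one_mulVec]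

variable {V : Matrix a b ℤ} {V' : Matrix b a ℤ}

theorem card_uni (r : V * V' = 1) (l : V' * V = 1) : Fintype.card a = Fintype.card b := by
  have := trace_mul_comm V V'
  rw [r, l, trace_one, trace_one] at this
  exact_mod_cast this

theorem det_uni (r : V * V' = 1) (l : V' * V = 1) (M : Matrix b b ℝ) :
    (rl V * M * (rl V)ᵀ).det = M.det := by
  obtain ⟨e⟩ := Fintype.card_eq.1 (card_uni r l)
  have h1 : (V.submatrix e.symm id).det * (V'.submatrix id e.symm).det = 1 := by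
    rw [← det_mul, ← submatrix_mul _ _ _ _ _ Function.bijective_id, r, submatrix_one_equiv, det_one]
  have h2 : ((V.submatrix e.symm id).det : ℝ) ^ 2 = 1 := by
    rcases Int.eq_one_or_neg_one_of_mul_eq_one h1 with k | k <;> simp [k]
  have h3 : (rl (V.submatrix e.symm id)).det = ((V.submatrix e.symm id).det : ℝ) :=
    ((Int.castRingHom ℝ).map_det _).symm
  rw [← det_submatrix_equiv_self e.symm, submatrix_mul _ _ _ id _ Function.bijective_id,
    submatrix_mul _ _ _ id _ Function.bijective_id, det_mul, det_mul, ← transpose_submatrix,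
    det_transpose, submatrix_id_id]
  change (rl (V.submatrix e.symm id)).det * _ * (rl (V.submatrix e.symm id)).det = _
  rw [h3]
  linear_combination M.det * h2

theorem dt_uni (r : V * V' = 1) (l : V' * V = 1) (M : Matrix b b ℝ) :
    dt (rl V * M * (rl V)ᵀ) = dt M := by rw [dt, det_uni r l, dt]

/-- the dual action of a unimodular matrix -/
def vmE (r : V * V' = 1) (l : V' * V = 1) : (a → ℤ) ≃ (b → ℤ) where
  toFun k := k ᵥ* V
  invFun k := k ᵥ* V'
  left_inv k := by simp [r]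
  right_inv k := by simp [l]

theorem th_uni (r : V * V' = 1) (l : V' * V = 1) (M : Matrix b b ℝ) :
    th (rl V * M * (rl V)ᵀ) 0 = th M 0 := by
  rw [th, th, ← (vmE r l).tsum_eq]
  refine tsum_congr fun k => ?_
  rw [sub_zero, sub_zero, gs, gs]
  change _ = Real.exp (-(Real.pi * qf M (zc (k ᵥ* V))))
  rw [zc_vm, ← qf_conj, transpose_transpose]

end lin

namespace TS

variable {σ σ' : Type} {T : TS σ} {T' : TS σ'}

/-- increments of the errors -/
theorem Tri.u_add (h : T.Tri) (y x : T.C → ℝ) {c : T.C} (hx : ∀ j, T.lev j < T.lev c → x j = 0) :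
    T.u (y + x) c = T.u y c + (T.A *ᵥ x) c := by
  simp only [u_low, Pi.add_apply, mulVec_add]
  rw [h.eval_low (y := y + x) (y' := y) fun j k => by simp [hx j k]]
  ring

variable (T T') in
/-- morphisms: `f` is triangular with linear part `V` on the levels, the errors map by `B` -/
structure Mor (f : (T.C → ℤ) → T'.C → ℤ) (V : Matrix T'.C T.C ℤ) (B : Matrix T'.C T.C ℝ) :
    Prop where
  t : T.Tri
  t' : T'.Tri
  lv : ∀ c' c, V c' c ≠ 0 → T'.lev c' = T.lev c
  lb : ∀ c' c, B c' c ≠ 0 → T'.lev c' = T.lev c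
  tri : ∀ y x c', (∀ c, T.lev c < T'.lev c' → x c = 0) → f (y + x) c' = f y c' + (V *ᵥ x) c'
  u : ∀ y, T'.u (zc (f y)) = B *ᵥ T.u (zc y)
  K : T'.K = B * T.K * Bᵀ

variable {f : (T.C → ℤ) → T'.C → ℤ} {V : Matrix T'.C T.C ℤ} {B : Matrix T'.C T.C ℝ}

theorem Mor.le (h : T.Mor T' f V B) {y y' : T.C → ℤ} {c' : T'.C}
    (e : ∀ c, T.lev c ≤ T'.lev c' → y c = y' c) : f y c' = f y' c' := by
  have := h.tri y' (y - y') c' fun c k => by simp [e c k.le]
  rw [add_sub_cancel] at this
  rw [this, mulVec, dotProduct, sum_eq_zero, add_zero]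
  intro c _
  by_cases k : V c' c = 0
  · rw [k, zero_mul]
  · simp [e c (h.lv c' c k).ge]

theorem Mor.A (h : T.Mor T' f V B) : T'.A * rl V = B * T.A := by
  ext c' c
  by_cases e : T'.lev c' = T.lev c
  swap
  · rw [mul_apply, mul_apply, sum_eq_zero, sum_eq_zero]
    · intro j _
      by_cases k : B c' j = 0
      · rw [k, zero_mul]
      · rw [blk_A T j c (h.lb c' j k ▸ e), mul_zero]
    · intro j _
      by_cases k : V j c = 0
      · simp [rl_apply, k]
      · rw [blk_A T' c' j (h.lv j c k ▸ e), zero_mul]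
  have d : ∀ j, T'.lev j ≤ T.lev c → f (Pi.single c 1) j = f 0 j + V j c := fun j k => by
    have := h.tri 0 (Pi.single c 1) j fun i hi => Pi.single_eq_of_ne (by rintro rfl; omega) _
    rwa [zero_add, mulVec_single_one] at this
  have h1 := h.t'.u_add (zc (f 0)) (zc (f (Pi.single c 1)) - zc (f 0)) (c := c') fun j k => by
    have : V j c = 0 := not_not.1 fun n => by have := h.lv j c n; omega
    simp [zc, d j (by omega), this]
  rw [add_sub_cancel, h.u, h.u] at h1
  have h2 : (T'.A *ᵥ (zc (f (Pi.single c 1)) - zc (f 0))) c' = (T'.A * rl V) c' c :=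
    sum_congr rfl fun j _ => by
      by_cases k : T'.lev c' = T'.lev j
      · simp [zc, d j (by omega), rl_apply]
      · simp [blk_A T' c' j k]
  rw [← h2, ← sub_eq_iff_eq_add'.2 h1, mulVec, mulVec, dotProduct, dotProduct, ← sum_sub_distrib]
  refine sum_congr rfl fun j _ => ?_
  by_cases k : B c' j = 0
  · simp [k]
  have := h.t.u_add (zc 0) (zc (Pi.single c 1)) (c := j) fun i hi => by
    have := h.lb c' j k
    simp [zc, Pi.single_eq_of_ne (show i ≠ c by rintro rfl; omega)]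
  rw [← zc_add, zero_add] at this
  rw [this, ← mul_sub, add_sub_cancel_left]
  congr 1
  simp [mulVec, dotProduct, zc, Pi.single_apply]

theorem Mor.VA (h : T.Mor T' f V B) : rl V * T.A⁻¹ = T'.A⁻¹ * B := by
  calc _ = T'.A⁻¹ * (T'.A * rl V) * T.A⁻¹ := by
        rw [← Matrix.mul_assoc, nonsing_inv_mul _ h.t'.unit, Matrix.one_mul]
    _ = _ := by
        rw [h.A, Matrix.mul_assoc, Matrix.mul_assoc, mul_nonsing_inv _ h.t.unit, Matrix.mul_one]

theorem Mor.D (h : T.Mor T' f V B) : T'.D = rl V * T.D * (rl V)ᵀ := by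
  calc _ = T'.A⁻¹ * B * T.K * (T'.A⁻¹ * B)ᵀ := by
        simp only [TS.D, h.K, transpose_mul, Matrix.mul_assoc]
    _ = _ := by rw [← h.VA]; simp only [TS.D, transpose_mul, Matrix.mul_assoc]

theorem Mor.qf_D (h : T.Mor T' f V B) (k : T'.C → ℤ) :
    qf T'.D (zc k) = qf T.D (zc (k ᵥ* V)) := by
  rw [h.D, zc_vm, ← qf_conj, transpose_transpose]

theorem Mor.th (h : T.Mor T' f V B) (y : T.C → ℤ) :
    T'.th (zc (f y)) = zc (f y - V *ᵥ y) + rl V *ᵥ T.th (zc y) := by
  rw [TS.th, TS.th, h.u, mulVec_mulVec, ← h.VA, mulVec_sub, mulVec_mulVec, zc_sub, zc_mv]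
  abel

theorem Mor.ph (h : T.Mor T' f V B) (k : T'.C → ℤ) (y : T.C → ℤ) :
    T'.ph k (f y) = T.ph (k ᵥ* V) y := by
  rw [TS.ph, TS.ph, h.th, dotProduct_add, ee_add, ee_zc, one_mul, zc_vm, mulVec_transpose,
    dotProduct_mulVec]

theorem Mor.comp {σ'' : Type} {T'' : TS σ''} {f' : (T'.C → ℤ) → T''.C → ℤ} {V' B'}
    (h : T.Mor T' f V B) (h' : T'.Mor T'' f' V' B') : T.Mor T'' (f' ∘ f) (V' * V) (B' * B) where
  t := h.t
  t' := h'.t'
  lv c' c n := by
    obtain ⟨j, -, k⟩ := exists_ne_zero_of_sum_ne_zero (mul_apply (M := V') (N := V) ▸ n)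
    exact (h'.lv c' j (left_ne_zero_of_mul k)).trans (h.lv j c (right_ne_zero_of_mul k))
  lb c' c n := by
    obtain ⟨j, -, k⟩ := exists_ne_zero_of_sum_ne_zero (mul_apply (M := B') (N := B) ▸ n)
    exact (h'.lb c' j (left_ne_zero_of_mul k)).trans (h.lb j c (right_ne_zero_of_mul k))
  tri y x c' hx := by
    have d : ∀ j, T'.lev j ≤ T''.lev c' → f (y + x) j = f y j + (V *ᵥ x) j := fun j k =>
      h.tri y x j fun c hc => hx c (by omega)
    rw [Function.comp, Function.comp, h'.le (y' := f y + V *ᵥ x) d, h'.tri, mulVec_mulVec]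
    intro j k
    refine sum_eq_zero fun c _ => ?_
    by_cases e : V j c = 0
    · simp [e]
    · simp [hx c (h.lv j c e ▸ k)]
  u y := by rw [Function.comp, h'.u, h.u, mulVec_mulVec]
  K := by simp only [h'.K, h.K, transpose_mul, Matrix.mul_assoc]

/-- the induced map on the levels `< l` -/
def lmap (f : (T.C → ℤ) → T'.C → ℤ) (l : ℕ) (y : (T.lt l).C → ℤ) : (T'.lt l).C → ℤ :=
  fun c' => f (glue (fun c => T.lev c < l) y 0) c'.1

theorem Mor.lt (h : T.Mor T' f V B) (l : ℕ) : (T.lt l).Mor (T'.lt l) (lmap f l)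
    (V.submatrix Subtype.val Subtype.val) (B.submatrix Subtype.val Subtype.val) where
  t := h.t.lt l
  t' := h.t'.lt l
  lv c' c := h.lv c'.1 c.1
  lb c' c := h.lb c'.1 c.1
  tri y x c' hx := by
    have e : ∀ y x : {c // T.lev c < l} → ℤ, glue (fun c => T.lev c < l) (y + x) 0 =
        glue (fun c => T.lev c < l) y 0 + glue (fun c => T.lev c < l) x 0 := fun y x =>
      funext fun c => by by_cases k : T.lev c < l <;> simp [glue, k]
    refine (congrArg (f · c'.1) (e y x)).trans ((h.tri _ _ _ fun c k =>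
      (glue_pos (p := fun c => T.lev c < l) _ _ (k.trans c'.2)).trans
        (hx ⟨c, k.trans c'.2⟩ k)).trans (congrArg _ ?_))
    refine (sub_mv' (q := fun c => T.lev c < l) V _ Subtype.val c'
      fun j n => h.lv _ _ n ▸ c'.2).symm.trans ?_
    simp only [glue_val]
    rfl
  u y := funext fun c' => by
    refine (u_cut T' _ 0 _ c').trans ((h.t'.u_le (y' := zc (f (glue (fun c => T.lev c < l) y 0)))
      fun j k => glue_pos (p := fun c => T'.lev c < l) _ _ (k.trans_lt c'.2)).trans ?_)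
    rw [h.u]
    refine (sub_mv' (q := fun c => T.lev c < l) B _ Subtype.val c'
      fun j n => h.lb _ _ n ▸ c'.2).symm.trans ?_
    exact congrArg (fun x => (_ *ᵥ x) c')
      (funext fun c => ((u_cut T _ 0 _ c).trans
        (congrArg (T.u · c.1) (zc_glue (p := fun c => T.lev c < l) y 0).symm)).symm)
  K := by
    change T'.K.submatrix _ _ = _ * T.K.submatrix _ _ * _
    rw [h.K, sub_mul' (q := fun c => T.lev c < l) _ Bᵀ _ _
        fun i j k _ n => (h.lb _ _ n).symm.trans_lt k.2,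
      sub_mul' (q := fun c => T.lev c < l) B _ _ _ fun i j k n _ => (h.lb _ _ n).symm.trans_lt i.2]
    rfl

variable (T T') in
/-- isomorphisms: the linear part is unimodular -/
structure Iso (f : (T.C → ℤ) → T'.C → ℤ) (V : Matrix T'.C T.C ℤ) (B : Matrix T'.C T.C ℝ)
    (V' : Matrix T.C T'.C ℤ) : Prop extends T.Mor T' f V B where
  r : V * V' = 1
  l : V' * V = 1

variable {V' : Matrix T.C T'.C ℤ}

theorem Iso.lv' (h : T.Iso T' f V B V') (c : T.C) (c' : T'.C) (n : V' c c' ≠ 0) :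
    T'.lev c' = T.lev c := by
  let W : Matrix T.C T'.C ℤ := Matrix.of fun c c' => if T'.lev c' = T.lev c then V' c c' else 0
  have e : V * W = 1 := by
    ext i j
    by_cases k : T'.lev i = T'.lev j
    · rw [← h.r, mul_apply, mul_apply]
      refine sum_congr rfl fun x _ => ?_
      by_cases z : V i x = 0
      · simp [z]
      · simp [W, ← h.lv i x z, k]
    · rw [one_apply_ne (by rintro rfl; exact k rfl), mul_apply]
      refine sum_eq_zero fun x _ => ?_
      by_cases z : V i x = 0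
      · simp [z]
      · simp [W, ← h.lv i x z, Ne.symm k]
  have : V' = W := by rw [← Matrix.mul_one V', ← e, ← Matrix.mul_assoc, h.l, Matrix.one_mul]
  rw [this] at n
  exact not_not.1 fun k => n (if_neg k)

theorem Iso.inj (h : T.Iso T' f V B V') : Function.Injective f := fun y y' e => by
  have key : ∀ n c, T.lev c = n → y c = y' c := fun n => by
    induction n using Nat.strong_induction_on with
    | _ n ih =>
      intro c hc
      have d : ∀ j, T'.lev j = n → (V *ᵥ (y - y')) j = 0 := fun j k => by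
        have := h.tri y' (y - y') j fun i hi => sub_eq_zero.2 (ih _ (k ▸ hi) i rfl)
        rw [add_sub_cancel, e] at this
        omega
      have : (V' *ᵥ V *ᵥ (y - y')) c = 0 := sum_eq_zero fun j _ => by
        by_cases z : V' c j = 0
        · simp [z]
        · simp [d j ((h.lv' c j z).trans hc)]
      rwa [mulVec_mulVec, h.l, one_mulVec, Pi.sub_apply, sub_eq_zero] at this
  exact funext fun c => key _ c rfl

theorem Iso.surj (h : T.Iso T' f V B V') : Function.Surjective f := fun z => by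
  have key : ∀ n, ∃ y, ∀ j, T'.lev j < n → f y j = z j := fun n => by
    induction n with
    | zero => exact ⟨0, fun _ k => absurd k (Nat.not_lt_zero _)⟩
    | succ n ih =>
      obtain ⟨y, hy⟩ := ih
      refine ⟨y + V' *ᵥ (z - f y), fun j k => ?_⟩
      rw [h.tri, mulVec_mulVec, h.r, one_mulVec, Pi.sub_apply, add_sub_cancel]
      intro c hc
      refine sum_eq_zero fun i _ => ?_
      by_cases e : V' c i = 0
      · simp [e]
      · simp [hy i (by have := h.lv' c i e; omega)]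
  obtain ⟨y, hy⟩ := key (univ.sup T'.lev + 1)
  exact ⟨y, funext fun j => hy j (Nat.lt_succ_of_le (le_sup (mem_univ j)))⟩

/-- the bijection of the configurations -/
def Iso.U (h : T.Iso T' f V B V') : (T.C → ℤ) ≃ (T'.C → ℤ) := Equiv.ofBijective f ⟨h.inj, h.surj⟩

theorem Iso.B_inv (h : T.Iso T' f V B V') : B * (T.A * rl V' * T'.A⁻¹) = 1 ∧
    T.A * rl V' * T'.A⁻¹ * B = 1 := by
  constructor
  · rw [← Matrix.mul_assoc, ← Matrix.mul_assoc, ← h.toMor.A, Matrix.mul_assoc T'.A, ← rl_mulC, h.r,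
      rl_oneC, Matrix.mul_one, mul_nonsing_inv _ h.t'.unit]
  · rw [Matrix.mul_assoc, ← h.toMor.VA, Matrix.mul_assoc, ← Matrix.mul_assoc (rl V'), ← rl_mulC, h.l,
      rl_oneC, Matrix.one_mul, mul_nonsing_inv _ h.t.unit]

theorem Iso.wt (h : T.Iso T' f V B V') (y : T.C → ℤ) : T'.wt (f y) = T.wt y := by
  rw [TS.wt, h.u, h.K, gs_conjC h.B_inv.1 h.B_inv.2 h.t.pd.det_pos.ne', TS.wt]

theorem Iso.eqv (h : T.Iso T' f V B V') : T.Eqv T' h.U := h.wt
theorem Iso.S (h : T.Iso T' f V B V') (g : (T'.C → ℤ) → ℝ) : T.S (fun y => g (f y)) = T'.S g :=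
  h.eqv.S g
theorem Iso.Sc (h : T.Iso T' f V B V') (g : (T'.C → ℤ) → ℂ) : T.Sc (fun y => g (f y)) = T'.Sc g :=
  h.eqv.Sc g
theorem Iso.E (h : T.Iso T' f V B V') (g : (T'.C → ℤ) → ℝ) : T.E (fun y => g (f y)) = T'.E g :=
  h.eqv.E g
theorem Iso.Ec (h : T.Iso T' f V B V') (g : (T'.C → ℤ) → ℂ) : T.Ec (fun y => g (f y)) = T'.Ec g :=
  h.eqv.Ec g
theorem Iso.Z (h : T.Iso T' f V B V') : T.Z = T'.Z := h.eqv.Z
theorem Iso.push (h : T.Iso T' f V B V') : T.Push T' f 0 := h.eqv.push

theorem Iso.Zc (h : T.Iso T' f V B V') : T.Zc = T'.Zc := by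
  rw [TS.Zc, TS.Zc, dt_inv, dt_inv, h.toMor.D, dt_uni h.r h.l]

theorem Iso.mas (h : T.Iso T' f V B V') (η : ℝ) : T.Mas η ↔ T'.Mas η := by
  rw [Mas, Mas, h.Z, h.Zc]

theorem Iso.sub (h : T.Iso T' f V B V') (q : ℕ → Prop) [DecidablePred q] :
    V.submatrix ((↑) : {c // q (T'.lev c)} → T'.C) ((↑) : {c // q (T.lev c)} → T.C) *
      V'.submatrix ((↑) : {c // q (T.lev c)} → T.C) ((↑) : {c // q (T'.lev c)} → T'.C) = 1 ∧
    V'.submatrix ((↑) : {c // q (T.lev c)} → T.C) ((↑) : {c // q (T'.lev c)} → T'.C) *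
      V.submatrix ((↑) : {c // q (T'.lev c)} → T'.C) ((↑) : {c // q (T.lev c)} → T.C) = 1 := by
  constructor
  · rw [← sub_mul' (q := fun c => q (T.lev c)) _ _ _ _ fun i j k n _ => h.lv _ _ n ▸ i.2, h.r,
      submatrix_one _ Subtype.val_injective]
  · rw [← sub_mul' (q := fun c => q (T'.lev c)) _ _ _ _ fun i j k _ n => (h.lv _ _ n).symm ▸ k.2,
      h.l, submatrix_one _ Subtype.val_injective]

theorem Iso.lt (h : T.Iso T' f V B V') (l : ℕ) : (T.lt l).Iso (T'.lt l) (lmap f l)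
    (V.submatrix Subtype.val Subtype.val) (B.submatrix Subtype.val Subtype.val)
    (V'.submatrix Subtype.val Subtype.val) :=
  ⟨h.toMor.lt l, (h.sub (· < l)).1, (h.sub (· < l)).2⟩

theorem Mor.D_lev (h : T.Mor T' f V B) (l : ℕ) :
    T'.D.submatrix ((↑) : {c // T'.lev c = l} → T'.C) ((↑) : {c // T'.lev c = l} → T'.C) =
      rl (V.submatrix ((↑) : {c // T'.lev c = l} → T'.C) ((↑) : {c // T.lev c = l} → T.C)) *
        T.D.submatrix ((↑) : {c // T.lev c = l} → T.C) ((↑) : {c // T.lev c = l} → T.C) *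
        (rl (V.submatrix ((↑) : {c // T'.lev c = l} → T'.C) ((↑) : {c // T.lev c = l} → T.C)))ᵀ := by
  have n : ∀ {i j}, rl V i j ≠ 0 → T'.lev i = T.lev j := fun n => h.lv _ _ (Int.cast_ne_zero.1 n)
  rw [h.D, sub_mul' (q := fun c => T.lev c = l) _ (rl V)ᵀ _ _ fun i j k _ e => (n e).symm.trans k.2,
    sub_mul' (q := fun c => T.lev c = l) (rl V) _ _ _ fun i j k e _ => (n e).symm.trans i.2]
  rfl

theorem Iso.R (h : T.Iso T' f V B V') (l : ℕ) : T.R l = T'.R l := by
  have := card_uni (h.sub (· = l)).1 (h.sub (· = l)).2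
  rw [TS.R, TS.R, ← Fintype.card_subtype, ← Fintype.card_subtype, this]

theorem Iso.ct (h : T.Iso T' f V B V') (l : ℕ) : T.ct l = T'.ct l := by
  rw [TS.ct, TS.ct, h.toMor.D_lev, th_uni (h.sub (· = l)).1 (h.sub (· = l)).2]

theorem Iso.dl (h : T.Iso T' f V B V') (l : ℕ) : T.dl l = T'.dl l := by
  have e : ∀ {τ : Type} {X : TS τ}, X.Tri → X.dl l = (dt (X.D.submatrix
      ((↑) : {c // X.lev c = l} → X.C) ((↑) : {c // X.lev c = l} → X.C)))⁻¹ := fun k => by
    rw [← lev_inv k, dt_inv, inv_inv, TS.dl]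
  rw [e h.t, e h.t', h.toMor.D_lev, dt_uni (h.sub (· = l)).1 (h.sub (· = l)).2]

theorem Iso.pt0 (h : T.Iso T' f V B V') (l : ℕ) : T.pt0 l = T'.pt0 l := by
  rw [pt0_eq h.t, pt0_eq h.t', h.dl, h.ct]

theorem Tri.ph_low (h : T.Tri) {l : ℕ} {k y y' : T.C → ℤ} (hk : ∀ c, l < T.lev c → k c = 0)
    (e : ∀ c, T.lev c < l → y c = y' c) : T.ph k y = T.ph k y' := by
  refine congrArg ee (sum_congr rfl fun c _ => ?_)
  by_cases n : l < T.lev c
  · simp [zc, hk c n]
  · rw [h.th_low (y' := zc y') fun j hj => by simp [zc, e j (by omega)]]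

theorem Iso.bias (h : T.Iso T' f V B V') (l : ℕ) {k : T'.C → ℤ} (hk : ∀ c, l < T'.lev c → k c = 0) :
    T.bias l (k ᵥ* V) = T'.bias l k := by
  refine congrArg norm (Eq.trans ?_ ((h.lt l).Ec _))
  refine congrArg (T.lt l).Ec (funext fun y => ?_)
  rw [← h.toMor.ph]
  exact h.t'.ph_low hk fun c hc => (glue_pos (p := fun c => T'.lev c < l) (lmap f l y) 0 hc).symm

/-- the diagonal blocks of a matrix -/
def dblk {R : Type} [Zero R] (T : TS σ) (T' : TS σ') (L : Matrix T'.C T.C R) : Matrix T'.C T.C R :=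
  Matrix.of fun c' c => if T'.lev c' = T.lev c then L c' c else 0

/-- affine triangular maps are morphisms -/
theorem Mor.of_aff (h : T.Tri) (h' : T'.Tri) (L : Matrix T'.C T.C ℤ) (b : T'.C → ℤ)
    (hL : ∀ c' c, L c' c ≠ 0 → T.lev c ≤ T'.lev c') (lb : ∀ c' c, B c' c ≠ 0 → T'.lev c' = T.lev c)
    (hu : ∀ y, T'.u (zc (L *ᵥ y + b)) = B *ᵥ T.u (zc y)) (hK : T'.K = B * T.K * Bᵀ) :
    T.Mor T' (fun y => L *ᵥ y + b) (T.dblk T' L) B where
  t := h
  t' := h'
  lv _ _ n := not_not.1 fun k => n (if_neg k)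
  lb := lb
  tri y x c' hx := by
    have : (L *ᵥ x) c' = (T.dblk T' L *ᵥ x) c' := sum_congr rfl fun c _ => by
      by_cases k : T'.lev c' = T.lev c
      · simp [dblk, k]
      · by_cases z : L c' c = 0
        · simp [dblk, z]
        · simp [hx c (lt_of_le_of_ne (hL _ _ z) (Ne.symm k))]
    simp only [mulVec_add, Pi.add_apply, this]
    ring
  u := hu
  K := hK

/-- graded linear maps are morphisms -/
theorem Mor.of_lin (h : T.Tri) (h' : T'.Tri) (lv : ∀ c' c, V c' c ≠ 0 → T'.lev c' = T.lev c)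
    (lb : ∀ c' c, B c' c ≠ 0 → T'.lev c' = T.lev c)
    (hu : ∀ y, T'.u (zc (V *ᵥ y)) = B *ᵥ T.u (zc y)) (hK : T'.K = B * T.K * Bᵀ) :
    T.Mor T' (V *ᵥ ·) V B := ⟨h, h', lv, lb, fun y x c' _ => by simp [mulVec_add], hu, hK⟩

/-- relabelling of the coordinates -/
theorem Iso.of_equiv (h : T.Tri) (h' : T'.Tri) (e : T'.C ≃ T.C) (lv : ∀ c, T'.lev c = T.lev (e c))
    (hu : ∀ (y : T.C → ℤ) c, T'.u (zc (y ∘ e)) c = T.u (zc y) (e c))
    (hK : ∀ c c', T'.K c c' = T.K (e c) (e c')) :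
    T.Iso T' (· ∘ e) ((1 : Matrix T.C T.C ℤ).submatrix e id) ((1 : Matrix T.C T.C ℝ).submatrix e id)
      ((1 : Matrix T.C T.C ℤ).submatrix id e) where
  t := h
  t' := h'
  lv c' c n := by rw [lv, not_not.1 fun k : e c' ≠ c => n (one_apply_ne k)]
  lb c' c n := by rw [lv, not_not.1 fun k : e c' ≠ c => n (one_apply_ne k)]
  tri y x c' _ := by simp [mulVec, dotProduct, one_apply]
  u y := funext fun c => by simp [hu, mulVec, dotProduct, one_apply]
  K := by ext c c'; simp [hK, mul_apply, one_apply]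
  r := by ext c c'; simp [mul_apply, one_apply]
  l := by
    rw [submatrix_mul_equiv, Matrix.mul_one, submatrix_id_id]

theorem Iso.symm (h : T.Iso T' f V B V') :
    T'.Iso T h.U.symm V' (T.A * rl V' * T'.A⁻¹) V where
  t := h.t'
  t' := h.t
  lv c c' n := (h.lv' c c' n).symm
  lb c c' n := by
    obtain ⟨j, -, k⟩ := exists_ne_zero_of_sum_ne_zero (mul_apply (M := T.A * rl V') ▸ n)
    obtain ⟨i, -, k'⟩ := exists_ne_zero_of_sum_ne_zero
      (mul_apply (M := T.A) (N := rl V') ▸ left_ne_zero_of_mul k)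
    have a1 := not_not.1 fun e => left_ne_zero_of_mul k' (blk_A T c i e)
    have a2 := h.lv' i j (Int.cast_ne_zero.1 (right_ne_zero_of_mul k'))
    have a3 := not_not.1 fun e => right_ne_zero_of_mul k (blk_inv (blk_A T') j c' e)
    omega
  tri z x c hx := by
    obtain ⟨y, rfl⟩ := h.U.surjective z
    obtain ⟨w, hw⟩ := h.U.surjective (h.U y + x)
    rw [← hw, h.U.symm_apply_apply, h.U.symm_apply_apply]
    change f w = f y + x at hw
    have low : ∀ j, T.lev j < T.lev c → w j = y j := fun j k => by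
      have := (h.lt (T.lev c)).inj (a₁ := fun i => w i.1) (a₂ := fun i => y i.1) (funext fun i => by
        have e : ∀ v : T.C → ℤ, lmap f (T.lev c) (fun i => v i.1) i = f v i.1 := fun v =>
          h.toMor.le fun j hj => glue_pos (p := fun j => T.lev j < T.lev c) _ _ (hj.trans_lt i.2)
        rw [e, e, hw, Pi.add_apply, hx _ i.2, add_zero])
      exact congrFun this ⟨j, k⟩
    have : (V' *ᵥ x) c = (V' *ᵥ V *ᵥ (w - y)) c := sum_congr rfl fun j _ => by
      by_cases z : V' c j = 0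
      · simp [z]
      · have := h.tri y (w - y) j fun i hi => sub_eq_zero.2 (low i (h.lv' c j z ▸ hi))
        rw [add_sub_cancel, hw, Pi.add_apply, add_right_inj] at this
        rw [this]
    rw [this, mulVec_mulVec, h.l, one_mulVec, Pi.sub_apply, add_sub_cancel]
  u z := by
    obtain ⟨y, rfl⟩ := h.U.surjective z
    rw [h.U.symm_apply_apply]
    change _ = _ *ᵥ T'.u (zc (f y))
    rw [h.u, mulVec_mulVec, h.B_inv.2, one_mulVec]
  K := by
    rw [h.K]
    calc _ = (T.A * rl V' * T'.A⁻¹ * B) * T.K * (T.A * rl V' * T'.A⁻¹ * B)ᵀ := by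
          rw [h.B_inv.2, transpose_one, Matrix.one_mul, Matrix.mul_one]
      _ = _ := by simp only [transpose_mul, Matrix.mul_assoc]
  r := h.l
  l := h.r

theorem Iso.trans {σ'' : Type} {T'' : TS σ''} {f' : (T'.C → ℤ) → T''.C → ℤ} {W B' W'}
    (h : T.Iso T' f V B V') (h' : T'.Iso T'' f' W B' W') :
    T.Iso T'' (f' ∘ f) (W * V) (B' * B) (V' * W') where
  toMor := h.toMor.comp h'.toMor
  r := by rw [Matrix.mul_assoc, ← Matrix.mul_assoc V, h.r, Matrix.one_mul, h'.r]
  l := by rw [Matrix.mul_assoc, ← Matrix.mul_assoc W', h'.l, Matrix.one_mul, h.l]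

end TS

end Crest.Agent.N49.Tw

end
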