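import Crest.Agent.N49.Tw.ConD

/-! # Row 49 (helper80): quotients, monomial shapes, normal forms, symbol shapes -/

set_option autoImplicit false

open Matrix MvPolynomial Finset

noncomputable section

namespace Crest.Agent.N49.Tw

open Po

section words
variable {τ : Type}

theorem split_letter {μ : τ →₀ ℕ} {a : τ} (h : μ a ≠ 0) :
    Finsupp.single a 1 + (μ - Finsupp.single a 1) = μ :=
  add_tsub_cancel_of_le (Finsupp.single_le_iff.2 (Nat.pos_of_ne_zero h))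

theorem ex_letters (n : ℕ) : ∀ μ : τ →₀ ℕ, μ.degree = n →
    ∃ f : Fin n → τ, ∑ i, Finsupp.single (f i) 1 = μ := by
  induction n with
  | zero => exact fun μ h => ⟨Fin.elim0, by simp [(Finsupp.degree_eq_zero_iff _).1 h]⟩
  | succ n ih =>
    intro μ h
    obtain ⟨a, ha⟩ := Finsupp.ne_iff.1 (show μ ≠ 0 by rintro rfl; simp at h)
    have e := split_letter ha
    obtain ⟨f, hf⟩ := ih (μ - Finsupp.single a 1) (by
      have := congrArg Finsupp.degree e
      rw [map_add, Finsupp.degree_single] at this; omega)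
    exact ⟨Fin.cons a f, by simpa [Fin.sum_univ_succ, hf] using e⟩

/-- a word as a list of letters with a given first letter -/
theorem ex_letters' {μ : τ →₀ ℕ} {a : τ} (h : μ a ≠ 0) : ∃ (l : ℕ) (f : Fin (l + 1) → τ),
    l + 1 = μ.degree ∧ f 0 = a ∧ ∑ i, Finsupp.single (f i) 1 = μ := by
  have e := split_letter h
  obtain ⟨f, hf⟩ := ex_letters _ (μ - Finsupp.single a 1) rfl
  refine ⟨_, Fin.cons a f, ?_, rfl, by simpa [Fin.sum_univ_succ, hf] using e⟩
  have := congrArg Finsupp.degree e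
  rw [map_add, Finsupp.degree_single] at this; omega

theorem le_weight {ι : Type} (f : ι → τ →₀ ℕ) {m : ι →₀ ℕ} {i : ι} (h : i ∈ m.support) :
    f i ≤ Finsupp.weight f m := by
  rw [← split_letter (Finsupp.mem_support_iff.1 h), map_add, Finsupp.weight_single, one_smul]
  exact le_self_add

variable [Fintype τ] [DecidableEq τ] {s : ℕ} {μ : τ →₀ ℕ}

theorem mem_full : μ ∈ full τ s ↔ μ.degree ≤ s := by
  simp [full, Finsupp.degree_eq_sum]

theorem mem_sqf : μ ∈ sqf τ s ↔ μ.degree ≤ s ∧ ∀ a, μ a ≤ 1 := by rw [sqf, mem_filter, mem_full]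

omit [DecidableEq τ] in
theorem degree_mono {ν : τ →₀ ℕ} (h : ν ≤ μ) : ν.degree ≤ μ.degree := by
  rw [Finsupp.degree_eq_sum, Finsupp.degree_eq_sum]; exact sum_le_sum fun a _ => h a

theorem dn_full : Dn (full τ s) := fun _ h _ k => mem_full.2 ((degree_mono k).trans (mem_full.1 h))

theorem dn_sqf : Dn (sqf τ s) := fun _ h _ k => mem_sqf.2
  ⟨(degree_mono k).trans (mem_sqf.1 h).1, fun a => (k a).trans ((mem_sqf.1 h).2 a)⟩

theorem card_sqf : #(sqf τ s) ≤ 2 ^ Fintype.card τ := by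
  rw [← Fintype.card_finset, ← card_univ]
  refine card_le_card_of_injOn Finsupp.support (fun _ _ => mem_univ _) fun μ h ν k e => ?_
  ext a
  have h1 := (mem_sqf.1 h).2 a
  have h2 := (mem_sqf.1 k).2 a
  have := Finset.ext_iff.1 e a
  simp only [Finsupp.mem_support_iff] at this
  omega

theorem card_full : #(full τ s) ≤ (s + 1) ^ Fintype.card τ := by
  have : (s + 1) ^ Fintype.card τ = #(Fintype.piFinset fun _ : τ => range (s + 1)) := by simp
  rw [this]
  refine card_le_card_of_injOn (fun μ => μ) (fun μ h => ?_) fun μ _ ν _ e => DFunLike.coe_injective e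
  exact Fintype.mem_piFinset.2 fun a => mem_range.2 (Nat.lt_succ_of_le
    ((Finsupp.le_degree a μ).trans (mem_full.1 h)))

omit [Fintype τ] in
theorem kb_dk {W : Finset (τ →₀ ℕ)} {v : (τ →₀ ℕ) → ℝ} {a b : ℝ}
    (h : ∀ μ ∈ W, a ≤ v μ ∧ v μ ≤ b) : KB W (dk v) a b := by
  have e : ∀ x : (τ →₀ ℕ) → ℝ, ∑ μ ∈ W, ∑ ν ∈ W, x μ * dk v μ ν * x ν = ∑ μ ∈ W, v μ * x μ ^ 2 :=
    fun x => sum_congr rfl fun μ k => by simp [dk, k]; ring
  refine ⟨fun μ ν => (congrFun (congrFun (TS.dk_symm v) μ) ν).symm,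
    fun μ _ ν _ z => congrArg _ (of_not_not fun n => z (if_neg n)), fun x => ?_, fun x => ?_⟩
  · rw [e, mul_sum]; exact sum_le_sum fun μ k => by gcongr; exact (h μ k).1
  · rw [e, mul_sum]; exact sum_le_sum fun μ k => by gcongr; exact (h μ k).2

end words

theorem qf_sub_lo {d : Type} [Fintype d] {M : Matrix d d ℝ} {a : ℝ} (p : d → Prop) [DecidablePred p]
    (h : ∀ x, a * ∑ i, x i ^ 2 ≤ qf M x) (x : {i // p i} → ℝ) :
    a * ∑ i, x i ^ 2 ≤ qf (M.submatrix Subtype.val Subtype.val) x := by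
  have := h (Db.mg p x 0)
  rw [qf, dotProduct_comm, Db.dot_mg, Db.sum_spl p] at this
  simp only [Db.mg_pos, Db.mg_neg, Db.mulVec_mg] at this
  rw [qf, dotProduct_comm x]
  simp only [mulVec_zero, Pi.zero_apply, add_zero, dotProduct_zero, ne_eq, OfNat.ofNat_ne_zero,
    not_false_eq_true, zero_pow, sum_const_zero] at this
  exact this

theorem pd_of_lo {d : Type} [Fintype d] {M : Matrix d d ℝ} {a : ℝ} (ha : 0 < a) (s : Mᵀ = M)
    (h : ∀ x, a * ∑ i, x i ^ 2 ≤ qf M x) : M.PosDef := by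
  refine PosDef.of_dotProduct_mulVec_pos
    (by simpa [IsHermitian, conjTranspose_eq_transpose_of_trivial] using s) fun x hx => ?_
  obtain ⟨i, hi⟩ := Function.ne_iff.1 hx
  exact lt_of_lt_of_le (mul_pos ha (sum_pos' (fun _ _ => sq_nonneg _)
    ⟨i, mem_univ _, sq_pos_of_ne_zero hi⟩)) (h x)

namespace Sh

section sub
variable {σ τ : Type} {S : Sh σ τ} {p : S.W → Prop} [DecidablePred p]

/-- generation passes to quotients -/
theorem sub_gen' (hI : S.Idl p) {q : S.W → Prop} (g : S.Gen q) : (S.sub p).Gen fun x => q x.1 :=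
  fun (κ : {w // p w} → ℤ) hκ x hx => by
  obtain ⟨l, lam, e1, e2, e3, e4⟩ := g (fun w => if h : p w then κ ⟨w, h⟩ else 0)
    (fun w hw => by split_ifs with h; exacts [hκ ⟨w, h⟩ hw, rfl]) x.1 (by rwa [dif_pos x.2])
  obtain ⟨w, -, z⟩ := exists_ne_zero_of_sum_ne_zero e4
  have k : ∀ i, p (lam i) := fun i => hI w _ (of_not_not fun n => z (by rw [dif_neg n, zero_mul]))
    (right_ne_zero_of_mul z) _ (Finsupp.mem_support_iff.2 (sum_single_ne.2 ⟨i, rfl⟩))
  refine ⟨l, fun i => ⟨lam i, k i⟩, e1, e2, e3, fun z => e4 (Eq.trans ?_ z)⟩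
  rw [← Fintype.sum_subtype_add_sum_subtype p, sum_eq_zero (s := (univ : Finset {w // ¬ p w}))
    fun b _ => by rw [dif_neg b.2, zero_mul], add_zero]
  refine sum_congr rfl fun y _ => ?_
  rw [dif_pos y.2]
  change _ = κ y * S.r y.1 (Finsupp.mapDomain Subtype.val (∑ i, Finsupp.single
    (⟨lam i, k i⟩ : {w // p w}) 1))
  rw [Finsupp.mapDomain_finsetSum]
  simp only [Finsupp.mapDomain_single]

/-- **the size of a quotient** -/
theorem sub_sz {n : ℕ} {a : ℝ} (h : S.Sz n a) (hI : S.Idl p) : (S.sub p).Sz n a where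
  toOk := Mh.sub_ok h.toOk hI
  card := (Fintype.card_subtype_le p).trans h.card
  ht _ _ := h.ht _ _
  lo := qf_sub_lo p h.lo
  gen := sub_gen' hI h.gen

end sub

variable {σ τ : Type} [DecidableEq τ] {col : τ → σ} {W : Finset (τ →₀ ℕ)}
  {nf : (τ →₀ ℕ) → Option (τ →₀ ℕ)} {ε : τ → ℤ} {Kw : (τ →₀ ℕ) → (τ →₀ ℕ) → ℝ}

variable (W) in
/-- the nonempty words -/
abbrev MW : Type := {μ // μ ∈ W.erase 0}

theorem MW.ne (w : MW W) : w.1 ≠ 0 := ne_of_mem_erase w.2
theorem MW.mem (w : MW W) : w.1 ∈ W := mem_of_mem_erase w.2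

theorem weight_ne {m : MW W →₀ ℕ} (h : m ≠ 0) : Finsupp.weight Subtype.val m ≠ 0 := fun z => by
  obtain ⟨a, ha⟩ := Finsupp.ne_iff.1 h
  exact MW.ne a (le_zero_iff.1 ((le_weight Subtype.val (Finsupp.mem_support_iff.2 ha)).trans_eq z))

variable (col W nf) in
/-- admissible normal forms -/
structure Nf : Prop where
  id : ∀ μ ∈ W, nf μ = some μ
  cd : ∀ x, ∀ μ ∈ W, nf x = some μ → x.mapDomain col = μ.mapDomain col
  cg : ∀ x y, ∀ μ ∈ W, nf x = some μ → nf (x + y) = nf (μ + y)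
  dn : ∀ x y, ∀ μ ∈ W, nf (x + y) = some μ → ∃ ν ∈ W, nf x = some ν

omit [DecidableEq τ] in
theorem nf_some (h : Dn W) : Nf col W some where
  id _ _ := rfl
  cd _ _ _ e := by cases e; rfl
  cg _ _ _ _ e := by cases e; rfl
  dn x _ μ k e := ⟨x, h μ k x (by cases e; exact le_self_add), rfl⟩

theorem mono_eq : mono col W ε Kw = nfm col W some ε Kw := by
  simp only [nfm, mono, Option.some.injEq]

theorem mono_r (w : MW W) (m : MW W →₀ ℕ) : (mono col W ε Kw).r w m =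
    if Finsupp.weight Subtype.val m = w.1 then 1 else 0 := rfl

theorem nfm_r (w : MW W) (m : MW W →₀ ℕ) : (nfm col W nf ε Kw).r w m =
    if nf (Finsupp.weight Subtype.val m) = some w.1 then 1 else 0 := rfl

theorem nfm_r_ne {w : MW W} {m : MW W →₀ ℕ} (h : (nfm col W nf ε Kw).r w m ≠ 0) :
    nf (Finsupp.weight Subtype.val m) = some w.1 := of_not_not fun z => h (if_neg z)

theorem mono_r_ne {w : MW W} {m : MW W →₀ ℕ} (h : (mono col W ε Kw).r w m ≠ 0) :
    Finsupp.weight Subtype.val m = w.1 := of_not_not fun z => h (if_neg z)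

theorem sum_nfm {m : MW W →₀ ℕ} {w : MW W} (h : nf (Finsupp.weight Subtype.val m) = some w.1)
    (κ : MW W → ℤ) : ∑ w', κ w' * (nfm col W nf ε Kw).r w' m = κ w := by
  rw [sum_eq_single w (fun b _ n => by
    rw [nfm_r, if_neg fun z => n (Subtype.ext (Option.some.inj (z.symm.trans h))), mul_zero])
    fun z => absurd (mem_univ _) z, nfm_r, if_pos h, mul_one]

theorem mono_ε_single (a : τ) (h : Finsupp.single a 1 ∈ W.erase 0) :
    (mono col W ε Kw).ε ⟨_, h⟩ = ε a := by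
  change (Finsupp.single a 1).sum (fun b _ => if Finsupp.single a 1 = Finsupp.single b 1 then ε b
    else 0) = _
  rw [Finsupp.sum, Finsupp.support_single _ one_ne_zero, sum_singleton, if_pos rfl]

theorem mono_ε_ne {w : MW W} (h : (mono col W ε Kw).ε w ≠ 0) : ∃ a, w.1 = Finsupp.single a 1 := by
  obtain ⟨a, -, z⟩ := exists_ne_zero_of_sum_ne_zero h
  exact ⟨a, of_not_not fun n => z (if_neg n)⟩

/-- **normal form shapes are well formed** -/
theorem nfm_ok (h : Nf col W nf) (pd : (mono col W ε Kw).K.PosDef)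
    (blk : ∀ μ ∈ W, ∀ ν ∈ W, Kw μ ν ≠ 0 → μ.mapDomain col = ν.mapDomain col) :
    (nfm col W nf ε Kw).Ok where
  ne := MW.ne
  one (w w' : MW W) := by
    change (if nf (Finsupp.weight Subtype.val (Finsupp.single w' 1)) = some w.1 then 1 else 0) =
      if w = w' then (1 : ℤ) else 0
    refine if_congr ?_ rfl rfl
    rw [Finsupp.weight_single, one_smul, h.id _ w'.mem, Option.some.injEq, Subtype.ext_iff, eq_comm]
  gr (w : MW W) (m : MW W →₀ ℕ) e :=
    (weight_hom (Finsupp.mapDomain.addMonoidHom col) Subtype.val m).trans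
      (h.cd _ _ w.mem (nfm_r_ne e))
  mul (w : MW W) (m m' : MW W →₀ ℕ) m0 := by
    change (nfm col W nf ε Kw).r w (m + m') = ∑ w' : MW W, (nfm col W nf ε Kw).r w' m *
      (nfm col W nf ε Kw).r w (Finsupp.single w' 1 + m')
    by_cases c : ∃ ν : MW W, nf (Finsupp.weight Subtype.val m) = some ν.1
    · obtain ⟨ν, c⟩ := c
      rw [sum_congr rfl fun _ _ => mul_comm _ _, sum_nfm c, nfm_r]
      refine Eq.trans ?_ (nfm_r w (Finsupp.single ν 1 + m')).symm
      rw [map_add, map_add, Finsupp.weight_single, one_smul, h.cg _ _ _ ν.mem c]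
    · rw [sum_eq_zero fun b _ => by rw [nfm_r, if_neg fun z => c ⟨b, z⟩, zero_mul], nfm_r, if_neg]
      rw [map_add]
      intro z
      obtain ⟨ν, k, e⟩ := h.dn _ _ _ w.mem z
      refine c ⟨⟨ν, mem_erase.2 ⟨?_, k⟩⟩, e⟩
      rintro rfl
      have := congrArg Finsupp.degree (h.cd _ _ k e)
      rw [degree_col, degree_col, map_zero, Finsupp.degree_eq_zero_iff] at this
      exact weight_ne m0 this
  eps (w : MW W) e := by
    obtain ⟨a, z⟩ := mono_ε_ne (col := col) (Kw := Kw) e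
    exact (congrArg Finsupp.degree z).trans (Finsupp.degree_single _ _)
  pd := pd
  blk (w w' : MW W) := blk _ w.mem _ w'.mem

/-- generation: every word outside `p` has a letter outside `p` -/
theorem nfm_gen (h : ∀ μ ∈ W, nf μ = some μ) (h1 : ∀ μ ∈ W, ∀ a, μ a ≠ 0 → Finsupp.single a 1 ∈ W)
    {p : MW W → Prop} (hp : ∀ w, ¬ p w → ∃ a, w.1 a ≠ 0 ∧ ∀ k, ¬ p ⟨Finsupp.single a 1, k⟩) :
    (nfm col W nf ε Kw).Gen p := fun (κ : MW W → ℤ) hκ (w : MW W) k => by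
  obtain ⟨a, ha, n⟩ := hp w fun z => k (hκ w z)
  obtain ⟨l, f, e1, e2, e3⟩ := ex_letters' ha
  have m : ∀ i, Finsupp.single (f i) 1 ∈ W.erase 0 := fun i => mem_erase.2
    ⟨by simp, h1 _ w.mem _ (e3 ▸ sum_single_ne.2 ⟨i, rfl⟩)⟩
  refine ⟨l, fun i => (⟨_, m i⟩ : MW W), e1, fun i => Finsupp.degree_single _ _, e2 ▸ n <| _, ?_⟩
  change ∑ w' : MW W, κ w' * (nfm col W nf ε Kw).r w'
    (∑ i, Finsupp.single (⟨_, m i⟩ : MW W) 1 : MW W →₀ ℕ) ≠ 0
  rwa [sum_nfm (w := w) (by simp [Finsupp.weight_single, e3, h _ w.mem])]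

/-- ideals: `p` is closed under the factors of a word -/
theorem nfm_idl {p : MW W → Prop} (hp : ∀ w w' x, p w → w'.1 ≤ x → nf x = some w.1 → p w') :
    (nfm col W nf ε Kw).Idl p := fun w _ hw e w' k =>
  hp w w' _ hw (le_weight Subtype.val k) (nfm_r_ne e)

theorem nfm_sz (h : Nf col W nf) (h1 : ∀ μ ∈ W, ∀ a, μ a ≠ 0 → Finsupp.single a 1 ∈ W)
    (pd : (mono col W ε Kw).K.PosDef)
    (blk : ∀ μ ∈ W, ∀ ν ∈ W, Kw μ ν ≠ 0 → μ.mapDomain col = ν.mapDomain col) {n : ℕ} {a : ℝ}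
    (hn : #(W.erase 0) ≤ n) (lo : ∀ x, a * ∑ w, x w ^ 2 ≤ qf (mono col W ε Kw).K x) :
    (nfm col W nf ε Kw).Sz n a where
  toOk := nfm_ok h pd blk
  card := (Fintype.card_coe _).trans_le hn
  ht (w : MW W) (m : MW W →₀ ℕ) := by
    have : 1 ≤ n := (card_pos.2 ⟨_, w.2⟩).trans_le hn
    rw [nfm_r]; split_ifs <;> simp [this]
  lo := lo
  gen := nfm_gen h.id h1 fun w _ => let ⟨a, k⟩ := Finsupp.ne_iff.1 w.ne; ⟨a, k, fun _ => id⟩

theorem _root_.Crest.Agent.N49.Tw.KB.lo' {a b : ℝ} (h : KB W Kw a b) (x : MW W → ℝ) :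
    a * ∑ w, x w ^ 2 ≤ qf (mono col W ε Kw).K x := by
  have := h.lo fun μ => if k : μ ∈ W.erase 0 then x ⟨μ, k⟩ else 0
  have e : ∀ g : (τ →₀ ℕ) → ℝ, g 0 = 0 → ∑ μ ∈ W, g μ = ∑ w : MW W, g w := fun g z => by
    rw [← sum_erase _ z, ← sum_coe_sort]
  rw [e _ (by simp), e _ (by simp)] at this
  simp only [coe_mem, dif_pos, Subtype.coe_eta] at this
  refine this.trans_eq (sum_congr rfl fun w _ => ?_)
  rw [e _ (by simp)]
  simp only [coe_mem, dif_pos, Subtype.coe_eta, mul_assoc, ← mul_sum]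
  rfl

theorem _root_.Crest.Agent.N49.Tw.KB.pd' {a b : ℝ} (h : KB W Kw a b) (ha : 0 < a) :
    (mono col W ε Kw).K.PosDef := pd_of_lo ha (Matrix.ext fun _ _ => h.sym _ _) h.lo'

omit [DecidableEq τ] in
theorem _root_.Crest.Agent.N49.Tw.KB.blk' {a b : ℝ} (h : KB W Kw a b) (col : τ → Unit) :
    ∀ μ ∈ W, ∀ ν ∈ W, Kw μ ν ≠ 0 → μ.mapDomain col = ν.mapDomain col := fun μ k ν k' z =>
  unit_ext (by rw [degree_col, degree_col, h.blk μ k ν k' z])

theorem dk_blk (v : (τ →₀ ℕ) → ℝ) :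
    ∀ μ ∈ W, ∀ ν ∈ W, dk v μ ν ≠ 0 → μ.mapDomain col = ν.mapDomain col := fun _ _ _ _ z =>
  congrArg _ (of_not_not fun n => z (if_neg n))

omit [DecidableEq τ] in
theorem _root_.Crest.Agent.N49.Tw.Dn.single (h : Dn W) :
    ∀ μ ∈ W, ∀ a, μ a ≠ 0 → Finsupp.single a 1 ∈ W := fun μ k _ z =>
  h μ k _ (Finsupp.single_le_iff.2 (Nat.pos_of_ne_zero z))

/-- **monomial shapes are well formed** -/
theorem mono_ok (h : Dn W) (pd : (mono col W ε Kw).K.PosDef)
    (blk : ∀ μ ∈ W, ∀ ν ∈ W, Kw μ ν ≠ 0 → μ.mapDomain col = ν.mapDomain col) :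
    (mono col W ε Kw).Ok := mono_eq (col := col) ▸ nfm_ok (nf_some h) pd blk

theorem mono_sz' (h : Dn W) (pd : (mono col W ε Kw).K.PosDef)
    (blk : ∀ μ ∈ W, ∀ ν ∈ W, Kw μ ν ≠ 0 → μ.mapDomain col = ν.mapDomain col) {n : ℕ} {a : ℝ}
    (hn : #(W.erase 0) ≤ n) (lo : ∀ x, a * ∑ w, x w ^ 2 ≤ qf (mono col W ε Kw).K x) :
    (mono col W ε Kw).Sz n a := mono_eq (col := col) ▸ nfm_sz (nf_some h) h.single pd blk hn lo

/-- **the size of a monomial shape** -/
theorem mono_sz (h : Dn W) {a b : ℝ} (hK : KB W Kw a b) (ha : 0 < a)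
    (blk : ∀ μ ∈ W, ∀ ν ∈ W, Kw μ ν ≠ 0 → μ.mapDomain col = ν.mapDomain col) {n : ℕ}
    (hn : #W ≤ n) : (mono col W ε Kw).Sz n a :=
  mono_sz' h (hK.pd' ha) blk (card_erase_le.trans hn) hK.lo'

theorem mono_idl {p : MW W → Prop} (hp : ∀ w w', p w → w'.1 ≤ w.1 → p w') :
    (mono col W ε Kw).Idl p := fun w _ hw e w' k =>
  hp w w' hw (mono_r_ne e ▸ le_weight Subtype.val k)

theorem mono_gen (h : Dn W) {p : MW W → Prop}
    (hp : ∀ w, ¬ p w → ∃ a, w.1 a ≠ 0 ∧ ∀ k, ¬ p ⟨Finsupp.single a 1, k⟩) :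
    (mono col W ε Kw).Gen p := fun κ a w b => by
  obtain ⟨l, lam, e1, e2, e3, e4⟩ :=
    nfm_gen (col := col) (nf := some) (ε := ε) (Kw := Kw) (fun _ _ => rfl) h.single hp κ a w b
  refine ⟨l, lam, e1, e2, e3, fun z => e4 (Eq.trans (sum_congr rfl fun w _ => ?_) z)⟩
  exact congrArg _ (if_congr Option.some_inj rfl rfl)

/-- the words in the letters `q` -/
theorem mono_idl_let (q : τ → Prop) :
    (mono col W ε Kw).Idl fun w : MW W => ∀ a, w.1 a ≠ 0 → q a :=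
  mono_idl fun _ _ h k a z => h a fun y => z (le_zero_iff.1 (y ▸ k a))

theorem mono_gen_let (h : Dn W) (q : τ → Prop) :
    (mono col W ε Kw).Gen fun w : MW W => ∀ a, w.1 a ≠ 0 → q a :=
  mono_gen h fun w n => by
    push Not at n
    obtain ⟨a, k, n⟩ := n
    exact ⟨a, k, fun _ z => n (z a (by simp))⟩

/-- the grading by the types -/
theorem mono_ty (w : (mono col W ε Kw).W) (m : (mono col W ε Kw).W →₀ ℕ)
    (h : (mono col W ε Kw).r w m ≠ 0) :
    Finsupp.weight (mono col W ε Kw).ty m = (mono col W ε Kw).ty w := mono_r_ne h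

section sym
variable {l : ℕ} {c : Fin l → σ} {κ : ℕ → ℝ}

theorem sym_dg (w : (sym c κ).W) : 1 ≤ (sym c κ).dg w ∧ (sym c κ).dg w ≤ l :=
  ⟨Nat.pos_of_ne_zero fun z => MW.ne w ((Finsupp.degree_eq_zero_iff _).1 z),
    (mem_sqf.1 (MW.mem w)).1⟩

theorem sym_K : (sym c κ).K = diagonal fun w => κ ((sym c κ).dg w) := by
  ext (w : MW _) (w' : MW _)
  change (if w.1 = w'.1 then κ w.1.degree else 0) = if w = w' then κ w.1.degree else 0
  exact if_congr Subtype.ext_iff.symm rfl rfl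

theorem sym_ε : (sym c κ).ε = 0 := funext fun _ => sum_eq_zero fun _ _ => ite_self _

theorem sym_pd (h : ∀ j ∈ Icc 1 l, 0 < κ j) : (sym c κ).K.PosDef :=
  sym_K (c := c) ▸ PosDef.diagonal fun w => h _ (mem_Icc.2 (sym_dg w))

/-- **the symbol shape is well formed** -/
theorem sym_ok (h : ∀ j ∈ Icc 1 l, 0 < κ j) : (sym c κ).Ok := mono_ok dn_sqf (sym_pd h) (dk_blk _)

theorem sym_sz {a : ℝ} (ha : 0 < a) (h : ∀ j ∈ Icc 1 l, a ≤ κ j) : (sym c κ).Sz (2 ^ l) a :=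
  mono_sz' dn_sqf (sym_pd fun j k => ha.trans_le (h j k)) (dk_blk _)
    (card_erase_le.trans (card_sqf.trans_eq (by simp))) fun x : (sym c κ).W → ℝ => by
      change _ ≤ qf (sym c κ).K x
      rw [sym_K, qf, mul_sum, dotProduct]
      refine sum_le_sum fun (w : (sym c κ).W) _ => ?_
      rw [show ((diagonal fun w => κ ((sym c κ).dg w)) *ᵥ x) w = _ from mulVec_diagonal _ _ _]
      nlinarith [h _ (mem_Icc.2 (sym_dg w)), sq_nonneg (x w)]

end sym

end Sh

end Crest.Agent.N49.Tw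

end
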