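import Crest.Agent.N49.Tw.Mh0
import Crest.Agent.N49.Tw.Sa

/-! # Row 49 (helper29): change of basis, isomorphisms in degree `≤ s`, split surjections -/

set_option autoImplicit false

open Matrix MvPolynomial Finset

noncomputable section

namespace Crest.Agent.N49.Tw.Mh

open Po

variable {σ τ τ' τ'' : Type} {S : Sh σ τ} {S' : Sh σ τ'} {B : Sh σ τ''}

/-- `B` is `S` in the basis `U`, `V = U⁻¹` -/
structure Bc (S : Sh σ τ) (B : Sh σ τ'') (U : Matrix S.W B.W ℤ) (V : Matrix B.W S.W ℤ) : Prop where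
  r : ∀ j m, B.r j m = ∑ w, V j w * S.cf ℤ w (pu ℤ U (monomial m 1))
  ε : B.ε = V *ᵥ S.ε
  K : B.K = rl V * S.K * (rl V)ᵀ
  UV : U * V = 1
  VU : V * U = 1
  cd : ∀ w j, U w j ≠ 0 ∨ V j w ≠ 0 → S.cd w = B.cd j

theorem bc_bc {J : Type} [Fintype J] [DecidableEq J] {ty : J → τ →₀ ℕ} {U : Matrix S.W J ℤ}
    {V : Matrix J S.W ℤ} (UV : U * V = 1) (VU : V * U = 1)
    (cd : ∀ w j, U w j ≠ 0 ∨ V j w ≠ 0 → S.cd w = (ty j).mapDomain S.col) :
    Bc S (S.bc ty U V) U V := ⟨fun _ _ => rfl, rfl, rfl, UV, VU, cd⟩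

theorem posDef_conj {m n : Type} [Fintype m] [Fintype n] [DecidableEq m] {K : Matrix n n ℝ}
    (hK : K.PosDef) {V : Matrix m n ℤ} {U : Matrix n m ℤ} (h : V * U = 1) :
    (rl V * K * (rl V)ᵀ).PosDef := by
  have := hK.mul_mul_conjTranspose_same (B := rl V) fun x y e => by
    have := congrArg (· ᵥ* rl U) e
    simpa only [vecMul_vecMul, ← rl_mul, h, rl_one, vecMul_one] using this
  rwa [conjTranspose_eq_transpose_of_trivial] at this

theorem conj_ne {m n : Type} [Fintype n] {K : Matrix n n ℝ} {V : Matrix m n ℤ} {j j' : m}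
    (e : (rl V * K * (rl V)ᵀ) j j' ≠ 0) : ∃ w w', V j w ≠ 0 ∧ K w w' ≠ 0 ∧ V j' w' ≠ 0 := by
  obtain ⟨w', -, e⟩ := exists_ne_zero_of_sum_ne_zero
    (show ∑ w', (rl V * K) j w' * (V j' w' : ℝ) ≠ 0 from e)
  obtain ⟨w, -, e'⟩ := exists_ne_zero_of_sum_ne_zero
    (show ∑ w, (V j w : ℝ) * K w w' ≠ 0 from left_ne_zero_of_mul e)
  exact ⟨w, w', by simpa using left_ne_zero_of_mul e', right_ne_zero_of_mul e',
    by simpa using right_ne_zero_of_mul e⟩

theorem card_le {m n : Type} [Fintype m] [Fintype n] [DecidableEq m] {V : Matrix m n ℤ}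
    {U : Matrix n m ℤ} (h : V * U = 1) : Fintype.card m ≤ Fintype.card n := by
  rw [← rank_one (R := ℤ) (n := m), ← h]
  exact (rank_mul_le_left _ _).trans (rank_le_card_width _)

namespace Bc
variable {U : Matrix S.W B.W ℤ} {V : Matrix B.W S.W ℤ} (H : Bc S B U V)
include H

theorem cf (j : B.W) (P : MvPolynomial B.W ℤ) : B.cf ℤ j P = ∑ w, V j w * S.cf ℤ w (pu ℤ U P) := by
  induction P using MvPolynomial.induction_on' with
  | add p q hp hq => simp only [map_add, mul_add, sum_add_distrib, hp, hq]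
  | monomial m a =>
    rw [cf_mon, H.r, show (monomial m a : MvPolynomial B.W ℤ) = a • monomial m 1 by
      simp [smul_monomial]]
    simp only [map_smul, smul_eq_mul, Int.cast_id, mul_sum]
    exact sum_congr rfl fun _ _ => by ring

theorem ex (j : B.W) : ∃ w, V j w ≠ 0 := by
  have : ∑ w, V j w * U w j ≠ 0 := by rw [← mul_apply, H.VU]; simp
  obtain ⟨w, -, e⟩ := exists_ne_zero_of_sum_ne_zero this
  exact ⟨w, left_ne_zero_of_mul e⟩

theorem xp (w : S.W) : (X w : MvPolynomial S.W ℤ) = ∑ j, V j w • ∑ w', U w' j • X w' := by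
  conv_lhs => rw [← pu_one (X w), ← H.UV, ← pu_pu, pu_X, map_sum]
  simp only [map_zsmul, pu_X]

theorem ok (h : S.Ok) : B.Ok where
  ne j e := by
    obtain ⟨w, hw⟩ := H.ex j
    have := dg_pos h w
    rw [dg_eq (H.cd w j (.inr hw)), Sh.dg, e] at this
    simp at this
  one j j' := by
    rw [H.r, ← X, pu_X]
    simp only [cf_el h, Int.cast_id]
    rw [← mul_apply, H.VU, one_apply]
  gr j m e := by
    rw [H.r] at e
    obtain ⟨w, -, e⟩ := exists_ne_zero_of_sum_ne_zero e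
    rw [← H.cd w j (.inr (left_ne_zero_of_mul e))]
    exact cf_hom h (pu_hom (fun w j z => H.cd w j (.inl z)) m) (right_ne_zero_of_mul e)
  mul j m m' m0 := by
    have c : constantCoeff (pu ℤ U (monomial m 1)) = 0 := by
      rw [cc_pu, constantCoeff_monomial, if_neg m0]
    have e : ∀ a b : B.W →₀ ℕ, pu ℤ U (monomial (a + b) 1) =
        pu ℤ U (monomial a 1) * pu ℤ U (monomial b 1) := fun a b => by
      rw [← map_mul, monomial_mul, mul_one]
    simp only [H.r, e, ← X.eq_1, pu_X, cf_mul h _ c]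
    generalize pu ℤ U (monomial m 1) = P
    generalize pu ℤ U (monomial m' 1) = Q
    have k : ∀ w w', S.cf ℤ w (X w' * Q) =
        ∑ j', V j' w' * S.cf ℤ w ((∑ b, U b j' • X b) * Q) := fun w w' => by
      rw [H.xp w', sum_mul, map_sum]
      exact sum_congr rfl fun j' _ => by rw [smul_mul_assoc, map_zsmul, smul_eq_mul]
    calc _ = ∑ w, ∑ w', ∑ j', V j' w' * S.cf ℤ w' P *
          (V j w * S.cf ℤ w ((∑ b, U b j' • X b) * Q)) := by
          refine sum_congr rfl fun w _ => ?_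
          rw [mul_sum]
          refine sum_congr rfl fun w' _ => ?_
          rw [k, mul_sum, mul_sum]
          exact sum_congr rfl fun _ _ => by ring
      _ = ∑ j', ∑ w', ∑ w, V j' w' * S.cf ℤ w' P *
          (V j w * S.cf ℤ w ((∑ b, U b j' • X b) * Q)) := by
          rw [sum_comm]
          conv_lhs => enter [2, w']; rw [sum_comm]
          rw [sum_comm]
      _ = _ := sum_congr rfl fun _ _ => (sum_mul_sum _ _ _ _).symm
  eps j e := by
    rw [H.ε] at e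
    obtain ⟨w, -, e⟩ := exists_ne_zero_of_sum_ne_zero (show ∑ w, V j w * S.ε w ≠ 0 from e)
    rw [← dg_eq (H.cd w j (.inr (left_ne_zero_of_mul e))), h.eps w (right_ne_zero_of_mul e)]
  pd := H.K ▸ posDef_conj h.pd H.VU
  blk j j' e := by
    rw [H.K] at e
    obtain ⟨w, w', a, b, c⟩ := conj_ne e
    rw [← H.cd w j (.inr a), ← H.cd w' j' (.inr c), h.blk w w' b]

theorem hm : S.Hm B V where
  cd j w e := (H.cd w j (.inr e)).symm
  mul j m _ := by
    change _ = B.cf ℤ j (pu ℤ V _)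
    simp only [H.cf, pu_pu, H.UV, pu_one, cf_mon1]
  mass := H.ε.symm

theorem ht {n : ℕ} {a : ℝ} (h : S.Sz n a) (hU : ∀ w j, |U w j| ≤ n) (hV : ∀ j w, |V j w| ≤ n)
    (j : B.W) (m : B.W →₀ ℕ) : |B.r j m| ≤ (n + 1) ^ (2 * B.dg j + 3) := by
  by_cases e : B.r j m = 0
  · rw [e, abs_zero]; positivity
  have d := deg_le (H.ok h.toOk) e
  rw [H.r]
  refine (abs_sum_le_sum_abs _ _).trans ((sum_le_card_nsmul _ _
    ((n + 1 : ℤ) * ((n + 1) * (n + 1) ^ (2 * B.dg j))) fun w _ => ?_).trans ?_)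
  · have := nb_pu h.card hU m (S.cf ℤ w) n (fun m => by rw [cf_mon1]; exact h.ht w m) 0
    rw [monomial_zero', C_1, one_mul] at this
    rw [abs_mul]
    refine mul_le_mul ((hV j w).trans (by omega)) (this.trans ?_) (abs_nonneg _) (by positivity)
    rw [← sq, ← pow_mul]
    refine mul_le_mul (by omega) ((pow_le_pow_left₀ (by positivity) (by omega) _).trans
      (pow_le_pow_right₀ (by omega) (by omega))) (by positivity) (by positivity)
  · rw [card_univ, nsmul_eq_mul, pow_add]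
    have : (Fintype.card S.W : ℤ) ≤ n + 1 := by have := h.card; omega
    calc _ ≤ (n + 1 : ℤ) * ((n + 1) * ((n + 1) * (n + 1) ^ (2 * B.dg j))) := by gcongr
      _ = _ := by ring

theorem lo {n : ℕ} {a : ℝ} (h : S.Sz n a) (hU : ∀ w j, |U w j| ≤ n) (x : B.W → ℝ) :
    a / (n + 1) ^ 4 * ∑ j, x j ^ 2 ≤ qf B.K x := by
  rcases le_or_gt a 0 with ha | ha
  · refine le_trans (mul_nonpos_of_nonpos_of_nonneg (div_nonpos_of_nonpos_of_nonneg ha
      (by positivity)) (by positivity)) ?_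
    simpa [qf] using (H.ok h.toOk).pd.posSemidef.dotProduct_mulVec_nonneg x
  have e : qf B.K x = qf S.K ((rl V)ᵀ *ᵥ x) := by
    rw [H.K, ← qf_conj, transpose_transpose]
  set z := (rl V)ᵀ *ᵥ x
  have ex : ∀ j, x j = ∑ w, U w j * z w := fun j => by
    have : (rl U)ᵀ *ᵥ z = x := by
      rw [mulVec_mulVec, ← transpose_mul, ← rl_mul, H.VU, rl_one, transpose_one, one_mulVec]
    rw [← this]; rfl
  have cW : (Fintype.card S.W : ℝ) ≤ n + 1 := by have := h.card; exact_mod_cast by omega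
  have cB : (Fintype.card B.W : ℝ) ≤ n + 1 :=
    le_trans (by exact_mod_cast card_le H.VU) cW
  have b1 : ∀ j, x j ^ 2 ≤ (n + 1) ^ 3 * ∑ w, z w ^ 2 := fun j => by
    rw [ex j]
    refine (sum_mul_sq_le_sq_mul_sq _ _ _).trans (mul_le_mul_of_nonneg_right
      ((sum_le_card_nsmul _ _ ((n + 1 : ℝ) ^ 2) fun w _ => ?_).trans ?_) (by positivity))
    · have : |(U w j : ℝ)| ≤ n + 1 := by have := hU w j; exact_mod_cast by omega
      rw [← sq_abs]; gcongr
    · rw [card_univ, nsmul_eq_mul]; nlinarith [sq_nonneg (n + 1 : ℝ)]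
  have b2 : ∑ j, x j ^ 2 ≤ (n + 1) ^ 4 * ∑ w, z w ^ 2 := by
    refine (sum_le_card_nsmul _ _ _ fun j _ => b1 j).trans ?_
    rw [card_univ, nsmul_eq_mul]
    calc _ ≤ (n + 1 : ℝ) * ((n + 1) ^ 3 * ∑ w, z w ^ 2) := by gcongr
      _ = _ := by ring
  rw [e]
  refine le_trans ?_ (h.lo z)
  calc _ ≤ a / (n + 1) ^ 4 * ((n + 1) ^ 4 * ∑ w, z w ^ 2) := by gcongr
    _ = _ := by field_simp

/-- products of old words expand into products of new words -/
theorem expand {ι : Type} [Fintype ι] [DecidableEq ι] (κ : B.W → ℤ) (P : MvPolynomial B.W ℤ)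
    (lam : ι → S.W) (e : ∑ w, (κ ᵥ* V) w * S.cf ℤ w (pu ℤ U P * ∏ i, X (lam i)) ≠ 0) :
    ∃ mu : ι → B.W, (∀ i, B.dg (mu i) = S.dg (lam i)) ∧
      ∑ j, κ j * B.cf ℤ j (P * ∏ i, X (mu i)) ≠ 0 := by
  simp only [fun i => H.xp (lam i), prod_univ_sum, mul_sum, map_sum] at e
  rw [sum_comm] at e
  obtain ⟨mu, -, e⟩ := exists_ne_zero_of_sum_ne_zero e
  simp only [prod_smul, mul_smul_comm, map_smul, smul_eq_mul, mul_left_comm ((κ ᵥ* V) _)] at e
  rw [← mul_sum] at e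
  refine ⟨mu, fun i => (dg_eq (H.cd _ _ (.inr fun z => left_ne_zero_of_mul e
    (prod_eq_zero (mem_univ i) z)))).symm, fun z => right_ne_zero_of_mul e (Eq.trans ?_ z)⟩
  simp only [H.cf, map_mul, map_prod, pu_X, vecMul, dotProduct, sum_mul, mul_sum, mul_assoc]
  exact sum_comm

theorem gen (h : S.Gen fun _ => False) : B.Gen fun _ => False := fun κ _ j hj => by
  have : ∑ w, (κ ᵥ* V) w * U w j ≠ 0 := by
    change (κ ᵥ* V ᵥ* U) j ≠ 0
    rwa [vecMul_vecMul, H.VU, vecMul_one]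
  obtain ⟨w, -, e⟩ := exists_ne_zero_of_sum_ne_zero this
  obtain ⟨l, lam, e1, e2, -, e4⟩ := h (κ ᵥ* V) (fun _ z => z.elim) w (left_ne_zero_of_mul e)
  obtain ⟨mu, m1, m2⟩ := H.expand κ 1 lam (by simpa only [map_one, one_mul, ← mon_sum, cf_mon1] using e4)
  refine ⟨l, mu, e1.trans (dg_eq (H.cd w j (.inl (right_ne_zero_of_mul e)))),
    fun i => (m1 i).trans (e2 i), not_false, ?_⟩
  simpa only [one_mul, ← mon_sum, cf_mon1] using m2

end Bc

/-- an isomorphism in the degrees `≤ s` -/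
structure Iso (s : ℕ) (S : Sh σ τ) (S' : Sh σ τ') (φ : Matrix S'.W S.W ℤ)
    (ψ : Matrix S.W S'.W ℤ) : Prop where
  ok : S.Ok
  ok' : S'.Ok
  hm : S.Hm S' φ
  cd : ∀ w w', ψ w w' ≠ 0 → S.cd w = S'.cd w'
  l : ∀ w w2, S.dg w ≤ s → (ψ * φ) w w2 = (1 : Matrix _ _ ℤ) w w2
  r : ∀ w w2, S'.dg w ≤ s → (φ * ψ) w w2 = (1 : Matrix _ _ ℤ) w w2
  K : ∀ w w2, S'.dg w ≤ s → S'.dg w2 ≤ s → S'.K w w2 = (rl φ * S.K * (rl φ)ᵀ) w w2

theorem Bc.iso {U : Matrix S.W B.W ℤ} {V : Matrix B.W S.W ℤ} (H : Bc S B U V) (h : S.Ok) (s : ℕ) :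
    Iso s S B V U :=
  ⟨h, H.ok h, H.hm, fun w j e => H.cd w j (.inl e), fun _ _ _ => by rw [H.UV],
    fun _ _ _ => by rw [H.VU], fun _ _ _ _ => by rw [H.K]⟩

/-- a split surjection whose kernel is generated in degree one up to the degree `s` -/
structure Spw (S : Sh σ τ) (s : ℕ) (S' : Sh σ τ') (n : ℕ) (φ : Matrix S'.W S.W ℤ)
    (ψ : Matrix S.W S'.W ℤ) {J : Type} [Fintype J] [DecidableEq J] (N : Matrix S.W J ℤ)
    (Q : Matrix J S.W ℤ) (cj : J → σ →₀ ℕ) : Prop where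
  ok : S'.Ok
  hm : S.Hm S' φ
  K : S'.K = rl φ * S.K * (rl φ)ᵀ
  φψ : φ * ψ = 1
  φN : φ * N = 0
  QN : Q * N = 1
  Qψ : Q * ψ = 0
  one : ψ * φ + N * Q = 1
  cψ : ∀ w w', ψ w w' ≠ 0 → S.cd w = S'.cd w'
  cN : ∀ w j, N w j ≠ 0 ∨ Q j w ≠ 0 → S.cd w = cj j
  hψ : ∀ w w', |ψ w w'| ≤ n
  hφ : ∀ w' w, |φ w' w| ≤ n
  hN : ∀ w j, |N w j| ≤ n
  hQ : ∀ j w, |Q j w| ≤ n
  gen : ∀ κ : J → ℤ, ∀ j, κ j ≠ 0 → (cj j).degree ≤ s → ∃ (l : ℕ) (j0 : J) (lam : Fin l → S.W),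
    l + 1 = (cj j).degree ∧ (cj j0).degree = 1 ∧ (∀ i, S.dg (lam i) = 1) ∧ ∑ w, (κ ᵥ* Q) w *
      ∑ w0, N w0 j0 * S.r w (Finsupp.single w0 1 + ∑ i, Finsupp.single (lam i) 1) ≠ 0

end Crest.Agent.N49.Tw.Mh

end
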