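import Crest.Agent.N49.Tw.Ap2
import Crest.Agent.N49.Po.Pi

/-!
# Row 49 (helper32): ranks and dual theta functions of the laws on shapes
-/

set_option autoImplicit false

open Matrix MvPolynomial Finset

noncomputable section

namespace Crest.Agent.N49.Tw

open Po

namespace Ctl

variable {I W J : Type} [Fintype I] [Fintype W] [Fintype J] [DecidableEq I] [DecidableEq W]
  [DecidableEq J] {D : Matrix I I ℝ} {K : Matrix W W ℝ} {a : ℝ}

omit [DecidableEq W] in
/-- lower bound for a tensor product -/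
theorem kron_lo (hD : D.PosDef) (h : ∀ x, a * ∑ w, x w ^ 2 ≤ qf K x) (X : W → I → ℝ) :
    a * ∑ w, qf D (X w) ≤ ∑ w, ∑ w', K w w' * (X w ⬝ᵥ D *ᵥ X w') := by
  obtain ⟨A, -, rfl⟩ := exists_sqrt hD
  have e : ∀ w w', X w ⬝ᵥ (Aᵀ * A) *ᵥ X w' = ∑ j, (A *ᵥ X w) j * (A *ᵥ X w') j := fun w w' => by
    rw [← mulVec_mulVec, dotProduct_mulVec, vecMul_transpose]; rfl
  simp only [qf_mul, e, mul_sum]
  rw [sum_comm, sum_congr rfl fun w _ => sum_comm, sum_comm (γ := W)]
  refine sum_le_sum fun j _ => ?_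
  have := h fun w => (A *ᵥ X w) j
  rw [mul_sum] at this
  refine this.trans_eq ?_
  simp only [qf, dotProduct, mulVec, mul_sum]
  exact sum_congr rfl fun w _ => sum_congr rfl fun w' _ => by simp only [← mul_sum]; ring

/-- extension by zero -/
def ext {R : Type} [AddCommMonoid R] (f : J → I) (g : J → W) (n : J → R) (w : W) (i : I) : R :=
  ∑ j, if g j = w ∧ f j = i then n j else 0

omit [DecidableEq J] in
theorem sum_ext (f : J → I) (g : J → W) (x : J → ℝ) (φ : W → I → ℝ) :
    ∑ w, ∑ i, ext f g x w i * φ w i = ∑ j, x j * φ (g j) (f j) := by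
  simp only [ext, sum_mul, ite_mul, zero_mul]
  rw [sum_congr rfl fun w _ => sum_comm, sum_comm]
  simp [ite_and]

omit [DecidableEq J] in
theorem qf_ext (f : J → I) (g : J → W) (x : J → ℝ) :
    ∑ w, ∑ w', K w w' * (ext f g x w ⬝ᵥ D *ᵥ ext f g x w') =
      qf (Matrix.of fun j j' => D (f j) (f j') * K (g j) (g j')) x := by
  have e : ∀ w i, ∑ w', ∑ i', ext f g x w' i' * (D i i' * K w w') =
      ∑ j, x j * (D i (f j) * K w (g j)) := fun w i => sum_ext f g x fun w' i' => D i i' * K w w'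
  have := sum_ext f g x fun w i => ∑ j, x j * (D i (f j) * K w (g j))
  simp only [qf, dotProduct, mulVec, of_apply]
  refine Eq.trans ?_ (this.trans (sum_congr rfl fun _ _ => congrArg _
    (sum_congr rfl fun _ _ => mul_comm _ _)))
  refine sum_congr rfl fun w _ => ?_
  simp only [← e, mul_sum]
  rw [sum_comm]
  exact sum_congr rfl fun _ _ => sum_congr rfl fun _ _ => sum_congr rfl fun _ _ => by ring

/-- the theta function of a piece of a tensor product -/
theorem th_kron (hD : D.PosDef) (ha : 0 < a) (h : ∀ x, a * ∑ w, x w ^ 2 ≤ qf K x) {f : J → I}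
    {g : J → W} (hi : ∀ j j', g j = g j' → f j = f j' → j = j') {M : Matrix J J ℝ} (hM : M.PosDef)
    (e : ∀ j j', M j j' = D (f j) (f j') * K (g j) (g j')) :
    Po.th M 0 ≤ Po.th (a • D) 0 ^ Fintype.card W := by
  have hN : ∀ _ : W, (a • D).PosDef := fun _ => hD.smul ha
  have v : ∀ (n : J → ℤ) j, ext f g n (g j) (f j) = n j := fun n j => by
    rw [ext, sum_eq_single j (fun j' _ k => if_neg fun k' => k (hi _ _ k'.1 k'.2)) (by simp)]
    simp
  rw [← card_univ, ← prod_const]
  refine le_of_le_of_eq ?_ (tsum_gs_pi hN fun _ => 0)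
  refine (summable_gs hM 0).tsum_le_tsum_of_inj (ext f g)
    (fun n n' k => funext fun j => by rw [← v n j, k, v])
    (fun _ _ => prod_nonneg fun _ _ => (gs_pos _ _).le) (fun n => ?_) (summable_gs_pi hN _)
  have z : ∀ w, zc (ext f g n w) = ext f g (zc n) w := fun w => funext fun i => by
    simp [zc, ext]
  simp only [sub_zero, gs, ← Real.exp_sum, qf_smul, z]
  refine Real.exp_le_exp.2 ?_
  have := kron_lo hD h (ext f g (zc n))
  rw [qf_ext, ← show M = Matrix.of fun j j' => D (f j) (f j') * K (g j) (g j') from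
    Matrix.ext e] at this
  rw [sum_neg_distrib, ← mul_sum, ← mul_sum]
  nlinarith [Real.pi_pos]

end Ctl

namespace TS

variable {σ τ : Type} [DecidableEq σ] {T : TS σ} {S : Sh σ τ} {st : T.C → ℕ} {Ψ : T.Twd S}
  {n : ℕ} {a b : ℝ}

theorem lw_R' (t : ℕ) : (T.lw S st Ψ).R t ≤ Fintype.card S.W * (T.stg st).R t := by
  rw [R, R, ← card_univ, ← card_product]
  refine card_le_card_of_injOn (fun p : T.Cw S => (p.1.2, p.1.1)) (fun p hp => ?_)
    fun p _ q _ e => Subtype.ext (Prod.ext (congrArg Prod.snd e) (congrArg Prod.fst e))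
  have := (mem_filter.1 hp).2
  simp only [coe_product, coe_univ, Set.mem_prod, Set.mem_univ, true_and]
  exact mem_filter.2 ⟨mem_univ _, this⟩

/-- the rank of a stage on a shape -/
theorem lw_Rn (h : S.Sz n a) (t : ℕ) : (T.lw S st Ψ).R t ≤ n * (T.stg st).R t :=
  (lw_R' t).trans (Nat.mul_le_mul_right _ h.card)

variable {M : ℕ}

/-- the dual theta function of a stage on a shape -/
theorem lw_ct_le (hs : T.Stg st M) (hΨ : T.Adm S st Ψ) (h : S.Sz n a) (b0 : 0 < b) (b1 : b ≤ 1)
    (ba : b ≤ a) (t : ℕ) :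
    (T.lw S st Ψ).ct t ≤ ((√b)⁻¹ ^ (T.stg st).R t * (T.stg st).ct t) ^ n := by
  have pd := hs.tri.pd_D.submatrix (Subtype.val_injective (p := fun c => (T.stg st).lev c = t))
  have k := Ctl.th_kron pd b0 (K := S.K)
    (fun x => (mul_le_mul_of_nonneg_right ba (sum_nonneg fun _ _ => sq_nonneg _)).trans (h.lo x))
    (J := {p // (T.lw S st Ψ).lev p = t}) (f := fun p => ⟨p.1.1.1, p.2⟩) (g := fun p => p.1.1.2)
    (fun p q e e' => Subtype.ext (Subtype.ext (Prod.ext (congrArg Subtype.val e') e)))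
    ((lw_tri hs hΨ h.toOk).pd_D.submatrix Subtype.val_injective)
    fun p q => by rw [lw_D hs hΨ h.toOk]; rfl
  have s := th_scale pd b0 b1 0
  rw [Fintype.card_subtype] at s
  refine k.trans ((pow_le_pow_left₀ (th_nonneg _ _) s _).trans (pow_le_pow_right₀ ?_ h.card))
  exact (one_le_th (pd.smul b0)).trans s

theorem lw_logct (hs : T.Stg st M) (hΨ : T.Adm S st Ψ) (h : S.Sz n a) (b0 : 0 < b) (b1 : b ≤ 1)
    (ba : b ≤ a) (t : ℕ) : Real.log ((T.lw S st Ψ).ct t) ≤
      n * (Real.log ((T.stg st).ct t) + (T.stg st).R t * Real.log b⁻¹) := by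
  have p0 : ∀ {T : TS Unit}, T.Tri → 0 < T.ct t := fun h =>
    th_pos (h.pd_D.submatrix Subtype.val_injective) _
  refine (Real.log_le_log (p0 (lw_tri hs hΨ h.toOk)) (lw_ct_le hs hΨ h b0 b1 ba t)).trans ?_
  rw [Real.log_pow, Real.log_mul (by positivity) (p0 hs.tri).ne', Real.log_pow, add_comm]
  gcongr
  exact Real.le_sqrt_of_sq_le (by nlinarith)

end TS

end Crest.Agent.N49.Tw

end
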