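import Crest.Agent.N49.Tw.ConM

/-! # Row 49 (helper80): points and morphisms of monomial shapes -/

set_option autoImplicit false

open Matrix MvPolynomial Finset

noncomputable section

namespace Crest.Agent.N49.Tw.Sh

open Po

variable {σ τ τ' : Type} [DecidableEq τ] [DecidableEq τ'] {col : τ → σ} {W : Finset (τ →₀ ℕ)}
  {ε : τ → ℤ} {Kw : (τ →₀ ℕ) → (τ →₀ ℕ) → ℝ} {col' : τ' → σ} {W' : Finset (τ' →₀ ℕ)}
  {ε' : τ' → ℤ} {Kw' : (τ' →₀ ℕ) → (τ' →₀ ℕ) → ℝ}

theorem sum_word (g : (τ →₀ ℕ) → ℤ) {μ : τ →₀ ℕ} (h0 : μ ≠ 0) (h : g μ ≠ 0 → μ ∈ W) :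
    ∑ w : MW W, (if μ = w.1 then g w.1 else 0) = g μ := by
  rw [sum_coe_sort (W.erase 0) fun ν => if μ = ν then g ν else 0, sum_ite_eq]
  split_ifs with k
  · rfl
  · exact (of_not_not fun z => k (mem_erase.2 ⟨h0, h z⟩)).symm

theorem mono_ε [Fintype τ] (w : MW W) :
    (mono col W ε Kw).ε w = ∑ a, if Finsupp.single a 1 = w.1 then ε a else 0 :=
  (sum_subset (subset_univ _) fun x _ k => if_neg fun e => k (by simp [e])).trans
    (sum_congr rfl fun _ _ => if_congr eq_comm rfl rfl)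

theorem sum_mono_ε [Fintype τ] (g : (τ →₀ ℕ) → ℤ)
    (h : ∀ a, ε a * g (Finsupp.single a 1) ≠ 0 → Finsupp.single a 1 ∈ W) :
    ∑ w : MW W, (mono col W ε Kw).ε w * g w.1 = ∑ a, ε a * g (Finsupp.single a 1) := by
  simp only [mono_ε, sum_mul, ite_mul, zero_mul]
  rw [sum_comm]
  exact sum_congr rfl fun a _ => sum_word (fun ν => ε a * g ν) (by simp) (h a)

omit [DecidableEq τ] in
theorem prod_weight {ι : Type} (f : ι → τ →₀ ℕ) (t : τ → ℤ) (m : ι →₀ ℕ) :
    m.prod (fun w n => (f w).prod (fun a k => t a ^ k) ^ n) =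
      (Finsupp.weight f m).prod fun a k => t a ^ k := by
  have e : ∀ μ : τ →₀ ℕ, μ.prod (fun a k => t a ^ k) = eval t (monomial μ 1) := fun μ => by
    rw [eval_monomial, one_mul]
  simp only [e, Finsupp.weight_apply, Finsupp.sum, monomial_sum_one, map_prod, ← map_pow,
    monomial_pow, one_pow]
  rfl

/-- the multiplicativity of the point `t` -/
theorem mono_pt_mul {s : ℕ} {t : τ → ℤ}
    (h : ∀ μ : τ →₀ ℕ, μ.degree ≤ s → (μ.prod fun a k => t a ^ k) ≠ 0 → μ ∈ W)
    (m : MW W →₀ ℕ) (m0 : m ≠ 0) (hm : Finsupp.weight (mono col W ε Kw).dg m ≤ s) :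
    m.prod (fun w n => (w.1.prod fun a k => t a ^ k) ^ n) =
      ∑ w : MW W, (mono col W ε Kw).r w m * w.1.prod fun a k => t a ^ k := by
  simp only [mono_r, ite_mul, one_mul, zero_mul]
  rw [prod_weight, sum_word (fun μ => μ.prod fun a k => t a ^ k) (weight_ne m0)
    (h _ ((weight_hom Finsupp.degree Subtype.val m).symm.trans_le hm))]

/-- **points of a monomial shape** -/
theorem mono_pt [Fintype τ] {s : ℕ} {t : τ → ℤ} (hs : 1 ≤ s)
    (h : ∀ μ : τ →₀ ℕ, μ.degree ≤ s → (μ.prod fun a k => t a ^ k) ≠ 0 → μ ∈ W)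
    (h1 : ∑ a, ε a * t a = 1) :
    (mono col W ε Kw).Pt s fun w : MW W => w.1.prod fun a k => t a ^ k where
  mul := mono_pt_mul h
  mass := (sum_mono_ε (fun μ => μ.prod fun a k => t a ^ k) fun a z =>
    h _ (by simpa using hs) (right_ne_zero_of_mul z)).trans (by simpa using h1)

variable (W) in
/-- words as monomials -/
def rz (R : Type) [CommRing R] : MvPolynomial (MW W) R →ₐ[R] MvPolynomial τ R :=
  aeval fun w => monomial w.1 1

theorem rz_mon {R : Type} [CommRing R] (m : MW W →₀ ℕ) (a : R) :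
    rz W R (monomial m a) = monomial (Finsupp.weight Subtype.val m) a := by
  simp only [rz, aeval_monomial, monomial_pow, one_pow, Finsupp.prod, ← monomial_sum_one,
    algebraMap_eq, C_mul_monomial, mul_one, Finsupp.weight_apply, Finsupp.sum]

theorem cf_rz {R : Type} [CommRing R] (w : MW W) (P : MvPolynomial (MW W) R) :
    (mono col W ε Kw).cf R w P = coeff w.1 (rz W R P) := by
  induction P using MvPolynomial.induction_on' with
  | add p q a b => rw [map_add, coeff_add, ← a, ← b]; exact map_add _ _ _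
  | monomial m a =>
    rw [rz_mon, coeff_monomial]
    refine (Mh.cf_mon (mono col W ε Kw) w m a).trans ?_
    rw [mono_r]; split_ifs <;> simp

variable [Fintype τ'] {φ : τ → τ' → ℤ}

omit [DecidableEq τ] [DecidableEq τ'] in
theorem smat_col (h : ∀ a a', φ a a' ≠ 0 → col a = col' a') {ν : τ' →₀ ℕ} {μ : τ →₀ ℕ}
    (z : smat φ ν μ ≠ 0) : ν.mapDomain col' = μ.mapDomain col := by
  rw [← weight_col, ← weight_col]
  exact Mh.pu_hom (R := ℤ) (φ := Matrix.of fun b a => φ a b)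
    (cA := fun a => Finsupp.single (col a) 1) (cB := fun a => Finsupp.single (col' a) 1)
    (fun b a k => by rw [h a b k]) μ z

omit [DecidableEq τ] [DecidableEq τ'] in
theorem smat_degree {ν : τ' →₀ ℕ} {μ : τ →₀ ℕ} (z : smat φ ν μ ≠ 0) : ν.degree = μ.degree := by
  have := congrArg Finsupp.degree (smat_col (col := fun _ => ()) (col' := fun _ => ())
    (fun _ _ _ => rfl) z)
  rwa [degree_col, degree_col] at this

omit [DecidableEq τ] in
theorem smat_single (ν : τ' →₀ ℕ) (a : τ) :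
    smat φ ν (Finsupp.single a 1) = ∑ b, if Finsupp.single b 1 = ν then φ a b else 0 := by
  change coeff ν (lsub φ (X a)) = _
  simp only [lsub, aeval_X, coeff_sum, coeff_smul, coeff_X, smul_eq_mul, mul_ite, mul_one, mul_zero]

variable (W W' φ) in
/-- the matrix of a substitution on the nonempty words -/
def sm : Matrix (MW W') (MW W) ℤ := Matrix.of fun ν μ => smat φ ν.1 μ.1

variable (col W ε Kw) in
/-- the same matrix, typed for `Hm`, `Spl` -/
def smm (S' : Sh σ τ') (φ : τ → τ' → ℤ) : Matrix S'.W (mono col W ε Kw).W ℤ :=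
  Matrix.of fun ν μ => smat φ (S'.ty ν) μ.1

theorem rz_sm (h : Dn W') (P : MvPolynomial (MW W) ℤ) {ν : τ' →₀ ℕ} (k : ν ∈ W') :
    coeff ν (rz W' ℤ (Mh.pu ℤ (sm W W' φ) P)) = coeff ν (lsub φ (rz W ℤ P)) := by
  have : (Ideal.Quotient.mkₐ ℤ (idl ℤ h)).comp ((rz W' ℤ).comp (Mh.pu ℤ (sm W W' φ))) =
      (Ideal.Quotient.mkₐ ℤ (idl ℤ h)).comp ((lsub φ).comp (rz W ℤ)) := algHom_ext fun w => by
    refine Ideal.Quotient.eq.2 fun μ k => ?_
    change coeff μ (rz W' ℤ (Mh.pu ℤ (sm W W' φ) (X w)) - lsub φ (rz W ℤ (X w))) = 0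
    rw [Mh.pu_X]
    simp only [map_sum, map_zsmul, rz, aeval_X, coeff_sub, coeff_sum, coeff_smul, coeff_monomial,
      smul_eq_mul, mul_ite, mul_one, mul_zero, sub_eq_zero]
    change _ = smat φ μ w.1
    by_cases z : μ = 0
    · rw [sum_eq_zero fun b _ => if_neg (z ▸ b.ne)]
      exact Eq.symm (of_not_not fun y => w.ne ((Finsupp.degree_eq_zero_iff _).1
        (by rw [← smat_degree y, z, map_zero])))
    · exact (sum_congr rfl fun _ _ => if_congr eq_comm rfl rfl).trans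
        (sum_word (fun ν => smat φ ν w.1) z fun _ => k)
  exact sub_eq_zero.1 ((coeff_sub _ _ _ _).symm.trans
    (Ideal.Quotient.eq.1 (DFunLike.congr_fun this P) ν k))

/-- **substitutions are morphisms of monomial shapes** -/
theorem hm_mono [Fintype τ] (h : Dn W') (c : Cmp col W ε col' W' ε' φ) :
    (mono col W ε Kw).Hm (mono col' W' ε' Kw') (smm col W ε Kw _ φ) where
  cd _ _ z := smat_col c.col z
  mul (ν : MW W') (m : MW W →₀ ℕ) m0 := by
    refine Eq.trans ?_ ((cf_rz ν _).trans (rz_sm h (monomial m 1) ν.mem)).symm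
    change ∑ w : MW W, smat φ ν.1 w.1 * (mono col W ε Kw).r w m = _
    simp only [mono_r, mul_ite, mul_one, mul_zero]
    rw [rz_mon, sum_word (smat φ ν.1) (weight_ne m0) (c.wd _ ν.mem _)]; rfl
  mass := funext fun ν : MW W' => by
    refine ((sum_congr rfl fun _ _ => mul_comm _ _).trans (sum_mono_ε (smat φ ν.1) fun a z =>
      c.wd _ ν.mem _ (right_ne_zero_of_mul z))).trans (Eq.trans ?_ (mono_ε ν).symm)
    simp only [smat_single, mul_sum, mul_ite, mul_zero]
    rw [sum_comm]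
    refine sum_congr rfl fun b _ => ?_
    split_ifs <;> simp [c.mass]

/-- the covariance pushed along a substitution -/
theorem kpush_sm : (mono col' W' ε' (kpush φ W Kw)).K =
    rl (smm col W ε Kw (mono col' W' ε' (kpush φ W Kw)) φ) * (mono col W ε Kw).K *
      (rl (smm col W ε Kw (mono col' W' ε' (kpush φ W Kw)) φ))ᵀ := by
  ext (ν : MW W') (ν' : MW W')
  have z : ∀ ν : MW W', smat φ ν.1 0 = 0 := fun ν => of_not_not fun y =>
    ν.ne ((Finsupp.degree_eq_zero_iff _).1 (by rw [smat_degree y, map_zero]))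
  have e : ∀ g : (τ →₀ ℕ) → ℝ, g 0 = 0 → ∑ μ ∈ W, g μ = ∑ w : MW W, g w := fun g z => by
    rw [← sum_erase _ z, ← sum_coe_sort]
  change kpush φ W Kw ν.1 ν'.1 = ∑ w' : MW W, (∑ w : MW W, (smat φ ν.1 w.1 : ℝ) * Kw w.1 w'.1) *
    (smat φ ν'.1 w'.1 : ℝ)
  rw [kpush, e _ (by simp [z]), sum_congr rfl fun _ _ => e _ (by simp [z]), sum_comm]
  simp only [sum_mul]

end Crest.Agent.N49.Tw.Sh

end
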