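import Crest.Agent.N49.Tw.Cd
import Crest.Agent.N49.Tw.Api
import Crest.Agent.N49.Tw.Chg
import Crest.Agent.N49.Tw.Dbl

/-!
# Row 49 (helper64): the earlier stages of a twisted law
-/

set_option autoImplicit false
set_option linter.unusedSectionVars false

open Matrix MvPolynomial Finset

noncomputable section

namespace Crest.Agent.N49.Tw

open Po

namespace Cb

variable {C R : Type} [CommSemiring R] {p : C → Prop}

theorem kc_pos (c : {c // p c}) :
    killCompl (Subtype.val_injective (p := p)) (X c.1 : MvPolynomial C R) = X c := by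
  rw [← rename_X, killCompl_rename_app]

theorem kc_neg {c : C} (h : ¬ p c) :
    killCompl (Subtype.val_injective (p := p)) (X c : MvPolynomial C R) = 0 :=
  killCompl_monomial_eq_zero_of_notMem_range _ _ (a := c) (by simp) (by simpa using h)

theorem eval_kc [DecidablePred p] (Y : {c // p c} → R) (P : MvPolynomial C R) :
    eval Y (killCompl (Subtype.val_injective (p := p)) P) = eval (glue p Y 0) P := by
  induction P using MvPolynomial.induction_on with
  | C a => rw [killCompl_C, eval_C, eval_C]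
  | add P Q h1 h2 => simp only [map_add, h1, h2]
  | mul_X P j h1 =>
    rw [map_mul, map_mul, map_mul, h1, eval_X]
    by_cases k : p j
    · rw [kc_pos ⟨j, k⟩, eval_X, glue_pos _ _ k]
    · rw [kc_neg k, map_zero, glue_neg _ _ k, Pi.zero_apply]

theorem wt_map {M : Type} [AddCommMonoid M] {C' : Type} (f : C' → C) (w : C → M) (m : C' →₀ ℕ) :
    Finsupp.weight w (m.mapDomain f) = Finsupp.weight (fun c => w (f c)) m := by
  induction m using Finsupp.induction_linear with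
  | zero => simp
  | add m m' h h' => rw [Finsupp.mapDomain_add, map_add, map_add, h, h']
  | single c k => rw [Finsupp.mapDomain_single, Finsupp.weight_single, Finsupp.weight_single]

theorem aeval_glue [DecidablePred p] (P : MvPolynomial C ℝ) :
    aeval (glue p X fun c => MvPolynomial.C (((0 : C → ℤ) c : ℤ) : ℝ)) P =
      killCompl (Subtype.val_injective (p := p)) P := by
  refine AlgHom.congr_fun (algHom_ext fun j => (aeval_X _ _).trans ?_) P
  by_cases k : p j
  · rw [kc_pos ⟨j, k⟩, glue_pos _ _ k]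
  · rw [kc_neg k, glue_neg _ _ k]
    simp

end Cb

namespace TS

open Cb

variable {σ τ : Type} {T : TS σ} {st : T.C → ℕ} {M : ℕ}

theorem cut_Φ (p : T.C → Prop) [DecidablePred p] (c : {c // p c}) :
    (T.cut p 0).Φ c = killCompl Subtype.val_injective (T.Φ c.1) := aeval_glue _

theorem coeff_cut0 (p : T.C → Prop) [DecidablePred p] (c : {c // p c}) (m : {c // p c} →₀ ℕ) :
    coeff m ((T.cut p 0).Φ c) = coeff (m.mapDomain Subtype.val) (T.Φ c.1) :=
  (congrArg (coeff m) (cut_Φ p c)).trans (coeff_killCompl _)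

theorem Stg.low_lt (h : T.Stg st M) (t : ℕ) : T.Low fun F => st F < t := fun c hc c' k => by
  obtain ⟨m, hm, hq⟩ := (mem_vars_iff_mem_support _).1 k
  have := Finsupp.le_weight_of_ne_zero' st (Finsupp.mem_support_iff.1 hq)
  have := h.wt c hm
  omega

theorem Stg.cut_low (h : T.Stg st M) {p : T.C → Prop} [DecidablePred p] (hp : T.Low p) :
    (T.cut p 0).Stg (fun F => st F.1) M where
  cl := ⟨h.cl.1.cut_low hp 0, h.cl.2.imp (fun k c => hom_cut0 (k c.1)) id⟩
  tri := h.tri.cut_low (T := T.stg st) hp 0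
  lev c c' := h.lev c.1 c'.1
  le c := h.le c.1

theorem Stg.cut_lt (h : T.Stg st M) (t : ℕ) :
    (T.cut (fun F => st F < t) 0).Stg (fun F => st F.1) M := h.cut_low (h.low_lt t)

variable [DecidableEq σ] {S : Sh σ τ} {Ψ : T.Twd S}

theorem coeff_rt (p : T.C → Prop) [DecidablePred p] (c : {c // p c}) (m : {c // p c} →₀ ℕ) :
    coeff m (T.rt S p Ψ c) = coeff (m.mapDomain Subtype.val) (Ψ c.1) := coeff_killCompl _

theorem Adm.rt (h : T.Adm S st Ψ) (p : T.C → Prop) [DecidablePred p] :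
    (T.cut p 0).Adm S (fun F => st F.1) (T.rt S p Ψ) where
  gr F m := by
    have := h.gr F.1 (m.mapDomain Subtype.val)
    rw [wt_map, ← coeff_rt p F m] at this
    exact this
  le F m hm := by
    have := h.le F.1 (m.mapDomain Subtype.val)
      (mem_support_iff.2 ((coeff_rt p F m).symm.trans_ne (mem_support_iff.1 hm)))
    rwa [wt_map, wt_map] at this
  top F m e := (coeff_rt p F m).trans ((h.top _ _ ((wt_map _ _ _).trans e)).trans
    (congrArg _ (coeff_cut0 p F m).symm))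

variable (S) in
/-- the coordinates of the families `p` -/
def cfe (p : T.C → Prop) [DecidablePred p] (q : T.Cw S → Prop) (h : ∀ x, q x ↔ p x.1.1) :
    (T.cut p 0).Cw S ≃ {x // q x} where
  toFun x := ⟨⟨(x.1.1.1, x.1.2), x.2⟩, (h _).2 x.1.1.2⟩
  invFun x := ⟨(⟨x.1.1.1, (h _).1 x.2⟩, x.1.1.2), x.1.2⟩
  left_inv _ := rfl
  right_inv _ := rfl

theorem Yw_glue {R : Type} [CommRing R] {p : T.C → Prop} [DecidablePred p] {q : T.Cw S → Prop}
    [DecidablePred q] (h : ∀ x, q x ↔ p x.1.1) (y : {x // q x} → R) :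
    T.Yw S (glue q y 0) = glue p ((T.cut p 0).Yw S (y ∘ cfe S p q h)) 0 := funext fun F => by
  by_cases k : p F
  · rw [glue_pos _ _ k]
    refine (sum_bij (fun x _ => (cfe S p q h x).1) (fun x hx => ?_) (fun x _ x' _ e => ?_)
      (fun x hx => ?_) fun x _ => ?_).symm
    · exact mem_filter.2 ⟨mem_univ _, congrArg Subtype.val (mem_filter.1 hx).2⟩
    · exact (cfe S p q h).injective (Subtype.ext e)
    · have e := (mem_filter.1 hx).2
      exact ⟨(cfe S p q h).symm ⟨x, (h x).2 (e ▸ k)⟩, mem_filter.2 ⟨mem_univ _, Subtype.ext e⟩, rfl⟩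
    · rw [glue_val]; rfl
  · rw [glue_neg _ _ k]
    refine sum_eq_zero fun x hx => ?_
    rw [glue_neg _ _ fun n => k ((mem_filter.1 hx).2 ▸ (h x).1 n)]
    simp

theorem u_glue {p : T.C → Prop} [DecidablePred p] {q : T.Cw S → Prop} [DecidablePred q]
    (h : ∀ x, q x ↔ p x.1.1) (y : {x // q x} → ℝ) (x : T.Cw S) : (T.tw S Ψ).u (glue q y 0) x =
      S.cf ℝ x.1.2 (eval ((T.cut p 0).Yw S (y ∘ cfe S p q h))
        (killCompl Subtype.val_injective (Ψ x.1.1))) :=
  (tw_u _ _).trans (congrArg _ ((congrArg (eval · (Ψ x.1.1)) (Yw_glue h y)).trans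
    (eval_kc _ _).symm))

theorem lt_iff (t : ℕ) (x : T.Cw S) : (T.lw S st Ψ).lev x < t ↔ st x.1.1 < t := by rw [lw_lev]

variable (T S st Ψ) in
/-- the coordinates of the stages `< t` -/
def le (t : ℕ) : ((T.cut (fun F => st F < t) 0).lw S (fun F => st F.1) (T.rt S _ Ψ)).C ≃
    ((T.lw S st Ψ).lt t).C := cfe S (fun F => st F < t) _ (lt_iff t)

/-- the stages `< t` of a twisted law form the twisted law of the families of stage `< t` -/
theorem lt_iso (hs : T.Stg st M) (o : S.Ok) (h : T.Adm S st Ψ) (t : ℕ) :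
    ((T.lw S st Ψ).lt t).Iso ((T.cut (fun F => st F < t) 0).lw S (fun F => st F.1) (T.rt S _ Ψ))
      (· ∘ T.le st S Ψ t) ((1 : Matrix _ _ ℤ).submatrix (T.le st S Ψ t) id)
      ((1 : Matrix _ _ ℝ).submatrix (T.le st S Ψ t) id)
      ((1 : Matrix _ _ ℤ).submatrix id (T.le st S Ψ t)) := by
  refine Iso.of_equiv ((lw_tri hs h o).lt t) (lw_tri (hs.cut_lt t) (h.rt _) o) _
    (fun c => rfl) (fun y c => (tw_u _ _).trans (Eq.symm ((u_cut _ _ 0 _ _).trans ?_))) fun _ _ => rfl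
  rw [zc_zero]
  exact u_glue (lt_iff t) _ _

theorem lt_mas (hs : T.Stg st M) (o : S.Ok) (h : T.Adm S st Ψ) (t : ℕ) (η : ℝ) :
    ((T.lw S st Ψ).lt t).Mas η ↔
      ((T.cut (fun F => st F < t) 0).lw S (fun F => st F.1) (T.rt S _ Ψ)).Mas η :=
  (lt_iso hs o h t).mas η

theorem kw_one_mv {B : Matrix T.C T.C ℝ} (hB : T.Bl B) (G : T.C → S.W → ℝ) (x : T.Cw S) :
    (T.kw S B 1 *ᵥ fun x => G x.1.1 x.1.2) x = ∑ F, B x.1.1 F * G F x.1.2 := by
  rw [mulVec, dotProduct, ← sum_fiberwise (s := univ) (g := fun x' : T.Cw S => x'.1.1)]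
  refine sum_congr rfl fun F _ => ?_
  refine (sum_congr rfl fun x' hx => ?_).trans ((sum_cw F fun w => B x.1.1 F *
    (1 : Matrix S.W S.W ℝ) x.1.2 w * G F w).trans ?_)
  · obtain rfl := (mem_filter.1 hx).2
    rfl
  by_cases z : B x.1.1 F = 0
  · simp [z]
  rw [sum_eq_single x.1.2, one_apply_eq, mul_one]
  · intro w _ n
    rw [one_apply_ne n.symm, mul_zero, zero_mul]
  · exact fun n => (n (mem_filter.2 ⟨mem_univ _, x.2.trans (hB _ _ z)⟩)).elim

theorem lw_th (hs : T.Stg st M) (o : S.Ok) (h : T.Adm S st Ψ) (Y : T.Cw S → ℝ) (x : T.Cw S) :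
    (T.lw S st Ψ).th Y x =
      Y x - ∑ F, (T.stg st).A⁻¹ x.1.1 F * S.cf ℝ x.1.2 (eval (T.Yw S Y) (Ψ F)) := by
  have e := (kw_inv (S := S) hs.bl one_cd hs.tri.det (by simp)).1
  rw [inv_one] at e
  refine congrArg (Y x - ·) (Eq.trans ?_ (kw_one_mv hs.bl.inv
    (fun F w => S.cf ℝ w (eval (T.Yw S Y) (Ψ F))) x))
  exact congrFun (congrArg₂ Matrix.mulVec ((congrArg Inv.inv (lw_A hs h o)).trans e)
    (funext (tw_u Y))) x

theorem dot_th (hs : T.Stg st M) (o : S.Ok) (h : T.Adm S st Ψ) (k Y : T.Cw S → ℝ) :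
    k ⬝ᵥ (T.lw S st Ψ).th Y = k ⬝ᵥ Y + ∑ x, ∑ F, -k x * (T.stg st).A⁻¹ x.1.1 F *
      S.cf ℝ x.1.2 (eval (T.Yw S Y) (Ψ F)) := by
  refine (sum_congr rfl fun x _ => congrArg (k x * ·) (lw_th hs o h Y x)).trans ?_
  simp only [mul_sub, sum_sub_distrib, mul_sum, neg_mul, sum_neg_distrib, mul_assoc]
  rfl

theorem val_θk {p : T.C → Prop} [DecidablePred p] (k : T.Cw S → ℤ) (y : (T.cut p 0).Cw S → ℤ) :
    (T.cut p 0).val S (T.θk S st p Ψ k) y = ∑ x, ∑ F, -(k x : ℝ) * (T.stg st).A⁻¹ x.1.1 F *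
      S.cf ℝ x.1.2 (eval ((T.cut p 0).Yw S (zc y)) (killCompl Subtype.val_injective (Ψ F))) := by
  refine (?_ : ∀ Y : {F // p F} → MvPolynomial S.W ℝ,
    ∑ w, S.cf ℝ w (eval Y (T.θk S st p Ψ k w)) = ∑ x, ∑ F, -(k x : ℝ) * (T.stg st).A⁻¹ x.1.1 F *
      S.cf ℝ x.1.2 (eval Y (killCompl Subtype.val_injective (Ψ F)))) _
  intro Y
  rw [← sum_fiberwise (s := univ) (g := fun x : T.Cw S => x.1.2)]
  refine sum_congr rfl fun w _ => ?_
  rw [θk, map_sum, map_sum]
  refine sum_congr rfl fun x hx => ?_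
  rw [map_sum, map_sum, (mem_filter.1 hx).2]
  refine sum_congr rfl fun F _ => ?_
  rw [← algebraMap_smul (MvPolynomial S.W ℝ), smul_eq_C_mul, map_mul, eval_C, algebraMap_eq,
    Sh.cf_C_mul]

end TS

theorem lbr : LBr := fun σ τ _ T S st M t Ψ hs o h => by
  refine ⟨hs.cut_lt t, h.rt _, fun k hk => congrArg norm ?_⟩
  refine Eq.trans ?_ ((TS.lt_iso hs o h t).Ec _)
  refine congrArg ((T.lw S st Ψ).lt t).Ec (funext fun y => congrArg ee ?_)
  have e : zc (glue (fun x : T.Cw S => (T.lw S st Ψ).lev x < t) y 0) =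
      glue (fun x : T.Cw S => (T.lw S st Ψ).lev x < t) (zc y) 0 := (zc_glue _ _).trans (by rw [zc_zero])
  refine (TS.dot_th hs o h _ _).trans (Eq.trans ?_ (TS.val_θk _ _).symm)
  refine (congrArg₂ (· + ·) (sum_eq_zero fun x _ => ?_) (sum_congr rfl fun x _ =>
    sum_congr rfl fun F _ => congrArg _ (congrArg _ ?_))).trans (zero_add _)
  · by_cases z : k x = 0
    · simp [zc, z]
    · refine mul_eq_zero_of_right _ ((congrFun e x).trans (glue_neg _ _ ?_))
      rw [TS.lw_lev, hk x z]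
      exact lt_irrefl t
  · exact (congrArg (eval · (Ψ F)) ((congrArg (T.Yw S) e).trans (TS.Yw_glue (TS.lt_iff t) _))).trans
      (Cb.eval_kc _ _).symm

end Crest.Agent.N49.Tw

end
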