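import Crest.Agent.N49.Tw.Tw

/-! # Row 49 (helper29): algebra of shapes (reduction, morphisms, quotients) -/

set_option autoImplicit false

open Matrix MvPolynomial Finset

noncomputable section

namespace Crest.Agent.N49.Tw.Mh

open Po

/-- the linear substitution `X a ↦ ∑ φ b a • X b` -/
def pu {A B : Type} [Fintype B] (R : Type) [CommRing R] (φ : Matrix B A ℤ) :
    MvPolynomial A R →ₐ[R] MvPolynomial B R := aeval fun a => ∑ b, φ b a • X b

section pu
variable {A B C R : Type} [Fintype B] [Fintype C] [CommRing R]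

theorem pu_X (φ : Matrix B A ℤ) (a : A) : pu R φ (X a) = ∑ b, φ b a • X b := aeval_X _ _

theorem pu_el [Fintype A] (φ : Matrix B A ℤ) (x : A → ℤ) :
    pu R φ (∑ a, x a • X a) = ∑ b, (φ *ᵥ x) b • X b := by
  simp only [map_sum, map_zsmul, pu_X, smul_sum, smul_smul, mulVec, dotProduct, sum_smul]
  rw [sum_comm]
  simp only [mul_comm]

theorem pu_pu (φ' : Matrix C B ℤ) (φ : Matrix B A ℤ) (P : MvPolynomial A R) :
    pu R φ' (pu R φ P) = pu R (φ' * φ) P := by
  have : (pu R φ').comp (pu R φ) = pu R (φ' * φ) := algHom_ext fun a => by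
    rw [AlgHom.comp_apply, pu_X, pu_el, pu_X]; rfl
  exact DFunLike.congr_fun this P

theorem pu_one [DecidableEq B] (P : MvPolynomial B R) : pu R (1 : Matrix B B ℤ) P = P := by
  have : pu R (1 : Matrix B B ℤ) = AlgHom.id R _ := algHom_ext fun a => by
    simp [pu_X, one_apply, ite_smul]
  rw [this]; rfl

theorem cc_pu (φ : Matrix B A ℤ) (P : MvPolynomial A R) :
    constantCoeff (pu R φ P) = constantCoeff P := by
  induction P using MvPolynomial.induction_on with
  | C a => simp [pu]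
  | add p q hp hq => simp [hp, hq]
  | mul_X p a hp => simp [pu_X]

theorem map_pu (φ : Matrix B A ℤ) (P : MvPolynomial A ℤ) :
    map (Int.castRingHom R) (pu ℤ φ P) = pu R φ (map (Int.castRingHom R) P) := by
  induction P using MvPolynomial.induction_on with
  | C a => simp [pu]
  | add p q hp hq => simp [hp, hq]
  | mul_X p a hp => simp only [map_mul, hp, pu_X, map_X, map_sum, map_zsmul]

theorem pu_mon (φ : Matrix B A ℤ) (m : A →₀ ℕ) :
    pu R φ (monomial m 1) = ∏ a ∈ m.support, (∑ b, φ b a • X b) ^ m a := by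
  rw [pu, aeval_monomial, map_one, one_mul]; rfl

theorem pu_hom {M : Type} [AddCommMonoid M] {φ : Matrix B A ℤ} {cA : A → M} {cB : B → M}
    (h : ∀ b a, φ b a ≠ 0 → cB b = cA a) (m : A →₀ ℕ) :
    IsWeightedHomogeneous cB (pu R φ (monomial m 1)) (Finsupp.weight cA m) := by
  rw [pu_mon, Finsupp.weight_apply, Finsupp.sum]
  refine IsWeightedHomogeneous.prod _ _ _ fun a _ => IsWeightedHomogeneous.pow ?_ _
  refine IsWeightedHomogeneous.sum _ _ _ fun b _ => ?_
  by_cases e : φ b a = 0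
  · simp [e, isWeightedHomogeneous_zero]
  · rw [← h b a e, zsmul_eq_mul, ← map_intCast (MvPolynomial.C (σ := B) (R := R))]
    have := (isWeightedHomogeneous_C cB ((φ b a : ℤ) : R)).mul (isWeightedHomogeneous_X R cB b)
    rwa [zero_add] at this

theorem mon_sum {ι : Type} [Fintype ι] (lam : ι → A) :
    (monomial (∑ i, Finsupp.single (lam i) 1) 1 : MvPolynomial A R) = ∏ i, X (lam i) :=
  monomial_sum_one _ _

/-- multiplication by `P` has norm `≤ c` on the functionals bounded on monomials -/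
def Nb (c : ℤ) (P : MvPolynomial A ℤ) : Prop := ∀ (l : MvPolynomial A ℤ →ₗ[ℤ] ℤ) (b : ℤ),
  (∀ m, |l (monomial m 1)| ≤ b) → ∀ m, |l (monomial m 1 * P)| ≤ b * c

theorem Nb.mul {c c' : ℤ} {P Q : MvPolynomial A ℤ} (h : Nb c P) (h' : Nb c' Q) :
    Nb (c * c') (P * Q) := fun l b hl m => by
  have := h (l ∘ₗ LinearMap.mulRight ℤ Q) (b * c') (fun m => h' l b hl m) m
  simpa [mul_assoc, mul_comm c c'] using this

theorem Nb.prod {ι : Type} (s : Finset ι) {c : ι → ℤ} {P : ι → MvPolynomial A ℤ}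
    (h : ∀ i ∈ s, Nb (c i) (P i)) : Nb (∏ i ∈ s, c i) (∏ i ∈ s, P i) := by
  classical
  induction s using Finset.induction_on with
  | empty => exact fun l b hl m => by simpa using hl m
  | insert a s ha ih =>
    rw [prod_insert ha, prod_insert ha]
    exact (h a (mem_insert_self _ _)).mul (ih fun i hi => h i (mem_insert_of_mem hi))

theorem nb_el {n : ℕ} (hc : Fintype.card B ≤ n) {x : B → ℤ} (hx : ∀ b, |x b| ≤ n) :
    Nb (n * n) (∑ b, x b • X b : MvPolynomial B ℤ) := fun l b hl m => by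
  have hb : 0 ≤ b := (abs_nonneg _).trans (hl 0)
  rw [mul_sum, map_sum]
  refine (abs_sum_le_sum_abs _ _).trans ((sum_le_card_nsmul _ _ (n * b) fun a _ => ?_).trans ?_)
  · rw [mul_smul_comm, map_zsmul, X, monomial_mul, mul_one, smul_eq_mul, abs_mul]
    exact mul_le_mul (hx a) (hl _) (abs_nonneg _) (by positivity)
  · rw [card_univ, nsmul_eq_mul]
    have : (Fintype.card B : ℤ) ≤ n := by exact_mod_cast hc
    nlinarith [mul_nonneg (Nat.cast_nonneg (α := ℤ) n) hb]

theorem nb_pu {n : ℕ} (hc : Fintype.card B ≤ n) {φ : Matrix B A ℤ} (hx : ∀ b a, |φ b a| ≤ n)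
    (m : A →₀ ℕ) : Nb ((n * n) ^ m.degree) (pu ℤ φ (monomial m 1)) := by
  rw [pu_mon, Finsupp.degree_apply, ← prod_pow_eq_pow_sum]
  refine Nb.prod _ fun a _ => ?_
  simpa using Nb.prod (range (m a)) fun _ _ => nb_el hc fun b => hx b a

omit [Fintype B] in
theorem weight_mapDomain {M : Type} [AddCommMonoid M] (f : B → M) (g : A → B) (m : A →₀ ℕ) :
    Finsupp.weight f (m.mapDomain g) = Finsupp.weight (f ∘ g) m := by
  rw [Finsupp.weight_apply, Finsupp.weight_apply, Finsupp.sum_mapDomain_index (by simp)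
    fun _ _ _ => add_smul _ _ _]
  rfl

end pu

variable {σ τ τ' τ'' : Type} {S : Sh σ τ} {S' : Sh σ τ'} {S'' : Sh σ τ''} {R : Type} [CommRing R]

theorem cf_mon (S : Sh σ τ) (w : S.W) (m : S.W →₀ ℕ) (a : R) :
    S.cf R w (monomial m a) = a * S.r w m := by
  have : (monomial m a : MvPolynomial S.W R) = a • basisMonomials S.W R m := by
    simp [smul_monomial]
  rw [this, map_smul, Sh.cf, Module.Basis.constr_basis, smul_eq_mul]

theorem cf_mon1 (S : Sh σ τ) (w : S.W) (m : S.W →₀ ℕ) : S.cf ℤ w (monomial m 1) = S.r w m := by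
  simp [cf_mon]

theorem cf_map (S : Sh σ τ) (w : S.W) (P : MvPolynomial S.W ℤ) :
    S.cf R w (map (Int.castRingHom R) P) = (S.cf ℤ w P : R) := by
  induction P using MvPolynomial.induction_on' with
  | monomial m a => simp [cf_mon]
  | add p q hp hq => simp [hp, hq]

theorem dg_cd (S : Sh σ τ) (w : S.W) : (S.cd w).degree = S.dg w := degree_col _ _

theorem dg_eq {w : S.W} {w' : S'.W} (h : S.cd w = S'.cd w') : S.dg w = S'.dg w' := by
  rw [← dg_cd, h, dg_cd]

theorem dg_pos (h : S.Ok) (w : S.W) : 1 ≤ S.dg w :=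
  Nat.pos_of_ne_zero fun e => h.ne w ((Finsupp.degree_eq_zero_iff _).1 e)

theorem wt_dg (h : S.Ok) {w : S.W} {m : S.W →₀ ℕ} (e : S.r w m ≠ 0) :
    Finsupp.weight S.dg m = S.dg w := by
  rw [← dg_cd, ← h.gr w m e, ← weight_hom Finsupp.degree]
  simp only [dg_cd]

theorem r_zero (h : S.Ok) (w : S.W) : S.r w 0 = 0 := by
  by_contra e
  have := wt_dg h e
  have := dg_pos h w
  simp at *; omega

theorem deg_le (h : S.Ok) {w : S.W} {m : S.W →₀ ℕ} (e : S.r w m ≠ 0) : m.degree ≤ S.dg w := by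
  rw [← wt_dg h e, Finsupp.weight_apply, Finsupp.degree_apply, Finsupp.sum]
  exact sum_le_sum fun a _ => by simpa using Nat.le_mul_of_pos_right _ (dg_pos h a)

theorem cf_X (h : S.Ok) (w w' : S.W) : S.cf R w (X w') = if w = w' then 1 else 0 := by
  rw [X, cf_mon, h.one]; split_ifs <;> simp

theorem cf_el (h : S.Ok) (w : S.W) (x : S.W → ℤ) : S.cf R w (∑ a, x a • X a) = x w := by
  simp only [map_sum, map_zsmul, cf_X h]; simp

theorem cf_hom (h : S.Ok) {w : S.W} {P : MvPolynomial S.W R} {d : σ →₀ ℕ}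
    (hP : IsWeightedHomogeneous S.cd P d) (e : S.cf R w P ≠ 0) : d = S.cd w := by
  rw [P.as_sum, map_sum] at e
  obtain ⟨m, hm, e⟩ := exists_ne_zero_of_sum_ne_zero e
  rw [cf_mon] at e
  rw [← hP (mem_support_iff.1 hm), h.gr w m fun z => e (by simp [z])]

theorem cf_mul (h : S.Ok) (w : S.W) {P : MvPolynomial S.W R} (hP : constantCoeff P = 0)
    (Q : MvPolynomial S.W R) : S.cf R w (P * Q) = ∑ w', S.cf R w' P * S.cf R w (X w' * Q) := by
  have key : ∀ m ∈ P.support, S.cf R w (monomial m (coeff m P) * Q) =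
      ∑ w', S.cf R w' (monomial m (coeff m P)) * S.cf R w (X w' * Q) := fun m hm => by
    have m0 : m ≠ 0 := by rintro rfl; exact mem_support_iff.1 hm hP
    induction Q using MvPolynomial.induction_on' with
    | monomial m' a =>
      simp only [X, monomial_mul, cf_mon, h.mul w m m' m0, Int.cast_sum, Int.cast_mul, mul_sum]
      exact sum_congr rfl fun _ _ => by ring
    | add p q hp hq => simp only [mul_add, map_add, hp, hq, sum_add_distrib]
  conv_lhs => rw [P.as_sum, sum_mul, map_sum, sum_congr rfl key, sum_comm]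
  refine sum_congr rfl fun w' _ => ?_
  rw [← sum_mul, ← map_sum, ← P.as_sum]

theorem hm_cf (h : S.Ok) (h' : S'.Ok) {φ : Matrix S'.W S.W ℤ} (H : S.Hm S' φ) (w' : S'.W)
    (P : MvPolynomial S.W R) : ∑ w, φ w' w * S.cf R w P = S'.cf R w' (pu R φ P) := by
  induction P using MvPolynomial.induction_on' with
  | add p q hp hq => simp only [map_add, mul_add, sum_add_distrib, hp, hq]
  | monomial m a =>
    have e1 : (monomial m a : MvPolynomial S.W R) = a • map (Int.castRingHom R) (monomial m 1) := by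
      simp [smul_monomial]
    have e2 : ∑ w, φ w' w * S.r w m = S'.cf ℤ w' (pu ℤ φ (monomial m 1)) := by
      by_cases m0 : m = 0
      · subst m0
        rw [monomial_zero', C_1, map_one, ← C_1, ← monomial_zero', cf_mon]
        simp [r_zero h, r_zero h']
      · exact H.mul w' m m0
    conv_rhs => rw [e1, map_smul, ← map_pu, map_smul, cf_map, ← e2]
    simp only [cf_mon, Int.cast_sum, Int.cast_mul, smul_eq_mul, mul_sum]
    exact sum_congr rfl fun _ _ => by ring

theorem hm_comp (h : S.Ok) (h' : S'.Ok) (h'' : S''.Ok) {φ : Matrix S'.W S.W ℤ}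
    {φ' : Matrix S''.W S'.W ℤ} (H : S.Hm S' φ) (H' : S'.Hm S'' φ') : S.Hm S'' (φ' * φ) where
  cd x w e := by
    obtain ⟨w', -, e⟩ := exists_ne_zero_of_sum_ne_zero (show ∑ w', φ' x w' * φ w' w ≠ 0 from e)
    rw [H'.cd x w' (left_ne_zero_of_mul e), H.cd w' w (right_ne_zero_of_mul e)]
  mul x m _ := by
    change _ = S''.cf ℤ x (pu ℤ (φ' * φ) _)
    rw [← pu_pu, ← hm_cf h' h'' H']
    simp only [← hm_cf h h' H, cf_mon1, mul_apply, sum_mul, mul_sum, Int.cast_id, mul_assoc]
    exact sum_comm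
  mass := by rw [← mulVec_mulVec, H.mass, H'.mass]

theorem hm_desc (h : S.Ok) (h' : S'.Ok) (h'' : S''.Ok) {φ : Matrix S'.W S.W ℤ}
    {ψ : Matrix S.W S'.W ℤ} {φ' : Matrix S''.W S'.W ℤ} (H : S.Hm S' φ) (H' : S.Hm S'' (φ' * φ))
    (e : φ * ψ = 1) (c : ∀ x w, φ' x w ≠ 0 → S''.cd x = S'.cd w) : S'.Hm S'' φ' where
  cd := c
  mul x m _ := by
    change _ = S''.cf ℤ x (pu ℤ φ' _)
    have e1 : ∀ w', S'.r w' m = ∑ w, φ w' w * S.cf ℤ w (pu ℤ ψ (monomial m 1)) := fun w' => by
      have := hm_cf h h' H w' (pu ℤ ψ (monomial m 1))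
      rw [pu_pu, e, pu_one, cf_mon1] at this
      simpa using this.symm
    have e2 := hm_cf h h'' H' x (pu ℤ ψ (monomial m 1))
    rw [pu_pu, Matrix.mul_assoc, e, Matrix.mul_one] at e2
    rw [← e2]
    simp only [e1, mul_apply, sum_mul, mul_sum, Int.cast_id, mul_assoc]
    exact sum_comm
  mass := by rw [← H.mass, mulVec_mulVec, H'.mass]

section sub
variable {p : S.W → Prop} [DecidablePred p]

theorem sub_ok (h : S.Ok) (hI : S.Idl p) : (S.sub p).Ok where
  ne w := h.ne w.1
  one (w w' : {w // p w}) := by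
    change S.r w.1 ((Finsupp.single w' 1).mapDomain Subtype.val) = if w = w' then 1 else 0
    rw [Finsupp.mapDomain_single, h.one]; simp only [Subtype.ext_iff]
  gr w m e := (weight_mapDomain S.cd Subtype.val m).symm.trans (h.gr w.1 _ e)
  mul (w : {w // p w}) (m m' : {w // p w} →₀ ℕ) m0 := by
    change S.r w.1 ((m + m').mapDomain Subtype.val) = ∑ w' : {w // p w},
      S.r w'.1 (m.mapDomain Subtype.val) * S.r w.1 ((Finsupp.single w' 1 + m').mapDomain Subtype.val)
    simp only [Finsupp.mapDomain_add, Finsupp.mapDomain_single]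
    rw [h.mul _ _ _ fun e => m0 (Finsupp.mapDomain_injective Subtype.val_injective
      (e.trans Finsupp.mapDomain_zero.symm)), ← sum_filter_of_ne (p := p), sum_subtype (p := p)
      _ (by simp)]
    exact fun w' _ e => hI w.1 _ w.2 (right_ne_zero_of_mul e) w' (by simp)
  eps w := h.eps w.1
  pd := h.pd.submatrix Subtype.val_injective
  blk w w' := h.blk w.1 w'.1

theorem idl_le (h : S.Ok) (s : ℕ) : S.Idl fun w => S.dg w ≤ s := fun w m hw e w' hw' => by
  refine le_trans ?_ ((wt_dg h e).trans_le hw)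
  rw [Finsupp.weight_apply, Finsupp.sum]
  refine le_trans ?_ (single_le_sum (f := fun a => m a • S.dg a) (fun _ _ => Nat.zero_le _) hw')
  simpa using Nat.le_mul_of_pos_left _ (Nat.pos_of_ne_zero (Finsupp.mem_support_iff.1 hw'))

theorem prj_apply (x : (S.sub p).W) (w : S.W) : S.prj p x w = if w = x.1 then 1 else 0 := rfl

theorem prj_mul {J : Type} (V : Matrix S.W J ℤ) (x : (S.sub p).W) (j : J) :
    (S.prj p * V) x j = V x.1 j := by simp [prj_apply, mul_apply]

theorem sub_cf (x : (S.sub p).W) (P : MvPolynomial (S.sub p).W R) :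
    (S.sub p).cf R x P = S.cf R x.1 (rename (fun y : (S.sub p).W => y.1) P) := by
  induction P using MvPolynomial.induction_on' with
  | monomial m a => rw [rename_monomial, cf_mon, cf_mon]; rfl
  | add p q hp hq => rw [map_add, map_add, map_add, hp, hq]

theorem hm_sub (hI : S.Idl p) : S.Hm (S.sub p) (S.prj p) where
  cd x w e := by
    have : w = x.1 := by by_contra z; simp [prj_apply, z] at e
    subst this; rfl
  mul x m _ := by
    change _ = (S.sub p).cf ℤ x (pu ℤ (S.prj p) _)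
    have e : ∀ w, rename (fun y : (S.sub p).W => y.1)
        (∑ b, S.prj p b w • X b : MvPolynomial (S.sub p).W ℤ) = if p w then X w else 0 := fun w => by
      split_ifs with hw
      · obtain ⟨b0, rfl⟩ : ∃ b0 : (S.sub p).W, b0.1 = w := ⟨⟨w, hw⟩, rfl⟩
        rw [sum_eq_single b0 (fun b _ z => ?_) fun z => absurd (mem_univ _) z]
        · simp [prj_apply]
        · have : b0.1 ≠ b.1 := fun y => z (Subtype.ext y.symm)
          simp [prj_apply, this]
      · rw [sum_eq_zero fun b _ => ?_, map_zero]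
        have : w ≠ b.1 := fun z => hw (z ▸ b.2)
        simp [prj_apply, this]
    rw [sub_cf, pu_mon, map_prod]
    simp only [map_pow, e]
    have e0 : ∑ w, S.prj p x w * S.r w m = S.r x.1 m := by simp [prj_apply]
    rw [e0]
    by_cases hm : ∀ w ∈ m.support, p w
    · rw [prod_congr rfl fun w hw => by rw [if_pos (hm w hw)], ← cf_mon1, monomial_eq, C_1, one_mul]
      rfl
    · have : S.r x.1 m = 0 := by by_contra z; exact hm (hI _ _ x.2 z)
      push Not at hm
      obtain ⟨w, hw, hp⟩ := hm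
      rw [this, prod_eq_zero hw (by simp [hp, Finsupp.mem_support_iff.1 hw]), map_zero]
  mass := by ext x; simp only [prj_apply, mulVec, dotProduct]; simp; rfl

theorem sub_idl {q : S.W → Prop} (hq : S.Idl q) : (S.sub p).Idl fun x => q x.1 :=
  fun w (m : {w // p w} →₀ ℕ) hw e (w' : {w // p w}) hw' => hq w.1 _ hw e _ (by
    rw [Finsupp.mapDomain_support_of_injective Subtype.val_injective]
    exact mem_image_of_mem _ hw')

/-- generation passes to the truncation (needed only in degree `≤ s`) -/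
theorem sub_gen {s : ℕ} {q : S.W → Prop} (hq : ∀ κ : S.W → ℤ, (∀ w, q w → κ w = 0) → ∀ w,
    κ w ≠ 0 → S.dg w ≤ s → ∃ (l : ℕ) (lam : Fin (l + 1) → S.W), l + 1 = S.dg w ∧
      (∀ i, S.dg (lam i) = 1) ∧ ¬ q (lam 0) ∧
      ∑ w', κ w' * S.r w' (∑ i, Finsupp.single (lam i) 1) ≠ 0) :
    (S.sub fun w => S.dg w ≤ s).Gen fun x => q x.1 := fun (κ : {w // S.dg w ≤ s} → ℤ) hκ x hx => by
  obtain ⟨l, lam, e1, e2, e3, e4⟩ := hq (fun w => if h : S.dg w ≤ s then κ ⟨w, h⟩ else 0)
    (fun w hw => by split_ifs with h; exacts [hκ ⟨w, h⟩ hw, rfl]) x.1 (by rwa [dif_pos x.2]) x.2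
  have hs : 1 ≤ s := by have := x.2; omega
  refine ⟨l, fun i => ⟨lam i, (e2 i).trans_le hs⟩, e1, e2, e3, fun z => e4 (Eq.trans ?_ z)⟩
  rw [← sum_filter_of_ne (p := fun w => S.dg w ≤ s), sum_subtype (p := fun w => S.dg w ≤ s)
    _ (by simp)]
  · refine sum_congr rfl fun y _ => ?_
    rw [dif_pos y.2]
    change _ = κ y * S.r y.1 (Finsupp.mapDomain Subtype.val (∑ i, Finsupp.single
      (⟨lam i, (e2 i).trans_le hs⟩ : {w // S.dg w ≤ s}) 1))
    rw [Finsupp.mapDomain_finsetSum]
    simp only [Finsupp.mapDomain_single]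
  · intro w _ e
    by_contra z; rw [dif_neg z, zero_mul] at e; exact e rfl

end sub

end Crest.Agent.N49.Tw.Mh

end
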