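import Crest.Agent.N49.Tw.Cd
import Crest.Agent.N49.Tw.Api
import Crest.Agent.N49.Tw.Chg
import Crest.Agent.N49.Tw.Mp
import Crest.Agent.N49.Tw.Mh0

/-!
# Row 49 (helper19): Cauchy–Schwarz on shapes (leaf `LCs`)
-/

set_option autoImplicit false

open Matrix MvPolynomial Finset

noncomputable section

namespace Crest.Agent.N49.Tw

open Po

theorem kill_X {α β R : Type} [CommRing R] {e : α → β} (h : Function.Injective e) (a : α) :
    killCompl (R := R) h (X (e a)) = X a := by rw [← rename_X, killCompl_rename_app]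

theorem kill_X0 {α β R : Type} [CommRing R] {e : α → β} (h : Function.Injective e) {b : β}
    (hb : b ∉ Set.range e) : killCompl (R := R) h (X b) = 0 := by
  rw [killCompl, aeval_X, dif_neg hb]

namespace Sh

variable {σ τ τ' : Type} {S : Sh σ τ} {S' : Sh σ τ'} {e : S.W → S'.W}

theorem Ch.cf {R : Type} [CommRing R] (h : S.Ch S' e) (w : S.W) (P : MvPolynomial S'.W R) :
    S'.cf R (e w) P = S.cf R w (killCompl h.inj P) := by
  induction P using MvPolynomial.induction_on' with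
  | add p q a b => simp only [map_add, a, b]
  | monomial m a =>
    by_cases k : ∀ x ∈ m.support, x ∈ Set.range e
    · obtain ⟨m0, rfl⟩ : ∃ m0 : S.W →₀ ℕ, m0.mapDomain e = m :=
        ⟨_, Finsupp.mapDomain_comapDomain e h.inj m k⟩
      rw [cf_monomial, h.r1, ← rename_monomial, killCompl_rename_app, cf_monomial]
    · have z : S'.r (e w) m = 0 := by_contra fun n => k (h.r2 w m n)
      push Not at k
      obtain ⟨x, hx, hx'⟩ := k
      rw [cf_monomial, z, monomial_eq, map_mul, Finsupp.prod, map_prod,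
        prod_eq_zero hx (by rw [map_pow, kill_X0 _ hx', zero_pow (Finsupp.mem_support_iff.1 hx)])]
      simp

theorem Idl.ch {q : S.W → Prop} [DecidablePred q] (h : S.Idl q) :
    (S.sub q).Ch S fun w : {w // q w} => w.1 where
  inj := Subtype.val_injective
  cd _ := rfl
  r1 _ _ := rfl
  r2 w m n x hx := ⟨⟨x, h _ m w.2 n x hx⟩, rfl⟩

theorem pu_prj {q : S.W → Prop} [DecidablePred q] (h : S.Idl q) :
    S.pu (S.sub q) (S.prj q) = (killCompl h.ch.inj).toRingHom := by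
  refine congrArg AlgHom.toRingHom (MvPolynomial.algHom_ext fun w => ?_)
  rw [aeval_X]
  change ∑ b : {w // q w}, (if w = b.1 then (1 : ℤ) else 0) • (X b : MvPolynomial {w // q w} ℝ) =
    killCompl (f := fun w : {w // q w} => w.1) Subtype.val_injective (X w)
  by_cases k : q w
  · rw [kill_X (e := fun w : {w // q w} => w.1) _ ⟨w, k⟩, sum_eq_single (⟨w, k⟩ : {w // q w})]
    · simp
    · intro b _ n
      have : w ≠ b.1 := fun z => n (Subtype.ext z.symm)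
      simp [this]
    · simp
  · rw [kill_X0 (e := fun w : {w // q w} => w.1) _ fun ⟨b, z⟩ => k (z ▸ b.2)]
    refine sum_eq_zero fun b _ => ?_
    have : w ≠ b.1 := fun z => k (z ▸ b.2)
    simp [this]

end Sh

namespace TS

variable {σ τ τ' : Type} [DecidableEq σ] {T : TS σ} {S : Sh σ τ} {S' : Sh σ τ'} {e : S.W → S'.W}

variable (T) in
/-- the coordinates on the words `e w` -/
def ce (h : S.Ch S' e) (p : T.Cw S) : T.Cw S' := ⟨(p.1.1, e p.1.2), (h.cd _).trans p.2⟩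

omit [DecidableEq σ] in
theorem ce_inj (h : S.Ch S' e) : Function.Injective (T.ce h) := fun _ _ k =>
  Subtype.ext (Prod.ext (congrArg (·.1.1) k) (h.inj (congrArg (·.1.2) k)))

omit [DecidableEq σ] in
theorem ce_surj (h : S.Ch S' e) (p : T.Cw S') {w : S.W} (k : e w = p.1.2) :
    ∃ x : T.Cw S, x.1.2 = w ∧ T.ce h x = p :=
  ⟨⟨(p.1.1, w), by rw [← h.cd, k, p.2]⟩, rfl, Subtype.ext (Prod.ext rfl k)⟩

theorem kill_Yw {R : Type} [CommRing R] (h : S.Ch S' e) (y : T.Cw S' → R) (F : T.C) :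
    killCompl h.inj (T.Yw S' y F) = T.Yw S (T.pb S h y) F := by
  rw [Yw, Yw, map_sum]
  refine (sum_of_injOn (T.ce h) (ce_inj h).injOn (fun p hp => ?_) (fun p hp n => ?_)
    fun p _ => ?_).symm
  · exact mem_coe.2 (mem_filter.2 ⟨mem_univ _, (mem_filter.1 hp).2⟩)
  · rw [map_mul, kill_X0 _ fun ⟨w, k⟩ => by
      obtain ⟨x, -, rfl⟩ := ce_surj h p k
      exact n ⟨x, mem_coe.2 (mem_filter.2 ⟨mem_univ _, (mem_filter.1 hp).2⟩), rfl⟩, mul_zero]
  · rw [map_mul, killCompl_C]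
    exact congrArg _ (kill_X h.inj _).symm

theorem u_pb (h : S.Ch S' e) {Ψ : T.Twd S} {Ψ' : T.Twd S'}
    (hΨ : ∀ F, map (killCompl h.inj).toRingHom (Ψ' F) = Ψ F) (y : T.Cw S' → ℝ) (p : T.Cw S) :
    (T.tw S' Ψ').u y (T.ce h p) = (T.tw S Ψ).u (T.pb S h y) p := by
  rw [tw_u, tw_u, ← hΨ, ← funext (kill_Yw h y)]
  exact (h.cf _ _).trans (congrArg _ (map_eval (killCompl h.inj).toRingHom _ _))

variable {st : T.C → ℕ} {M : ℕ} {Ψ : T.Twd S} {Ψ' : T.Twd S'} {q : S.W → Prop} [DecidablePred q]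

/-- the quotient shape is the cut -/
theorem cut_sub (hs : T.Stg st M) (o : S.Ok) (o' : (S.sub q).Ok) (ha : T.Adm S st Ψ)
    (hq : S.Idl q) (η : ℝ) : ((T.lw S st Ψ).cut (fun x : T.Cw S => q x.1.2) 0).Mas η ↔
      (T.lw (S.sub q) st (T.tp S (S.sub q) (S.prj q) Ψ)).Mas η := by
  let E : T.Cw (S.sub q) ≃ {x : T.Cw S // q x.1.2} :=
    ⟨fun x => ⟨T.ce hq.ch x, x.1.2.2⟩, fun x => ⟨(x.1.1.1, ⟨x.1.1.2, x.2⟩), x.1.2⟩,
      fun _ => rfl, fun _ => rfl⟩
  refine (Iso.of_equiv ((lw_tri hs ha o).cut_low (lw_low hq) 0) (lw_tri hs (ha.tp fun v' v n => ?_) o')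
    E (fun c => (lw_lev _).trans (lw_lev (Ψ := Ψ) (T.ce hq.ch c)).symm) (fun y c => ?_)
    fun _ _ => rfl).mas η
  · rw [show v = v'.1 from by_contra fun k => n (if_neg k)]; rfl
  · refine Eq.trans ?_ (u_cut _ _ _ _ _).symm
    refine Eq.trans ?_ (u_pb hq.ch (fun F => by rw [← Sh.pu_prj hq]) _ c).symm
    exact congrArg (fun z => (T.tw (S.sub q) (T.tp S (S.sub q) (S.prj q) Ψ)).u z c)
      (funext fun x => (glue_pos (zc y) _ x.1.2.2).symm)

variable {e1 e2 : S.W → S'.W}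

variable (T) in
/-- the coordinates of the two copies -/
def cE (h : S.Cn S' q e1 e2) : T.Cw S ⊕ {x : T.Cw S // ¬ q x.1.2} ≃ T.Cw S' :=
  Equiv.ofBijective (Sum.elim (T.ce h.c1) fun x => T.ce h.c2 x.1) ⟨by
    rintro (x | x) (x' | x') k
    · exact congrArg _ (ce_inj h.c1 k)
    · exact (x'.2 (h.ne _ _ (congrArg (·.1.2) k))).elim
    · exact (x.2 (h.ne _ _ (congrArg (·.1.2) k).symm)).elim
    · exact congrArg _ (Subtype.ext (ce_inj h.c2 k)), fun p => by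
    rcases h.all p.1.2 with ⟨w, k⟩ | ⟨w, k⟩
    · obtain ⟨x, -, rfl⟩ := ce_surj h.c1 p k
      exact ⟨.inl x, rfl⟩
    · by_cases a : q w
      · obtain ⟨x, -, rfl⟩ := ce_surj h.c1 p ((h.eq w a).trans k)
        exact ⟨.inl x, rfl⟩
      · obtain ⟨x, rfl, rfl⟩ := ce_surj h.c2 p k
        exact ⟨.inr ⟨x, a⟩, rfl⟩⟩

theorem cE_snd (h : S.Cn S' q e1 e2) (x : T.Cw S) :
    T.cE h ((T.lw S st Ψ).snd (fun x : T.Cw S => q x.1.2) x) = T.ce h.c2 x := by
  by_cases a : q x.1.2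
  · exact (congrArg (T.cE h) (snd_pos (T := T.lw S st Ψ) a)).trans
      (Subtype.ext (Prod.ext rfl (h.eq _ a)))
  · exact congrArg (T.cE h) (snd_neg (T := T.lw S st Ψ) ⟨x, a⟩)

omit [DecidableEq σ] in
theorem Sep.crs_right {T : TS σ} {p : T.C → Prop} [DecidablePred p] (h : T.Sep p) (c : T.C)
    {c' : T.C} (k : ¬ p c') : T.crs p c c' = 0 :=
  sum_eq_zero fun b _ => mul_eq_zero_of_right _ (h _ _ b.2 k)

theorem dbl_iso (h : S.Cn S' q e1 e2) (hs : T.Stg st M) (o : S.Ok) (o' : S'.Ok)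
    (ha : T.Adm S st Ψ) (ha' : T.Adm S' st Ψ')
    (h1 : ∀ F, map (killCompl h.c1.inj).toRingHom (Ψ' F) = Ψ F)
    (h2 : ∀ F, map (killCompl h.c2.inj).toRingHom (Ψ' F) = Ψ F) : ∃ V B V',
    (T.lw S' st Ψ').Iso ((T.lw S st Ψ).dbl fun x : T.Cw S => q x.1.2) (· ∘ T.cE h) V B V' := by
  have ht := lw_tri hs ha o
  have sp : (T.lw S st Ψ).Sep fun x : T.Cw S => q x.1.2 := fun x x' a b =>
    mul_eq_zero_of_right _ (h.sep _ _ a b)
  have k : ∀ w w', ¬ q w' → S'.K (e1 w) (e2 w') = 0 := fun w w' b => by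
    by_cases a : q w
    · rw [h.eq w a, h.k2, h.sep _ _ a b]
    · exact h.k3 _ _ a b
  refine ⟨_, _, _, Iso.of_equiv (lw_tri hs ha' o') (ht.dbl (lw_low h.idl)) (T.cE h) ?_ ?_ ?_⟩
  · rintro (x | x)
    · exact (lw_lev (Ψ := Ψ) x).trans (lw_lev (Ψ := Ψ') (T.ce h.c1 x)).symm
    · exact (lw_lev (Ψ := Ψ) x.1).trans (lw_lev (Ψ := Ψ') (T.ce h.c2 x.1)).symm
  · rintro y (x | x)
    · exact (u_dbl_inl _ _).trans (u_pb h.c1 h1 (zc y) x).symm
    · refine (u_dbl_inr _ _).trans (Eq.trans ?_ (u_pb h.c2 h2 (zc y) x.1).symm)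
      exact congrArg (fun z => (T.tw S Ψ).u z x.1) (funext fun c => congrArg (zc y) (cE_snd h c))
  · rintro (x | x) (x' | x')
    · exact congrArg (T.K _ _ * ·) (h.k1 _ _).symm
    · exact (sp.crs_right _ x'.2).trans (mul_eq_zero_of_right _ (k _ _ x'.2)).symm
    · refine ((congrFun₂ (Db.cr_tr ht.pd) _ _).symm.trans (sp.crs_right _ x.2)).trans
        (mul_eq_zero_of_right _ ?_).symm
      exact (congrFun₂ (Db.tr_eq o'.pd) _ _).symm.trans (k _ _ x.2)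
    · exact congrArg (T.K _ _ * ·) (h.k2 _ _).symm

omit [DecidableEq σ] in
/-- normalised Cauchy–Schwarz -/
theorem Tri.cs_Ec (h : T.Tri) {p : T.C → Prop} [DecidablePred p] (hp : T.Low p) {η : ℝ}
    (h0 : 0 ≤ η) (h8 : η ≤ 1 / 8) (m0 : (T.cut p 0).Mas η) (m1 : T.Mas η) (m2 : (T.dbl p).Mas η)
    {g : (T.C → ℤ) → ℂ} (hg : ∀ y, ‖g y‖ ≤ 1) : ‖T.Ec g‖ ^ 2 ≤ 2 * ‖(T.dbl p).Ec fun y =>
      g (fun c => y (.inl c)) * (starRingEnd ℂ) (g fun c => y (T.snd p c))‖ := by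
  have c := h.cs_dbl hp (f := fun _ => 1) (A := 1) (by simp) hg
  simp only [one_mul, norm_one, one_pow] at c
  replace c := c.trans_eq (congrArg (· * _) (S_one (T.cut p 0)))
  have z := h.Zc_dbl hp 0
  have a0 := (h.cut_low hp 0).Z_pos
  have a1 := h.Z_pos
  have a2 := (h.dbl hp).Z_pos
  have b0 := (h.cut_low hp 0).Zc_pos
  have b1 := h.Zc_pos
  have b2 := (h.dbl hp).Zc_pos
  have d0 := (abs_le.1 m0).2
  have d1 := (abs_le.1 m1).1
  have d2 := (abs_le.1 m2).2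
  have e : (T.cut p 0).Z * (T.dbl p).Z ≤ 2 * T.Z ^ 2 :=
    calc _ ≤ (9 / 8 * (T.cut p 0).Zc) * (9 / 8 * (T.dbl p).Zc) :=
          mul_le_mul (by nlinarith) (by nlinarith) a2.le (by positivity)
      _ = 81 / 64 * T.Zc ^ 2 := by rw [← z]; ring
      _ ≤ 2 * (7 / 8 * T.Zc) ^ 2 := by nlinarith [sq_nonneg T.Zc]
      _ ≤ _ := by gcongr; nlinarith
  rw [Ec, Ec, norm_div, norm_div, Complex.norm_of_nonneg a1.le, Complex.norm_of_nonneg a2.le,
    div_pow, div_le_iff₀ (by positivity), mul_div_assoc', div_mul_eq_mul_div, le_div_iff₀ a2]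
  have c2 := c.trans (mul_le_mul_of_nonneg_left (Complex.re_le_norm _) a0.le)
  nlinarith [mul_le_mul_of_nonneg_right c2 a2.le, mul_le_mul_of_nonneg_left e (norm_nonneg
    ((T.dbl p).Sc fun y => g (fun c => y (.inl c)) * (starRingEnd ℂ) (g fun c => y (T.snd p c))))]

end TS

theorem lcs : LCs := fun σ τ τ' _ T S S' st M Ψ Ψ' q _ e1 e2 h η g hs o o' ha ha' h1 h2 h0 h8 m1 m2
    m0 hg => by
  obtain ⟨V, B, V', i⟩ := TS.dbl_iso h hs o o' ha ha' h1 h2
  have oq : (S.sub q).Ok := Mh.sub_ok o h.idl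
  have c := (TS.lw_tri hs ha o).cs_Ec (TS.lw_low h.idl) h0 h8
    ((TS.cut_sub hs o oq ha h.idl η).2 m0) m1 ((i.mas η).1 m2) hg
  refine c.trans_eq (congrArg (2 * ‖·‖) ((i.Ec _).symm.trans
    (congrArg (T.tw S' Ψ').Ec (funext fun y => ?_))))
  exact congrArg (fun z => g (T.pb S h.c1 y) * (starRingEnd ℂ) (g z))
    (funext fun x => congrArg y (TS.cE_snd h x))

end Crest.Agent.N49.Tw

end
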