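import Crest.Agent.N49.Tw.Cd
import Crest.Agent.N49.Tw.Sa

/-!
# Row 49 (helper73): the leaves `LGen` and `LSec` of the block CHAR
-/

set_option autoImplicit false

open Matrix MvPolynomial Finset

noncomputable section

namespace Crest.Agent.N49.Tw

open Po

namespace Cg

variable {W : Type}

theorem split {m : W →₀ ℕ} {x : W} (h : x ∈ m.support) :
    ∃ m' : W →₀ ℕ, m = Finsupp.single x 1 + m' :=
  ⟨m - Finsupp.single x 1, (add_tsub_cancel_of_le (Finsupp.single_le_iff.2
    (Nat.one_le_iff_ne_zero.2 (Finsupp.mem_support_iff.1 h)))).symm⟩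

theorem mem_add_right {m m' : W →₀ ℕ} {x : W} (h : x ∈ m'.support) : x ∈ (m + m').support := by
  rw [Finsupp.mem_support_iff] at h ⊢
  rw [Finsupp.add_apply]; omega

theorem mem_add_left {m m' : W →₀ ℕ} {x : W} (h : x ∈ m.support) : x ∈ (m + m').support := by
  rw [add_comm]; exact mem_add_right h

theorem self_mem (x : W) : x ∈ (Finsupp.single x 1 : W →₀ ℕ).support := by simp

/-- a monomial is a list of letters -/
theorem exl : ∀ (l : ℕ) (m : W →₀ ℕ), m.degree = l →
    ∃ lam : Fin l → W, (∀ i, lam i ∈ m.support) ∧ ∑ i, Finsupp.single (lam i) 1 = m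
  | 0, m, h => ⟨Fin.elim0, fun i => i.elim0, by
      rw [(Finsupp.degree_eq_zero_iff m).1 h]; simp⟩
  | l + 1, m, h => by
      have h0 : m ≠ 0 := by rintro rfl; simp at h
      obtain ⟨x, hx⟩ := Finsupp.support_nonempty_iff.2 h0
      obtain ⟨m', rfl⟩ := split hx
      rw [map_add, Finsupp.degree_single] at h
      obtain ⟨lam, h1, h2⟩ := exl l m' (by omega)
      refine ⟨Fin.cons x lam, fun i => ?_, by rw [Fin.sum_univ_succ]; simp [h2]⟩
      refine Fin.cases ?_ (fun i => ?_) i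
      · simp
      · simpa only [Fin.cons_succ] using mem_add_right (h1 i)

theorem deg_sum {l : ℕ} (lam : Fin l → W) : (∑ i, Finsupp.single (lam i) 1 : W →₀ ℕ).degree = l := by
  simp [map_sum, Finsupp.degree_single]

theorem supp_sum {l : ℕ} (lam : Fin l → W) {x : W}
    (h : x ∈ (∑ i, Finsupp.single (lam i) 1 : W →₀ ℕ).support) : ∃ i, lam i = x := by
  classical
  obtain ⟨i, -, hi⟩ := Finset.mem_biUnion.1 (Finsupp.support_finsetSum h)
  exact ⟨i, (Finset.mem_singleton.1 (Finsupp.support_single_subset hi)).symm⟩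

theorem weight_one {f : W → ℕ} {m : W →₀ ℕ} (h : ∀ x ∈ m.support, f x = 1) :
    Finsupp.weight f m = m.degree := by
  rw [Finsupp.weight_apply, Finsupp.degree_apply, Finsupp.sum]
  exact Finset.sum_congr rfl fun x hx => by rw [h x hx]; simp

end Cg

open Cg

namespace Sh

variable {σ τ τ' : Type} {S : Sh σ τ}

theorem gen_iff (S : Sh σ τ) (p : S.W → Prop) : S.Gen p ↔ S.Gen' p := by
  constructor
  · intro h κ hκ w hw
    obtain ⟨l, lam, h1, h2, h3, h4⟩ := h κ hκ w hw
    refine ⟨_, (deg_sum lam).trans h1, fun x hx => ?_, ⟨lam 0, ?_, h3⟩, h4⟩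
    · obtain ⟨i, rfl⟩ := supp_sum lam hx
      exact h2 i
    · rw [Fin.sum_univ_succ]
      exact mem_add_left (self_mem _)
  · intro h κ hκ w hw
    obtain ⟨m, h1, h2, ⟨x, hx, h3⟩, h4⟩ := h κ hκ w hw
    obtain ⟨m', rfl⟩ := split hx
    obtain ⟨lam, h5, h6⟩ := exl _ m' rfl
    rw [map_add, Finsupp.degree_single] at h1
    refine ⟨m'.degree, Fin.cons x lam, by omega, fun i => ?_, h3, ?_⟩
    · refine Fin.cases ?_ (fun i => ?_) i
      · exact h2 x hx
      · exact h2 _ (mem_add_right (h5 i))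
    · rw [Fin.sum_univ_succ]
      simpa only [Fin.cons_zero, Fin.cons_succ, h6] using h4

theorem Sz.pred {n : ℕ} {a : ℝ} (h : S.Sz n a) {w : S.W} {j : ℕ} (e : S.dg w = j + 2) :
    ∃ w', S.dg w' = j + 1 := by
  obtain ⟨m, h1, h2, ⟨x, hx, -⟩, h4⟩ := (gen_iff S _).1 h.gen (Pi.single w 1)
    (fun _ => False.elim) w (by simp)
  obtain ⟨m', rfl⟩ := split hx
  rw [map_add, Finsupp.degree_single] at h1
  have h0 : m' ≠ 0 := by rintro rfl; simp at h1; omega
  obtain ⟨w1, -, k⟩ := Finset.exists_ne_zero_of_sum_ne_zero h4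
  have k1 := right_ne_zero_of_mul k
  rw [add_comm, h.mul _ _ _ h0] at k1
  obtain ⟨w', -, k2⟩ := Finset.exists_ne_zero_of_sum_ne_zero k1
  refine ⟨w', ?_⟩
  rw [← h.toOk.gr_dg (left_ne_zero_of_mul k2), weight_one fun y hy => h2 y (mem_add_right hy)]
  omega

theorem Sz.dg_le {n : ℕ} {a : ℝ} (h : S.Sz n a) (w : S.W) : S.dg w ≤ n := by
  have k : ∀ i j, j + 1 + i = S.dg w → ∃ w', S.dg w' = j + 1 := fun i => by
    induction i with
    | zero => exact fun j e => ⟨w, e.symm⟩
    | succ i ih =>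
      intro j e
      obtain ⟨w', e'⟩ := ih (j + 1) (by omega)
      exact h.pred e'
  have s : Icc 1 (S.dg w) ⊆ univ.image S.dg := fun j hj => by
    rw [mem_Icc] at hj
    obtain ⟨w', e⟩ := k (S.dg w - j) (j - 1) (by omega)
    exact mem_image.2 ⟨w', mem_univ _, by omega⟩
  have := (card_le_card s).trans card_image_le
  rw [Nat.card_Icc, card_univ] at this
  have := h.card
  omega

variable {S' : Sh σ τ'} {n : ℕ} {φ : Matrix S'.W S.W ℤ} {ι : S'.W → S.W}

theorem Sec.inj (h : S.Sec S' n φ ι) : Function.Injective ι := fun w w' e => by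
  have h1 := h.sec w w'
  rw [← e, h.sec] at h1
  by_contra k
  simp [k] at h1

theorem Sec.cd (h : S.Sec S' n φ ι) (w : S'.W) : S.cd (ι w) = S'.cd w :=
  (h.hm.cd w (ι w) (by rw [h.sec]; simp)).symm

theorem Sec.spl (h : S.Sec S' n φ ι) (hn : 1 ≤ n) :
    S.Spl S' n φ (Matrix.of fun w w' => if w = ι w' then 1 else 0)
      (J := {x // x ∉ Set.range ι})
      (Matrix.of fun w j => (if w = j.1 then 1 else 0) - ∑ w', if w = ι w' then φ w' j.1 else 0)
      (Matrix.of fun j w => if w = j.1 then 1 else 0) fun j => S.cd j.1 := by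
  have ne : ∀ (j : {x // x ∉ Set.range ι}) w, j.1 ≠ ι w := fun j w e => j.2 ⟨w, e.symm⟩
  have n1 : (1 : ℤ) ≤ n := by exact_mod_cast hn
  have hi : ∀ c : Prop, ∀ [Decidable c], |(if c then 1 else 0 : ℤ)| ≤ n := fun c _ => by
    split_ifs <;> simp [n1]
  have sw : ∀ (g : S.W → ℤ) (c : S'.W → ℤ),
      ∑ x, (∑ w', if x = ι w' then c w' else 0) * g x = ∑ w', c w' * g (ι w') := fun g c => by
    simp only [Finset.sum_mul, ite_mul, zero_mul]
    rw [Finset.sum_comm]
    simp
  refine ⟨h.ok, h.hm, h.K, ?_, ?_, ?_, ?_, ?_, ?_, ?_, ?_, ?_⟩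
  · ext w w'
    simp [Matrix.mul_apply, h.sec, Matrix.one_apply]
  · ext w j
    simp only [Matrix.mul_apply, Matrix.of_apply, mul_comm (φ w _), sub_mul, Finset.sum_sub_distrib,
      sw, h.sec]
    simp
  · ext j j'
    simp [Matrix.mul_apply, ne, Matrix.one_apply, Subtype.ext_iff]
  · ext j w
    simp [Matrix.mul_apply, (ne _ _).symm]
  · ext x y
    by_cases k : y ∈ Set.range ι
    · obtain ⟨w, rfl⟩ := k
      simp [Matrix.mul_apply, h.sec, (ne _ _).symm, Matrix.one_apply]
    · simp only [Matrix.add_apply, Matrix.mul_apply, Matrix.of_apply]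
      rw [Finset.sum_eq_single (⟨y, k⟩ : {x // x ∉ Set.range ι})
        (fun j _ e => by rw [if_neg (fun e' : y = j.1 => e (Subtype.ext e'.symm)), mul_zero])
        (by simp)]
      simp [Matrix.one_apply]
  · intro w w' k
    have : w = ι w' := by by_contra e; simp [e] at k
    rw [this, h.cd]
  · intro w j k
    by_cases e : w = j.1
    · rw [e]
    · simp only [Matrix.of_apply, if_neg e, zero_sub, ne_eq, neg_eq_zero, not_true, or_false] at k
      obtain ⟨w', -, k1⟩ := Finset.exists_ne_zero_of_sum_ne_zero k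
      have e1 : w = ι w' := by by_contra e; simp [e] at k1
      rw [if_pos e1] at k1
      rw [e1, h.cd, h.hm.cd _ _ k1]
  · intro w w' j
    refine ⟨hi _, h.ht _ _, ?_, hi _⟩
    by_cases k : w ∈ Set.range ι
    · obtain ⟨w0, rfl⟩ := k
      simpa [(ne _ _).symm, h.inj.eq_iff] using h.ht w0 j.1
    · have : ∀ w', w ≠ ι w' := fun w' e => k ⟨w', e.symm⟩
      simpa [this] using hi (w = j.1)
  · intro κ j hj
    obtain ⟨j0, m, h1, h2, h3, h4, h5⟩ := h.gen (κ ᵥ* (Matrix.of fun (j : {x // x ∉ Set.range ι}) w =>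
      if w = j.1 then 1 else 0)) (fun w => by simp [vecMul, dotProduct, (ne _ _).symm]) j.1
      (by simpa [vecMul, dotProduct, Subtype.val_inj] using hj)
    obtain ⟨lam, h6, h7⟩ := exl _ m rfl
    refine ⟨m.degree, ⟨j0, h1⟩, lam, by rw [cd_degree, h3], by rw [cd_degree, h2],
      fun i => h4 _ (h6 i), ?_⟩
    rw [h7]
    simp only [Matrix.of_apply, sub_mul, Finset.sum_sub_distrib, sw] at h5 ⊢
    simpa using h5

end Sh

theorem lgen : LGen := fun _ _ S => ⟨S.gen_iff, fun _ _ h => h.dg_le⟩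

theorem lsec : LSec := fun _ _ _ _ _ _ _ _ h hn => by
  classical
  exact ⟨_, inferInstance, inferInstance, _, _, _, _, h.spl hn⟩

end Crest.Agent.N49.Tw

end
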