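import Crest.Agent.N49.Tw.Cd
import Crest.Agent.N49.Tw.Mh0

/-!
# Row 49 (helper63): the last map of the block CHAR (`h ↦ d`, `h' ↦ - d`)
-/

set_option autoImplicit false

open Matrix MvPolynomial Finset

noncomputable section

namespace Crest.Agent.N49.Tw

open Po

namespace L1

variable {l s : ℕ}

theorem mem_full {τ : Type} [Fintype τ] [DecidableEq τ] {μ : τ →₀ ℕ} :
    μ ∈ full τ s ↔ μ.degree ≤ s := by
  simp only [full, mem_biUnion, mem_range, mem_finsuppAntidiag, subset_univ, and_true,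
    Finsupp.degree_eq_sum]
  exact ⟨fun ⟨a, h, e⟩ => e.trans_le (Nat.lt_succ_iff.1 h), fun h => ⟨_, Nat.lt_succ_iff.2 h, rfl⟩⟩

theorem deg_sqf {μ : Fin l →₀ ℕ} (h : ∀ a, μ a ≤ 1) : μ.degree ≤ l := by
  rw [Finsupp.degree_eq_sum]
  simpa using sum_le_card_nsmul univ (fun a => μ a) 1 fun a _ => h a

theorem mem_sqf {μ : Fin l →₀ ℕ} : μ ∈ (sqf (Fin l) l).erase 0 ↔ μ ≠ 0 ∧ ∀ a, μ a ≤ 1 := by
  simp only [mem_erase, sqf, mem_filter, mem_full]
  exact ⟨fun h => ⟨h.1, h.2.2⟩, fun h => ⟨h.1, deg_sqf h.2, h.2⟩⟩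

theorem mem_Bj {β : Fin l × Bool →₀ ℕ} :
    β ∈ Bj l s l ↔ β.degree ≤ s ∧ ∀ i, β (i, false) = 0 ∨ β (i, true) = 0 := by
  simp only [Bj, mem_filter, mem_full]
  exact ⟨fun h => ⟨h.1, h.2.1⟩, fun h => ⟨h.1, h.2, fun i k => absurd i.2 (not_lt.2 k)⟩⟩

theorem fst_apply (β : Fin l × Bool →₀ ℕ) (i : Fin l) :
    β.mapDomain Prod.fst i = β (i, false) + β (i, true) := by
  induction β using Finsupp.induction_linear with
  | zero => simp
  | add f g a b => simp only [Finsupp.mapDomain_add, Finsupp.add_apply, a, b]; ring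
  | single a n =>
    obtain ⟨j, b⟩ := a
    cases b <;> by_cases h : j = i <;> simp [h]

theorem mem_X {W : Type} [Fintype W] [DecidableEq W] {L : Type} [DecidableEq L]
    {B : Finset (L →₀ ℕ)} {x : Option W × (L →₀ ℕ)} :
    x ∈ ((univ : Finset (Option W)) ×ˢ B).erase (none, 0) ↔ x ≠ (none, 0) ∧ x.2 ∈ B := by
  simp [mem_erase, mem_product]

theorem fst_ne {β : Fin l × Bool →₀ ℕ} (h : β ≠ 0) : β.mapDomain Prod.fst ≠ 0 := fun e => h (by
  have := degree_col Prod.fst β
  rw [e, map_zero] at this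
  exact (Finsupp.degree_eq_zero_iff β).1 this.symm)

theorem lift_mem (hl : l ≤ s) {β : Fin l × Bool →₀ ℕ} (h : ∀ a, β.mapDomain Prod.fst a ≤ 1) :
    β ∈ Bj l s l := mem_Bj.2 ⟨by
  rw [← degree_col Prod.fst β]; exact (deg_sqf h).trans hl, fun i => by
  have := h i; rw [fst_apply] at this; omega⟩

theorem le_weight {ι M : Type} (f : ι → M →₀ ℕ) {m : ι →₀ ℕ} {y : ι} (h : y ∈ m.support) :
    f y ≤ Finsupp.weight f m := by
  rw [Finsupp.weight_apply, Finsupp.sum]
  refine le_trans ?_ (single_le_sum (f := fun a => m a • f a) (fun _ _ => zero_le) h)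
  obtain ⟨k, e⟩ := Nat.exists_eq_succ_of_ne_zero (Finsupp.mem_support_iff.1 h)
  rw [e, succ_nsmul]
  exact le_add_self

/-- the words of the symbol shape -/
abbrev SW (l : ℕ) : Type := {μ : Fin l →₀ ℕ // μ ∈ (sqf (Fin l) l).erase 0}

/-- its structure constants -/
def sr (w : SW l) (m : SW l →₀ ℕ) : ℤ := if Finsupp.weight Subtype.val m = w.1 then 1 else 0

theorem sr_mul (w : SW l) (m m' : SW l →₀ ℕ) (hm : m ≠ 0) :
    sr w (m + m') = ∑ w', sr w' m * sr w (Finsupp.single w' 1 + m') := by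
  simp only [sr, map_add, Finsupp.weight_single, one_smul]
  split_ifs with e
  · obtain ⟨y, hy⟩ := Finsupp.support_nonempty_iff.2 hm
    have a : Finsupp.weight Subtype.val m ∈ (sqf (Fin l) l).erase 0 := mem_sqf.2 ⟨fun z =>
      (mem_sqf.1 y.2).1 (le_antisymm ((le_weight Subtype.val hy).trans_eq z) zero_le), fun a => by
      have := (mem_sqf.1 w.2).2 a
      rw [← e, Finsupp.add_apply] at this
      omega⟩
    rw [sum_eq_single ⟨_, a⟩ (fun b _ k => by
      rw [if_neg fun z => k (Subtype.ext z.symm), zero_mul]) (by simp)]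
    simp [e]
  · refine (sum_eq_zero fun b _ => ?_).symm
    split_ifs with a c
    · exact absurd (a ▸ c) e
    all_goals simp

variable {σ τ : Type} (col : Fin l → σ) (κ : ℕ → ℝ)

theorem sym_K : (Sh.sym col κ).K = (diagonal fun w : SW l => κ w.1.degree : Matrix (SW l) _ ℝ) := by
  ext (w : SW l) (w' : SW l)
  change (if w.1 = w'.1 then κ w.1.degree else 0) = diagonal (fun w : SW l => κ w.1.degree) w w'
  rw [diagonal_apply]
  exact if_congr Subtype.ext_iff.symm rfl rfl

theorem sym_eps (w : SW l) : (Sh.sym col κ).ε w = 0 := by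
  change (w.1.sum fun a _ => if w.1 = Finsupp.single a 1 then (0 : ℤ) else 0) = 0
  simp

theorem sym_ok (hκ : ∀ j, 0 < κ j) : (Sh.sym col κ).Ok where
  ne w := (mem_sqf.1 w.2).1
  one (w w' : SW l) := by
    change sr w (Finsupp.single w' 1) = if w = w' then 1 else 0
    rw [sr, Finsupp.weight_single, one_smul]
    exact if_congr (eq_comm.trans Subtype.ext_iff.symm) rfl rfl
  gr (w : SW l) (m : SW l →₀ ℕ) h := by
    have e : Finsupp.weight Subtype.val m = w.1 := by by_contra z; exact h (if_neg z)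
    change _ = w.1.mapDomain col
    rw [← e]
    exact weight_hom (Finsupp.mapDomain.addMonoidHom col) Subtype.val m
  mul := sr_mul
  eps w h := absurd (sym_eps col κ w) h
  pd := by rw [sym_K]; exact posDef_diagonal_iff.2 fun w => hκ _
  blk (w w' : SW l) h := by
    rw [sym_K] at h
    by_cases e : w = w'
    · rw [e]
    · exact absurd (diagonal_apply_ne _ e) h

variable (S : Sh σ τ) (v : ℕ → ℝ)

/-- the extension -/
abbrev E : Sh σ σ := S.ext (fun x : Fin l × Bool => col x.1) (Bj l s l) v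

/-- the sign -/
def sn (β : Fin l × Bool →₀ ℕ) : ℤ := (-1) ^ ∑ i, β (i, true)

/-- the map -/
def ff (d : SW l) (x : XW S.W (Bj l s l)) : ℤ :=
  if x.1.1 = none ∧ x.1.2.mapDomain Prod.fst = d.1 then sn x.1.2 else 0

/-- the structure constants of the extension -/
def er (x : XW S.W (Bj l s l)) (m : XW S.W (Bj l s l) →₀ ℕ) : ℤ :=
  if Finsupp.weight (fun y : XW S.W (Bj l s l) => y.1.2) m = x.1.2 then
    S.ru x.1.1 (Finsupp.weight (fun y : XW S.W (Bj l s l) => S.sg y.1.1) m) else 0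

theorem E_dg (x : XW S.W (Bj l s l)) : (E col S v).dg x = S.xd x.1 := by
  change Finsupp.degree (x.1.1.elim 0 S.cd + x.1.2.mapDomain _) = _
  rw [map_add, degree_col, Sh.xd]
  cases x.1.1 <;> simp [Mh.dg_cd]

theorem sn_sq (β : Fin l × Bool →₀ ℕ) : sn β * sn β = 1 := by
  rw [sn, ← mul_pow]; simp

theorem sn_weight {ι : Type} (f : ι → Fin l × Bool →₀ ℕ) (m : ι →₀ ℕ) :
    sn (Finsupp.weight f m) = m.prod fun y n => sn (f y) ^ n := by
  induction m using Finsupp.induction_linear with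
  | zero => simp [sn]
  | add a b h k =>
    rw [Finsupp.prod_add_index' (by simp) (fun _ _ _ => pow_add _ _ _), ← h, ← k, map_add]
    simp [sn, sum_add_distrib, pow_add]
  | single a n =>
    rw [Finsupp.prod_single_index (by simp), Finsupp.weight_single]
    simp only [sn, Finsupp.smul_apply, smul_eq_mul, ← mul_sum, ← pow_mul, mul_comm]

theorem sg_zero {m : XW S.W (Bj l s l) →₀ ℕ} :
    Finsupp.weight (fun y : XW S.W (Bj l s l) => S.sg y.1.1) m = 0 ↔
      ∀ y ∈ m.support, y.1.1 = none := by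
  constructor
  · intro h y hy
    have := le_weight (fun y : XW S.W (Bj l s l) => S.sg y.1.1) hy
    rw [h] at this
    cases e : y.1.1 with
    | none => rfl
    | some w =>
      rw [e] at this
      simpa [Sh.sg] using this w
  · intro h
    rw [Finsupp.weight_apply, Finsupp.sum]
    exact sum_eq_zero fun y hy => by simp [h y hy, Sh.sg]

theorem wt_fst (m : XW S.W (Bj l s l) →₀ ℕ) :
    (Finsupp.weight (fun y : XW S.W (Bj l s l) => y.1.2) m).mapDomain Prod.fst =
      Finsupp.weight (fun y : XW S.W (Bj l s l) => y.1.2.mapDomain Prod.fst) m :=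
  (weight_hom (Finsupp.mapDomain.addMonoidHom Prod.fst) _ m).symm

theorem lhs (hl : l ≤ s) (d : SW l) (m : XW S.W (Bj l s l) →₀ ℕ) {β : Fin l × Bool →₀ ℕ}
    (hβ : β = Finsupp.weight (fun y : XW S.W (Bj l s l) => y.1.2) m) :
    ∑ x, ff S d x * er S x m =
      if (∀ y ∈ m.support, y.1.1 = none) ∧ β.mapDomain Prod.fst = d.1 then sn β else 0 := by
  split_ifs with c
  · have a : (none, β) ∈ ((univ : Finset (Option S.W)) ×ˢ Bj l s l).erase (none, 0) :=
      mem_X.2 ⟨fun z => (mem_sqf.1 d.2).1 (by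
        rw [← c.2, show β = 0 from (Prod.ext_iff.1 z).2, Finsupp.mapDomain_zero]),
        lift_mem hl (by rw [c.2]; exact (mem_sqf.1 d.2).2)⟩
    rw [sum_eq_single ⟨_, a⟩ (fun x _ k => ?_) (by simp)]
    · rw [ff, er, if_pos ⟨rfl, c.2⟩, if_pos hβ.symm, (sg_zero S).2 c.1]
      simp [Sh.ru]
    · rw [ff, er]
      split_ifs with e1 e2
      · exact absurd (Subtype.ext (Prod.ext e1.1 (hβ.trans e2).symm)) k
      all_goals simp
  · refine sum_eq_zero fun x _ => ?_
    rw [ff, er]
    split_ifs with e1 e2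
    · rw [e1.1, Sh.ru, Option.elim_none, if_neg, mul_zero]
      exact fun z => c ⟨(sg_zero S).1 z, by rw [hβ, e2, e1.2]⟩
    all_goals simp

theorem rhs (cf : MvPolynomial (SW l) ℤ →ₗ[ℤ] ℤ) (d : SW l)
    (hcf : ∀ m a, cf (monomial m a) = a * sr d m) (m : XW S.W (Bj l s l) →₀ ℕ)
    {β : Fin l × Bool →₀ ℕ} (hβ : β = Finsupp.weight (fun y : XW S.W (Bj l s l) => y.1.2) m) :
    (if (∀ y ∈ m.support, y.1.1 = none) ∧ β.mapDomain Prod.fst = d.1 then sn β else 0) =
      cf (aeval (fun x => (∑ w, ff S w x • X w : MvPolynomial (SW l) ℤ)) (monomial m (1 : ℤ))) := by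
  classical
  rw [aeval_monomial, map_one, one_mul]
  by_cases g : ∀ y ∈ m.support, y.1.1 = none ∧
      y.1.2.mapDomain Prod.fst ∈ (sqf (Fin l) l).erase 0
  · let dd : XW S.W (Bj l s l) → SW l := fun y =>
      if h : y.1.2.mapDomain Prod.fst ∈ (sqf (Fin l) l).erase 0 then ⟨_, h⟩ else d
    have dv : ∀ y ∈ m.support, (dd y).1 = y.1.2.mapDomain Prod.fst := fun y hy => by
      simp only [dd, dif_pos (g y hy).2]
    have e0 : (monomial (m.mapDomain dd) (sn β) : MvPolynomial (SW l) ℤ) =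
        m.prod fun y n => (C (sn y.1.2) * X (dd y)) ^ n := by
      rw [hβ, sn_weight, ← rename_monomial, monomial_eq, map_mul, rename_C, Finsupp.prod,
        Finsupp.prod, Finsupp.prod, map_prod, map_prod, ← prod_mul_distrib]
      refine prod_congr rfl fun y _ => ?_
      rw [map_pow, map_pow, ← mul_pow, rename_X]
    have e : (m.prod fun y n => (∑ w, ff S w y • X w : MvPolynomial (SW l) ℤ) ^ n) =
        monomial (m.mapDomain dd) (sn β) := by
      rw [e0]
      refine Finsupp.prod_congr fun y hy => ?_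
      rw [sum_eq_single (dd y) (fun w _ k => ?_) (by simp), ff,
        if_pos ⟨(g y hy).1, (dv y hy).symm⟩]
      · simp
      · rw [ff, if_neg fun z => k (Subtype.ext (z.2.symm.trans (dv y hy).symm)), zero_smul]
    have : Finsupp.weight (Subtype.val ∘ dd) m =
        Finsupp.weight (fun y : XW S.W (Bj l s l) => y.1.2.mapDomain Prod.fst) m := by
      rw [Finsupp.weight_apply, Finsupp.weight_apply]
      exact Finsupp.sum_congr fun y hy => by rw [Function.comp_apply, dv y hy]
    rw [e, hcf, sr, Mh.weight_mapDomain, this, ← wt_fst, ← hβ]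
    simp only [and_iff_right fun y hy => (g y hy).1]
    split_ifs <;> simp
  · push Not at g
    obtain ⟨y, hy, k⟩ := g
    rw [Finsupp.prod, prod_eq_zero hy, map_zero, if_neg]
    · rintro ⟨a, b⟩
      refine k (a y hy) (mem_sqf.2 ⟨fst_ne fun z => (mem_X.1 y.2).1 (Prod.ext (a y hy) z),
        fun i => le_trans ?_ ((mem_sqf.1 d.2).2 i)⟩)
      rw [← b, hβ, wt_fst]
      exact le_weight (fun y : XW S.W (Bj l s l) => y.1.2.mapDomain Prod.fst) hy i
    · rw [sum_eq_zero fun w _ => ?_, zero_pow (Finsupp.mem_support_iff.1 hy)]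
      rw [ff, if_neg fun z => k z.1 (by rw [z.2]; exact w.2), zero_smul]

theorem hm (hl : l ≤ s) : (E col S v).Hm (Sh.sym col κ) (S.f1 (Bj l s l) col κ) where
  cd (d : SW l) (x : XW S.W (Bj l s l)) h := by
    obtain ⟨a, b⟩ : x.1.1 = none ∧ x.1.2.mapDomain Prod.fst = d.1 := by
      by_contra z; exact h (if_neg z)
    change d.1.mapDomain col = (x.1.1.elim 0 S.cd + x.1.2.mapDomain _).mapDomain id
    rw [Finsupp.mapDomain_id, a, ← b, ← Finsupp.mapDomain_comp]
    simp [Function.comp_def]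
  mul d m _ := (lhs S hl d m rfl).trans
    (rhs S ((Sh.sym col κ).cf ℤ d) d (Mh.cf_mon (Sh.sym col κ) d) m rfl)
  mass := by
    funext (d : SW l)
    refine Eq.trans ?_ (sym_eps col κ d).symm
    refine sum_eq_zero fun (x : XW S.W (Bj l s l)) _ => ?_
    change ff S d x * (if x.1.2 = 0 then x.1.1.elim 0 S.ε else 0) = 0
    rw [ff]
    split_ifs with a b
    · rw [a.1]; simp
    all_goals simp

/-- the lift with primes on `T` -/
def lf (d : Fin l →₀ ℕ) (T : Finset (Fin l)) : Fin l × Bool →₀ ℕ :=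
  Finsupp.equivFunOnFinite.symm fun p => if p.2 = decide (p.1 ∈ T) then d p.1 else 0

theorem lf_apply (d : Fin l →₀ ℕ) (T : Finset (Fin l)) (p : Fin l × Bool) :
    lf d T p = if p.2 = decide (p.1 ∈ T) then d p.1 else 0 := rfl

theorem fst_lf (d : Fin l →₀ ℕ) (T : Finset (Fin l)) : (lf d T).mapDomain Prod.fst = d := by
  ext i
  rw [fst_apply, lf_apply, lf_apply]
  by_cases h : i ∈ T <;> simp [h]

/-- the lifted word -/
def lw (hl : l ≤ s) (d : SW l) (T : Finset (Fin l)) : XW S.W (Bj l s l) :=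
  ⟨(none, lf d.1 T), mem_X.2 ⟨fun z => (mem_sqf.1 d.2).1 (by
    rw [← fst_lf d.1 T, show lf d.1 T = 0 from (Prod.ext_iff.1 z).2, Finsupp.mapDomain_zero]),
    lift_mem hl (by rw [fst_lf]; exact (mem_sqf.1 d.2).2)⟩⟩

theorem card_lift (hl : l ≤ s) (d : SW l) :
    #{x : XW S.W (Bj l s l) | x.1.1 = none ∧ x.1.2.mapDomain Prod.fst = d.1} = 2 ^ d.1.degree := by
  have e : d.1.degree = #d.1.support := by
    rw [Finsupp.degree_apply, card_eq_sum_ones]
    exact sum_congr rfl fun i hi => by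
      have := (mem_sqf.1 d.2).2 i
      have := Finsupp.mem_support_iff.1 hi
      omega
  rw [e, ← card_powerset]
  refine card_nbij' (fun x => univ.filter fun i => x.1.2 (i, true) ≠ 0) (lw S hl d) ?_ ?_ ?_ ?_
  · intro x hx
    simp only [coe_filter, mem_univ, true_and, Set.mem_ofPred_eq] at hx
    simp only [coe_powerset, Set.mem_preimage, Set.mem_powerset_iff, coe_subset]
    intro i hi
    rw [Finsupp.mem_support_iff, ← hx.2, fst_apply]
    have := (mem_filter.1 hi).2
    omega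
  · intro T _
    simp only [coe_filter, mem_univ, true_and, Set.mem_ofPred_eq]
    exact ⟨rfl, fst_lf _ _⟩
  · intro x hx
    simp only [coe_filter, mem_univ, true_and, Set.mem_ofPred_eq] at hx
    refine Subtype.ext (Prod.ext hx.1.symm (Finsupp.ext fun p => ?_))
    obtain ⟨i, b⟩ := p
    change lf _ _ _ = _
    have a := (mem_sqf.1 d.2).2 i
    rw [lf_apply, ← hx.2, fst_apply]
    rw [← hx.2, fst_apply] at a
    by_cases c : x.1.2 (i, true) = 0 <;> cases b <;> simp [c] <;> omega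
  · intro T hT
    simp only [coe_powerset, Set.mem_preimage, Set.mem_powerset_iff, coe_subset] at hT
    ext i
    simp only [mem_filter, mem_univ, true_and, lw, lf_apply]
    by_cases c : i ∈ T
    · simpa [c] using hT c
    · simp [c]

/-- the map as a matrix -/
def fm : Matrix (SW l) (XW S.W (Bj l s l)) ℤ := Matrix.of (ff S)

theorem cov0 (hl : l ≤ s) (K : Matrix (XW S.W (Bj l s l)) (XW S.W (Bj l s l)) ℝ)
    (hK : ∀ x x', x.1.2 ≠ 0 → K x x' = if x = x' then κ (S.xd x.1) / 2 ^ min (S.xd x.1) l else 0) :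
    (diagonal fun w : SW l => κ w.1.degree) = rl (fm (l := l) (s := s) S) * K * (rl (fm (l := l) (s := s) S))ᵀ := by
  ext d d'
  have k : ∀ x x', rl (fm (l := l) (s := s) S) d x * K x x' = if x = x' then
      rl (fm (l := l) (s := s) S) d x * (κ d.1.degree / 2 ^ d.1.degree) else 0 := fun x x' => by
    simp only [rl, map_apply, fm, of_apply, ff]
    by_cases c : x.1.1 = none ∧ x.1.2.mapDomain Prod.fst = d.1
    · have n0 : x.1.2 ≠ 0 := fun z => (mem_X.1 x.2).1 (Prod.ext c.1 z)
      have e : S.xd x.1 = d.1.degree := by rw [Sh.xd, c.1, ← c.2, degree_col]; simp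
      rw [hK x x' n0, e, min_eq_left (deg_sqf (mem_sqf.1 d.2).2)]
      split_ifs <;> simp
    · simp [c]
  rw [mul_apply]
  simp only [mul_apply, k, sum_ite_eq', mem_univ, if_true, transpose_apply]
  by_cases e : d = d'
  · subst e
    rw [diagonal_apply_eq, ← sum_filter_of_ne (p := fun x : XW S.W (Bj l s l) =>
      x.1.1 = none ∧ x.1.2.mapDomain Prod.fst = d.1) (fun x _ h => by
        by_contra z; simp [rl, fm, ff, z] at h), sum_congr rfl
      (g := fun _ => κ d.1.degree / 2 ^ d.1.degree) fun x hx => ?_, sum_const, card_lift S hl]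
    · simp only [nsmul_eq_mul]; push_cast; field_simp
    · simp only [rl, map_apply, fm, of_apply, ff, if_pos (mem_filter.1 hx).2]
      rw [mul_right_comm, ← Int.cast_mul, sn_sq]; simp
  · rw [diagonal_apply_ne _ e]
    refine (sum_eq_zero fun x _ => ?_).symm
    simp only [rl, map_apply, fm, of_apply, ff]
    split_ifs with a b
    · exact absurd (Subtype.ext (a.2.symm.trans b.2)) e
    all_goals simp

/-- a fresh letter as a word -/
def lt (hl : l ≤ s) (a : Fin l × Bool) : XW S.W (Bj l s l) :=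
  ⟨(none, Finsupp.single a 1), mem_X.2 ⟨fun z => by simpa using (Prod.ext_iff.1 z).2,
    lift_mem hl fun i => by
      rw [Finsupp.mapDomain_single, Finsupp.single_apply]; split_ifs <;> omega⟩⟩

theorem wt_id {ι : Type} (m : ι →₀ ℕ) : Finsupp.weight (fun a => Finsupp.single a 1) m = m := by
  simpa using weight_col id m

theorem z0 : 0 ∈ Bj l s l := mem_Bj.2 ⟨by simp, fun _ => .inl rfl⟩

theorem r_mon (hl : l ≤ s) (y : XW S.W (Bj l s l)) (m : S.W →₀ ℕ) (β : Fin l × Bool →₀ ℕ) :
    er S y (m.mapDomain (S.inc z0) + β.mapDomain (lt S hl)) =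
      if β = y.1.2 then S.ru y.1.1 m else 0 := by
  have z : ∀ {ι M : Type} (m : ι →₀ ℕ), Finsupp.weight (fun _ => (0 : M →₀ ℕ)) m = 0 :=
    fun m => by simp [Finsupp.weight_apply, Finsupp.sum]
  have a : Finsupp.weight (fun y : XW S.W (Bj l s l) => y.1.2)
      (m.mapDomain (S.inc z0) + β.mapDomain (lt S hl)) = β := by
    rw [map_add, Mh.weight_mapDomain, Mh.weight_mapDomain]
    exact (congrArg₂ (· + ·) (z m) (wt_id β)).trans (zero_add _)
  have b : Finsupp.weight (fun y : XW S.W (Bj l s l) => S.sg y.1.1)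
      (m.mapDomain (S.inc z0) + β.mapDomain (lt S hl)) = m := by
    rw [map_add, Mh.weight_mapDomain, Mh.weight_mapDomain]
    exact (congrArg₂ (· + ·) (wt_id m) (z β)).trans (add_zero _)
  rw [er, a, b]

theorem dg_mon (hl : l ≤ s) {m : S.W →₀ ℕ} (h : ∀ x ∈ m.support, S.dg x = 1)
    (β : Fin l × Bool →₀ ℕ) : ∀ y ∈ (m.mapDomain (S.inc z0) + β.mapDomain (lt S hl)).support,
      S.xd y.1 = 1 := fun y hy => by
  classical
  rcases mem_union.1 (Finsupp.support_add hy) with a | a
  · obtain ⟨x, hx, rfl⟩ := mem_image.1 (Finsupp.mapDomain_support a)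
    simpa [Sh.xd, Sh.inc] using h x hx
  · obtain ⟨x, _, rfl⟩ := mem_image.1 (Finsupp.mapDomain_support a)
    simp [Sh.xd, lt]

/-- the goal of `gen` -/
def GG (hl : l ≤ s) (k : XW S.W (Bj l s l) → ℤ) (n : ℕ) : Prop :=
  ∃ (j : XW S.W (Bj l s l)) (m : XW S.W (Bj l s l) →₀ ℕ), j ∉ Set.range (fun d => lw S hl d ∅) ∧
    S.xd j.1 = 1 ∧ m.degree + 1 = n ∧ (∀ y ∈ m.support, S.xd y.1 = 1) ∧
    ∑ y, k y * (er S y (Finsupp.single j 1 + m) -
      ∑ w, ff S w j * er S y (Finsupp.single (lw S hl w ∅) 1 + m)) ≠ 0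

set_option maxHeartbeats 1000000 in
theorem gen1 (hl : l ≤ s) (hg : S.Gen' fun _ => False) (k : XW S.W (Bj l s l) → ℤ) (w : S.W)
    (β : Fin l × Bool →₀ ℕ) (hβ) (hx : k ⟨(some w, β), hβ⟩ ≠ 0) :
    GG S hl k (S.xd (some w, β)) := by
  classical
  let em : S.W → XW S.W (Bj l s l) := fun w => ⟨(some w, β), mem_X.2 ⟨by simp, (mem_X.1 hβ).2⟩⟩
  obtain ⟨m, m1, m2, ⟨j, hj, -⟩, m3⟩ := hg (fun w => k (em w)) (fun _ h => h.elim) w hx
  have e : Finsupp.single j 1 + (m - Finsupp.single j 1) = m := add_tsub_cancel_of_le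
    (Finsupp.single_le_iff.2 (Nat.pos_of_ne_zero (Finsupp.mem_support_iff.1 hj)))
  refine ⟨S.inc z0 j, (m - Finsupp.single j 1).mapDomain (S.inc z0) + β.mapDomain (lt S hl),
    ?_, ?_, ?_, dg_mon S hl (fun x hx => m2 x (Finsupp.support_tsub hx)) β, ?_⟩
  · rintro ⟨d, z⟩
    have := congrArg (fun y : XW S.W (Bj l s l) => y.1.1) z
    simp [lw, Sh.inc] at this
  · simpa [Sh.xd, Sh.inc] using m2 j hj
  · have := congrArg Finsupp.degree e
    rw [map_add, degree_col, degree_col, Sh.xd]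
    simp only [map_add, Finsupp.degree_single, Option.elim_some] at this ⊢
    omega
  · have z : ∀ d, ff S d (S.inc z0 j : XW S.W (Bj l s l)) = 0 := fun d => by
      rw [ff, if_neg fun z => by simpa [Sh.inc] using z.1]
    simp only [z, zero_mul, sum_const_zero, sub_zero]
    rw [← add_assoc, ← Finsupp.mapDomain_single (f := S.inc z0), ← Finsupp.mapDomain_add, e]
    refine ne_of_eq_of_ne ?_ m3
    refine (Fintype.sum_of_injective em (fun a b h => by simpa [em] using h) _ _
      (fun y hy => ?_) fun w => ?_).symm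
    · rw [r_mon]
      split_ifs with c
      · obtain ⟨⟨o, β'⟩, h'⟩ := y
        cases o with
        | some w => exact absurd ⟨w, Subtype.ext (Prod.ext rfl c)⟩ hy
        | none => simp [Sh.ru, Finsupp.support_nonempty_iff.1 ⟨j, hj⟩]
      · simp
    · rw [r_mon, if_pos rfl]; rfl

theorem gen2 (hl : l ≤ s) (ho : S.Ok) (k : XW S.W (Bj l s l) → ℤ)
    (hk : ∀ d, k (lw S hl d ∅) = 0) (β : Fin l × Bool →₀ ℕ) (hβ) (hx : k ⟨(none, β), hβ⟩ ≠ 0) :
    GG S hl k (S.xd (none, β)) := by
  classical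
  obtain ⟨x, hx', hmin⟩ := exists_min_image (univ.filter fun x : XW S.W (Bj l s l) =>
    x.1.1 = none ∧ x.1.2.degree = β.degree ∧ k x ≠ 0) (fun x => ∑ i, x.1.2 (i, true))
    ⟨⟨(none, β), hβ⟩, by simpa using hx⟩
  obtain ⟨x1, x2, x3⟩ := (mem_filter.1 hx').2
  have G : ∀ γ : Fin l × Bool →₀ ℕ, ∑ y, k y * er S y (γ.mapDomain (lt S hl)) =
      ∑ y with y.1 = (none, γ), k y := fun γ => by
    rw [sum_filter]
    refine sum_congr rfl fun y _ => ?_
    have := r_mon S hl y 0 γ
    rw [Finsupp.mapDomain_zero, zero_add] at this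
    rw [this]
    obtain ⟨⟨o, β'⟩, h'⟩ := y
    cases o with
    | none => by_cases c : γ = β' <;> simp [Sh.ru, c, eq_comm (a := β')]
    | some w => simp [Sh.ru, Mh.r_zero ho]
  have Gx : ∑ y with y.1 = (none, x.1.2), k y = k x :=
    sum_eq_single_of_mem x (by simp [← x1]) fun y hy c =>
      absurd (Subtype.ext ((mem_filter.1 hy).2.trans (Prod.ext x1.symm rfl))) c
  have key : ∀ (i : Fin l) (b : Bool), x.1.2 (i, b) ≠ 0 →
      (∀ y : XW S.W (Bj l s l), y.1 = (none, Finsupp.single (i, !b) 1 +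
        (x.1.2 - Finsupp.single (i, b) 1)) → k y = 0) →
      GG S hl k (S.xd (none, β)) := fun i b h0 h1 => by
    have e : Finsupp.single (i, b) 1 + (x.1.2 - Finsupp.single (i, b) 1) = x.1.2 :=
      add_tsub_cancel_of_le (Finsupp.single_le_iff.2 (Nat.pos_of_ne_zero h0))
    refine ⟨lt S hl (i, true), (x.1.2 - Finsupp.single (i, b) 1).mapDomain (lt S hl),
      ?_,
      by simp [Sh.xd, lt], ?_, fun y hy => dg_mon S hl (m := 0) (by simp) _ y
        (by rwa [Finsupp.mapDomain_zero, zero_add]), ?_⟩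
    · rintro ⟨d, z⟩
      have := congrArg (fun y : XW S.W (Bj l s l) => y.1.2 (i, true)) z
      simp [lw, lt, lf_apply] at this
    · have := congrArg Finsupp.degree e
      rw [degree_col, Sh.xd]
      simp only [map_add, Finsupp.degree_single, Option.elim_none] at this ⊢
      omega
    · let d : SW l := ⟨Finsupp.single i 1, mem_sqf.2 ⟨by simp, fun a => by
        rw [Finsupp.single_apply]; split_ifs <;> omega⟩⟩
      have a1 : lw S hl d ∅ = lt S hl (i, false) :=
        Subtype.ext (Prod.ext rfl (Finsupp.ext fun p => by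
          obtain ⟨i', b'⟩ := p
          cases b' <;> simp [lw, lt, lf_apply, d, Finsupp.single_apply]))
      have a2 : ∀ F : SW l → ℤ, ∑ w, ff S w (lt S hl (i, true)) * F w = -F d := fun F => by
        rw [sum_eq_single d (fun w _ c => ?_) (by simp), ff, if_pos ⟨rfl, by simp [lt, d]⟩]
        · simp [sn, lt, Finsupp.single_apply]
        · rw [ff, if_neg fun z => c (Subtype.ext (by simpa [lt, d] using z.2.symm)), zero_mul]
      simp only [a2, a1, sub_neg_eq_add, mul_add, sum_add_distrib,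
        ← Finsupp.mapDomain_single (f := lt S hl), ← Finsupp.mapDomain_add, G]
      have h2 := sum_eq_zero fun y (hy : y ∈ univ.filter fun y : XW S.W (Bj l s l) =>
        y.1 = (none, Finsupp.single (i, !b) 1 + (x.1.2 - Finsupp.single (i, b) 1))) =>
        h1 y (mem_filter.1 hy).2
      cases b
      · rw [e, Gx]; rw [Bool.not_false] at h2; rw [h2, zero_add]; exact x3
      · rw [e, Gx]; rw [Bool.not_true] at h2; rw [h2, add_zero]; exact x3
  by_cases c : ∃ i, x.1.2 (i, true) ≠ 0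
  · obtain ⟨i, hi⟩ := c
    refine key i true hi fun y hy => ?_
    by_contra z
    have e : Finsupp.single (i, true) 1 + (x.1.2 - Finsupp.single (i, true) 1) = x.1.2 :=
      add_tsub_cancel_of_le (Finsupp.single_le_iff.2 (Nat.pos_of_ne_zero hi))
    have a := hmin y (mem_filter.2 ⟨mem_univ _, by rw [hy], by
      rw [hy, ← x2]; conv_rhs => rw [← e]
      simp, z⟩)
    rw [hy, ← e] at a
    simp [sum_add_distrib, Finsupp.single_apply] at a
  · push Not at c
    by_cases c' : ∃ i, 2 ≤ x.1.2 (i, false)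
    · obtain ⟨i, hi⟩ := c'
      refine key i false (by omega) fun y hy => ?_
      have := (mem_Bj.1 (mem_X.1 y.2).2).2 i
      rw [hy] at this
      simp at this
      omega
    · push Not at c'
      have n0 : x.1.2 ≠ 0 := fun z => (mem_X.1 x.2).1 (Prod.ext x1 z)
      refine absurd ((congrArg k ?_).trans (hk ⟨x.1.2.mapDomain Prod.fst, mem_sqf.2
        ⟨fst_ne n0, fun i => by have := c' i; rw [fst_apply, c i]; omega⟩⟩)) x3
      refine Subtype.ext (Prod.ext x1 (Finsupp.ext fun p => ?_))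
      obtain ⟨i, b⟩ := p
      cases b <;> simp [lw, lf_apply, fst_apply, c]

end L1

open L1 in
theorem ls1 (hG : LGen) : LS1 := by
  intro σ τ S l n s a col κ hS hl hκ
  refine ⟨fun d => lw S hl d ∅, sym_ok col κ hκ, hm col κ S _ hl,
    (sym_K col κ).trans (cov0 κ S hl (E col S fun j => κ j / 2 ^ min j l).K fun _ _ h =>
      if_neg fun z => h z.1),
    fun (d d' : SW l) => ?_, fun (d : SW l) x => ?_, fun k hk x hx => ?_⟩
  · change ff S d (lw S hl d' ∅) = if d = d' then 1 else 0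
    simp only [ff, lw, fst_lf, true_and, sn, lf_apply, Subtype.ext_iff, eq_comm (a := d.1)]
    simp
  · change |ff S d x| ≤ _
    unfold ff
    split_ifs
    · simp [sn]
    · simp
  · obtain ⟨j, m, a1, a2, a3, a4, a5⟩ : GG S hl k (S.xd x.1) := by
      obtain ⟨⟨_ | w, β⟩, hβ⟩ := x
      · exact gen2 S hl hS.toOk k hk β hβ hx
      · exact gen1 S hl (((hG σ τ S).1 _).1 hS.gen) k w β hβ hx
    exact ⟨j, m, a1, (E_dg col S _ j).trans a2, a3.trans (E_dg col S _ x).symm,
      fun y hy => (E_dg col S _ y).trans (a4 y hy), a5⟩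

end Crest.Agent.N49.Tw

end
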