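import Crest.Agent.N49.Tw.Cext

/-!
# Row 49 (helper13): the substitution of old letters for the fresh letters is a split surjection
-/

set_option autoImplicit false
set_option linter.unusedSectionVars false

open Matrix MvPolynomial Finset

noncomputable section

namespace Crest.Agent.N49.Tw

open Po Xt

namespace Xs

variable {σ τ L : Type} [DecidableEq L] {S : Sh σ τ} {B : Finset (L →₀ ℕ)} {cl : L → σ}
  {lam : L → S.W} {v : ℕ → ℝ}

theorem cf_red (h : S.Ok) (w : S.W) {ν : S.W →₀ ℕ} (k : ν ≠ 0) (Q : MvPolynomial S.W ℤ) :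
    S.cf ℤ w (S.el (fun w' => S.r w' ν) * Q) = S.cf ℤ w (monomial ν 1 * Q) := by
  rw [h.cf_mul w (monomial ν 1), coeff_monomial, if_neg k, zero_mul, zero_add, Sh.el, sum_mul,
    map_sum]
  refine sum_congr rfl fun w' _ => ?_
  rw [smul_mul_assoc, map_smul, Sh.cf_monomial, one_mul, smul_eq_mul, Int.cast_id]

theorem cf_prod (h : S.Ok) (w : S.W) {X : Type} {ν : X → S.W →₀ ℕ} (k : ∀ x, ν x ≠ 0)
    (m : X →₀ ℕ) (Q : MvPolynomial S.W ℤ) :
    S.cf ℤ w (aeval (fun x => S.el fun w' => S.r w' (ν x)) (monomial m (1 : ℤ)) * Q) =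
      S.cf ℤ w (monomial (Finsupp.weight ν m) 1 * Q) := by
  have one : ∀ (x : X) (n : ℕ) (Q : MvPolynomial S.W ℤ),
      S.cf ℤ w (S.el (fun w' => S.r w' (ν x)) ^ n * Q) =
        S.cf ℤ w (monomial (n • ν x) 1 * Q) := fun x n => by
    induction n with
    | zero => simp
    | succ n ih =>
      intro Q
      rw [pow_succ, mul_assoc, ih, mul_left_comm, cf_red h w (k x), ← mul_assoc, monomial_mul,
        succ_nsmul', mul_one]
  induction m using Finsupp.induction_linear generalizing Q with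
  | zero => simp
  | add m m' a b =>
    have e : (monomial (m + m') 1 : MvPolynomial X ℤ) = monomial m 1 * monomial m' 1 := by
      rw [monomial_mul, mul_one]
    rw [e, map_mul (aeval _), mul_assoc, a, mul_left_comm, b, map_add, ← mul_assoc, monomial_mul,
      add_comm, mul_one]
  | single x n =>
    rw [← X_pow_eq_monomial, map_pow, aeval_X, Finsupp.weight_single]
    exact one x n Q

variable (lam) in
/-- the monomial substituted for a word -/
def nu (x : XW S.W B) : S.W →₀ ℕ := S.sg x.1.1 + x.1.2.mapDomain lam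

theorem nu_ne (x : XW S.W B) : nu lam x ≠ 0 := fun e => by
  have e1 := add_eq_zero.1 e
  have e2 : x.1.2 = 0 := (Finsupp.degree_eq_zero_iff _).1 (by
    rw [← Finsupp.degree_mapDomain lam, e1.2, map_zero])
  obtain ⟨w, k⟩ := xw_some e2
  simp [k, Sh.sg] at e1

theorem wt_nu (m : XW S.W B →₀ ℕ) :
    Finsupp.weight (nu lam) m = ws S B m + (wb S B m).mapDomain lam := by
  rw [ws, show Finsupp.mapDomain lam (wb S B m) = _ from
    wt_comp (Finsupp.mapDomain.addMonoidHom lam) _ m, ← wt_add]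
  rfl

theorem cd_lam (hl : ∀ a, S.cd (lam a) = Finsupp.single (cl a) 1) (β : L →₀ ℕ) :
    Finsupp.weight S.cd (β.mapDomain lam) = β.mapDomain cl := by
  rw [TS.weight_map, ← wt_single (β.mapDomain cl), TS.weight_map]
  exact wt_congr fun a _ => hl a

theorem f0_cd (h : S.Ok) (hl : ∀ a, S.cd (lam a) = Finsupp.single (cl a) 1) {w : S.W}
    {x : XW S.W B} (k : S.f0 B lam w x ≠ 0) : S.cd w = x.1.1.elim 0 S.cd + x.1.2.mapDomain cl := by
  rw [← h.gr w _ k, map_add, cd_sg, cd_lam hl]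

theorem f0_inc (h : S.Ok) (h0 : 0 ∈ B) (w w' : S.W) :
    S.f0 B lam w (S.inc h0 w') = if w = w' then 1 else 0 := by
  rw [← h.one]
  show S.r w (Finsupp.single w' 1 + Finsupp.mapDomain lam 0) = _
  rw [Finsupp.mapDomain_zero, add_zero]

theorem f0_mul (h : S.Ok) (hl : ∀ a, S.cd (lam a) = Finsupp.single (cl a) 1) {s : ℕ}
    (hs : ∀ w, S.dg w ≤ s) (hB : ∀ m, wb S B m ∉ B → s < (wb S B m).degree) (w : S.W)
    (m : XW S.W B →₀ ℕ) (k : m ≠ 0) : ∑ x : XW S.W B, S.f0 B lam w x * rx x m =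
      S.r w (Finsupp.weight (nu lam) m) := by
  rw [wt_nu]
  by_cases e : wb S B m ∈ B
  · have := ru_mul h (some w) (ws S B m) ((wb S B m).mapDomain lam)
    refine Eq.trans ?_ this.symm
    rw [← xsum e]
    · refine sum_congr rfl fun x _ => ?_
      unfold rx
      split_ifs with e'
      · rw [mul_comm, e']; rfl
      · rw [mul_zero]
    · intro z
      rw [ru_none, zero_mul]
      intro z'
      obtain ⟨y, hy⟩ := Finsupp.support_nonempty_iff.2 k
      obtain ⟨w, e'⟩ := xw_some (wt_zero z y hy)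
      have := wt_zero z' y hy
      simp [e', Sh.sg] at this
  · rw [sum_eq_zero fun x _ => by
      rw [rx, if_neg (c := wb S B m = x.1.2) fun e' => e (e' ▸ xw_mem x), mul_zero]]
    by_contra n
    have g := congrArg Finsupp.degree (h.gr w _ (Ne.symm n))
    rw [map_add, cd_lam hl, map_add, Finsupp.degree_mapDomain, Sh.cd_degree] at g
    have := hB m e
    have := hs w
    omega

theorem qf_k0 (z : S.W → ℝ) : qf (S.k0 B lam v) z = qf S.K z - ∑ x : XW S.W B,
    if x.1.2 = 0 then 0 else v (S.xd x.1) * (∑ w, S.f0 B lam w x * z w) ^ 2 := by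
  simp only [Sh.k0, qf, sub_mulVec, dotProduct_sub]
  congr 1
  simp only [dotProduct, mulVec, of_apply, sum_mul, mul_sum]
  rw [sum_congr rfl fun w _ => sum_comm, sum_comm]
  refine sum_congr rfl fun x _ => ?_
  split_ifs
  · simp
  · rw [sq, sum_mul_sum, mul_sum]
    refine sum_congr rfl fun w _ => ?_
    rw [mul_sum]
    exact sum_congr rfl fun w' _ => by ring

theorem k0_lo {n : ℕ} {a : ℝ} (h : S.Sz n a)
    (hv : ∀ j, 0 ≤ v j ∧ 2 * ((n + 1) ^ 4 * #B) * v j ≤ a) (z : S.W → ℝ) :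
    a / 2 * ∑ w, z w ^ 2 ≤ qf (S.k0 B lam v) z := by
  have p : 0 ≤ ∑ w, z w ^ 2 := sum_nonneg fun _ _ => sq_nonneg _
  have c : (Fintype.card (XW S.W B) : ℝ) ≤ (n + 1) * #B := by
    have : Fintype.card (XW S.W B) ≤ (n + 1) * #B := by
      rw [Fintype.card_coe]
      refine (card_erase_le).trans ?_
      rw [card_product, card_univ, Fintype.card_option]
      exact Nat.mul_le_mul_right _ (Nat.succ_le_succ h.card)
    exact_mod_cast this
  have b : ∀ x : XW S.W B, (∑ w, S.f0 B lam w x * z w) ^ 2 ≤ (n + 1) ^ 3 * ∑ w, z w ^ 2 :=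
    fun x => (sum_mul_sq_le_sq_mul_sq _ _ _).trans (mul_le_mul_of_nonneg_right (by
      refine (sum_le_card_nsmul _ _ ((n : ℝ) ^ 2) fun w _ => ?_).trans ?_
      · have : (|S.f0 B lam w x| : ℝ) ≤ n := by exact_mod_cast h.ht w _
        rw [← sq_abs]
        gcongr
      · have : (Fintype.card S.W : ℝ) ≤ n := by exact_mod_cast h.card
        rw [nsmul_eq_mul, card_univ]
        calc _ ≤ (n + 1 : ℝ) * (n + 1) ^ 2 := by gcongr <;> linarith
          _ = _ := by ring) p)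
  by_cases e : (#B : ℝ) = 0
  · have : IsEmpty (XW S.W B) := Fintype.card_eq_zero_iff.1 (by
      rw [e, mul_zero] at c; exact_mod_cast le_antisymm c (Nat.cast_nonneg _))
    have a0 := (hv 0).2
    rw [e, mul_zero, mul_zero, zero_mul] at a0
    rw [qf_k0, Fintype.sum_empty (ι := XW S.W B), sub_zero]
    exact le_trans (by nlinarith) (h.lo z)
  have p1 : (0 : ℝ) < (n + 1) * #B := by positivity
  have a0 : 0 ≤ a := le_trans (by have := (hv 0).1; positivity) (hv 0).2
  have t : ∀ x : XW S.W B, (if x.1.2 = 0 then 0 else v (S.xd x.1) *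
      (∑ w, S.f0 B lam w x * z w) ^ 2) ≤ a / 2 * (∑ w, z w ^ 2) / ((n + 1) * #B) := fun x => by
    split_ifs
    · positivity
    · rw [le_div_iff₀ p1]
      obtain ⟨v0, v1⟩ := hv (S.xd x.1)
      calc _ ≤ v (S.xd x.1) * ((n + 1) ^ 3 * ∑ w, z w ^ 2) * ((n + 1) * #B) := by
            gcongr; exact b x
        _ = 2 * ((n + 1) ^ 4 * #B) * v (S.xd x.1) / 2 * ∑ w, z w ^ 2 := by ring
        _ ≤ _ := by gcongr
  have s := sum_le_card_nsmul univ _ _ fun x _ => t x
  rw [nsmul_eq_mul, card_univ] at s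
  have s2 : (Fintype.card (XW S.W B) : ℝ) * (a / 2 * (∑ w, z w ^ 2) / ((n + 1) * #B)) ≤
      a / 2 * ∑ w, z w ^ 2 := by
    refine (mul_le_mul_of_nonneg_right c (by positivity)).trans (le_of_eq ?_)
    field_simp
  have := h.lo z
  rw [qf_k0]
  linarith

theorem k0_pd {n : ℕ} {a : ℝ} (h : S.Sz n a) (ha : 0 < a)
    (hv : ∀ j, 0 ≤ v j ∧ 2 * ((n + 1) ^ 4 * #B) * v j ≤ a) : (S.k0 B lam v).PosDef := by
  refine PosDef.of_dotProduct_mulVec_pos (h.pd.1.sub (Matrix.ext fun w w' => ?_)) fun z hz => ?_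
  · rw [conjTranspose_apply, of_apply, of_apply, star_trivial]
    exact sum_congr rfl fun x _ => by rw [mul_comm (S.f0 B lam w' x : ℝ)]
  · refine lt_of_lt_of_le (mul_pos (half_pos ha) ?_) (k0_lo (lam := lam) h hv z)
    obtain ⟨x, hx⟩ := Function.ne_iff.1 hz
    exact sum_pos' (fun _ _ => sq_nonneg _) ⟨x, mem_univ _, sq_pos_of_ne_zero hx⟩

theorem k0_blk (h : S.Ok) (hl : ∀ a, S.cd (lam a) = Finsupp.single (cl a) 1) (w w' : S.W)
    (k : S.k0 B lam v w w' ≠ 0) : S.cd w = S.cd w' := by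
  by_cases e : S.K w w' = 0
  · rw [Sh.k0, Matrix.sub_apply, e, zero_sub, neg_ne_zero, of_apply] at k
    obtain ⟨x, -, hx⟩ := exists_ne_zero_of_sum_ne_zero k
    split_ifs at hx
    · exact absurd rfl hx
    · have := right_ne_zero_of_mul hx
      exact (f0_cd h hl (Int.cast_ne_zero.1 (left_ne_zero_of_mul this))).trans
        (f0_cd h hl (Int.cast_ne_zero.1 (right_ne_zero_of_mul this))).symm
  · exact h.blk w w' e

theorem setK_sz {n : ℕ} {a a' : ℝ} (h : S.Sz n a) {K : Matrix S.W S.W ℝ} (p : K.PosDef)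
    (b : ∀ w w', K w w' ≠ 0 → S.cd w = S.cd w') (l : ∀ z : S.W → ℝ, a' * ∑ w, z w ^ 2 ≤ qf K z) :
    (S.setK K).Sz n a' :=
  ⟨⟨h.ne, h.one, h.gr, h.mul, h.eps, p, b⟩, h.card, h.ht, l, h.gen⟩

theorem k0_sz {n : ℕ} {a : ℝ} (h : S.Sz n a) (ha : 0 < a)
    (hl : ∀ a, S.cd (lam a) = Finsupp.single (cl a) 1)
    (hv : ∀ j, 0 ≤ v j ∧ 2 * ((n + 1) ^ 4 * #B) * v j ≤ a) :
    (S.setK (S.k0 B lam v)).Sz n (a / 2) :=
  setK_sz h (k0_pd h ha hv) (k0_blk h.toOk hl) (k0_lo h hv)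

theorem f0_K (h : S.Ok) (h0 : 0 ∈ B) {K : Matrix (XW S.W B) (XW S.W B) ℝ}
    (eK : ∀ x x', K x x' = if x.1.2 = 0 ∧ x'.1.2 = 0 then
      x.1.1.elim 0 (fun w => x'.1.1.elim 0 fun w' => S.k0 B lam v w w')
      else if x = x' then v (S.xd x.1) else 0) :
    S.K = rl (S.f0 B lam) * K * (rl (S.f0 B lam))ᵀ := by
  ext w w'
  have i : ∀ w w', rl (S.f0 B lam) w (S.inc h0 w') = if w = w' then 1 else 0 := fun w w' => by
    simp [rl, f0_inc h]
  simp only [mul_apply, transpose_apply]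
  rw [xsplit h0]
  simp only [i, mul_ite, mul_one, mul_zero, sum_ite_eq, mem_univ, if_true]
  rw [xsplit h0]
  simp only [i, ite_mul, one_mul, zero_mul, sum_ite_eq, mem_univ, if_true]
  rw [sum_eq_zero (s := filter _ _) (f := fun x => rl (S.f0 B lam) w x * K x (S.inc h0 w')),
    add_zero, eK, if_pos ⟨rfl, rfl⟩]
  · refine eq_add_of_sub_eq (Eq.symm ?_) |>.trans (add_comm _ _)
    change _ = S.K w w' - (S.K w w' - _)
    rw [sub_sub_cancel, of_apply, sum_filter]
    refine sum_congr rfl fun x _ => ?_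
    by_cases k : x.1.2 = 0
    · simp [k]
    · simp only [eK, k, and_false, if_false, ne_eq, not_false_eq_true, if_true, mul_ite, mul_zero,
        sum_ite_eq', mem_univ, rl, map_apply]
      ring
  · intro x hx
    have k := (mem_filter.1 hx).2
    rw [eK, if_neg fun e => k e.1, if_neg (c := x = S.inc h0 w') fun e => k (e ▸ rfl), mul_zero]

theorem f0_gen (h : S.Ok) (hB : Dn B) (h0 : 0 ∈ B) (hg : S.Gen' fun _ => False)
    (hl : ∀ a, S.cd (lam a) = Finsupp.single (cl a) 1) (κ : XW S.W B → ℤ)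
    (hκ : ∀ w, κ (S.inc h0 w) = 0) (x0 : XW S.W B) (hx0 : κ x0 ≠ 0) :
    ∃ (j : XW S.W B) (m : XW S.W B →₀ ℕ), j ∉ Set.range (S.inc h0) ∧ S.xd j.1 = 1 ∧
      m.degree + 1 = S.xd x0.1 ∧ (∀ y ∈ m.support, S.xd y.1 = 1) ∧
      ∑ y, κ y * (rx y (Finsupp.single j 1 + m) -
        ∑ w, S.f0 B lam w j * rx y (Finsupp.single (S.inc h0 w) 1 + m)) ≠ 0 := by
  obtain ⟨x, hx, hmin⟩ := exists_min_image {x : XW S.W B | κ x ≠ 0 ∧ S.xd x.1 = S.xd x0.1}
    (fun x => x.1.2.degree) ⟨x0, by simpa using hx0⟩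
  obtain ⟨hx, ex⟩ := (mem_filter.1 hx).2
  have b0 : x.1.2 ≠ 0 := fun e => by
    obtain ⟨w, e'⟩ := xw_inc h0 e
    exact hx (e' ▸ hκ w)
  obtain ⟨i, hi⟩ := Finsupp.support_nonempty_iff.2 b0
  have le : Finsupp.single i 1 ≤ x.1.2 :=
    Finsupp.single_le_iff.2 (Nat.one_le_iff_ne_zero.2 (Finsupp.mem_support_iff.1 hi))
  obtain ⟨β, eβ⟩ := exists_add_of_le le
  have dβ : x.1.2.degree = 1 + β.degree := by rw [eβ, map_add, Finsupp.degree_single]
  obtain ⟨m1, a1, a2, a3, a4⟩ := fresh (S := S) hB (hB _ (xw_mem x) β (eβ ▸ le_add_self))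
  let j : XW S.W B := ⟨(none, Finsupp.single i 1), mem_xw.2 ⟨by simp, hB _ (xw_mem x) _ le⟩⟩
  let κ' : Option S.W → ℤ := fun o => κ ⟨(o, x.1.2), mem_xw.2 ⟨by simp [b0], xw_mem x⟩⟩
  obtain ⟨m0, b1, b2, b3⟩ : ∃ m0 : S.W →₀ ℕ, m0.degree = x.1.1.elim 0 S.dg ∧
      (∀ w ∈ m0.support, S.dg w = 1) ∧ ∑ o, κ' o * S.ru o m0 ≠ 0 := by
    have hκ' : κ' x.1.1 = κ x := rfl
    cases e : x.1.1 with
    | none =>
      rw [e] at hκ'
      exact ⟨0, rfl, by simp, by simpa [ru_zero h, hκ'] using hx⟩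
    | some w =>
      rw [e] at hκ'
      obtain ⟨m0, b1, b2, ⟨y, hy, -⟩, b4⟩ := hg (fun w => κ' (some w)) (fun _ k => k.elim) w
        (hκ' ▸ hx)
      refine ⟨m0, b1, b2, ?_⟩
      rw [Fintype.sum_option, ru_none (Finsupp.support_nonempty_iff.1 ⟨y, hy⟩), mul_zero,
        zero_add]
      exact b4
  have w0 : Finsupp.weight S.dg m0 = m0.degree := by
    rw [wt_congr b2, Finsupp.degree_eq_weight_one]
  refine ⟨j, m1 + m0.mapDomain (S.inc h0), fun ⟨w, e⟩ => ?_, by simp [j, Sh.xd], ?_,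
    fun y hy => ?_, ?_⟩
  · exact Option.some_ne_none w (congrArg (fun x : XW S.W B => x.1.1) e)
  · rw [map_add, a3, Finsupp.degree_mapDomain, b1, ← ex, Sh.xd, dβ]
    omega
  · rcases mem_union.1 (Finsupp.support_add hy) with k | k
    · exact a4 y k
    · obtain ⟨w, k1, rfl⟩ := mem_image.1 (Finsupp.mapDomain_support k)
      simpa [Sh.xd, Sh.inc] using b2 w k1
  · refine Eq.trans_ne ?_ b3
    rw [← xsum (xw_mem x) _ fun e => absurd e b0]
    refine sum_congr rfl fun y _ => ?_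
    have z : κ y * ∑ w, S.f0 B lam w j * rx y (Finsupp.single (S.inc h0 w) 1 +
        (m1 + m0.mapDomain (S.inc h0))) = 0 := by
      by_contra n
      obtain ⟨w, -, k⟩ := exists_ne_zero_of_sum_ne_zero (right_ne_zero_of_mul n)
      have k1 := congrArg Finsupp.degree (f0_cd h hl (left_ne_zero_of_mul k))
      have k2 := right_ne_zero_of_mul k
      simp only [rx, map_add, wb_single, ws_single, a1, a2, wb_inc, ws_inc, add_zero,
        zero_add] at k2
      split_ifs at k2 with e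
      · have k3 := congrArg Finsupp.degree (ru_gr h k2)
        have e' : y.1.2 = β := by rw [← e]; exact zero_add _
        rw [← Sh.weight_dg, map_add, w0, b1] at k3
        have k4 : Finsupp.weight S.dg (S.sg (S.inc h0 w).1.1) = 1 := by
          simpa [Sh.inc, Sh.sg, Finsupp.weight_single, j, Sh.cd_degree] using k1
        have k5 : (y.1.1.elim 0 S.cd).degree = y.1.1.elim 0 S.dg := by
          cases y.1.1 <;> simp [Sh.cd_degree]
        have := hmin y (mem_filter.2 ⟨mem_univ _, left_ne_zero_of_mul n, by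
          rw [← ex, Sh.xd, Sh.xd, e', dβ, ← k5, ← k3, k4]; omega⟩)
        simp only [e', dβ] at this
        omega
      · exact k2 rfl
    rw [mul_sub, z, sub_zero]
    simp only [rx, map_add, wb_single, ws_single, a1, a2, wb_inc, ws_inc, add_zero, zero_add]
    rw [show j.1.2 + β = x.1.2 from eβ.symm, show S.sg j.1.1 + m0 = m0 from zero_add _]
    split_ifs with e
    · congr 1
      exact congrArg κ (Subtype.ext (Prod.ext rfl e.symm))
    · rw [mul_zero]

theorem mem_bj {l s : ℕ} {β : Fin l × Bool →₀ ℕ} :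
    β ∈ Bj l s 0 ↔ β.degree ≤ s ∧ ∀ i, β (i, true) = 0 := by
  simp only [Bj, full, mem_filter, mem_biUnion, mem_range, mem_finsuppAntidiag, subset_univ,
    and_true, ← Finsupp.degree_eq_sum, Nat.zero_le, forall_true_left]
  exact ⟨fun ⟨⟨_, a, b⟩, c⟩ => ⟨by omega, c.2⟩,
    fun ⟨a, b⟩ => ⟨⟨_, Nat.lt_succ_of_le a, rfl⟩, fun i => .inr (b i), b⟩⟩

end Xs

open Xs in
theorem ls0 (hG : LGen) (_ : LExt) : LS0 := by
  intro σ τ S l n s a col lam v h0 h ha hs hl hv
  have hB : Dn (Bj l s 0) := fun μ hμ ν e => mem_bj.2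
    ⟨(Finsupp.degree_mono e).trans (mem_bj.1 hμ).1,
      fun i => Nat.le_zero.1 ((mem_bj.1 hμ).2 i ▸ e (i, true))⟩
  have hl' : ∀ x : Fin l × Bool, S.cd (lam x.1) = Finsupp.single (col x.1) 1 := fun x => hl x.1
  refine ⟨k0_sz h ha hl' hv, h.toOk, ⟨fun w (x : XW S.W _) k => ?_, fun w m k => ?_, ?_⟩,
    f0_K h.toOk h0 fun _ _ => rfl, f0_inc h.toOk h0, fun w x => h.ht w _, fun κ hκ x hx => ?_⟩
  · exact (f0_cd h.toOk hl' k).trans Finsupp.mapDomain_id.symm
  · refine (f0_mul h.toOk hl' hs (fun m e => ?_) w m k).trans ?_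
    · by_contra c
      refine e (mem_bj.2 ⟨not_lt.1 c, fun i => ?_⟩)
      rw [wb, Finsupp.weight_apply, Finsupp.sum, Finsupp.finsetSum_apply]
      exact sum_eq_zero fun y _ => by simp [(mem_bj.1 (xw_mem y)).2 i]
    · have := cf_prod h.toOk w (nu_ne (lam := fun x : Fin l × Bool => lam x.1)) m 1
      rw [mul_one, mul_one, Sh.cf_monomial, one_mul, Int.cast_id] at this
      exact this.symm
  · funext w
    change ∑ x : XW S.W _, _ * (if x.1.2 = 0 then x.1.1.elim 0 S.ε else 0) = _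
    rw [xsplit h0, sum_eq_zero (s := filter _ _) fun x hx => by
      rw [if_neg (mem_filter.1 hx).2, mul_zero], add_zero]
    simp only [f0_inc h.toOk]
    simp [Sh.inc]
  · obtain ⟨j, m, a1, a2, a3, a4, a5⟩ := f0_gen h.toOk hB h0 (((hG _ _ S).1 _).1 h.gen) hl' κ hκ x hx
    have d := fun y : XW S.W (Bj l s 0) =>
      ext_dg (S := S) (cl := fun x : Fin l × Bool => col x.1) (v := v) y
    exact ⟨j, m, a1, (d j).trans a2, a3.trans (d x).symm, fun y hy => (d y).trans (a4 y hy), a5⟩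

end Crest.Agent.N49.Tw

end
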