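import Crest.Agent.N49.Tw.Cc0
import Crest.Agent.N49.Tw.Ccs
import Crest.Agent.N49.Tw.Cs0
import Crest.Agent.N49.Tw.Cls1
import Crest.Agent.N49.Tw.Cgen

/-!
# Row 49 (helper10): the core estimate of the characteristic lemma
-/

set_option autoImplicit false
set_option linter.unusedSectionVars false

open Matrix MvPolynomial Finset

noncomputable section

namespace Crest.Agent.N49.Tw

open Po

namespace Ch1

theorem ee_sub (s t : ℝ) : ee (s - t) = ee s * (starRingEnd ℂ) (ee t) := by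
  rw [sub_eq_add_neg, ee_add, ee, ee, ee, ← Complex.exp_conj]
  congr 2
  simp [map_ofNat]

section gen
variable {σ τ τ' : Type} [DecidableEq σ] {T : TS σ} {S : Sh σ τ} {S' : Sh σ τ'}

variable (T S) in
/-- one coefficient of one polynomial -/
def cv (P : MvPolynomial T.C (MvPolynomial S.W ℝ)) (x : S.W) (y : T.Cw S → ℤ) : ℝ :=
  S.cf ℝ x (eval (T.Yw S (zc y)) P)

theorem cv_hm {φ : Matrix S'.W S.W ℤ} (h : S.Hm S' φ) (o : S.Ok) (o' : S'.Ok)
    (P : MvPolynomial T.C (MvPolynomial S.W ℝ)) (w : S'.W) (y : T.Cw S → ℤ) :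
    cv T S' (map (S.pu S' φ) P) w (T.hm S S' φ y) = ∑ x, φ w x * cv T S P x y := by
  have e : eval (T.Yw S' (T.hmM S S' (rl φ) *ᵥ zc y)) (map (S.pu S' φ) P) =
      Sh.hA ℝ S' φ (eval (T.Yw S (zc y)) P) := by
    rw [eval_map, ← Sh.pu_eq, eval, coe_eval₂Hom, eval₂_comp_left, RingHom.comp_id]
    congr 1
    exact funext fun F => (TS.hA_Yw h.cd (zc y) F).symm
  rw [cv, TS.zc_hm, e, h.cf o o']
  rfl

theorem cv_pb {e : S.W → S'.W} (h : S.Ch S' e) (P : MvPolynomial T.C (MvPolynomial S'.W ℝ))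
    (x : S.W) (y : T.Cw S' → ℤ) :
    cv T S (map (killCompl h.inj).toRingHom P) x (T.pb S h y) = cv T S' P (e x) y := by
  have : T.Yw S (zc (T.pb S h y)) = fun F => killCompl h.inj (T.Yw S' (zc y) F) :=
    funext fun F => (TS.kill_Yw h (zc y) F).symm
  rw [cv, cv, this]
  exact ((h.cf _ _).trans (congrArg _ (map_eval (killCompl h.inj).toRingHom _ _))).symm

theorem cv_sum {J : Type} [Fintype J] (c : J → ℤ) (P : J → MvPolynomial T.C (MvPolynomial S.W ℝ))
    (x : S.W) (y : T.Cw S → ℤ) : cv T S (∑ j, c j • P j) x y = ∑ j, c j * cv T S (P j) x y := by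
  simp only [cv, map_sum, map_zsmul]
  simp only [zsmul_eq_mul]

theorem cv_zero (x : S.W) (y : T.Cw S → ℤ) : cv T S 0 x y = 0 := by simp [cv]

theorem adm_ren {st : T.C → ℕ} {Ψ : T.Twd S} (h : T.Adm S st Ψ) (f : S.W → S'.W)
    (hf : ∀ w, S'.dg (f w) = S.dg w) :
    T.Adm S' st fun F => map (rename f).toRingHom (Ψ F) where
  gr F m ν z := by
    rw [coeff_map] at z
    obtain ⟨u, rfl, k⟩ := coeff_rename_ne_zero f _ ν z
    rw [TS.weight_map, funext hf]
    exact h.gr F m k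
  le F m hm := h.le F m (support_map_subset _ _ hm)
  top F m e := (coeff_map _ _ _).trans ((congrArg (rename f) (h.top F m e)).trans (algHom_C _ _))

omit [DecidableEq σ] in
theorem sum_cn {q : S.W → Prop} [DecidablePred q] {e1 e2 : S.W → S'.W} (h : S.Cn S' q e1 e2)
    (F : S'.W → ℝ) : ∑ x, F x = ∑ x, (F (e1 x) + if q x then 0 else F (e2 x)) := by
  have d : Disjoint (univ.image e1) ((univ.filter fun x => ¬ q x).image e2) := by
    rw [disjoint_left]
    intro a ha hb
    obtain ⟨x, -, rfl⟩ := mem_image.1 ha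
    obtain ⟨x', k, e⟩ := mem_image.1 hb
    exact (mem_filter.1 k).2 (h.ne _ _ e.symm)
  have u : (univ : Finset S'.W) = univ.image e1 ∪ (univ.filter fun x => ¬ q x).image e2 := by
    refine (eq_univ_of_forall fun a => ?_).symm
    rcases h.all a with ⟨x, rfl⟩ | ⟨x, rfl⟩
    · exact mem_union_left _ (mem_image_of_mem _ (mem_univ _))
    · by_cases k : q x
      · exact mem_union_left _ (mem_image.2 ⟨x, mem_univ _, h.eq x k⟩)
      · exact mem_union_right _ (mem_image_of_mem _ (mem_filter.2 ⟨mem_univ _, k⟩))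
  rw [u, sum_union d, sum_image h.c1.inj.injOn, sum_image h.c2.inj.injOn, sum_add_distrib,
    sum_filter]
  exact congrArg _ (sum_congr rfl fun x _ => by split_ifs <;> rfl)

theorem step {q : S.W → Prop} [DecidablePred q] {e1 e2 : S.W → S'.W} (h : S.Cn S' q e1 e2)
    (C : S.W → ℤ) (C' : S'.W → ℤ) {P : MvPolynomial T.C (MvPolynomial S.W ℝ)}
    {P' : MvPolynomial T.C (MvPolynomial S'.W ℝ)}
    (k1 : map (killCompl h.c1.inj).toRingHom P' = P) (k2 : map (killCompl h.c2.inj).toRingHom P' = P)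
    (h0 : ∀ x, q x → C' (e1 x) = 0) (h1 : ∀ x, ¬ q x → C' (e1 x) = C x ∧ C' (e2 x) = -C x)
    (y : T.Cw S' → ℤ) : ∑ x, C' x * cv T S' P' x y =
      ∑ x, C x * cv T S P x (T.pb S h.c1 y) - ∑ x, C x * cv T S P x (T.pb S h.c2 y) := by
  rw [sum_cn h, ← sum_sub_distrib]
  refine sum_congr rfl fun x _ => ?_
  have a1 := cv_pb h.c1 P' x y
  have a2 := cv_pb h.c2 P' x y
  rw [k1] at a1
  rw [k2] at a2
  rw [a1, a2]
  split_ifs with k
  · rw [h0 x k, h.eq x k]
    simp
  · rw [(h1 x k).1, (h1 x k).2]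
    push_cast
    ring

omit [DecidableEq σ] in
theorem pu_ren {α : Type} (φ : Matrix S'.W S.W ℤ) (f : α → S.W) (P : MvPolynomial α ℝ) :
    S.pu S' φ (rename f P) = aeval (fun a => S'.el (R := ℝ) fun w => φ w (f a)) P :=
  aeval_rename _ _ _

end gen

/-- the sign of one letter -/
def sg {l : ℕ} (β : Fin l × Bool →₀ ℕ) (i : Fin l) : ℤ :=
  if β (i, true) ≠ 0 then -1 else if β (i, false) ≠ 0 then 1 else 0

/-- the sign of a word after `j` steps -/
def cj {l : ℕ} (j : ℕ) (β : Fin l × Bool →₀ ℕ) : ℤ := ∏ i : Fin l with i.1 < j, sg β i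

theorem cj_succ {l : ℕ} (j : Fin l) (β : Fin l × Bool →₀ ℕ) :
    cj (j + 1) β = sg β j * cj j β := by
  rw [cj, cj, ← prod_insert (by simp)]
  refine prod_congr (Finset.ext fun i => ?_) fun _ _ => rfl
  simp only [mem_filter, mem_univ, true_and, mem_insert, Fin.ext_iff]
  omega

theorem cj_sw {l : ℕ} (j : Fin l) (β : Fin l × Bool →₀ ℕ) :
    cj j (Finsupp.domCongr (Cc.sw j) β) = cj j β := prod_congr rfl fun i hi => by
  have : i ≠ j := fun e => absurd (mem_filter.1 hi).2 (by rw [e]; exact lt_irrefl _)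
  rw [sg, sg, Cc.dc_sw, Cc.dc_sw, if_neg this, if_neg this]

/-- the words that survive -/
theorem cj_top {l : ℕ} {β : Fin l × Bool →₀ ℕ} (h : cj l β ≠ 0) (hd : β.degree ≤ l) :
    β.mapDomain Prod.fst = ∑ i, Finsupp.single i 1 ∧ β.degree = l ∧
      cj l β = (-1) ^ ∑ i, β (i, true) := by
  have a : ∀ i, 1 ≤ β (i, true) + β (i, false) := fun i => by
    have := prod_ne_zero_iff.1 h i (mem_filter.2 ⟨mem_univ _, i.2⟩)
    rw [sg] at this
    split_ifs at this with x y
    · omega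
    · omega
    · exact absurd rfl this
  have d : β.degree = ∑ i, (β (i, true) + β (i, false)) := by
    rw [Finsupp.degree_eq_sum, Fintype.sum_prod_type]
    exact sum_congr rfl fun i _ => Fintype.sum_bool _
  have s : ∑ _ : Fin l, 1 = l := by simp
  have b : ∀ i, 1 = β (i, true) + β (i, false) := fun i =>
    (sum_eq_sum_iff_of_le fun i _ => a i).1 (le_antisymm (sum_le_sum fun i _ => a i)
      (by rw [← d, s]; exact hd)) i (mem_univ _)
  refine ⟨Finsupp.ext fun i => ?_, by rw [d, ← sum_congr rfl fun i _ => b i, s], ?_⟩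
  · rw [L1.fst_apply, Finsupp.finsetSum_apply]
    have := b i
    simp only [Finsupp.single_apply, sum_ite_eq', mem_univ, if_true]
    omega
  · rw [cj, ← prod_pow_eq_pow_sum, filter_true_of_mem fun i _ => i.2]
    refine prod_congr rfl fun i _ => ?_
    have := b i
    rw [sg]
    split_ifs with x y
    · rw [show β (i, true) = 1 by omega, pow_one]
    · rw [not_not.1 x, pow_zero]
    · omega

theorem cj_one {l : ℕ} {β : Fin l × Bool →₀ ℕ}
    (h : β.mapDomain Prod.fst = ∑ i, Finsupp.single i 1) : cj l β ≠ 0 ∧ β.degree = l := by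
  refine ⟨prod_ne_zero_iff.2 fun i _ => ?_, ?_⟩
  · have := L1.fst_apply β i
    rw [h, Finsupp.finsetSum_apply] at this
    simp only [Finsupp.single_apply, sum_ite_eq', mem_univ, if_true] at this
    rw [sg]
    split_ifs <;> omega
  · rw [← degree_col Prod.fst, h, map_sum]; simp

section chain
variable {σ τ : Type} [DecidableEq σ] (T : TS σ) (S : Sh σ τ) {l : ℕ} (s : ℕ) (col : Fin l → σ)
  (lam : Fin l → S.W) (v : ℕ → ℝ)

/-- the chain of shapes -/
abbrev E (j : ℕ) : Sh σ σ := S.ext (fun x => col x.1) (Bj l s j) v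

/-- lifts -/
def lf (j : ℕ) (P : MvPolynomial T.C (MvPolynomial S.W ℝ)) :
    MvPolynomial T.C (MvPolynomial (E S s col v j).W ℝ) :=
  map (rename (S.inc (Cc.zero_Bj l s j))).toRingHom P

/-- the coefficients of the phases -/
def co (j : ℕ) (w : S.W) (x : XW S.W (Bj l s j)) : ℤ :=
  cj j x.1.2 * S.f0 (Bj l s j) (fun a => lam a.1) w x

/-- the phases -/
def phs (Θ : S.W → MvPolynomial T.C (MvPolynomial S.W ℝ)) (j : ℕ) (y : T.Cw (E S s col v j) → ℤ) :
    ℝ := ∑ w, ∑ x : (E S s col v j).W, co S s lam j w x *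
      cv T (E S s col v j) (lf T S s col v j (Θ w)) x y

theorem kill_lf {j j' : ℕ} {e : (E S s col v j).W → (E S s col v j').W} (h : Function.Injective e)
    (k : ∀ w, e (S.inc (Cc.zero_Bj l s j) w) = S.inc (Cc.zero_Bj l s j') w)
    (P : MvPolynomial T.C (MvPolynomial S.W ℝ)) :
    map (killCompl h).toRingHom (lf T S s col v j' P) = lf T S s col v j P := by
  refine (MvPolynomial.map_map _ _ _).trans (congrArg (MvPolynomial.map · P) (RingHom.ext fun Q => ?_))
  refine Eq.trans (congrArg (killCompl h) ?_) (killCompl_rename_app h _)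
  exact ((rename_rename _ _ Q).trans (congrArg (rename · Q) (funext k))).symm

theorem xe_inc {L : Type} [DecidableEq L] {B B' : Finset (L →₀ ℕ)} (π : L ≃ L)
    (h : ∀ β ∈ B, Finsupp.domCongr π β ∈ B') (h0 : 0 ∈ B) (h0' : 0 ∈ B') (w : S.W) :
    Cc.xe π h (S.inc h0 w) = S.inc h0' w := Subtype.ext (Prod.ext rfl (map_zero _))

theorem co_step (j : Fin l) (w : S.W) (x : XW S.W (Bj l s j)) :
    co S s lam (j + 1) w (Cc.xe _ (Cc.h1 j) x) = sg x.1.2 j * co S s lam j w x ∧
    co S s lam (j + 1) w (Cc.xe _ (Cc.h2 j) x) =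
      sg (Finsupp.domCongr (Cc.sw j) x.1.2) j * co S s lam j w x := by
  have f1 : S.f0 (Bj l s (j + 1)) (fun a => lam a.1) w (Cc.xe _ (Cc.h1 j) x) =
      S.f0 (Bj l s j) (fun a => lam a.1) w x :=
    congrArg (fun β => S.r w (S.sg x.1.1 + β)) (Cc.map_dc (fun _ => rfl) _)
  have f2 : S.f0 (Bj l s (j + 1)) (fun a => lam a.1) w (Cc.xe _ (Cc.h2 j) x) =
      S.f0 (Bj l s j) (fun a => lam a.1) w x :=
    congrArg (fun β => S.r w (S.sg x.1.1 + β))
      (Cc.map_dc (f := fun a => lam a.1) (fun a => congrArg lam (Cc.sw_fst j a)) _)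
  have c1 : cj (j + 1) (Cc.xe _ (Cc.h1 j) x).1.2 = sg x.1.2 j * cj j x.1.2 :=
    (congrArg (cj (j + 1)) (Cc.dc_rf x.1.2)).trans (cj_succ j _)
  have c2 : cj (j + 1) (Cc.xe _ (Cc.h2 j) x).1.2 =
      sg (Finsupp.domCongr (Cc.sw j) x.1.2) j * cj j x.1.2 :=
    (cj_succ j _).trans (congrArg _ (cj_sw j x.1.2))
  rw [co, co, co, f1, f2, c1, c2, mul_assoc, mul_assoc]
  exact ⟨rfl, rfl⟩

theorem phs_succ (Θ : S.W → MvPolynomial T.C (MvPolynomial S.W ℝ)) (j : Fin l)
    (y : T.Cw (E S s col v (j + 1)) → ℤ) : phs T S s col lam v Θ (j + 1) y =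
      phs T S s col lam v Θ j (T.pb _ (Cc.cn (S := S) (s := s) j col v).c1 y) -
        phs T S s col lam v Θ j (T.pb _ (Cc.cn (S := S) (s := s) j col v).c2 y) := by
  have h := Cc.cn (S := S) (s := s) j col v
  rw [phs, phs, phs, ← sum_sub_distrib]
  refine sum_congr rfl fun w _ => step h (co S s lam j w) (co S s lam (j + 1) w)
    (kill_lf T S s col v h.c1.inj (xe_inc S _ _ _ _) (Θ w))
    (kill_lf T S s col v h.c2.inj (xe_inc S _ _ _ _) (Θ w))
    (fun (x : XW S.W (Bj l s j)) k => ?_) (fun (x : XW S.W (Bj l s j)) k => ?_) y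
  · have t := (Cc.mem_Bj.1 (Cc.XW.mem x)).2.2 j le_rfl
    have : sg x.1.2 j = 0 := by simp [sg, t, k]
    rw [(co_step S s lam j w x).1, this, zero_mul]
  · have t := (Cc.mem_Bj.1 (Cc.XW.mem x)).2.2 j le_rfl
    have b1 : sg x.1.2 j = 1 := by simp [sg, t, k]
    have b2 : sg (Finsupp.domCongr (Cc.sw j) x.1.2) j = -1 := by
      rw [sg, Cc.dc_sw, if_pos rfl, if_pos]; exact k
    rw [(co_step S s lam j w x).1, (co_step S s lam j w x).2, b1, b2]
    exact ⟨one_mul _, neg_one_mul _⟩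

theorem top_eq {μ : Fin l →₀ ℕ} (h : ∀ a, μ a ≤ 1) (d : μ.degree = l) :
    μ = ∑ i, Finsupp.single i 1 := Finsupp.ext fun i => by
  rw [Finsupp.finsetSum_apply]
  simp only [Finsupp.single_apply, sum_ite_eq', mem_univ, if_true]
  exact (sum_eq_sum_iff_of_le fun i _ => h i).1 (by rw [← Finsupp.degree_eq_sum, d]; simp) i
    (mem_univ _)

variable {S} in
theorem co_top (o : S.Ok) (hl : ∀ i, S.cd (lam i) = Finsupp.single (col i) 1) {w : S.W}
    (hw : S.dg w = l) (x : XW S.W (Bj l s l)) (κ : ℕ → ℝ) :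
    co S s lam l w x = ∑ d : (Sh.sym col κ).W, S.f1 (Bj l s l) col κ d x *
      if (Sh.sym col κ).dg d = l then S.r w (∑ i, Finsupp.single (lam i) 1) else 0 := by
  by_cases k : x.1.1 = none ∧ x.1.2.mapDomain Prod.fst = ∑ i, Finsupp.single i 1
  · obtain ⟨a, b⟩ := cj_one k.2
    have m : x.1.2.mapDomain Prod.fst ∈ (sqf (Fin l) l).erase 0 := L1.mem_sqf.2
      ⟨L1.fst_ne fun z => (Cc.mem_XW.1 x.2).1 (Prod.ext k.1 z), fun i => by
        rw [k.2, Finsupp.finsetSum_apply]; simp [Finsupp.single_apply]⟩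
    refine Eq.trans ?_ (sum_eq_single (⟨_, m⟩ : (Sh.sym col κ).W) (fun d _ n => mul_eq_zero_of_left
      (if_neg fun z => n (Subtype.ext z.2.symm)) _) fun z => absurd (mem_univ _) z).symm
    refine congrArg₂ (· * ·) ((cj_top a b.le).2.2.trans (if_pos ⟨k.1, rfl⟩).symm)
      (Eq.trans ?_ (if_pos ((degree_col Prod.fst _).trans b)).symm)
    refine congrArg (S.r w) ?_
    rw [k.1, Sh.sg, Option.elim_none, zero_add,
      show (fun a : Fin l × Bool => lam a.1) = lam ∘ Prod.fst from rfl, Finsupp.mapDomain_comp, k.2,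
      Finsupp.mapDomain_finsetSum]
    simp only [Finsupp.mapDomain_single]
  · refine Eq.trans (by_contra fun z => k ?_) (sum_eq_zero fun d _ => by_contra fun z => k ?_).symm
    · have g := o.gr_dg (right_ne_zero_of_mul z)
      have e : ∀ i, S.dg (lam i) = 1 := fun i => by
        rw [← Sh.cd_degree, hl, Finsupp.degree_single]
      have e2 : Finsupp.weight (fun a : Fin l × Bool => S.dg (lam a.1)) x.1.2 = x.1.2.degree :=
        Cg.weight_one fun a _ => e a.1
      rw [map_add, TS.weight_map, e2, hw] at g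
      obtain ⟨a, b, -⟩ := cj_top (left_ne_zero_of_mul z) (by omega)
      refine ⟨?_, a⟩
      rcases hx : x.1.1 with _ | u
      · rfl
      · have := o.dg_pos u
        rw [hx, Sh.sg, Option.elim_some, Finsupp.weight_single, one_smul] at g
        omega
    · have a : x.1.1 = none ∧ x.1.2.mapDomain Prod.fst = d.1 :=
        by_contra fun n => left_ne_zero_of_mul z (if_neg n)
      have b : (Sh.sym col κ).dg d = l := by_contra fun n => right_ne_zero_of_mul z (if_neg n)
      exact ⟨a.1, a.2.trans (top_eq (L1.mem_sqf.1 d.2).2 b)⟩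

theorem lf_sum {J : Type} [Fintype J] (j : ℕ) (c : J → ℤ)
    (P : J → MvPolynomial T.C (MvPolynomial S.W ℝ)) :
    lf T S s col v j (∑ i, c i • P i) = ∑ i, c i • lf T S s col v j (P i) := by
  simp only [lf, map_sum, map_zsmul]
  rfl

theorem pu_f1 (κ : ℕ → ℝ) (P : MvPolynomial T.C (MvPolynomial S.W ℝ)) :
    map ((E S s col v l).pu (Sh.sym col κ) (S.f1 (Bj l s l) col κ)) (lf T S s col v l P) =
      T.c0 S (Sh.sym col κ) P := by
  refine (MvPolynomial.map_map _ _ _).trans (congrArg (MvPolynomial.map · P)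
    (RingHom.ext fun Q => (pu_ren _ _ Q).trans ?_))
  have : (fun a : S.W => (Sh.sym col κ).el (R := ℝ) fun w =>
      S.f1 (Bj l s l) col κ w (S.inc (Cc.zero_Bj l s l) a)) = fun _ => 0 := funext fun a =>
    sum_eq_zero fun w _ => by
      have : S.f1 (Bj l s l) col κ w (S.inc (Cc.zero_Bj l s l) a) = 0 := by
        rw [Sh.f1, Matrix.of_apply]
        exact if_neg fun z => by cases z.1
      exact (congrArg (· • _) this).trans (zero_smul ℤ _)
  exact (congrArg (aeval · Q) this).trans (aeval_zero' Q)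

variable {S} in
theorem phs_top (o : S.Ok) (hl : ∀ i, S.cd (lam i) = Finsupp.single (col i) 1)
    {Θ : S.W → MvPolynomial T.C (MvPolynomial S.W ℝ)} (hΘ : ∀ w, Θ w ≠ 0 → S.dg w = l) (κ : ℕ → ℝ)
    (h : (E S s col v l).Hm (Sh.sym col κ) (S.f1 (Bj l s l) col κ)) (o1 : (E S s col v l).Ok)
    (o2 : (Sh.sym col κ).Ok) (y : T.Cw (E S s col v l) → ℤ) :
    T.val (Sh.sym col κ) (fun d => if (Sh.sym col κ).dg d = l then
      T.c0 S _ (∑ w, S.r w (∑ i, Finsupp.single (lam i) 1) • Θ w) else 0)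
      (T.hm _ _ (S.f1 (Bj l s l) col κ) y) = phs T S s col lam v Θ l y := by
  have e : ∀ d : (Sh.sym col κ).W, cv T (Sh.sym col κ) (if (Sh.sym col κ).dg d = l then
      T.c0 S _ (∑ w, S.r w (∑ i, Finsupp.single (lam i) 1) • Θ w) else 0) d
      (T.hm _ _ (S.f1 (Bj l s l) col κ) y) = ∑ w, ∑ x : (E S s col v l).W,
        ((S.f1 (Bj l s l) col κ d x * if (Sh.sym col κ).dg d = l then
          S.r w (∑ i, Finsupp.single (lam i) 1) else 0 : ℤ) : ℝ) *
        cv T (E S s col v l) (lf T S s col v l (Θ w)) x y := fun d => by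
    split_ifs
    · rw [← pu_f1 T S s col v κ, cv_hm h o1 o2, sum_comm]
      refine sum_congr rfl fun x _ => ?_
      rw [lf_sum, cv_sum, mul_sum]
      exact sum_congr rfl fun w _ => by push_cast; ring
    · simp [cv_zero]
  refine (sum_congr rfl fun d _ => e d).trans (sum_comm.trans (sum_congr rfl fun w _ => ?_))
  rw [sum_comm]
  refine sum_congr rfl fun x _ => ?_
  rw [← sum_mul, ← Int.cast_sum]
  by_cases z : Θ w = 0
  · have : cv T (E S s col v l) (lf T S s col v l (Θ w)) x y = 0 := by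
      rw [z, lf, map_zero]
      exact cv_zero x y
    exact (mul_eq_zero_of_right _ this).trans (mul_eq_zero_of_right _ this).symm
  · exact congrArg (fun c : ℤ => (c : ℝ) * _) (co_top s col lam o hl (hΘ w z) x κ).symm

end chain

end Ch1

open Ch1 in
theorem ch1 : CH0 := fun M => by
  refine ⟨(M + 1) * (M * 2) + (M + 5), ?_⟩
  intro σ τ _ T S st Ψ n l a η lb ρ κ col lam Θ hs hA hS l1 lM hl hΘ lb0 hκ η0 η8 hM hP ρ0 ρ1 hρ
  set c := (M + 1) * (M * 2) + (M + 5) with hc
  have n1 : 1 ≤ n := (Fintype.card_pos_iff.2 ⟨lam ⟨0, l1⟩⟩).trans_le hS.card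
  have nR : (1 : ℝ) ≤ n := by exact_mod_cast n1
  set N := (n + 1) ^ ((M + 1) * (M * 2)) with hN
  have cB : ∀ j, #(Bj l (n + l) j) ≤ N := fun j => (Cc.card_Bj _ _ _).trans <| by
    have a : M + 1 ≤ (n + 1) ^ M := Nat.lt_two_pow_self.trans_le (Nat.pow_le_pow_left (by omega) M)
    have b : n + l + 1 ≤ (n + 1) ^ (M + 1) := by
      rw [pow_succ]; nlinarith
    exact ((Nat.pow_le_pow_left b _).trans (Nat.pow_le_pow_right (by positivity)
      (by omega : l * 2 ≤ M * 2))).trans_eq (pow_mul _ _ _).symm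
  have k0 : ∀ j, 0 < κ j := fun j => lb0.trans_le (hκ j).1
  let v : ℕ → ℝ := fun j => κ j / 2 ^ min j l
  have pw : ∀ i j, i ≤ j → ((n : ℝ) + 1) ^ i ≤ (n + 1) ^ j := fun i j h =>
    pow_le_pow_right₀ (by linarith) h
  have vk : ∀ j, v j ≤ κ j := fun j => div_le_self (k0 j).le (one_le_pow₀ one_le_two)
  have vl : ∀ j, lb / (n + 1) ^ c ≤ v j := fun j => div_le_div₀ (k0 j).le (hκ j).1 (by positivity)
    ((pow_le_pow_left₀ zero_le_two (by linarith) _).trans (pw _ _ (by omega)))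
  have a0 : 0 < a := (mul_pos (by positivity) (k0 0)).trans_le (hκ 0).2
  have la : lb / (n + 1) ^ c ≤ a / 2 := by
    have := (pw 1 c (by omega))
    have := (hκ 0).2
    have := (vl 0).trans (vk 0)
    have := k0 0
    nlinarith
  obtain ⟨z0, s0⟩ := ls0 lgen (lext lgen) σ τ S l n (n + l) a col lam v (Cc.zero_Bj _ _ _) hS a0
    (fun w => (hS.dg_le w).trans (by omega)) hl fun j => ⟨(div_pos (k0 j) (by positivity)).le, by
      refine le_trans (mul_le_mul ?_ (vk j) (div_pos (k0 j) (by positivity)).le (by positivity))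
        (hκ j).2
      have : (#(Bj l (n + l) 0) : ℝ) ≤ (n + 1) ^ ((M + 1) * (M * 2)) := by exact_mod_cast cB 0
      calc _ ≤ (n + 1) * ((n + 1) ^ 4 * (n + 1 : ℝ) ^ ((M + 1) * (M * 2))) := by gcongr; linarith
        _ = (n + 1) ^ ((M + 1) * (M * 2) + 5) := by ring
        _ ≤ _ := pw _ _ (by omega)⟩
  set S0 := S.setK (S.k0 (Bj l (n + l) 0) (fun x => lam x.1) v) with hS0
  have nc : ∀ i, i ≤ c → (n + 1) ^ i ≤ (n + 1) ^ c := fun i h =>
    Nat.pow_le_pow_right (by omega) h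
  have sz : ∀ j, (E S0 (n + l) col v j).Sz ((n + 1) ^ c) (lb / (n + 1) ^ c) := fun j =>
    (lext lgen σ τ _ S0 _ _ v n N _ (z0.mono le_rfl la) (Cc.dn_Bj _ _ _) (Cc.zero_Bj _ _ _) (cB j)
      (by positivity) vl).mono (by rw [hN, ← pow_succ']; exact nc _ (by omega)) le_rfl
  have A0 : T.Adm S0 st Ψ := ⟨hA.gr, hA.le, hA.top⟩
  have ad : ∀ j, T.Adm (E S0 (n + l) col v j) st fun F => lf T S0 (n + l) col v j (Ψ F) := fun j =>
    adm_ren A0 _ fun w => (Xt.ext_dg _).trans (add_zero _)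
  let X : ℕ → ℝ := fun j => ‖(T.tw (E S0 (n + l) col v j)
    fun F => lf T S0 (n + l) col v j (Ψ F)).Ec fun y => ee (phs T S0 (n + l) col lam v Θ j y)‖
  have c1 : 1 ≤ (n + 1) ^ c := Nat.one_le_pow _ _ (by omega)
  have pu : ∀ {τ' : Type} (j : ℕ) (S' : Sh σ τ') (φ : Matrix S'.W (E S0 (n + l) col v j).W ℤ) (ι)
      (m : ℕ), m ≤ (n + 1) ^ c → (E S0 (n + l) col v j).Sec S' m φ ι →
      ∀ (Ψ' : T.Twd S') (g : (T.Cw S' → ℤ) → ℝ), T.tp _ S' φ
        (fun F => lf T S0 (n + l) col v j (Ψ F)) = Ψ' →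
      (∀ y, g (T.hm _ S' φ y) = phs T S0 (n + l) col lam v Θ j y) →
      |X j - ‖(T.tw S' Ψ').Ec fun y => ee (g y)‖| ≤ η := by
    rintro τ' j S' φ ι m hm h _ g rfl hg
    obtain ⟨J, _, _, ψ, N, Q, cj, sp⟩ := lsec _ _ _ _ _ ((n + 1) ^ c) φ ι
      { h with ht := fun w x => (h.ht w x).trans (by exact_mod_cast hm) } c1
    have := (hP _ _ J _ _ S' φ ψ N Q cj (ad j) (sz j) sp).Ec
      (TS.tw_tri hs.cl (ad j) (sz j).toOk) (TS.tw_tri hs.cl ((ad j).tp h.hm.dg) h.ok)
      (g := fun y => ee (g y)) fun y => (norm_ee _).le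
    rw [one_mul] at this
    refine le_trans ?_ this
    exact (abs_norm_sub_norm_le _ _).trans_eq (congrArg (fun f => ‖TS.Ec _ f - _‖)
      (funext fun y => congrArg ee (hg y).symm))
  have id0 : ∀ P, map ((E S0 (n + l) col v 0).pu S (S.f0 (Bj l (n + l) 0) fun x => lam x.1))
      (lf T S0 (n + l) col v 0 P) = P := fun P => by
    refine (MvPolynomial.map_map _ _ _).trans ((congrArg (MvPolynomial.map · P)
      (RingHom.ext fun Q => (pu_ren _ _ Q).trans ?_)).trans (map_id P))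
    have : (fun a : S.W => S.el (R := ℝ) fun w => S.f0 (Bj l (n + l) 0) (fun x => lam x.1) w
        (S.inc (Cc.zero_Bj l (n + l) 0) a)) = MvPolynomial.X := funext fun a => by
      rw [funext fun w => s0.sec w a, Sh.el]
      simp
    exact (congrArg (aeval · Q) this).trans (aeval_X_left_apply Q)
  have p0 := pu 0 S _ _ n ((Nat.le_succ n).trans ((pow_one _).ge.trans (nc 1 (by omega)))) s0 Ψ
    (T.val S Θ) (funext fun F => id0 (Ψ F)) fun y => sum_congr rfl fun w _ =>
      ((congrArg (fun P => cv T S P w _) (id0 (Θ w))).symm.trans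
        (cv_hm s0.hm (sz 0).toOk hS.toOk _ w y)).trans (sum_congr rfl fun x _ => by
          have : ∀ β : Fin l × Bool →₀ ℕ, cj 0 β = 1 := fun β => by
            rw [cj, filter_false_of_mem fun i _ => Nat.not_lt_zero _, prod_empty]
          exact congrArg (fun c : ℤ => (c : ℝ) * _)
            ((congrArg (· * _) (this x.1.2)).trans (one_mul _)).symm)
  obtain ⟨ι, s1⟩ := ls1 lgen σ τ S0 l n (n + l) _ col κ z0 (by omega) k0
  have p1 := pu l _ _ ι 1 c1 s1 _ _ (funext fun F => pu_f1 T S0 (n + l) col v κ (Ψ F))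
    (phs_top (S := S0) T (n + l) col lam v z0.toOk hl hΘ κ s1.hm (sz l).toOk s1.ok)
  have cs : ∀ j : Fin l, X j ^ 2 ≤ 2 * X (j + 1) := fun j => by
    have h := Cc.cn (S := S0) (s := n + l) j col v
    have := lcs _ _ _ T _ _ st M _ _ _ _ _ h η (fun y => ee (phs T S0 (n + l) col lam v Θ j y)) hs
      (sz j).toOk (sz (j + 1)).toOk (ad j) (ad (j + 1))
      (fun F => kill_lf T S0 _ col v h.c1.inj (xe_inc S0 _ _ _ _) (Ψ F))
      (fun F => kill_lf T S0 _ col v h.c2.inj (xe_inc S0 _ _ _ _) (Ψ F)) η0 η8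
      (hM _ _ _ (ad j) (sz j)) (hM _ _ _ (ad (j + 1)) (sz (j + 1)))
      (hM _ _ _ ((ad j).tp fun w w' z => by
        rw [show w' = w.1 from by_contra fun k => z (if_neg k)]; rfl) (Cc.sz_sub (sz j) h.idl))
      fun y => (norm_ee _).le
    refine this.trans_eq (congrArg (fun f => 2 * ‖TS.Ec _ f‖) (funext fun y => ?_))
    exact ((congrArg ee (phs_succ T S0 _ col lam v Θ j y)).trans (ee_sub _ _)).symm
  have dn : ∀ i j, i + j = l → X j ≤ 2 * ρ ^ 2 ^ j := fun i => by
    induction i with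
    | zero =>
      rintro j e
      obtain rfl : j = l := by omega
      have : X j + η ≤ ρ ^ 2 ^ M := by
        refine le_trans ?_ hρ
        have := sub_le_iff_le_add'.1 (abs_le.1 p1).2
        exact (add_le_add this le_rfl).trans_eq (by rw [add_assoc, ← two_mul]; rfl)
      have b : ρ ^ 2 ^ M ≤ ρ ^ 2 ^ j := pow_le_pow_of_le_one ρ0 ρ1 (Nat.pow_le_pow_right two_pos lM)
      have : 0 ≤ ρ ^ 2 ^ j := by positivity
      linarith
    | succ i ih =>
      intro j e
      have a := ih (j + 1) (by omega)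
      have b := cs ⟨j, by omega⟩
      refine abs_le_of_sq_le_sq' (b.trans ?_) (by positivity) |>.2
      rw [mul_pow, ← pow_mul, ← pow_succ]
      linarith
  have := dn l 0 (add_zero l)
  have := (abs_le.1 p0).1
  rw [pow_zero, pow_one] at *
  linarith

end Crest.Agent.N49.Tw

end
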