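import Crest.Agent.N49.Tw.Brg
import Crest.Agent.N49.Tw.Cd
import Crest.Agent.N49.Tw.Mast0

/-!
# Row 49 (helper65): marginals on quotients from the Master estimate
-/

set_option autoImplicit false

open Matrix MvPolynomial Finset

noncomputable section

namespace Crest.Agent.N49.Tw

open Po

namespace Sh

variable {σ τ : Type} {S : Sh σ τ} {p : S.W → Prop} [DecidablePred p] {n : ℕ} {a : ℝ}

/-- quotients inherit the generation in degree one -/
theorem Gen.quo {q : S.W → Prop} (g : S.Gen q) (hI : S.Idl p) : (S.sub p).Gen fun x => q x.1 :=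
  fun (κ : {w // p w} → ℤ) hκ (x : {w // p w}) hx => by
  obtain ⟨l, lam, e1, e2, e3, e4⟩ := g (fun w => if h : p w then κ ⟨w, h⟩ else 0)
    (fun w hw => by split_ifs with h; exacts [hκ ⟨w, h⟩ hw, rfl]) x.1 (by rwa [dif_pos x.2])
  obtain ⟨w, -, hw⟩ := exists_ne_zero_of_sum_ne_zero e4
  have pw : p w := of_not_not fun n => left_ne_zero_of_mul hw (dif_neg n)
  have pl : ∀ i, p (lam i) := fun i => hI w _ pw (right_ne_zero_of_mul hw) _
    (Finsupp.mem_support_iff.2 (sum_single_ne.2 ⟨i, rfl⟩))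
  refine ⟨l, fun i => ⟨lam i, pl i⟩, e1, e2, e3, fun z => e4 ?_⟩
  rw [← Fintype.sum_subtype_add_sum_subtype p, sum_eq_zero (s := (univ : Finset {w // ¬ p w}))
    fun w _ => by rw [dif_neg w.2, zero_mul], add_zero]
  refine Eq.trans (sum_congr rfl fun w _ => ?_) z
  rw [dif_pos w.2]
  change _ = _ * S.r w.1 (Finsupp.mapDomain (Subtype.val : {w // p w} → S.W)
    (∑ i, Finsupp.single ⟨lam i, pl i⟩ 1))
  simp only [Finsupp.mapDomain_finsetSum, Finsupp.mapDomain_single]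

/-- the size of a quotient -/
theorem Sz.quo (h : S.Sz n a) (hI : S.Idl p) : (S.sub p).Sz n a where
  toOk := Mh.sub_ok h.toOk hI
  card := (Fintype.card_subtype_le p).trans h.card
  ht _ _ := h.ht _ _
  lo := fun x : {w // p w} → ℝ => by
    have := h.lo (Db.mg p x 0)
    rw [Db.sum_spl p, qf, dotProduct_comm, Db.dot_mg] at this
    simp only [Db.mg_pos, Db.mg_neg, Db.mulVec_mg, mulVec_zero, Pi.zero_apply, add_zero,
      dotProduct_zero, ne_eq, OfNat.ofNat_ne_zero, not_false_eq_true, zero_pow,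
      sum_const_zero] at this
    exact this.trans_eq (dotProduct_comm _ _)
  gen := h.gen.quo hI

end Sh

namespace TS

variable {σ τ : Type} [DecidableEq σ] {T : TS σ} {S : Sh σ τ} {st : T.C → ℕ} {Ψ : T.Twd S}
  {M n N : ℕ} {a b η : ℝ} {p : S.W → Prop} [DecidablePred p]

theorem Sem.hm_top (h : T.Sem st (M + 1) n a η) (hs : T.Stg st M) : T.HM st n a η :=
  fun τ S Ψ ad sz => (lw_tri hs ad sz.toOk).mas_top
    (fun c => (lw_lev c).trans_lt (Nat.lt_succ_of_le (hs.le _).1)) (h τ S Ψ sz ad)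

/-- **marginals on quotients** -/
theorem HM.marg (h : T.HM st N b η) (hs : T.Stg st M) (ad : T.Adm S st Ψ) (sz : S.Sz n a)
    (hN : 2 * n ≤ N) (ha : 0 ≤ a) (hb : b ≤ a / 2) (hη : 0 < η) (hI : S.Idl p) (g : S.Gen p) :
    (T.tw S Ψ).Push (T.tw (S.sub p) (T.tp S (S.sub p) (S.prj p) Ψ)) (T.rs S p) (10 * √η) :=
  marg0 sz.toOk hs.cl.1.pd hI (lw_tri hs ad sz.toOk) hη
    (h _ _ _ (ad.tp (Mh.hm_sub hI).dg) ((sz.quo hI).mono (by omega) (by linarith)))
    (h _ _ _ ad (sz.mono (by omega) (by linarith)))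
    (h _ _ _ (ad.tp Sh.hm_dia.dg) ((Sh.dbl_sz sz hI g).mono hN hb))

end TS

/-- **MARGS** -/
theorem margs (M : ℕ) : MARGS M 4 := fun σ τ _ T S st Ψ n a η p _ hs ad sz ha hη h hI g => by
  have e : (16 : ℝ) ≤ (n + 2) ^ 4 := by
    have := pow_le_pow_left₀ zero_le_two
      (le_add_of_nonneg_left (Nat.cast_nonneg n) : (2 : ℝ) ≤ n + 2) 4
    linarith
  refine ((h.hm_top hs).marg hs ad sz ?_ ha.le (div_le_div_of_nonneg_left ha.le two_pos
    (by linarith)) hη hI g).mono (mul_le_mul_of_nonneg_right (by linarith) (Real.sqrt_nonneg _))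
  nlinarith [sq_nonneg n, Nat.zero_le (n ^ 3), Nat.zero_le (n ^ 4)]

theorem exists_margs (M : ℕ) : ∃ c, MARGS M c := ⟨4, margs M⟩

end Crest.Agent.N49.Tw

end
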