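import Crest.Agent.N49.Tw.Mast1
import Crest.Agent.N49.Tw.Mono
import Crest.Agent.N49.Tw.ConM

/-!
# Row 49 (helper71): regularity persists under narrowing
-/

set_option autoImplicit false
set_option linter.unusedSectionVars false

open Matrix MvPolynomial Finset

noncomputable section

namespace Crest.Agent.N49.Tw

open Po

theorem rgs_all {M c : ℕ} (hc : CHAR M c) : ∃ C, ∀ t ≤ M, RGS M t C := by
  choose f hf using rgs hc
  exact ⟨∑ t ∈ range (M + 1), f t, fun t ht σ _ T st n a η hs hn h0 h1 k =>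
    hf t σ T st n a η hs hn h0 h1 (k.mono hs.tri h0 h1 (single_le_sum (f := f)
      (fun _ _ => Nat.zero_le _) (mem_range.2 (Nat.lt_succ_of_le ht))) le_rfl le_rfl le_rfl)⟩

namespace TS

variable {σ τ : Type} {T : TS σ} {st : T.C → ℕ} {M : ℕ} {lam : ℕ → ℝ}

theorem Cl.shr (h : T.Cl) (hl : ∀ l, lam l ≠ 0) : (T.shr lam).Cl := ⟨h.1.shr hl, h.2⟩

theorem Stg.shr (h : T.Stg st M) (hl : ∀ l, lam l ≠ 0) : (T.shr lam).Stg st M :=
  ⟨h.cl.shr hl, stg_tri (T := T.shr lam) (fun c _ => h.wt c) (fun c => (h.pos c).ne') h.tri.det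
    (h.cl.1.shr hl).pd fun _ _ z => h.blk (right_ne_zero_of_mul (left_ne_zero_of_mul z)),
    h.lev, h.le⟩

theorem Stg.shr_D (h : T.Stg st M) (c c' : T.C) :
    ((T.shr lam).stg st).D c c' = lam (T.lev c) * (T.stg st).D c c' * lam (T.lev c') := by
  have b : ∀ c c', (T.stg st).A⁻¹ c c' ≠ 0 → T.lev c = T.lev c' := fun c c' z =>
    congrArg Finsupp.degree (h.bl.inv c c' z)
  change ∑ j : T.C, (∑ i : T.C, (T.stg st).A⁻¹ c i * (lam (T.lev i) * T.K i j * lam (T.lev j))) *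
    (T.stg st).A⁻¹ c' j = lam (T.lev c) * (∑ j : T.C, (∑ i : T.C, (T.stg st).A⁻¹ c i * T.K i j) *
      (T.stg st).A⁻¹ c' j) * lam (T.lev c')
  simp only [sum_mul, mul_sum]
  refine sum_congr rfl fun j _ => sum_congr rfl fun i _ => ?_
  by_cases z : (T.stg st).A⁻¹ c i = 0
  · simp [z]
  by_cases z' : (T.stg st).A⁻¹ c' j = 0
  · simp [z']
  rw [b _ _ z, b _ _ z']; ring

theorem Stg.shr_qf (h : T.Stg st M) {k : T.C → ℝ} {l : ℕ} (hk : ∀ c, k c ≠ 0 → T.lev c = l) :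
    qf ((T.shr lam).stg st).D k = lam l ^ 2 * qf (T.stg st).D k := by
  change ∑ i : T.C, k i * ∑ j : T.C, ((T.shr lam).stg st).D i j * k j =
    lam l ^ 2 * ∑ i : T.C, k i * ∑ j : T.C, (T.stg st).D i j * k j
  simp only [mul_sum, h.shr_D]
  refine sum_congr rfl fun i _ => sum_congr rfl fun j _ => ?_
  by_cases z : k i = 0
  · simp [z]
  by_cases z' : k j = 0
  · simp [z']
  rw [hk _ z, hk _ z']; ring

theorem shr_stR (t : ℕ) : ((T.shr lam).stg st).R t = (T.stg st).R t := rfl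

theorem Stg.shr_ct (h : T.Stg st M) {l : ℝ} (l0 : 0 < l) (hl : ∀ j, l ≤ lam j ∧ lam j ≤ 1)
    (t : ℕ) : ((T.shr lam).stg st).ct t ≤ l⁻¹ ^ (T.stg st).R t * (T.stg st).ct t := by
  have hD := h.tri.pd_D.submatrix
    (Subtype.val_injective : Function.Injective (Subtype.val : {c // (T.stg st).lev c = t} → _))
  obtain ⟨j, hj⟩ : ∃ j, ∀ c : {c // (T.stg st).lev c = t}, T.lev c.1 = j := by
    by_cases e : Nonempty {c // (T.stg st).lev c = t}
    · obtain ⟨c0⟩ := e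
      exact ⟨_, fun c => h.lev c.1 c0.1 ((stg_lev _).symm.trans (c.2.trans (c0.2.symm.trans
        (stg_lev _))))⟩
    · exact ⟨0, fun c => (e ⟨c⟩).elim⟩
  have p : 0 < lam j := l0.trans_le (hl j).1
  have := th_scale hD (sq_pos_of_pos p) (pow_le_one₀ p.le (hl j).2) 0
  rw [Real.sqrt_sq p.le, Fintype.card_subtype] at this
  refine le_trans (le_of_eq ?_) (this.trans (mul_le_mul_of_nonneg_right (pow_le_pow_left₀
    (inv_pos.2 p).le (inv_anti₀ l0 (hl j).1) _) (th_nonneg _ _)))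
  refine congrArg (Po.th · 0) (Matrix.ext fun c c' => (h.shr_D c.1 c'.1).trans ?_)
  rw [hj c, hj c']
  change _ = lam j ^ 2 * (T.stg st).D c.1 c'.1
  ring

variable [DecidableEq σ]

theorem Stg.shr_cst (h : T.Stg st M) {l : ℝ} (l0 : 0 < l) (hl : ∀ j, l ≤ lam j ∧ lam j ≤ 1)
    {lb : ℕ → ℝ} {t : ℕ} (b0 : 0 < lb t) :
    (T.shr lam).cst st (fun t => lb t / l ^ 2) t ≤ T.cst st lb t := by
  have a := Real.log_le_log ((h.shr fun j => (l0.trans_le (hl j).1).ne').tri.pd_D.submatrix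
    Subtype.val_injective |> (th_pos · 0)) (h.shr_ct l0 hl t)
  have b : 0 < (T.stg st).ct t := th_pos (h.tri.pd_D.submatrix Subtype.val_injective) 0
  have c : Real.log l ≤ 0 := Real.log_nonpos l0.le ((hl 0).1.trans (hl 0).2)
  rw [Real.log_mul (by positivity) b.ne', Real.log_pow, Real.log_inv] at a
  simp only [cst, shr_stR, Real.log_inv, Real.log_div b0.ne' (pow_pos l0 2).ne', Real.log_pow]
  have : (0 : ℝ) ≤ (T.stg st).R t := Nat.cast_nonneg _
  change Real.log (((T.shr lam).stg st).ct t) ≤ _ at a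
  push_cast
  nlinarith

/-- narrowing the tower is narrowing the shape -/
theorem shr_tw (S : Sh σ τ) (Ψ : T.Twd S) : (T.shr lam).tw S Ψ =
    T.tw (S.setK (Matrix.of fun w w' => lam (S.dg w) * S.K w w' * lam (S.dg w'))) Ψ :=
  congrArg (T.tw S Ψ).setK (Matrix.ext fun (p p' : T.Cw S) => by
    change lam (T.lev p.1.1) * T.K p.1.1 p'.1.1 * lam (T.lev p'.1.1) * S.K p.1.2 p'.1.2 =
      T.K p.1.1 p'.1.1 * (lam (S.dg p.1.2) * S.K p.1.2 p'.1.2 * lam (S.dg p'.1.2))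
    rw [lev_cw, lev_cw]; ring)

theorem shr_sbS (t : ℕ) {l : ℕ} (col : Fin l → σ) (κ : ℕ → ℝ) (k : T.C → ℤ) :
    (T.shr lam).sbS st t col κ k = T.sbS st t col (fun j => lam j ^ 2 * κ j) k :=
  congrArg (fun K => (((T.sh (Sh.sym col κ)).setK K).stg fun p => st p.1.1).bias t
    fun p => if (Sh.sym col κ).dg p.1.2 = l then k p.1.1 else 0)
    (Matrix.ext fun (p p' : T.Cw (Sh.sym col κ)) => by
      change lam (T.lev p.1.1) * T.K p.1.1 p'.1.1 * lam (T.lev p'.1.1) *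
        dk (fun μ => κ μ.degree) p.1.2.1 p'.1.2.1 = T.K p.1.1 p'.1.1 *
          dk (fun μ => lam μ.degree ^ 2 * κ μ.degree) p.1.2.1 p'.1.2.1
      rw [lev_cw, lev_cw, dk, dk]
      split_ifs with e
      · rw [show (Sh.sym col κ).dg p'.1.2 = p.1.2.1.degree from congrArg Finsupp.degree e.symm,
          show (Sh.sym col κ).dg p.1.2 = p.1.2.1.degree from rfl]; ring
      · simp)

theorem lev_of_col {l : ℕ} {col : Fin l → σ} {F : T.C}
    (h : T.deg F = ∑ i, Finsupp.single (col i) 1) : T.lev F = l := by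
  rw [lev, h, map_sum]; simp

variable {P a L : ℝ} {κ : ℕ → ℕ → ℝ} {lb : ℕ → ℝ}

/-- uniform narrowing costs nothing -/
theorem RgP.shr1 (h : T.RgP st M P a L κ lb) (hs : T.Stg st M) (hP : 1 ≤ P) {l : ℝ} (l0 : 0 < l)
    (l1 : l ≤ 1) (ha : a ≤ l ^ 2) : (T.shr fun _ => l).RgP st M P (a / l ^ 2) L
      (fun t j => κ t j / l ^ 2) fun t => lb t / l ^ 2 where
  lo t ht := by
    obtain ⟨a1, -, a3⟩ := h.lo t ht
    refine ⟨by positivity, (div_le_one (by positivity)).2 ?_, fun j => ⟨by gcongr; exact (a3 j).1,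
      by rw [← mul_div_assoc]; gcongr; exact (a3 j).2⟩⟩
    nlinarith [(a3 0).1, (a3 0).2]
  sep t ht t' e j j' := by rw [← mul_div_assoc]; gcongr; exact h.sep t ht t' e j j'
  sym t ht n col k k0 hk hq := by
    have s : ∑ j ∈ Icc t M, (T.shr fun _ => l).cst st (fun t => lb t / l ^ 2) j ≤
        ∑ j ∈ Icc t M, T.cst st lb j := sum_le_sum fun j hj =>
      hs.shr_cst l0 (fun _ => ⟨le_rfl, l1⟩) (h.lo j (mem_Icc.1 hj).2).1
    have b0 := (h.lo t (mem_Icc.1 ht).2).1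
    refine (shr_sbS (T := T) t col _ k).trans_le ?_
    rw [show (fun j => l ^ 2 * (κ t j / l ^ 2)) = κ t from funext fun j => by field_simp]
    refine (h.sym t ht n col k k0 hk ?_).trans (Real.exp_le_exp.2 (by nlinarith))
    replace hq := (hs.shr_qf (l := n) fun c z =>
      lev_of_col (hk c fun e => z (by simp [zc, e])).2).symm.trans_le hq
    rw [div_div_eq_mul_div, mul_comm _ (l ^ 2), mul_div_assoc] at hq
    refine (le_of_mul_le_mul_left hq (by positivity)).trans (div_le_div_of_nonneg_right ?_ b0.le)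
    nlinarith

theorem RgS.shr1 {C n : ℕ} {η : ℝ} (h : T.RgS st M C n a η) (hs : T.Stg st M) {l : ℝ} (l0 : 0 < l)
    (l1 : l ≤ 1) (ha : a ≤ l ^ 2) : (T.shr fun _ => l).RgS st M C n (a / l ^ 2) η :=
  let ⟨_, _, k⟩ := rgS_iff.1 h
  rgS_iff.2 ⟨_, _, k.shr1 hs (one_le_pow₀ (by linarith [Nat.cast_nonneg (α := ℝ) n])) l0 l1 ha⟩

/-- the top word of a symbol shape -/
theorem sym_top {l : ℕ} (col : Fin l → σ) (κ : ℕ → ℝ) (hl : 0 < l) :
    ∃ w : (Sh.sym col κ).W, (Sh.sym col κ).cd w = ∑ i, Finsupp.single (col i) 1 ∧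
      (Sh.sym col κ).dg w = l ∧ ∀ w', (Sh.sym col κ).dg w' = l → w' = w := by
  have d : (∑ i : Fin l, Finsupp.single i 1 : Fin l →₀ ℕ).degree = l := by rw [map_sum]; simp
  have v : ∀ a, (∑ i : Fin l, Finsupp.single i 1 : Fin l →₀ ℕ) a = 1 := fun a => by
    simp [Finsupp.finsetSum_apply, Finsupp.single_apply]
  refine ⟨⟨∑ i, Finsupp.single i 1, mem_erase.2 ⟨fun e => by rw [e, map_zero] at d; omega,
    mem_sqf.2 ⟨d.le, fun a => (v a).le⟩⟩⟩, ?_, d, fun w' e => Subtype.ext (Finsupp.ext fun a => ?_)⟩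
  · change Finsupp.mapDomain col (∑ i, Finsupp.single i 1) = _
    rw [Finsupp.mapDomain_finsetSum]; simp
  · have b := (mem_sqf.1 (mem_erase.1 w'.2).2).2
    have e' : ∑ i, w'.1 i = ∑ _i : Fin l, 1 :=
      (Finsupp.degree_eq_sum _).symm.trans (e.trans (by simp))
    rw [v]
    exact (sum_eq_sum_iff_of_le fun i _ => b i).1 e' a (mem_univ _)

/-- the symbol bias at larger widths -/
theorem sbS_le {c n : ℕ} (hC : CHAR M c) (hZ : 2 ^ M ≤ n) (hs : T.Stg st M) {t : ℕ} {κ κ' : ℕ → ℝ}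
    {b μ η R τ0 : ℝ} (b0 : 0 < b) (hκ : ∀ j, b ≤ κ j ∧ (n + 2) ^ c * κ j ≤ μ) (hκ' : ∀ j, μ ≤ κ' j)
    (η0 : 0 < η) (η1 : η ≤ 1) (τ0' : 0 ≤ τ0) (sem : T.Sem st t ((n + 2) ^ c) (b / (n + 2) ^ c) η)
    (sy : T.SymS st t κ R τ0) {l : ℕ} (col : Fin l → σ) {k : T.C → ℤ} (k0 : k ≠ 0)
    (hk : ∀ F, k F ≠ 0 → st F = t ∧ T.deg F = ∑ i, Finsupp.single (col i) 1)
    (hq : (n + 2) ^ c * (κ' l * qf (T.stg st).D (zc k)) ≤ μ * R) :
    T.sbS st t col κ' k ^ (n + 2) ^ c ≤ (n + 2) ^ c * (τ0 + η) := by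
  obtain ⟨F, hF⟩ := Function.ne_iff.1 k0
  have lF := lev_of_col (hk F hF).2
  have μ0 : 0 < μ := lt_of_lt_of_le (mul_pos (by positivity) (b0.trans_le (hκ 0).1)) (hκ 0).2
  have z : (Sh.sym col κ').Sz n μ := (Sh.sym_sz μ0 fun j _ => hκ' j).mono
    ((Nat.pow_le_pow_right two_pos (lF ▸ (hs.le F).2)).trans hZ) le_rfl
  obtain ⟨w, w1, w2, w3⟩ := sym_top col κ' (lF ▸ hs.cl.1.lev_pos F)
  have := hC σ _ T _ st _ t n μ b η R τ0 κ
    (fun p => if (Sh.sym col κ').dg p.1.2 = l then k p.1.1 else 0) hs (hs.adm z.toOk) z b0 hκ η0 η1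
    τ0' sem sy (Function.ne_iff.2 ⟨⟨(F, w), w1.trans (hk F hF).2.symm⟩, by
      simpa only [w2, if_true, Pi.zero_apply] using hF⟩) (fun p e => by
        split_ifs
        · exact of_not_not fun z => e (hk _ z).1
        · rfl) (le_trans (le_of_eq (congrArg _ ?_)) hq)
  · refine le_trans (le_of_eq (congrArg (· ^ _) ?_)) this
    exact congrArg (fun Φ => (((T.sh (Sh.sym col κ')).setΦ Φ).stg fun p => st p.1.1).bias t
      fun p => if (Sh.sym col κ').dg p.1.2 = l then k p.1.1 else 0)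
      (funext fun p => congrArg ((Sh.sym col κ').cf _ p.1.2) (eval₂_tw0 _ _).symm)
  · rw [lw_D hs (hs.adm z.toOk) z.toOk]
    have key : ∀ g : T.C → (Sh.sym col κ').W → ℝ, ∑ p : T.Cw (Sh.sym col κ'),
        zc (fun p : T.Cw (Sh.sym col κ') => if (Sh.sym col κ').dg p.1.2 = l then k p.1.1 else 0) p *
          g p.1.1 p.1.2 = ∑ F, zc k F * g F w := fun g => by
      rw [← sum_filter_of_ne (p := fun p : T.Cw (Sh.sym col κ') => p.1.2 = w ∧ k p.1.1 ≠ 0),
        ← sum_filter_of_ne (s := univ) (p := fun F => k F ≠ 0)]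
      · refine sum_bij (fun p _ => p.1.1) (fun p hp => mem_filter.2 ⟨mem_univ _,
          (mem_filter.1 hp).2.2⟩) (fun p hp q hq e => Subtype.ext (Prod.ext e
            ((mem_filter.1 hp).2.1.trans (mem_filter.1 hq).2.1.symm))) (fun G hG =>
          ⟨⟨(G, w), w1.trans (hk G (mem_filter.1 hG).2).2.symm⟩, mem_filter.2 ⟨mem_univ _, rfl,
            (mem_filter.1 hG).2⟩, rfl⟩) fun p hp => ?_
        simp only [zc, (mem_filter.1 hp).2.1, w2, if_true]
      · exact fun G _ z e => z (by simp [zc, e])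
      · intro p _ z
        by_cases e : (Sh.sym col κ').dg p.1.2 = l
        · exact ⟨w3 _ e, fun e' => z (by simp [zc, e'])⟩
        · exact absurd (by simp [zc, e]) z
    have kw' : (Sh.sym col κ').K w w = κ' l := by
      change dk (fun μ => κ' μ.degree) w.1 w.1 = _
      rw [dk, if_pos rfl]; exact congrArg κ' w2
    refine (sum_congr rfl fun p _ => congrArg _ ((sum_congr rfl fun q _ => mul_comm _ _).trans
      (key fun G v => (T.stg st).D p.1.1 G * (Sh.sym col κ').K p.1.2 v))).trans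
      ((key fun F u => ∑ G, zc k G * ((T.stg st).D F G * (Sh.sym col κ').K u w)).trans ?_)
    simp only [qf, dotProduct, mulVec, kw', mul_sum]
    exact sum_congr rfl fun F _ => sum_congr rfl fun G _ => by
      change zc k F * (zc k G * ((T.stg st).D F G * κ' l)) = κ' l * (zc k F * ((T.stg st).D F G * zc k G))
      ring

set_option maxHeartbeats 800000 in
/-- **regularity persists under any levelwise narrowing** -/
theorem RgP.shr {c C : ℕ} (hC : CHAR M c) (hR : ∀ t ≤ M, RGS M t C) (h : T.RgP st M P a L κ lb)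
    (hs : T.Stg st M) {l P' : ℝ} (l0 : 0 < l) (hl : ∀ j, l ≤ lam j ∧ lam j ≤ 1) (L0 : 0 ≤ L)
    (P1 : 1 ≤ P') (hP : 4 * ((2 ^ M + 2) ^ c : ℕ) * (((2 ^ M + 2) ^ c : ℕ) + 1) ^ C * P' ≤ P)
    (ha : a ≤ l ^ 2) : (T.shr lam).RgP st M P' (a / l ^ 2) L
      (fun t _ => ((2 ^ M + 2) ^ c : ℕ) * (⨆ j, κ t j) / l ^ 2) fun t => lb t / l ^ 2 := by
  have Nr : (((2 ^ M : ℕ) : ℝ) + 2) ^ c = ((2 ^ M + 2) ^ c : ℕ) := by push_cast; rfl
  have N1 : 1 ≤ (2 ^ M + 2) ^ c := Nat.one_le_pow _ _ (by positivity)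
  generalize hN : (2 ^ M + 2) ^ c = N at *
  have N1' : (1 : ℝ) ≤ N := by exact_mod_cast N1
  have Q1 : (1 : ℝ) ≤ ((N : ℝ) + 1) ^ C := one_le_pow₀ (by linarith)
  generalize hQ : ((N : ℝ) + 1) ^ C = Q at *
  have a1 : 1 ≤ Q * P' := by nlinarith
  have a2 : N * Q ≤ N * (Q * P') := by gcongr; nlinarith
  have a3 : N * P' ≤ N * (Q * P') := by gcongr; nlinarith
  have a4 : 1 ≤ N * (Q * P') := by nlinarith
  have NP : N * P' ≤ P := by linarith
  have NQ : N * Q ≤ P := by linarith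
  have P0 : 1 ≤ P := by linarith
  have bd : ∀ t ≤ M, ∀ j, κ t j ≤ ⨆ j, κ t j := fun t ht => le_ciSup ⟨a / P, by
    rintro _ ⟨j, rfl⟩; rw [le_div_iff₀' (by linarith)]; exact ((h.lo t ht).2.2 j).2⟩
  have sp : ∀ t x, (∀ j, P * κ t j ≤ x) → P * ⨆ j, κ t j ≤ x := fun t x k => by
    rw [← le_div_iff₀' (by linarith)]
    exact ciSup_le fun j => (le_div_iff₀' (by linarith)).2 (k j)
  have s0 : ∀ t ≤ M, lb t ≤ ⨆ j, κ t j := fun t ht => ((h.lo t ht).2.2 0).1.trans (bd t ht 0)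
  refine ⟨fun t ht => ?_, fun t ht t' e _ _ => ?_, fun t ht n col k k0 hk hq => ?_⟩
  · obtain ⟨a1, -, a3⟩ := h.lo t ht
    have u := sp t a fun j => (a3 j).2
    have v := s0 t ht
    refine ⟨by positivity, (div_le_one (by positivity)).2 (by nlinarith), fun _ =>
      ⟨by gcongr; nlinarith, by rw [← mul_div_assoc]; gcongr; nlinarith⟩⟩
  · have u := sp t' _ fun j => (h.sep t ht t' e 0 j).trans (bd t ht 0)
    have v := (h.lo t' (e.le.trans ht)).1.trans_le (s0 t' (e.le.trans ht))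
    rw [← mul_div_assoc]
    refine div_le_div_of_nonneg_right ?_ (by positivity)
    calc _ = N * (P' * ⨆ j, κ t' j) := by ring
      _ ≤ _ := mul_le_mul_of_nonneg_left (le_trans (by gcongr; nlinarith) u) (by positivity)
  obtain ⟨t1, tM⟩ := mem_Icc.1 ht
  obtain ⟨b0, -, b2⟩ := h.lo t tM
  have s : ∑ j ∈ Icc t M, (T.shr lam).cst st (fun t => lb t / l ^ 2) j ≤
      ∑ j ∈ Icc t M, T.cst st lb j := sum_le_sum fun j hj =>
    hs.shr_cst l0 hl (h.lo j (mem_Icc.1 hj).2).1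
  have z := h.sum_nonneg hs.tri t le_rfl
  generalize hX : 1 + L + ∑ j ∈ Icc t M, T.cst st lb j = X at *
  have X1 : 1 ≤ X := by linarith
  have sy := h.sym t ht
  rw [hX] at sy
  have bb : BddBelow (Set.range (κ t)) := ⟨lb t, by rintro _ ⟨j, rfl⟩; exact (b2 j).1⟩
  have lbb : lb t ≤ ⨅ j, κ t j := le_ciInf fun j => (b2 j).1
  have g3 : N * (P' * X + 2) ≤ 3 * (N * P') * X := by nlinarith [mul_le_mul P1 X1 zero_le_one (by linarith)]
  have g0 : 0 ≤ N * (P' * X + 2) := by positivity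
  obtain ⟨t, rfl⟩ : ∃ s, t = s + 1 := ⟨t - 1, by omega⟩
  have sem : T.Sem st (t + 1) N ((⨅ j, κ (t + 1) j) / N) (Real.exp (-(N * (P' * X + 2)))) := by
    refine hR t (by omega) σ T st N _ _ hs N1 (Real.exp_pos _) (Real.exp_le_one_iff.2 (by linarith))
      (rgS_iff.2 ⟨κ, lb, h.mono (by omega) (by rw [hQ]; nlinarith) (fun s e j => ?_) fun s e => ?_⟩)
    · have := le_ciInf fun i => h.sep (t + 1) tM s (by omega) i j
      have p := (h.lo s (by omega)).1.trans_le ((h.lo s (by omega)).2.2 j).1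
      rw [hQ, le_div_iff₀ (by linarith)]
      nlinarith
    · have e' := mem_Icc.1 e
      have y := h.sum_nonneg hs.tri s (show t ≤ M by omega)
      have w : ∑ j ∈ Icc s M, T.cst st lb j =
          ∑ j ∈ Icc s t, T.cst st lb j + ∑ j ∈ Icc (t + 1) M, T.cst st lb j := by
        rw [← sum_union (disjoint_left.2 fun j u v => by
          rw [mem_Icc] at u v; omega)]
        exact sum_congr (by ext j; simp only [mem_Icc, mem_union]; omega) fun _ _ => rfl
      rw [hQ, w, add_comm (∑ j ∈ Icc s t, _), ← add_assoc, hX, ← Real.exp_neg, neg_neg,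
        Real.log_exp]
      have u : Q * (1 + N * (P' * X + 2)) ≤ P * X :=
        calc _ ≤ Q * (4 * (N * P') * X) := by
              gcongr; nlinarith [mul_le_mul (show 1 ≤ N * P' by nlinarith) X1 zero_le_one (by positivity)]
          _ = 4 * N * Q * P' * X := by ring
          _ ≤ _ := by gcongr
      nlinarith [mul_le_mul_of_nonneg_right (show Q ≤ P by nlinarith) y]
  refine (shr_sbS (T := T) _ col _ k).trans_le ((root_le N1 (g := P' * X) (τ := Real.exp (-(P * X)))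
    (Real.exp_le_exp.2 (by nlinarith)) ?_).trans (Real.exp_le_exp.2 (by nlinarith)))
  have μ0 := b0.trans_le (s0 _ tM)
  have := sbS_le (c := c) (μ := N * ⨆ j, κ (t + 1) j)
    (κ' := fun j => lam j ^ 2 * (N * (⨆ j, κ (t + 1) j) / l ^ 2)) hC le_rfl hs
    (b0.trans_le lbb) (fun j => ⟨ciInf_le bb j, by rw [Nr]; gcongr; exact bd _ tM j⟩) (fun j => by
      rw [← mul_div_assoc, le_div_iff₀ (by positivity), mul_comm]
      gcongr; exact (hl j).1) (Real.exp_pos _) (Real.exp_le_one_iff.2 (neg_nonpos.2 g0))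
    (Real.exp_pos _).le (by rw [Nr, hN]; exact sem) sy col k0 hk ?_
  · rwa [Nr, hN] at this
  replace hq := ((hs.shr_qf (l := n) fun c z =>
    lev_of_col (hk c fun e => z (by simp [zc, e])).2).symm.trans_le hq).trans (div_le_div_of_nonneg_right (mul_le_mul_of_nonneg_left
    (show _ ≤ X by linarith) (by linarith)) (by positivity))
  rw [Nr]
  calc _ = N * (⨆ j, κ (t + 1) j) / l ^ 2 * N * (lam n ^ 2 * qf (T.stg st).D (zc k)) := by ring
    _ ≤ N * (⨆ j, κ (t + 1) j) / l ^ 2 * N * (P' * X / (lb (t + 1) / l ^ 2)) :=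
      mul_le_mul_of_nonneg_left hq (by positivity)
    _ = N * (⨆ j, κ (t + 1) j) * (N * P' * X / lb (t + 1)) := by field_simp
    _ ≤ _ := by gcongr

end TS

/-- **PERS**: regularity persists under any levelwise narrowing `l ≤ lam j ≤ 1` -/
def PERS (M C : ℕ) : Prop := ∀ (σ : Type) [DecidableEq σ] (T : TS σ) (st : T.C → ℕ) (lam : ℕ → ℝ)
  (C' n : ℕ) (a η l : ℝ), T.Stg st M → 1 ≤ n → 0 < η → η ≤ 1 → 0 < l →
  (∀ j, l ≤ lam j ∧ lam j ≤ 1) → a ≤ l ^ 2 → T.RgS st M (C' + C) n a η →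
  (T.shr lam).RgS st M C' n (a / l ^ 2) η

theorem pers {M : ℕ} (h : ∃ c, CHAR M c) : ∃ C, PERS M C := by
  obtain ⟨c, hc⟩ := h
  obtain ⟨C, hR⟩ := rgs_all hc
  refine ⟨4 * (2 ^ M + 2) ^ c * ((2 ^ M + 2) ^ c + 1) ^ C,
    fun σ _ T st lam C' n a η l hs hn h0 h1 l0 hl ha k => ?_⟩
  obtain ⟨κ, lb, k⟩ := TS.rgS_iff.1 k
  have n1 : (1 : ℝ) ≤ n := by exact_mod_cast hn
  refine TS.rgS_iff.2 ⟨_, _, k.shr hc hR hs l0 hl (TS.log_inv_nonneg h0 h1)
    (one_le_pow₀ (by linarith)) ?_ ha⟩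
  rw [pow_add, mul_comm]
  gcongr
  generalize hq : 4 * (2 ^ M + 2) ^ c * ((2 ^ M + 2) ^ c + 1) ^ C = q
  calc _ = (q : ℝ) := by rw [← hq]; push_cast; rfl
    _ ≤ 2 ^ q := by exact_mod_cast Nat.lt_two_pow_self.le
    _ ≤ _ := by gcongr; linarith

end Crest.Agent.N49.Tw

end
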