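import Crest.Agent.N49.Tw.Tw

/-!
# Row 49 (helper59): the interface between the characteristic lemma and the thresholds (FROZEN)
-/

set_option autoImplicit false

open Matrix MvPolynomial Finset

noncomputable section

namespace Crest.Agent.N49.Tw

open Po

/-- **the characteristic lemma**: Master for the stages `< t` and a small symbol bias of the stage `t`
give a small bias of the stage `t` on every shape and twist; all the losses are `(n + 2) ^ c` -/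
def CHAR (M c : ℕ) : Prop := ∀ (σ τ : Type) [DecidableEq σ] (T : TS σ) (S : Sh σ τ)
  (st : T.C → ℕ) (Ψ : T.Twd S) (t n : ℕ) (a b η R τ0 : ℝ) (κ : ℕ → ℝ) (k : T.Cw S → ℤ),
  T.Stg st M → T.Adm S st Ψ → S.Sz n a → 0 < b →
  (∀ j, b ≤ κ j ∧ (n + 2) ^ c * κ j ≤ a) → 0 < η → η ≤ 1 → 0 ≤ τ0 →
  T.Sem st t ((n + 2) ^ c) (b / (n + 2) ^ c) η → T.SymS st t κ R τ0 →
  k ≠ 0 → (∀ p, st p.1.1 ≠ t → k p = 0) →
  (n + 2) ^ c * qf (T.lw S st Ψ).D (zc k) ≤ a * R →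
  (T.lw S st Ψ).bias t k ^ (n + 2) ^ c ≤ (n + 2) ^ c * (τ0 + η)

/-- marginals from the semantic Master estimate of all the stages -/
def MARGS (M c : ℕ) : Prop := ∀ (σ τ : Type) [DecidableEq σ] (T : TS σ) (S : Sh σ τ)
  (st : T.C → ℕ) (Ψ : T.Twd S) (n : ℕ) (a η : ℝ) (p : S.W → Prop) [DecidablePred p],
  T.Stg st M → T.Adm S st Ψ → S.Sz n a → 0 < a → 0 < η →
  T.Sem st (M + 1) ((n + 2) ^ c) (a / (n + 2) ^ c) η → S.Idl p → S.Gen p →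
  (T.tw S Ψ).Push (T.tw (S.sub p) (T.tp S (S.sub p) (S.prj p) Ψ)) (T.rs S p) ((n + 2) ^ c * √η)

/-- push-forwards from the semantic Master estimate of all the stages -/
def MARHS (M c : ℕ) : Prop := ∀ (σ τ τ' J : Type) [DecidableEq σ] [Fintype J] [DecidableEq J]
  (T : TS σ) (S : Sh σ τ) (st : T.C → ℕ) (Ψ : T.Twd S) (n : ℕ) (a η : ℝ) (S' : Sh σ τ')
  (φ : Matrix S'.W S.W ℤ) (ψ : Matrix S.W S'.W ℤ) (N : Matrix S.W J ℤ) (Q : Matrix J S.W ℤ)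
  (cj : J → σ →₀ ℕ), T.Stg st M → T.Adm S st Ψ → S.Sz n a → 0 < a → 0 < η →
  T.Sem st (M + 1) ((n + 2) ^ c) (a / (n + 2) ^ c) η → S.Spl S' n φ ψ N Q cj →
  (T.tw S Ψ).Push (T.tw S' (T.tp S S' φ Ψ)) (T.hm S S' φ) ((n + 2) ^ c * √η)

/-- the law of one point from the semantic Master estimate of all the stages -/
def PTMS (M c : ℕ) : Prop := ∀ (τ : Type) (T : TS Unit) (S : Sh Unit τ) (st : T.C → ℕ)
  (Ψ : T.Twd S) (n : ℕ) (a η : ℝ) (χ : S.W → ℤ), T.Stg st M → T.Adm S st Ψ → S.Sz n a → 0 < a →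
  0 < η → T.Sem st (M + 1) ((n + 2) ^ c) (a / (n + 2) ^ c) η →
  (∀ m, m ≠ 0 → Finsupp.weight S.dg m ≤ M → m.prod (fun w n => χ w ^ n) = ∑ w, S.r w m * χ w) →
  (∀ w, |χ w| ≤ n) → (∀ j ∈ Icc 1 M, ∃ w, S.dg w = j ∧ χ w = 1) →
  (T.tw S Ψ).Push (T.ev S Ψ χ) (T.pw S χ) ((n + 2) ^ c * √η)

end Crest.Agent.N49.Tw

end
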