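import Crest.Agent.N49.Tw.Mh2
import Crest.Agent.N49.Tw.Api
import Crest.Agent.N49.Tw.Ch
import Crest.Agent.N49.Tw.Exp

/-! # Row 49 (helper29): morphisms of shapes on the laws, push-forward along split surjections -/

set_option autoImplicit false

open Matrix MvPolynomial Finset

noncomputable section

namespace Crest.Agent.N49.Tw.Mh

open Po TS

variable {σ τ τ' τ'' : Type} [DecidableEq σ] {T : TS σ} {S : Sh σ τ} {S' : Sh σ τ'} {S'' : Sh σ τ''}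

variable (T S S') in
/-- the matrix of `hm` -/
def lf (φ : Matrix S'.W S.W ℤ) : Matrix (T.Cw S') (T.Cw S) ℤ :=
  Matrix.of fun p' p => if p.1.1 = p'.1.1 then φ p'.1.2 p.1.2 else 0

variable {φ : Matrix S'.W S.W ℤ} {ψ : Matrix S.W S'.W ℤ} {φ' : Matrix S''.W S'.W ℤ} {Ψ : T.Twd S}

theorem hm_lf (y : T.Cw S → ℤ) : T.hm S S' φ y = lf T S S' φ *ᵥ y := by
  funext p'
  simp only [TS.hm, lf, mulVec, dotProduct, of_apply, sum_filter, ite_mul, zero_mul]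

theorem sum_lf {R : Type} [Ring R] (c : ∀ w' w, φ w' w ≠ 0 → S'.cd w' = S.cd w) (p' : T.Cw S')
    (g : T.C → S.W → R) : ∑ p : T.Cw S, (lf T S S' φ p' p : R) * g p.1.1 p.1.2 =
      ∑ w, (φ p'.1.2 w : R) * g p'.1.1 w := by
  rw [← sum_filter_of_ne (p := fun w => S.cd w = T.deg p'.1.1) (s := univ)
    (f := fun w => (φ p'.1.2 w : R) * g p'.1.1 w) fun w _ e => by
      rw [← c _ w fun z => e (by rw [z, Int.cast_zero, zero_mul]), p'.2], ← sum_cw,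
    sum_filter]
  refine sum_congr rfl fun p _ => ?_
  simp only [lf, of_apply]
  split_ifs with e
  · rw [e]
  · simp

theorem lf_mul (c : ∀ w' w, φ' w' w ≠ 0 → S''.cd w' = S'.cd w) :
    lf T S' S'' φ' * lf T S S' φ = lf T S S'' (φ' * φ) := by
  ext x p
  refine (sum_lf c x fun F w => if p.1.1 = F then φ w p.1.2 else 0).trans ?_
  simp only [lf, of_apply, mul_apply]
  split_ifs <;> simp

theorem lf_one {s : ℕ} (hs : ∀ F, T.lev F ≤ s) {A : Matrix S.W S.W ℤ}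
    (h : ∀ w w2, S.dg w ≤ s → A w w2 = (1 : Matrix _ _ ℤ) w w2) : lf T S S A = 1 := by
  ext x p
  rw [lf, of_apply, h _ _ (lev_cw x ▸ hs _), one_apply, one_apply, ← ite_and]
  exact if_congr ⟨fun e => Subtype.ext (Prod.ext e.1.symm e.2), fun e => e ▸ ⟨rfl, rfl⟩⟩ rfl rfl

theorem hm_hm (c : ∀ w' w, φ' w' w ≠ 0 → S''.cd w' = S'.cd w) (y : T.Cw S → ℤ) :
    T.hm S' S'' φ' (T.hm S S' φ y) = T.hm S S'' (φ' * φ) y := by
  rw [hm_lf, hm_lf, hm_lf, mulVec_mulVec, lf_mul c]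

theorem hm_prj (p : S.W → Prop) [DecidablePred p] (y : T.Cw S → ℤ) :
    T.hm S (S.sub p) (S.prj p) y = T.rs S p y := by
  funext q
  rw [TS.hm, sum_eq_single (⟨(q.1.1, q.1.2.1), q.2⟩ : T.Cw S)]
  · rw [prj_apply, if_pos rfl, one_mul]; rfl
  · intro b hb ne
    rw [prj_apply, if_neg fun e => ne (Subtype.ext (Prod.ext (mem_filter.1 hb).2 e)), zero_mul]
  · exact fun k => (k (mem_filter.2 ⟨mem_univ _, rfl⟩)).elim

theorem pu_Yw (c : ∀ w' w, φ w' w ≠ 0 → S'.cd w' = S.cd w) (y : T.Cw S → ℝ) (F : T.C) :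
    pu ℝ φ (T.Yw S y F) = T.Yw S' (rl (lf T S S' φ) *ᵥ y) F := by
  have e : ∀ p' ∈ univ.filter fun p' : T.Cw S' => p'.1.1 = F,
      MvPolynomial.C ((rl (lf T S S' φ) *ᵥ y) p') * (X p'.1.2 : MvPolynomial S'.W ℝ) =
        ∑ p : T.Cw S with p.1.1 = F, MvPolynomial.C (y p) * (φ p'.1.2 p.1.2 • X p'.1.2) :=
    fun p' hp => by
      rw [mulVec, dotProduct, map_sum, sum_mul, sum_filter, ← (mem_filter.1 hp).2]
      refine sum_congr rfl fun p _ => ?_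
      simp only [rl, lf, map_apply, of_apply]
      split_ifs
      · rw [map_mul, map_intCast, zsmul_eq_mul]; ring
      · simp
  rw [Yw, Yw, sum_congr rfl e, sum_comm, map_sum]
  refine sum_congr rfl fun p hp => ?_
  rw [map_mul, pu_X, ← mul_sum, sum_cw F fun w' => φ w' p.1.2 • (X w' : MvPolynomial S'.W ℝ),
    sum_filter_of_ne fun w' _ z => by
      rw [c w' p.1.2 fun y => z (by rw [y, zero_smul]), p.2, (mem_filter.1 hp).2]]
  simp [pu]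

/-- the errors of a twisted law as a function on the coordinates -/
def uw (Ψ : T.Twd S) (y : T.Cw S → ℝ) : T.Cw S → ℝ := (T.tw S Ψ).u y

theorem u_hm (o : S.Ok) (o' : S'.Ok) (H : S.Hm S' φ) (y : T.Cw S → ℝ) :
    uw (T.tp S S' φ Ψ) (rl (lf T S S' φ) *ᵥ y) = rl (lf T S S' φ) *ᵥ uw Ψ y := by
  funext p'
  have e : eval (T.Yw S' (rl (lf T S S' φ) *ᵥ y)) (T.tp S S' φ Ψ p'.1.1) =
      pu ℝ φ (eval (T.Yw S y) (Ψ p'.1.1)) := by
    rw [tp, MvPolynomial.eval_map, ← funext (pu_Yw H.cd y)]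
    exact (eval₂_comp_left (S.pu S' φ) (RingHom.id _) (T.Yw S y) (Ψ p'.1.1)).symm
  refine (tw_u _ p').trans ?_
  rw [e, ← hm_cf o o' H, ← sum_lf H.cd p' fun F w => S.cf ℝ w (eval (T.Yw S y) (Ψ F))]
  exact sum_congr rfl fun p _ => congrArg _ (tw_u y p).symm

theorem kw_lf (c : ∀ w' w, φ w' w ≠ 0 → S'.cd w' = S.cd w) (B : Matrix T.C T.C ℝ)
    (K : Matrix S.W S.W ℝ) : rl (lf T S S' φ) * T.kw S B K * (rl (lf T S S' φ))ᵀ =
      T.kw S' B (rl φ * K * (rl φ)ᵀ) := by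
  ext x x2
  have e : ∀ q : T.Cw S, (rl (lf T S S' φ) * T.kw S B K) x q =
      B x.1.1 q.1.1 * (rl φ * K) x.1.2 q.1.2 := fun q => by
    refine (sum_lf c x fun F w => B F q.1.1 * K w q.1.2).trans ?_
    rw [mul_apply, mul_sum]
    exact sum_congr rfl fun _ _ => mul_left_comm _ _ _
  rw [mul_apply, sum_congr rfl fun q _ => by rw [e, mul_comm]]
  refine (sum_lf c x2 fun F w => B x.1.1 F * (rl φ * K) x.1.2 w).trans ?_
  change _ = B x.1.1 x2.1.1 * ∑ w, (rl φ * K) x.1.2 w * (φ x2.1.2 w : ℝ)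
  rw [mul_sum]
  exact sum_congr rfl fun _ _ => by ring

variable {s : ℕ}

variable (T) in
/-- the bijection of the configurations -/
def Iso.eq (h : Iso s S S' φ ψ) (hs : ∀ F, T.lev F ≤ s) : (T.Cw S → ℤ) ≃ (T.Cw S' → ℤ) where
  toFun := T.hm S S' φ
  invFun := T.hm S' S ψ
  left_inv y := by rw [hm_hm h.cd, hm_lf, lf_one hs h.l, one_mulVec]
  right_inv y := by rw [hm_hm h.hm.cd, hm_lf, lf_one hs h.r, one_mulVec]

theorem Iso.kw (h : Iso s S S' φ ψ) (hs : ∀ F, T.lev F ≤ s) (B : Matrix T.C T.C ℝ) :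
    T.kw S' B S'.K = rl (lf T S S' φ) * T.kw S B S.K * (rl (lf T S S' φ))ᵀ := by
  rw [kw_lf h.hm.cd]
  ext x y
  exact congrArg (B x.1.1 y.1.1 * ·) (h.K _ _ (lev_cw x ▸ hs _) (lev_cw y ▸ hs _))

theorem Iso.inv (h : Iso s S S' φ ψ) (hs : ∀ F, T.lev F ≤ s) :
    rl (lf T S' S ψ) * rl (lf T S S' φ) = 1 ∧ rl (lf T S S' φ) * rl (lf T S' S ψ) = 1 := by
  rw [← rl_mul, ← rl_mul, lf_mul h.cd, lf_mul h.hm.cd, lf_one hs h.l, lf_one hs h.r]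
  exact ⟨rl_one, rl_one⟩

/-- isomorphic shapes have the same law -/
theorem Iso.eqv (h : Iso s S S' φ ψ) (hs : ∀ F, T.lev F ≤ s) (hK : T.K.PosDef) (Ψ : T.Twd S) :
    (T.tw S Ψ).Eqv (T.tw S' (T.tp S S' φ Ψ)) (h.eq T hs) := fun (y : T.Cw S → ℤ) => by
  change gs (T.kw S' T.K S'.K)⁻¹ (uw (T.tp S S' φ Ψ) (zc (T.hm S S' φ y))) =
    gs (T.kw S T.K S.K)⁻¹ (uw Ψ (zc y))
  rw [hm_lf, zc_rl, u_hm h.ok h.ok' h.hm, h.kw hs]
  exact gs_conj (kw_posDef hK h.ok.pd).det_pos.ne' (h.inv hs).1 (h.inv hs).2 _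

omit [DecidableEq σ] in
theorem sz_mono {n n' : ℕ} {a a' : ℝ} (h : S.Sz n a) (hn : n ≤ n') (ha : a' ≤ a) : S.Sz n' a' :=
  ⟨h.toOk, h.card.trans hn, fun w m => (h.ht w m).trans (by exact_mod_cast hn),
    fun x => (mul_le_mul_of_nonneg_right ha (by positivity)).trans (h.lo x), h.gen⟩

theorem sem_mono {st : T.C → ℕ} {t n n' : ℕ} {a a' η : ℝ} (h : T.Sem st t n a η) (hn : n' ≤ n)
    (ha : a ≤ a') : T.Sem st t n' a' η := fun τ S Ψ k => h τ S Ψ (sz_mono k hn ha)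

variable {J : Type} [Fintype J] [DecidableEq J] {n : ℕ} {a η : ℝ} {N : Matrix S.W J ℤ}
  {Q : Matrix J S.W ℤ} {cj : J → σ →₀ ℕ} {st : T.C → ℕ}

/-- the push-forward from the marginals, for any class of regularity hypotheses -/
theorem push_of (hs : ∀ F, T.lev F ≤ s) (hK : T.K.PosDef) (hΨ : T.Adm S st Ψ) (hS : S.Sz n a)
    (H : Spw S s S' n φ ψ N Q cj) (hM : ∀ (B : Sh σ σ) (Ψ' : T.Twd B) (p : B.W → Prop)
      [DecidablePred p], T.Adm B st Ψ' → B.Sz ((n + 1) ^ (2 * s + 3)) (a / (n + 1) ^ 4) → B.Idl p →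
      B.Gen p → (T.tw B Ψ').Push (T.tw (B.sub p) (T.tp B (B.sub p) (B.prj p) Ψ')) (T.rs B p) η) :
    (T.tw S Ψ).Push (T.tw S' (T.tp S S' φ Ψ)) (T.hm S S' φ) η := fun g hg => by
  obtain ⟨B, p, _, φ1, ψ1, φ2, ψ2, b1, b2, b3, I1, I2, e⟩ := core hS H
  have := hM B _ p (hΨ.tp I1.hm.dg) b1 b2 b3 (fun y => g ((I2.eq T hs).symm y)) fun _ => hg _
  rw [tp_tp, ← e, ← tp_tp, ← (I2.eqv hs hK _).E, ← (I1.eqv hs hK _).E] at this
  refine le_of_eq_of_le (congrArg₂ (fun f f' => |(T.tw S Ψ).E f - (T.tw S' _).E f'|)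
    (funext fun (y : T.Cw S → ℤ) => congrArg g ((Equiv.eq_symm_apply _).2 ?_))
    (funext fun y => congrArg g (Equiv.symm_apply_apply _ _).symm)) this
  change T.hm S' _ φ2 (T.hm S S' φ y) = T.rs B p (T.hm S B φ1 y)
  rw [← hm_prj, hm_hm I2.hm.cd, hm_hm (hm_sub b2).cd, e]

theorem push_spl (hs : ∀ F, T.lev F ≤ s) (hK : T.K.PosDef) (hΨ : T.Adm S st Ψ) (hS : S.Sz n a)
    (H : S.Spl S' n φ ψ N Q cj) (hη : 0 ≤ η) (hM : ∀ (B : Sh σ σ) (Ψ' : T.Twd B) (p : B.W → Prop)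
      [DecidablePred p], T.Adm B st Ψ' → B.Sz ((n + 1) ^ (2 * s + 3)) (a / (n + 1) ^ 4) → B.Idl p →
      B.Gen p → (T.tw B Ψ').Push (T.tw (B.sub p) (T.tp B (B.sub p) (B.prj p) Ψ')) (T.rs B p) η) :
    (T.tw S Ψ).Push (T.tw S' (T.tp S S' φ Ψ)) (T.hm S S' φ) η := by
  rcases spl_cases hS H s with h | h | h
  exacts [(h.eqv hs hK Ψ).push.mono hη, push_of hs hK hΨ hS h hM, push_of hs hK hΨ hS h hM]

/-- `MARHS` for the weak form of split surjections -/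
def MARWS (M c : ℕ) : Prop := ∀ (σ τ τ' J : Type) [DecidableEq σ] [Fintype J] [DecidableEq J]
  (T : TS σ) (S : Sh σ τ) (st : T.C → ℕ) (Ψ : T.Twd S) (n : ℕ) (a η : ℝ) (S' : Sh σ τ')
  (φ : Matrix S'.W S.W ℤ) (ψ : Matrix S.W S'.W ℤ) (N : Matrix S.W J ℤ) (Q : Matrix J S.W ℤ)
  (cj : J → σ →₀ ℕ), T.Stg st M → T.Adm S st Ψ → S.Sz n a → 0 < a → 0 < η →
  T.Sem st (M + 1) ((n + 2) ^ c) (a / (n + 2) ^ c) η → Spw S M S' n φ ψ N Q cj →
  (T.tw S Ψ).Push (T.tw S' (T.tp S S' φ Ψ)) (T.hm S S' φ) ((n + 2) ^ c * √η)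

theorem marg_big {M c : ℕ} (h : MARGS M c) (h1 : T.Stg st M) (ha : 0 < a) (hη : 0 < η)
    (hs : T.Sem st (M + 1) ((n + 2) ^ ((2 * M + 4) * c + 4)) (a / (n + 2) ^ ((2 * M + 4) * c + 4)) η)
    (B : Sh σ σ) (Ψ' : T.Twd B) (p : B.W → Prop) [DecidablePred p] (b0 : T.Adm B st Ψ')
    (b1 : B.Sz ((n + 1) ^ (2 * M + 3)) (a / (n + 1) ^ 4)) (b2 : B.Idl p) (b3 : B.Gen p) :
    (T.tw B Ψ').Push (T.tw (B.sub p) (T.tp B (B.sub p) (B.prj p) Ψ')) (T.rs B p)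
      ((n + 2) ^ ((2 * M + 4) * c + 4) * √η) := by
  have e1 : (n + 1) ^ (2 * M + 3) + 2 ≤ (n + 2) ^ (2 * M + 4) := by
    have a1 : (n + 1) ^ (2 * M + 3) ≤ (n + 2) ^ (2 * M + 3) := Nat.pow_le_pow_left (by omega) _
    have a2 : n + 2 ≤ (n + 2) ^ (2 * M + 3) := Nat.le_self_pow (by omega) _
    rw [pow_succ (n + 2) (2 * M + 3)]; nlinarith
  have e2 : ((n + 1) ^ (2 * M + 3) + 2) ^ c * (n + 1) ^ 4 ≤ (n + 2) ^ ((2 * M + 4) * c + 4) := by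
    rw [pow_add (n + 2), pow_mul]; gcongr; omega
  have e3 : ((n + 1) ^ (2 * M + 3) + 2) ^ c ≤ (n + 2) ^ ((2 * M + 4) * c + 4) :=
    (Nat.le_mul_of_pos_right _ (by positivity)).trans e2
  refine (h σ σ T B st Ψ' _ _ η p h1 b0 b1 (by positivity) hη (sem_mono hs e3 ?_) b2 b3).mono
    (mul_le_mul_of_nonneg_right (by exact_mod_cast e3) (Real.sqrt_nonneg _))
  rw [div_div, mul_comm ((n + 1 : ℝ) ^ 4)]
  exact div_le_div_of_nonneg_left ha.le (by positivity) (by exact_mod_cast e2)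

theorem marws {M c : ℕ} (h : MARGS M c) : MARWS M ((2 * M + 4) * c + 4) :=
  fun _ _ _ _ _ _ _ _ _ _ _ _ _ _ _ _ _ _ _ _ h1 h2 h3 ha hη hs H =>
    push_of (fun F => (h1.le F).2) h1.cl.1.pd h2 h3 H (marg_big h h1 ha hη hs)

theorem marhs {M c : ℕ} (h : MARGS M c) : MARHS M ((2 * M + 4) * c + 4) :=
  fun _ _ _ _ _ _ _ _ _ _ _ _ _ _ _ _ _ _ _ _ h1 h2 h3 ha hη hs H =>
    push_spl (fun F => (h1.le F).2) h1.cl.1.pd h2 h3 H (by positivity) (marg_big h h1 ha hη hs)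

end Crest.Agent.N49.Tw.Mh

end
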