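import Crest.Agent.N49.Tw.Pr0
import Crest.Agent.N49.Tw.Api
import Crest.Agent.N49.Tw.Mh3
import Crest.Agent.N49.Tw.Ch

/-! # Row 49 (helper79): the law of one point from the push-forward lemma -/

set_option autoImplicit false

open Matrix MvPolynomial Finset

noncomputable section

namespace Crest.Agent.N49.Tw

open Po

/-- `MARHS` for the weak splittings -/
def MARWS (M c : ℕ) : Prop := ∀ (σ τ τ' J : Type) [DecidableEq σ] [Fintype J] [DecidableEq J]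
  (T : TS σ) (S : Sh σ τ) (st : T.C → ℕ) (Ψ : T.Twd S) (n : ℕ) (a η : ℝ) (S' : Sh σ τ')
  (φ : Matrix S'.W S.W ℤ) (ψ : Matrix S.W S'.W ℤ) (N : Matrix S.W J ℤ) (Q : Matrix J S.W ℤ)
  (cj : J → σ →₀ ℕ), T.Stg st M → T.Adm S st Ψ → S.Sz n a → 0 < a → 0 < η →
  T.Sem st (M + 1) ((n + 2) ^ c) (a / (n + 2) ^ c) η → Mh.Spw S M S' n φ ψ N Q cj →
  (T.tw S Ψ).Push (T.tw S' (T.tp S S' φ Ψ)) (T.hm S S' φ) ((n + 2) ^ c * √η)

/-- `MARHT` for the weak splittings -/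
def MARWT (M C : ℕ) : Prop := ∀ (σ τ τ' J : Type) [DecidableEq σ] [Fintype J] [DecidableEq J]
  (T : TS σ) (S : Sh σ τ) (st : T.C → ℕ) (Ψ : T.Twd S) (n : ℕ) (a η : ℝ) (S' : Sh σ τ')
  (φ : Matrix S'.W S.W ℤ) (ψ : Matrix S.W S'.W ℤ) (N : Matrix S.W J ℤ) (Q : Matrix J S.W ℤ)
  (cj : J → σ →₀ ℕ), T.Hy S st Ψ M C n a η → Mh.Spw S M S' n φ ψ N Q cj →
  (T.tw S Ψ).Push (T.tw S' (T.tp S S' φ Ψ)) (T.hm S S' φ) η

namespace Pr

variable {τ : Type} {S : Sh Unit τ} {M : ℕ} {χ : S.W → ℤ} {w0 : Fin M → S.W}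

theorem spw {n : ℕ} {a : ℝ} (o : S.Sz n a) (h : ∀ j, S.dg (w0 j) = j + 1 ∧ χ (w0 j) = 1)
    (hχ : ∀ m, m ≠ 0 → Finsupp.weight S.dg m ≤ M →
      m.prod (fun w n => χ w ^ n) = ∑ w, S.r w m * χ w) (hn : ∀ w, |χ w| ≤ n) :
    Mh.Spw S M (pS S M χ) n (ph S M χ) (ps w0) (Nm χ w0) (Qm w0) fun j => S.cd j.1 :=
  ⟨pS_ok o.toOk h, pS_hm o.toOk hχ, rfl, ph_ps h, ph_N h, Q_N, Q_ps, one_eq h, c_ps h, c_N h,
    h_ps o, h_ph hn, h_N o h hn, h_Q o, gen o.toOk o.gen h hχ⟩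

theorem cf_one {j : Fin M} {P : MvPolynomial (Fin M) ℝ}
    (hP : P.IsWeightedHomogeneous (pS S M χ).dg (j + 1)) :
    (pS S M χ).cf ℝ j P = eval (fun _ => 1) P := by
  rw [Sh.cf_eq, eval_eq]
  refine sum_congr rfl fun m hm => ?_
  have := hP (mem_support_iff.1 hm)
  rw [show (pS S M χ).dg = _ from funext dg_pS] at this
  simp [this]

theorem ev_pu (o : S.Ok) {c : MvPolynomial S.W ℝ} {d : ℕ} (hc : c.IsWeightedHomogeneous S.dg d)
    (hd : d ≤ M) : eval (fun _ => (1 : ℝ)) (S.pu (pS S M χ) (ph S M χ) c) =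
      eval (fun w => (χ w : ℝ)) c := by
  rw [c.as_sum, map_sum, map_sum, map_sum]
  refine sum_congr rfl fun m hm => ?_
  rw [Sh.pu_eq, Sh.hA, aeval_monomial, eval_monomial, map_mul, algebraMap_eq, eval_C, Finsupp.prod,
    Finsupp.prod, map_prod]
  refine congrArg _ (prod_congr rfl fun w hw => ?_)
  have a : S.dg w ≤ M := (Finsupp.le_weight_of_ne_zero' _ (Finsupp.mem_support_iff.1 hw)).trans
    ((hc (mem_support_iff.1 hm)).trans_le hd)
  have b := o.dg_pos w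
  rw [map_pow, Sh.el, map_sum, sum_eq_single (⟨S.dg w - 1, by omega⟩ : Fin M) (fun k _ z => by
    rw [ph, of_apply, if_neg fun y => z (Fin.ext (by simp; omega)), zero_smul, map_zero]) (by simp),
    ph, of_apply, if_pos (by simp; omega)]
  simp

variable {T : TS Unit} {st : T.C → ℕ} {Ψ : T.Twd S}

/-- the coordinates of the point shape -/
def eC (hs : T.Stg st M) : T.Cw (pS S M χ) ≃ T.C where
  toFun p := p.1.1
  invFun F := ⟨(F, ⟨T.lev F - 1, by have := hs.cl.1.lev_pos F; have := (hs.le F).2; omega⟩),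
    unit_ext (by
      have := hs.cl.1.lev_pos F
      rw [Sh.cd_degree, dg_pS]; exact Nat.sub_add_cancel this)⟩
  left_inv p := Subtype.ext (Prod.ext rfl (Fin.ext (by
    have := TS.lev_cw p
    rw [dg_pS] at this; simp [this])))
  right_inv _ := rfl

theorem u_pt (hs : T.Stg st M) (ha : T.Adm S st Ψ) (o : S.Ok) (y : T.C → ℝ)
    (p : T.Cw (pS S M χ)) : (T.tw (pS S M χ) (T.tp S _ (ph S M χ) Ψ)).u (fun q => y q.1.1) p =
      (T.ev S Ψ χ).u y p.1.1 := by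
  have hl : T.lev p.1.1 = p.1.2 + 1 := (TS.lev_cw p).trans (dg_pS _)
  have ha' : T.Adm (pS S M χ) st (T.tp S _ (ph S M χ) Ψ) :=
    ha.tp fun j w e => (dg_pS j).trans (ph_ne e).symm
  have hY : ∀ F, T.Yw (pS S M χ) (fun q => y q.1.1) F =
      MvPolynomial.C (y F) * X ((eC (S := S) (χ := χ) hs).symm F).1.2 := fun F => by
    have e : univ.filter (fun q : T.Cw (pS S M χ) => q.1.1 = F) = {(eC hs).symm F} := by
      ext q; rw [mem_filter, mem_singleton, Equiv.eq_symm_apply]; exact and_iff_right (mem_univ _)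
    rw [TS.Yw, e, sum_singleton]; rfl
  refine (TS.tw_u _ p).trans ?_
  rw [cf_one]
  · change _ = eval y (MvPolynomial.map (eval fun w => (χ w : ℝ)) (Ψ p.1.1))
    rw [TS.tp, eval_map, eval_map, eval₂_eq, eval₂_eq, map_sum]
    refine sum_congr rfl fun m hm => ?_
    rw [map_mul, ev_pu o (ha.gr _ m) ((Nat.sub_le _ _).trans (hs.le _).2), map_prod]
    exact congrArg _ (prod_congr rfl fun F _ => by erw [hY]; simp)
  · rw [eval_eq, ← hl]
    refine IsWeightedHomogeneous.sum _ _ _ fun m hm => ?_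
    have := (ha'.gr p.1.1 m).mul (IsWeightedHomogeneous.prod m.support
      (fun F => T.Yw (pS S M χ) (fun q => y q.1.1) F ^ m F) (fun F => m F • T.lev F) fun F _ =>
        IsWeightedHomogeneous.pow (by
          rw [hY]
          exact TS.lev_cw ((eC (S := S) (χ := χ) hs).symm F) ▸
            (isWeightedHomogeneous_X ℝ _ _).C_mul _) _)
    rwa [show ∑ F ∈ m.support, m F • T.lev F = Finsupp.weight T.lev m from
      (Finsupp.weight_apply _ _).symm, Nat.sub_add_cancel (ha'.le _ m hm).1] at this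

theorem K_pt (hs : T.Stg st M) (o : S.Ok) : (T.tw (pS S M χ) (T.tp S _ (ph S M χ) Ψ)).K =
    (T.ev S Ψ χ).K.submatrix (eC hs) (eC hs) := by
  refine Matrix.ext fun (p : T.Cw (pS S M χ)) (p' : T.Cw (pS S M χ)) => ?_
  change T.K p.1.1 p'.1.1 * (pS S M χ).K p.1.2 p'.1.2 =
    √(qf S.K fun w => if S.dg w = T.lev p.1.1 then (χ w : ℝ) else 0) * T.K p.1.1 p'.1.1 *
      √(qf S.K fun w => if S.dg w = T.lev p'.1.1 then (χ w : ℝ) else 0)
  by_cases z : T.K p.1.1 p'.1.1 = 0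
  · simp [z]
  have e := hs.cl.1.blk _ _ z
  have hl : T.lev p.1.1 = p.1.2 + 1 := (TS.lev_cw p).trans (dg_pS _)
  have hl' : T.lev p'.1.1 = p'.1.2 + 1 := (TS.lev_cw p').trans (dg_pS _)
  rw [← e, mul_comm (√_), mul_assoc, Real.mul_self_sqrt (qf_nonneg o.pd _),
    show p'.1.2 = p.1.2 from Fin.ext (by omega), hl]
  congr 1
  simp only [qf, mul_apply, transpose_apply, dotProduct, mulVec, sum_mul, mul_sum, rl, map_apply,
    ph, of_apply, Int.cast_ite, Int.cast_zero]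
  rw [sum_comm]
  exact sum_congr rfl fun _ _ => sum_congr rfl fun _ _ => by ring

theorem gs_eqv {A B : Type} [Fintype A] [Fintype B] [DecidableEq A] [DecidableEq B] (e : A ≃ B)
    (K : Matrix B B ℝ) (x : B → ℝ) : gs (K.submatrix e e)⁻¹ (x ∘ e) = gs K⁻¹ x := by
  rw [gs, gs, inv_submatrix_equiv, qf, submatrix_mulVec_equiv, comp_equiv_dotProduct_comp_equiv]
  simp only [Function.comp_assoc, Equiv.self_comp_symm, Function.comp_id, qf]

theorem push_pt (hs : T.Stg st M) (ha : T.Adm S st Ψ) (o : S.Ok) {η : ℝ}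
    (h : (T.tw S Ψ).Push (T.tw (pS S M χ) (T.tp S _ (ph S M χ) Ψ)) (T.hm S _ (ph S M χ)) η) :
    (T.tw S Ψ).Push (T.ev S Ψ χ) (T.pw S χ) η := by
  have e : (T.ev S Ψ χ).Eqv (T.tw (pS S M χ) (T.tp S _ (ph S M χ) Ψ))
      ((eC hs).symm.arrowCongr (Equiv.refl ℤ)) := fun y => by
    have a : (T.tw (pS S M χ) (T.tp S _ (ph S M χ) Ψ)).u (zc (((eC hs).symm.arrowCongr
      (Equiv.refl ℤ)) y)) = (T.ev S Ψ χ).u (zc y) ∘ eC hs := funext (u_pt hs ha o (zc y))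
    exact (congrArg₂ (fun K x => gs K⁻¹ x) (K_pt hs o) a).trans (gs_eqv (eC hs) _ _)
  have := h.trans e.symm.push
  rw [add_zero] at this
  suffices k : T.pw S χ = fun y F => T.hm S _ (ph S M χ) y ((eC hs).symm F) by
    rw [k]; exact this
  funext y F
  refine (sum_congr rfl fun p hp => ?_ :
    T.hm S _ (ph S M χ) y ((eC hs).symm F) = T.pw S χ y F).symm
  rw [ph, of_apply, if_pos]
  rw [← TS.lev_cw, (mem_filter.1 hp).2]
  exact (TS.lev_cw ((eC (S := S) (χ := χ) hs).symm F)).trans (dg_pS _)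

theorem exists_w0 (h : ∀ j ∈ Icc 1 M, ∃ w, S.dg w = j ∧ χ w = 1) :
    ∃ w0 : Fin M → S.W, ∀ j, S.dg (w0 j) = j + 1 ∧ χ (w0 j) = 1 :=
  Classical.skolem.1 fun j : Fin M => h (j + 1) (mem_Icc.2 ⟨by omega, j.2⟩)

end Pr

theorem ptms_of {M c : ℕ} (H : MARWS M c) : PTMS M c :=
  fun τ T S st Ψ n a η _ hs ha o a0 e0 sem hχ hn h => let ⟨_, h0⟩ := Pr.exists_w0 h
  Pr.push_pt hs ha o.toOk (H Unit τ Unit _ T S st Ψ n a η _ _ _ _ _ _ hs ha o a0 e0 sem
    (Pr.spw o h0 hχ hn))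

theorem ptms {M c : ℕ} (H : MARGS M c) : PTMS M ((2 * M + 4) * c + 4) := ptms_of (Mh.marws H)

theorem ptmt_of {M C : ℕ} (H : MARWT M C) : PTMT M C :=
  fun τ T S st Ψ n a η _ hy hχ hn h => let ⟨_, h0⟩ := Pr.exists_w0 h
  Pr.push_pt hy.stg hy.adm hy.sz.toOk (H Unit τ Unit _ T S st Ψ n a η _ _ _ _ _ _ hy
    (Pr.spw hy.sz h0 hχ hn))

end Crest.Agent.N49.Tw

end
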