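import Crest.Agent.N49.Tw.Cfin
import Crest.Agent.N49.Tw.Cbr
import Crest.Agent.N49.Tw.Csem
import Crest.Agent.N49.Tw.Marg
import Crest.Agent.N49.Tw.Ptm
import Crest.Agent.N49.Tw.Ch1
import Crest.Agent.N49.Tw.Pers
import Crest.Agent.N49.Un.Pre

/-!
# Row 49 (helper71): the analytic block is closed
-/

set_option autoImplicit false

namespace Crest.Agent.N49.Tw

/-- **the characteristic lemma** -/
theorem char (M : ℕ) : ∃ c, CHAR M c := lfin ch1 lbr lsem M _ (Mh.marhs (margs M))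

/-- **the Master lemma and its marginal forms** -/
theorem mastA (M : ℕ) : ∃ C, MAST M C ∧ MARGT M C ∧ MARHT M C ∧ PTMT M C :=
  mast_of (char M) ⟨_, margs M⟩ ⟨_, Mh.marhs (margs M)⟩ ⟨_, ptms (margs M)⟩

theorem mastC (M : ℕ) : ∃ C0, ∀ C, C0 ≤ C → MAST M C ∧ MARGT M C ∧ MARHT M C ∧ PTMT M C :=
  let ⟨C0, a, b, c, d⟩ := mastA M
  ⟨C0, fun _ h => ⟨a.mono h, b.mono h, c.mono h, d.mono h⟩⟩

theorem mastP (M : ℕ) : ∃ C, MAST M C ∧ PTMT M C := let ⟨C, a, _, _, d⟩ := mastA M; ⟨C, a, d⟩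

theorem ma : Un.MA := fun M => let ⟨C, a, _, c, _⟩ := mastA M; ⟨C, a, c⟩

theorem persA (M : ℕ) : ∃ C, PERS M C := pers (char M)

theorem rgsA (M : ℕ) : ∃ C, ∀ t ≤ M, RGS M t C := let ⟨_, h⟩ := char M; rgs_all h

end Crest.Agent.N49.Tw
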