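import Crest.Agent.N49.Tw.Cd
import Crest.Agent.N49.Tw.Sa

/-!
# Row 49 (helper91): extensions of shapes are shapes
-/

set_option autoImplicit false
set_option linter.unusedSectionVars false

open Matrix MvPolynomial Finset

noncomputable section

namespace Crest.Agent.N49.Tw

open Po

namespace Xt

theorem wt_comp {α M N : Type} [AddCommMonoid M] [AddCommMonoid N] (φ : M →+ N) (f : α → M)
    (m : α →₀ ℕ) : φ (Finsupp.weight f m) = Finsupp.weight (fun a => φ (f a)) m := by
  simp [Finsupp.weight_apply, map_finsuppSum]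

theorem wt_add {α M : Type} [AddCommMonoid M] (f g : α → M) (m : α →₀ ℕ) :
    Finsupp.weight (fun a => f a + g a) m = Finsupp.weight f m + Finsupp.weight g m := by
  simp [Finsupp.weight_apply, Finsupp.sum_add]

theorem wt_single {α : Type} (m : α →₀ ℕ) :
    Finsupp.weight (fun a => Finsupp.single a (1 : ℕ)) m = m := by
  simp [Finsupp.weight_apply]

theorem wt_congr {α M : Type} [AddCommMonoid M] {f g : α → M} {m : α →₀ ℕ}
    (h : ∀ a ∈ m.support, f a = g a) : Finsupp.weight f m = Finsupp.weight g m :=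
  by
  rw [Finsupp.weight_apply, Finsupp.weight_apply]
  exact Finsupp.sum_congr fun a ha => by rw [h a ha]

theorem wt_zero {α β : Type} {f : α → β →₀ ℕ} {m : α →₀ ℕ} (h : Finsupp.weight f m = 0) :
    ∀ a ∈ m.support, f a = 0 := fun a ha => by
  have := (sum_eq_zero_iff.1 h) a ha
  exact (smul_eq_zero.1 this).resolve_left (Finsupp.mem_support_iff.1 ha)

variable {σ τ L : Type} [DecidableEq L] {S : Sh σ τ} {B : Finset (L →₀ ℕ)}

theorem mem_xw {W : Type} [Fintype W] [DecidableEq W] {p : Option W × (L →₀ ℕ)} :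
    p ∈ ((univ : Finset (Option W)) ×ˢ B).erase (none, 0) ↔ p ≠ (none, 0) ∧ p.2 ∈ B := by
  simp

theorem xw_mem (x : XW S.W B) : x.1.2 ∈ B := (mem_xw.1 x.2).2

theorem xw_some {x : XW S.W B} (h : x.1.2 = 0) : ∃ w, x.1.1 = some w := by
  obtain ⟨⟨o, β⟩, k⟩ := x
  cases o with
  | none => exact absurd (show (none, β) = (none, 0) from Prod.ext rfl h) (mem_xw.1 k).1
  | some w => exact ⟨w, rfl⟩

theorem xw_inc (h0 : 0 ∈ B) {x : XW S.W B} (h : x.1.2 = 0) : ∃ w, x = S.inc h0 w :=
  (xw_some h).imp fun _ e => Subtype.ext (Prod.ext e h)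

theorem inc_inj (h0 : 0 ∈ B) : Function.Injective (S.inc h0) := fun _ _ e =>
  Option.some.inj (congrArg (fun x : XW S.W B => x.1.1) e)

/-- the words with a given fresh part -/
theorem xsum {M : Type} [AddCommMonoid M] {β : L →₀ ℕ} (hβ : β ∈ B) (g : Option S.W → M)
    (h0 : β = 0 → g none = 0) : ∑ x : XW S.W B, (if β = x.1.2 then g x.1.1 else 0) = ∑ o, g o := by
  rw [sum_coe_sort _ fun p : Option S.W × (L →₀ ℕ) => if β = p.2 then g p.1 else 0, sum_erase,
    sum_product]
  · exact sum_congr rfl fun o _ => by simp [hβ]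
  · split_ifs with k
    · exact h0 k
    · rfl

/-- old and new words -/
theorem xsplit {M : Type} [AddCommMonoid M] (h0 : 0 ∈ B) (f : XW S.W B → M) :
    ∑ x, f x = ∑ w, f (S.inc h0 w) + ∑ x with x.1.2 ≠ 0, f x := by
  rw [← sum_filter_add_sum_filter_not univ fun x : XW S.W B => x.1.2 = 0]
  congr 1
  rw [← sum_image (s := univ) (g := S.inc h0) (f := f) fun _ _ _ _ e => inc_inj h0 e]
  refine sum_congr ?_ fun _ _ => rfl
  ext x
  simp only [mem_filter, mem_univ, true_and, mem_image]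
  exact ⟨fun h => (xw_inc h0 h).imp fun _ e => e.symm, fun ⟨w, e⟩ => e ▸ rfl⟩

theorem ru_sg (h : S.Ok) (o o' : Option S.W) : S.ru o (S.sg o') = if o = o' then 1 else 0 := by
  cases o <;> cases o' <;> simp [Sh.ru, Sh.sg, h.r_zero, h.one]

theorem ru_zero (h : S.Ok) (o : Option S.W) : S.ru o 0 = if o = none then 1 else 0 := ru_sg h o none

theorem ru_none {m : S.W →₀ ℕ} (k : m ≠ 0) : S.ru none m = 0 := if_neg k

/-- the unital multiplication law -/
theorem ru_mul (h : S.Ok) (o : Option S.W) (m m' : S.W →₀ ℕ) :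
    S.ru o (m + m') = ∑ o', S.ru o' m * S.ru o (S.sg o' + m') := by
  by_cases k : m = 0
  · subst k
    simp [ru_zero h, Sh.sg]
  · rw [Fintype.sum_option, ru_none k, zero_mul, zero_add]
    cases o with
    | none =>
      rw [ru_none (by simp [k])]
      exact (sum_eq_zero fun w _ => by rw [ru_none (by simp [Sh.sg]), mul_zero]).symm
    | some w => exact h.mul w m m' k

theorem ru_gr (h : S.Ok) {o : Option S.W} {m : S.W →₀ ℕ} (k : S.ru o m ≠ 0) :
    Finsupp.weight S.cd m = o.elim 0 S.cd := by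
  cases o with
  | none =>
    have : m = 0 := by_contra fun e => k (ru_none e)
    simp [this]
  | some w => exact h.gr w m k

theorem cd_sg (o : Option S.W) : Finsupp.weight S.cd (S.sg o) = o.elim 0 S.cd := by
  cases o <;> simp [Sh.sg, Finsupp.weight_single]

variable {cl : L → σ} {v : ℕ → ℝ}

theorem ext_cd (x : XW S.W B) :
    (S.ext cl B v).cd x = x.1.1.elim 0 S.cd + x.1.2.mapDomain cl := Finsupp.mapDomain_id

theorem ext_dg (x : XW S.W B) : (S.ext cl B v).dg x = S.xd x.1 := by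
  show (x.1.1.elim 0 S.cd + x.1.2.mapDomain cl).degree = x.1.1.elim 0 S.dg + x.1.2.degree
  rw [map_add, Finsupp.degree_mapDomain]
  cases x.1.1 <;> simp [Sh.cd_degree]

variable (S B) in
/-- the fresh part of a monomial -/
def wb : (XW S.W B →₀ ℕ) →+ L →₀ ℕ := Finsupp.weight fun y : XW S.W B => y.1.2
variable (S B) in
/-- the old part of a monomial -/
def ws : (XW S.W B →₀ ℕ) →+ S.W →₀ ℕ := Finsupp.weight fun y : XW S.W B => S.sg y.1.1
/-- the structure constants of an extension -/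
def rx (x : XW S.W B) (m : XW S.W B →₀ ℕ) : ℤ :=
  if wb S B m = x.1.2 then S.ru x.1.1 (ws S B m) else 0

theorem ext_r (x : XW S.W B) (m : XW S.W B →₀ ℕ) : (S.ext cl B v).r x m = rx x m := rfl

theorem wb_single (x : XW S.W B) : wb S B (Finsupp.single x 1) = x.1.2 := by
  simp [wb, Finsupp.weight_single]

theorem ws_single (x : XW S.W B) : ws S B (Finsupp.single x 1) = S.sg x.1.1 := by
  simp [ws, Finsupp.weight_single]

theorem wb_inc (h0 : 0 ∈ B) (m : S.W →₀ ℕ) : wb S B (m.mapDomain (S.inc h0)) = 0 := by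
  rw [wb, TS.weight_map]
  simp [Sh.inc, Finsupp.weight_apply]

theorem ws_inc (h0 : 0 ∈ B) (m : S.W →₀ ℕ) : ws S B (m.mapDomain (S.inc h0)) = m := by
  rw [ws, TS.weight_map]
  exact wt_single m

theorem ext_K (x x' : XW S.W B) : (S.ext cl B v).K x x' = if x.1.2 = 0 ∧ x'.1.2 = 0 then
    x.1.1.elim 0 (fun w => x'.1.1.elim 0 fun w' => S.K w w')
      else if x = x' then v (S.xd x.1) else 0 := rfl

theorem xd_pos (h : S.Ok) (x : XW S.W B) : 0 < S.xd x.1 := by
  unfold Sh.xd
  by_cases k : x.1.2 = 0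
  · obtain ⟨w, e⟩ := xw_some k
    rw [e]
    exact Nat.add_pos_left (h.dg_pos w) _
  · exact Nat.add_pos_right _ (Nat.pos_of_ne_zero fun e => k ((Finsupp.degree_eq_zero_iff _).1 e))

theorem ext_qf (h0 : 0 ∈ B) (z : XW S.W B → ℝ) : qf (S.ext cl B v).K z =
    qf S.K (fun w => z (S.inc h0 w)) + ∑ x with x.1.2 ≠ 0, v (S.xd x.1) * z x ^ 2 := by
  show ∑ x : XW S.W B, z x * ∑ x' : XW S.W B, (S.ext cl B v).K x x' * z x' = _
  rw [xsplit h0]
  congr 1
  · refine sum_congr rfl fun w _ => ?_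
    rw [xsplit h0, sum_eq_zero (s := filter _ _), add_zero]
    · rfl
    · intro x hx
      have k := (mem_filter.1 hx).2
      rw [ext_K, if_neg fun e => k e.2, if_neg (c := S.inc h0 w = x) fun e => k (e ▸ rfl), zero_mul]
  · refine sum_congr rfl fun x hx => ?_
    have k := (mem_filter.1 hx).2
    simp only [ext_K, k, false_and, if_false, ite_mul, zero_mul, sum_ite_eq, mem_univ, if_true]
    ring

theorem ext_lo {n : ℕ} {a : ℝ} (h : S.Sz n a) (h0 : 0 ∈ B) (hv : ∀ j, a ≤ v j)
    (z : XW S.W B → ℝ) : a * ∑ x, z x ^ 2 ≤ qf (S.ext cl B v).K z := by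
  rw [ext_qf h0, xsplit h0, mul_add, mul_sum (s := filter _ _)]
  exact add_le_add (h.lo _) (sum_le_sum fun x _ => mul_le_mul_of_nonneg_right (hv _) (sq_nonneg _))

theorem ext_herm (h : S.Ok) : (S.ext cl B v).K.IsHermitian := by
  refine Matrix.ext fun (x x' : XW S.W B) => ?_
  show (S.ext cl B v).K x' x = (S.ext cl B v).K x x'
  rw [ext_K, ext_K]
  by_cases k : x.1.2 = 0 ∧ x'.1.2 = 0
  · rw [if_pos k, if_pos k.symm]
    obtain ⟨w, e⟩ := xw_some k.1
    obtain ⟨w', e'⟩ := xw_some k.2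
    rw [e, e']
    exact h.pd.1.apply w w'
  · rw [if_neg k, if_neg fun e => k e.symm]
    by_cases e : x = x'
    · rw [e]
    · rw [if_neg e, if_neg fun e' => e e'.symm]

theorem rx_mul (h : S.Ok) (hB : Dn B) (x : XW S.W B) (m m' : XW S.W B →₀ ℕ) (k : m ≠ 0) :
    rx x (m + m') = ∑ x' : XW S.W B, rx x' m * rx x (Finsupp.single x' 1 + m') := by
  simp only [rx, map_add, wb_single, ws_single]
  split_ifs with e
  · rw [ru_mul h, ← xsum (hB _ (xw_mem x) (wb S B m) (e ▸ le_self_add))]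
    · refine sum_congr rfl fun x' _ => ?_
      by_cases e' : wb S B m = x'.1.2
      · rw [if_pos e', if_pos e', if_pos (e' ▸ e)]
      · rw [if_neg e', if_neg e', zero_mul]
    · intro z
      rw [ru_none, zero_mul]
      intro z'
      obtain ⟨y, hy⟩ := Finsupp.support_nonempty_iff.2 k
      obtain ⟨w, e'⟩ := xw_some (wt_zero z y hy)
      have := wt_zero z' y hy
      simp [e', Sh.sg] at this
  · refine (sum_eq_zero fun x' _ => ?_).symm
    by_cases e' : wb S B m = x'.1.2
    · rw [if_neg (c := x'.1.2 + wb S B m' = x.1.2) (e' ▸ e), mul_zero]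
    · rw [if_neg e', zero_mul]

theorem rx_one (h : S.Ok) (x x' : XW S.W B) :
    rx x (Finsupp.single x' 1) = if x = x' then 1 else 0 := by
  rw [rx, wb_single, ws_single, ru_sg h]
  by_cases e : x = x'
  · simp [e]
  · rw [if_neg e]
    split_ifs with a b
    · exact absurd (Subtype.ext (Prod.ext b a.symm)) e
    · rfl
    · rfl

theorem rx_gr (h : S.Ok) {x : XW S.W B} {m : XW S.W B →₀ ℕ} (k : rx x m ≠ 0) :
    Finsupp.weight (fun y : XW S.W B => y.1.1.elim 0 S.cd + y.1.2.mapDomain cl) m =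
      x.1.1.elim 0 S.cd + x.1.2.mapDomain cl := by
  unfold rx at k
  split_ifs at k with e
  · rw [← e, ← ru_gr h k, ws, wt_comp,
      show Finsupp.mapDomain cl (wb S B m) = _ from
        wt_comp (Finsupp.mapDomain.addMonoidHom cl) _ m, ← wt_add]
    exact wt_congr fun y _ => by rw [cd_sg]; rfl
  · exact absurd rfl k

theorem ext_ok {n : ℕ} {a : ℝ} (h : S.Sz n a) (hB : Dn B) (h0 : 0 ∈ B) (ha : 0 < a)
    (hv : ∀ j, a ≤ v j) : (S.ext cl B v).Ok where
  ne (x : XW S.W B) e := by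
    have k : (S.ext cl B v).dg x = 0 := (congrArg Finsupp.degree e).trans (map_zero _)
    exact (xd_pos h.toOk x).ne' ((ext_dg x).symm.trans k)
  one x x' := rx_one h.toOk x x'
  gr (x : XW S.W B) m k := by
    rw [ext_cd, show (S.ext cl B v).cd = _ from funext ext_cd]
    exact rx_gr h.toOk k
  mul x m m' k := rx_mul h.toOk hB x m m' k
  eps (x : XW S.W B) k := by
    change (if x.1.2 = 0 then x.1.1.elim 0 S.ε else 0) ≠ 0 at k
    split_ifs at k with e
    · obtain ⟨w, e'⟩ := xw_some e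
      rw [e'] at k
      rw [ext_dg, Sh.xd, e, e']
      simpa using h.eps w k
    · exact absurd rfl k
  pd := by
    refine PosDef.of_dotProduct_mulVec_pos (ext_herm h.toOk) fun z hz => ?_
    refine lt_of_lt_of_le (mul_pos ha ?_) (ext_lo h h0 hv z)
    obtain ⟨x, hx⟩ := Function.ne_iff.1 hz
    exact sum_pos' (fun _ _ => sq_nonneg _) ⟨x, mem_univ _, sq_pos_of_ne_zero hx⟩
  blk (x x' : XW S.W B) k := by
    rw [ext_K] at k
    split_ifs at k with e e'
    · obtain ⟨w, a⟩ := xw_some e.1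
      obtain ⟨w', b⟩ := xw_some e.2
      rw [a, b] at k
      rw [ext_cd, ext_cd, a, b, e.1, e.2]
      exact congrArg (· + _) (h.blk w w' k)
    · rw [e']
    · exact absurd rfl k

/-- a fresh monomial as a product of words of length one -/
theorem fresh (hB : Dn B) {β : L →₀ ℕ} (hβ : β ∈ B) : ∃ m : XW S.W B →₀ ℕ,
    wb S B m = β ∧ ws S B m = 0 ∧ m.degree = β.degree ∧ ∀ y ∈ m.support, S.xd y.1 = 1 := by
  have hs : ∀ a ∈ β.support, Finsupp.single a 1 ∈ B := fun a ha =>
    hB _ hβ _ (Finsupp.single_le_iff.2 (Nat.one_le_iff_ne_zero.2 (Finsupp.mem_support_iff.1 ha)))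
  let g : {a // a ∈ β.support} → XW S.W B := fun a =>
    ⟨(none, Finsupp.single a.1 1), mem_xw.2 ⟨by simp, hs _ a.2⟩⟩
  refine ⟨∑ a, β a.1 • Finsupp.single (g a) 1, ?_, ?_, ?_, fun y hy => ?_⟩
  · simp only [map_sum, map_nsmul, wb_single, g]
    rw [sum_coe_sort β.support fun a => β a • Finsupp.single a 1]
    exact wt_single β
  · simp [map_sum, map_nsmul, ws_single, g, Sh.sg, -Finsupp.smul_single]
  · simp only [map_sum, map_nsmul, Finsupp.degree_single, smul_eq_mul, mul_one]
    exact sum_coe_sort β.support β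
  · obtain ⟨a, -, ha⟩ := mem_biUnion.1 (Finsupp.support_finsetSum hy)
    have := Finsupp.support_single_subset (Finsupp.support_smul ha)
    rw [mem_singleton.1 this]
    simp [g, Sh.xd]

theorem ext_gen (h : S.Ok) (hB : Dn B) (h0 : 0 ∈ B) (hg : S.Gen' fun _ => False) :
    (S.ext cl B v).Gen' fun _ => False := by
  intro (κ : XW S.W B → ℤ) _ (x : XW S.W B) hx
  obtain ⟨m1, a1, a2, a3, a4⟩ := fresh (S := S) hB (xw_mem x)
  let κ' : Option S.W → ℤ := fun o =>
    if k : (o, x.1.2) ∈ ((univ : Finset (Option S.W)) ×ˢ B).erase (none, 0) then κ ⟨_, k⟩ else 0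
  have hκ : κ' x.1.1 = κ x := dif_pos x.2
  have key : ∀ m0 : S.W →₀ ℕ, ∑ y : XW S.W B, κ y * rx y (m1 + m0.mapDomain (S.inc h0)) =
      ∑ o, κ' o * S.ru o m0 := by
    intro m0
    rw [← xsum (xw_mem x)]
    · refine sum_congr rfl fun y _ => ?_
      rw [rx, map_add, map_add, a1, a2, wb_inc, ws_inc, add_zero, zero_add]
      split_ifs with e
      · congr 1
        obtain ⟨⟨o, β⟩, k⟩ := y
        cases e
        exact (show κ' o = κ ⟨_, k⟩ from dif_pos k).symm
      · rw [mul_zero]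
    · intro e
      rw [show κ' none = 0 from dif_neg fun k => (mem_xw.1 k).1 (by rw [e]), zero_mul]
  have fin : ∀ m0 : S.W →₀ ℕ, m0.degree = x.1.1.elim 0 S.dg → (∀ w ∈ m0.support, S.dg w = 1) →
      ∑ o, κ' o * S.ru o m0 ≠ 0 → ∃ m : XW S.W B →₀ ℕ, m.degree = (S.ext cl B v).dg x ∧
        (∀ y ∈ m.support, (S.ext cl B v).dg y = 1) ∧ (∃ y ∈ m.support, ¬ False) ∧
        ∑ y : XW S.W B, κ y * rx y m ≠ 0 := by
    intro m0 b1 b2 b3
    have d : (m1 + m0.mapDomain (S.inc h0)).degree = S.xd x.1 := by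
      rw [map_add, a3, Finsupp.degree_mapDomain, b1, add_comm]; rfl
    refine ⟨m1 + m0.mapDomain (S.inc h0), d.trans (ext_dg x).symm, fun y hy => ?_, ?_,
      by rwa [key]⟩
    · rw [ext_dg]
      rcases mem_union.1 (Finsupp.support_add hy) with k | k
      · exact a4 y k
      · obtain ⟨w, k1, rfl⟩ := mem_image.1 (Finsupp.mapDomain_support k)
        simpa [Sh.xd, Sh.inc] using b2 w k1
    · have : m1 + m0.mapDomain (S.inc h0) ≠ 0 := fun e => by
        rw [e, map_zero] at d
        exact (xd_pos h x).ne d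
      obtain ⟨y, hy⟩ := Finsupp.support_nonempty_iff.2 this
      exact ⟨y, hy, not_false⟩
  cases e : x.1.1 with
  | none =>
    refine fin 0 (by rw [e]; rfl) (by simp) ?_
    rw [e] at hκ
    simpa [ru_zero h, hκ] using hx
  | some w =>
    rw [e] at hκ
    obtain ⟨m0, b1, b2, ⟨y, hy, -⟩, b4⟩ := hg (fun w => κ' (some w)) (fun _ k => k.elim) w
      (hκ ▸ hx)
    refine fin m0 (by rw [e]; exact b1) b2 ?_
    rw [Fintype.sum_option, ru_none (Finsupp.support_nonempty_iff.1 ⟨y, hy⟩), mul_zero, zero_add]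
    exact b4

end Xt

open Xt in
theorem lext (hG : LGen) : LExt := by
  intro σ τ L _ S cl B v n N a h hB h0 hN ha hv
  have h1 : 1 ≤ N := (card_pos.2 ⟨0, h0⟩).trans_le hN
  refine ⟨ext_ok h hB h0 ha hv, ?_, fun (x : XW S.W B) m => ?_, ext_lo h h0 hv,
    ((hG _ _ _).1 _).2 (ext_gen h.toOk hB h0 (((hG _ _ S).1 _).1 h.gen))⟩
  · show Fintype.card (XW S.W B) ≤ _
    rw [Fintype.card_coe]
    refine (card_erase_le).trans ?_
    rw [card_product, card_univ, Fintype.card_option]
    exact Nat.mul_le_mul (Nat.succ_le_succ h.card) hN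
  · have k : |rx x m| ≤ (n : ℤ) + 1 := by
      unfold rx
      split_ifs
      · cases x.1.1 with
        | none =>
          show |(if _ then (1 : ℤ) else 0)| ≤ _
          split_ifs <;> simp <;> positivity
        | some w => exact (h.ht w _).trans (by simp)
      · simp; positivity
    refine k.trans ?_
    have : (1 : ℤ) ≤ N := by exact_mod_cast h1
    push_cast
    nlinarith [Int.natCast_nonneg n]

end Crest.Agent.N49.Tw

end
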