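import Crest.Agent.N49.Tw.Exp
import Crest.Agent.N49.Tw.Shp
import Crest.Agent.N49.Rw.Sch
import Crest.Agent.N49.Rw.Blk
import Crest.Agent.N49.La.Cost

/-!
# Row 49 (helper49): the jet (tangent) tower of a point tower at a background configuration
-/

set_option autoImplicit false
set_option linter.unusedSectionVars false

open Matrix MvPolynomial Finset Kronecker

noncomputable section

namespace Crest.Agent.N49.Tw

open Po

section words
variable {U V : Type}

/-- the left part of a word -/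
def wdl (μ : U ⊕ V →₀ ℕ) : U →₀ ℕ := (Finsupp.sumFinsuppEquivProdFinsupp μ).1
/-- the right part of a word -/
def wdr (μ : U ⊕ V →₀ ℕ) : V →₀ ℕ := (Finsupp.sumFinsuppEquivProdFinsupp μ).2

theorem wdl_elim (α : U →₀ ℕ) (ν : V →₀ ℕ) : wdl (α.sumElim ν) = α := by ext; rfl
theorem wdr_elim (α : U →₀ ℕ) (ν : V →₀ ℕ) : wdr (α.sumElim ν) = ν := by ext; rfl
theorem elim_wd (μ : U ⊕ V →₀ ℕ) : (wdl μ).sumElim (wdr μ) = μ := by ext (_ | _) <;> rfl

theorem degree_elim (α : U →₀ ℕ) (ν : V →₀ ℕ) : (α.sumElim ν).degree = α.degree + ν.degree := by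
  rw [Finsupp.sumElim_eq_add, map_add, degree_col, degree_col]

theorem degree_wd (μ : U ⊕ V →₀ ℕ) : μ.degree = (wdl μ).degree + (wdr μ).degree := by
  rw [← degree_elim, elim_wd]

/-- the product of two sets of words -/
def wprod (WU : Finset (U →₀ ℕ)) (WV : Finset (V →₀ ℕ)) : Finset (U ⊕ V →₀ ℕ) :=
  (WU ×ˢ WV).map Finsupp.sumFinsuppEquivProdFinsupp.symm.toEmbedding

theorem mem_wprod {WU : Finset (U →₀ ℕ)} {WV : Finset (V →₀ ℕ)} {μ : U ⊕ V →₀ ℕ} :
    μ ∈ wprod WU WV ↔ wdl μ ∈ WU ∧ wdr μ ∈ WV := by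
  rw [wprod, mem_map_equiv, mem_product]; rfl

theorem elim_mem {WU : Finset (U →₀ ℕ)} {WV : Finset (V →₀ ℕ)} {α : U →₀ ℕ} {ν : V →₀ ℕ}
    (h : α ∈ WU) (k : ν ∈ WV) : α.sumElim ν ∈ wprod WU WV :=
  mem_wprod.2 ⟨by rwa [wdl_elim], by rwa [wdr_elim]⟩

theorem Dn.wprod {WU : Finset (U →₀ ℕ)} {WV : Finset (V →₀ ℕ)} (h : Dn WU) (k : Dn WV) :
    Dn (wprod WU WV) := fun _ a _ b =>
  mem_wprod.2 ⟨h _ (mem_wprod.1 a).1 _ fun i => b (.inl i), k _ (mem_wprod.1 a).2 _ fun i => b (.inr i)⟩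

/-- the product of two kernels -/
def kprod (KU : (U →₀ ℕ) → (U →₀ ℕ) → ℝ) (KV : (V →₀ ℕ) → (V →₀ ℕ) → ℝ) :
    (U ⊕ V →₀ ℕ) → (U ⊕ V →₀ ℕ) → ℝ := fun μ ν => KU (wdl μ) (wdl ν) * KV (wdr μ) (wdr ν)

theorem sae_mon (μ : U ⊕ V →₀ ℕ) (a : ℝ) :
    sumAlgEquiv ℝ U V (monomial μ a) = monomial (wdl μ) (monomial (wdr μ) a) :=
  (congrArg (AddMonoidAlgebra.curryAlgEquiv ℝ) (AddMonoidAlgebra.domCongr_single (R := ℝ) _ μ a)).trans
    (AddMonoidAlgebra.curryAlgEquiv_single ..)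

theorem coeff_sae (P : MvPolynomial (U ⊕ V) ℝ) (α : U →₀ ℕ) (ν : V →₀ ℕ) :
    coeff ν (coeff α (sumAlgEquiv ℝ U V P)) = coeff (α.sumElim ν) P := by
  classical
  induction P using MvPolynomial.induction_on' with
  | add P Q h k => simp only [map_add, coeff_add, h, k]
  | monomial μ a =>
    rw [sae_mon, coeff_monomial, coeff_monomial]
    by_cases h : wdl μ = α
    · rw [if_pos h, coeff_monomial]
      exact if_congr ⟨fun e => by rw [← h, ← e, elim_wd], fun e => by rw [e, wdr_elim]⟩ rfl rfl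
    · rw [if_neg h, if_neg fun e => h (by rw [e, wdl_elim])]; rfl

theorem unit_iff {τ : Type} (col : τ → Unit) (T : TS Unit) (F : T.C) (μ : τ →₀ ℕ) :
    μ.mapDomain col = T.deg F ↔ μ.degree = T.lev F :=
  ⟨fun h => by rw [TS.lev, ← h, degree_col], fun h => unit_ext (by rw [degree_col, h, TS.lev])⟩

end words

theorem Gr.add {τ ι : Type} {r : (ι →₀ ℕ) → (τ →₀ ℕ) → Prop}
    {P Q : MvPolynomial τ (MvPolynomial ι ℝ)} (h : Gr r P) (k : Gr r Q) : Gr r (P + Q) :=
  fun μ m a => by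
  rw [coeff_add, coeff_add] at a
  by_cases z : coeff m (coeff μ P) = 0
  · rw [z, zero_add] at a; exact k _ _ a
  · exact h _ _ z

theorem Gr.aev {τ ι C M : Type} [AddCommMonoid M] {ρ : M → (ι →₀ ℕ) → (τ →₀ ℕ) → Prop}
    (h0 : ρ 0 0 0) (k : ∀ a b m μ m' μ', ρ a m μ → ρ b m' μ' → ρ (a + b) (m + m') (μ + μ'))
    {w : C → M} {y : C → MvPolynomial τ (MvPolynomial ι ℝ)} (hw : ∀ c, Gr (ρ (w c)) (y c))
    (m : C →₀ ℕ) (a : ℝ) : Gr (ρ (Finsupp.weight w m)) (aeval y (monomial m a)) := by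
  rw [aeval_monomial, Finsupp.weight_apply, Finsupp.sum, Finsupp.prod]
  refine (Gr.alg a h0).mul (Gr.prod h0 k _ fun c _ => Gr.pow h0 k (hw c) _) fun _ _ _ _ a b => ?_
  simpa using k _ _ _ _ _ _ a b

theorem Gr.term {τ ι C : Type} (ρ : ℕ → (ι →₀ ℕ) → (τ →₀ ℕ) → Prop)
    (h0 : ρ 0 0 0) (k : ∀ a b m μ m' μ', ρ a m μ → ρ b m' μ' → ρ (a + b) (m + m') (μ + μ'))
    (a : ℕ) {e : MvPolynomial τ (MvPolynomial ι ℝ)} (he : Gr (ρ a) e)
    (w : C → ℕ) {y : C → MvPolynomial τ (MvPolynomial ι ℝ)} (hw : ∀ c, Gr (ρ (w c)) (y c))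
    (n : ℕ) (m : C →₀ ℕ) (c : ℝ) :
    Gr (ρ (n • a + Finsupp.weight w m)) (e ^ n * aeval y (monomial m c)) :=
  (Gr.pow h0 k he n).mul (Gr.aev h0 k hw m c) (k _ _)

/-- homogenisation is computed by any homogeneous lift -/
theorem hz_lift {C R : Type} [Fintype C] [CommRing R] [Algebra ℝ R] (w : C → ℕ) (n : ℕ) (e : R)
    (y : C → R) (H : MvPolynomial (Option C) ℝ)
    (hH : ∀ M, coeff M H ≠ 0 → Finsupp.weight (fun o : Option C => o.elim 1 w) M = n) :
    ∑ m ∈ (aeval (fun o : Option C => o.elim 1 X) H : MvPolynomial C ℝ).support,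
      e ^ (n - Finsupp.weight w m) * aeval y (monomial m
        (coeff m (aeval (fun o : Option C => o.elim 1 X) H : MvPolynomial C ℝ))) =
      aeval (fun o : Option C => o.elim e y) H := by
  obtain ⟨L, hL⟩ : ∃ L : MvPolynomial C ℝ →ₗ[ℝ] R, ∀ m a, L (monomial m a) =
      e ^ (n - Finsupp.weight w m) * aeval y (monomial m a) := by
    refine ⟨(basisMonomials C ℝ).constr ℝ fun m =>
      e ^ (n - Finsupp.weight w m) * aeval y (monomial m (1 : ℝ)), fun m a => ?_⟩
    have : monomial m a = a • monomial m (1 : ℝ) := by rw [smul_monomial, smul_eq_mul, mul_one]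
    rw [this, map_smul, map_smul, mul_smul_comm]
    congr 1
    exact (basisMonomials C ℝ).constr_basis ℝ _ m
  simp only [← hL]
  rw [← map_sum, ← as_sum]
  conv_lhs => rw [H.as_sum, map_sum, map_sum]
  conv_rhs => rw [H.as_sum, map_sum]
  refine sum_congr rfl fun M hM => ?_
  have h1 := hH M (mem_support_iff.1 hM)
  rw [Finsupp.weight_apply, Finsupp.sum_fintype _ _ (by simp), Fintype.sum_option] at h1
  have h2 : Finsupp.weight w M.some = ∑ c, M (some c) • w c := by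
    rw [Finsupp.weight_apply, Finsupp.sum_fintype _ _ (by simp)]; rfl
  have h3 : ∀ {R' : Type} [CommRing R'] [Algebra ℝ R'] (e : R') (y : C → R') (a : ℝ),
      aeval (fun o : Option C => o.elim e y) (monomial M a) =
        e ^ M none * aeval y (monomial M.some a) := fun e y a => by
    rw [aeval_monomial, aeval_monomial, Finsupp.prod_fintype _ _ (by simp),
      Finsupp.prod_fintype _ _ (by simp), Fintype.prod_option, mul_left_comm]; rfl
  rw [h3, h3, one_pow, one_mul, aeval_X_left_apply, hL, h2]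
  congr 2
  simp only [Option.elim, smul_eq_mul, mul_one] at h1 ⊢
  omega

namespace TS

variable (T : TS Unit) {U V : Type} [DecidableEq U] [Fintype U] [DecidableEq V] [Fintype V]
  (col : U → Unit) (W : Finset (U →₀ ℕ))

/-- the coordinates of the jet tower -/
abbrev Jd : Type := {p : T.C × W // p.2.1.degree < T.lev p.1}

/-- the free part of the family `F` -/
def Yj {R : Type} [CommSemiring R] (y : T.Jd W → R) (F : T.C) : MvPolynomial U R :=
  ∑ p : T.Jd W with p.1.1 = F, monomial p.1.2.1 (y p)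

/-- the families over a background -/
def Yb {R : Type} [CommRing R] (b : T.Wd col W → ℤ) (y : T.Jd W → R) (F : T.C) :
    MvPolynomial U R := T.Yj W y F + T.Yp col W (fun q => (b q : R)) F

/-- the jet tower at the background `b`; `η` is the mass of the free direction -/
abbrev jet (ε : U → ℤ) (η : ℤ) (Kw : (U →₀ ℕ) → (U →₀ ℕ) → ℝ) (b : T.Wd col W → ℤ) : TS Unit where
  C := T.Jd W
  deg p := Finsupp.single () (T.lev p.1.1 - p.1.2.1.degree)
  Φ p := coeff p.1.2.1 (T.hz (∑ a, ε a • X a + η • 1) (T.Yb col W b (X (R := ℝ))) p.1.1)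
  K := Matrix.of fun p p' => T.K p.1.1 p'.1.1 * Kw p.1.2.1 p'.1.2.1

variable {T col W} {ε : U → ℤ} {η : ℤ} {Kw : (U →₀ ℕ) → (U →₀ ℕ) → ℝ} {b : T.Wd col W → ℤ}

theorem jet_lev (p : T.Jd W) :
    (T.jet col W ε η Kw b).lev p = T.lev p.1.1 - p.1.2.1.degree := Finsupp.degree_single _ _

theorem map_Yb {R R' : Type} [CommRing R] [CommRing R'] (f : R →+* R') (y : T.Jd W → R) (F : T.C) :
    MvPolynomial.map f (T.Yb col W b y F) = T.Yb col W b (fun p => f (y p)) F := by
  simp only [Yb, Yj, map_add, map_Yp, map_sum, map_monomial, map_intCast]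

theorem coeff_hz_map {R R' : Type} [CommRing R] [Algebra ℝ R] [CommRing R'] [Algebra ℝ R']
    (f : R →ₐ[ℝ] R') (e : R) (y : T.Jd W → R) (F : T.C) (α : U →₀ ℕ) :
    f (coeff α (T.hz (∑ a, ε a • X a + η • MvPolynomial.C e) (T.Yb col W b y) F)) =
      coeff α (T.hz (∑ a, ε a • X a + η • MvPolynomial.C (f e)) (T.Yb col W b fun p => f (y p)) F) := by
  have := T.hz_map (mapAlgHom (σ := U) f) (∑ a, ε a • X a + η • MvPolynomial.C e)
    (T.Yb col W b y) F
  have a : mapAlgHom (σ := U) f (∑ a, ε a • X a + η • MvPolynomial.C e) =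
      ∑ a, ε a • X a + η • MvPolynomial.C (f e) := by
    simp only [map_add, map_sum, map_zsmul, mapAlgHom_apply, map_X, map_C]; rfl
  have c : (fun c => mapAlgHom (σ := U) f (T.Yb col W b y c)) =
      T.Yb col W b fun p => f (y p) := funext fun c => by rw [mapAlgHom_apply, map_Yb]; rfl
  rw [a, c, mapAlgHom_apply] at this
  rw [← this, coeff_map]; rfl

theorem gr_Yb {ι : Type} {r : (ι →₀ ℕ) → (U →₀ ℕ) → Prop} (g : T.Jd W → ι) {F : T.C}
    (h1 : ∀ p : T.Jd W, p.1.1 = F → r (Finsupp.single (g p) 1) p.1.2.1)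
    (h2 : ∀ q : T.Wd col W, q.1.1 = F → r 0 q.1.2.1) :
    Gr r (T.Yb col W b (fun p => X (R := ℝ) (g p)) F) := by
  refine (Gr.sum _ fun p hp => Gr.mon _ _ 1 (h1 p (mem_filter.1 hp).2)).add
    (Gr.sum _ fun q hq => ?_)
  have := Gr.mon (r := r) _ _ (b q) (h2 q (mem_filter.1 hq).2)
  rwa [← C_apply, map_intCast] at this

theorem gr_C {ι : Type} {r : (ι →₀ ℕ) → (U →₀ ℕ) → Prop} {m : ι →₀ ℕ} (h : r m 0) :
    Gr r (η • MvPolynomial.C (monomial m (1 : ℝ)) : MvPolynomial U (MvPolynomial ι ℝ)) := by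
  have := Gr.mon (r := r) _ _ (η : ℝ) h
  convert this using 1
  rw [C_apply, ← Int.cast_smul_eq_zsmul ℝ, smul_monomial, smul_monomial]; simp

/-- homogenisation of the jet tower -/
theorem jet_hz (h : T.Tri) {R : Type} [CommRing R] [Algebra ℝ R] (e : R) (y : T.Jd W → R)
    (p : T.Jd W) : (T.jet col W ε η Kw b).hz e y p =
      coeff p.1.2.1 (T.hz (∑ a, ε a • X a + η • MvPolynomial.C e) (T.Yb col W b y) p.1.1) := by
  set w : T.Jd W → ℕ := (T.jet col W ε η Kw b).lev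
  have g : Gr (fun m μ => Finsupp.weight (fun o : Option (T.Jd W) => o.elim 1 w) m +
      μ.degree = T.lev p.1.1) (T.hz (∑ a, ε a • X a + η • MvPolynomial.C (X none))
        (T.Yb col W b fun p => X (R := ℝ) (some p)) p.1.1) := Gr.sum _ fun m hm =>
    (Gr.term (fun a m μ => Finsupp.weight (fun o : Option (T.Jd W) => o.elim 1 w) m +
      μ.degree = a) (by simp) (fun _ _ _ _ _ _ a b => by rw [map_add, map_add]; omega) 1
      ((gr_eps fun a _ => by simp).add
      (gr_C (m := Finsupp.single none 1) (by simp [Finsupp.weight_single]))) T.lev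
      (fun F => gr_Yb some (fun q e => by
        have := q.2
        rw [Finsupp.weight_single, one_smul, ← e]
        change (T.jet col W ε η Kw b).lev q + _ = _
        rw [jet_lev]; omega) fun q e => by rw [← e, lev_wd]; simp) _ m _).mono
      fun _ _ a => by
        have := h.tri _ m hm
        rw [smul_eq_mul] at a
        omega
  have := hz_lift w (w p) e y _ fun M hM => by
    have := g p.1.2.1 M hM
    change _ = (T.jet col W ε η Kw b).lev p
    rw [jet_lev]; omega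
  rw [coeff_hz_map, coeff_hz_map] at this
  simp only [aeval_X, Option.elim, map_one] at this
  exact this

theorem jet_aeval {R : Type} [CommRing R] [Algebra ℝ R] (y : T.Jd W → R) (p : T.Jd W) :
    aeval y ((T.jet col W ε η Kw b).Φ p) =
      coeff p.1.2.1 (T.hz (∑ a, ε a • X a + η • 1) (T.Yb col W b y) p.1.1) := by
  have := coeff_hz_map (ε := ε) (η := η) (b := b) (aeval (R := ℝ) y) 1 X p.1.1 p.1.2.1
  simp only [aeval_X, map_one] at this
  exact this

/-- the linear terms in the variables of maximal old level -/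
theorem jet_lin (h : T.Tri) (p p' : T.Jd W) (hl : T.lev p.1.1 ≤ T.lev p'.1.1) :
    coeff (Finsupp.single p' 1) ((T.jet col W ε η Kw b).Φ p) =
      T.A p.1.1 p'.1.1 * dk 1 p.1.2.1 p'.1.2.1 := by
  change coeff (Finsupp.single p' 1) (coeff p.1.2.1 (T.hz (∑ a, ε a • X a + η • 1)
    (T.Yb col W b (X (R := ℝ))) p.1.1)) = _
  have y1 : ∀ F, coeff (Finsupp.single p' 1) (coeff p.1.2.1
      (T.Yb col W b (X (R := ℝ)) F)) = if p'.1.1 = F then dk 1 p.1.2.1 p'.1.2.1 else 0 := fun F => by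
    rw [Yb, coeff_add, coeff_add, Yp, Yj, coeff_sum, coeff_sum, coeff_sum, coeff_sum,
      sum_eq_zero (s := univ.filter fun q : T.Wd col W => q.1.1 = F) fun q _ => by
        rw [coeff_monomial]
        split_ifs
        · rw [← map_intCast (MvPolynomial.C (σ := T.Jd W) (R := ℝ)), coeff_C,
            if_neg (Finsupp.single_ne_zero.2 one_ne_zero).symm]
        · rfl, add_zero, sum_filter, sum_eq_single p']
    · rw [coeff_monomial, dk]
      by_cases z : p.1.2.1 = p'.1.2.1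
      · rw [if_pos z, if_pos z.symm]; simp
      · rw [if_neg z, if_neg (Ne.symm z)]; simp
    · intro q _ ne
      rw [coeff_monomial]
      split_ifs
      · rw [coeff_X, if_neg fun z => ne (Finsupp.single_left_injective one_ne_zero z)]
      · rfl
      · rfl
    · simp
  have y2 : ∀ F (a : ℝ), T.lev p.1.1 = T.lev F → coeff (Finsupp.single p' 1) (coeff p.1.2.1
      ((∑ a, ε a • X a + η • 1) ^ (T.lev p.1.1 - Finsupp.weight T.lev (Finsupp.single F 1)) *
        aeval (T.Yb col W b (X (R := ℝ))) (monomial (Finsupp.single F 1) a))) =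
      a * if p'.1.1 = F then dk 1 p.1.2.1 p'.1.2.1 else 0 := fun F a e => by
    rw [Finsupp.weight_single, one_smul, e, Nat.sub_self, pow_zero, one_mul, aeval_monomial,
      Finsupp.prod_single_index (by simp), pow_one, ← Algebra.smul_def, coeff_smul, coeff_smul,
      smul_eq_mul, y1]
  rw [hz, coeff_sum, coeff_sum, sum_eq_single (Finsupp.single p'.1.1 1)]
  · by_cases e : T.lev p.1.1 = T.lev p'.1.1
    · rw [y2 _ _ e, if_pos rfl, A, of_apply, if_pos e]
    · rw [A, of_apply, if_neg e, notMem_support_iff.1 fun k =>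
        e (h.eq_single (c' := p'.1.1) k (by simp) hl).2]
      simp
  · intro m hm ne
    by_cases z : ∃ F, m F ≠ 0 ∧ T.lev p.1.1 ≤ T.lev F
    · obtain ⟨F, z1, z2⟩ := z
      obtain ⟨rfl, e⟩ := h.eq_single hm z1 z2
      rw [y2 _ _ e, if_neg fun k => ne (by rw [k]), mul_zero]
    by_contra nz
    set d : T.C → ℕ := fun F => if T.lev p.1.1 ≤ T.lev F then 1 else 0
    have := Gr.term (fun a m _ => Finsupp.weight (fun q : T.Jd W => d q.1.1) m ≤ a) (by simp)
      (fun _ _ _ _ _ _ a b => by rw [map_add]; omega) 0 ((gr_eps (ε := ε) fun a _ => by simp).add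
      (gr_C (η := η) (m := 0) (by simp))) d (fun F => gr_Yb (b := b) id (fun q e => by
        simp [Finsupp.weight_single, e]) fun q e => by simp) _ m _ _ _ nz
    have d0 : Finsupp.weight d m = 0 := by
      rw [Finsupp.weight_apply, Finsupp.sum]
      exact sum_eq_zero fun F hF => by
        simp only [d]
        rw [if_neg fun a => z ⟨F, Finsupp.mem_support_iff.1 hF, a⟩, smul_zero]
    simp [d0, Finsupp.weight_single, d, hl] at this
  · intro k
    rw [notMem_support_iff.1 k]; simp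

variable (T W) in
/-- tensor products on the coordinates of the jet tower -/
def kj (B : Matrix T.C T.C ℝ) (Kw : (U →₀ ℕ) → (U →₀ ℕ) → ℝ) : Matrix (T.Jd W) (T.Jd W) ℝ :=
  Matrix.of fun p p' => B p.1.1 p'.1.1 * Kw p.1.2.1 p'.1.2.1

theorem kj_mul {B : Matrix T.C T.C ℝ} (h : Rw.Blk T.lev B) (B' : Matrix T.C T.C ℝ) :
    T.kj W B (dk 1) * T.kj W B' Kw = T.kj W (B * B') Kw := by
  ext p p'
  simp only [kj, mul_apply, of_apply, sum_mul]
  rw [← sum_filter_of_ne (p := fun q : T.Jd W => q.1.2 = p.1.2 ∧ T.lev q.1.1 = T.lev p.1.1),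
    ← sum_filter_of_ne (s := univ) (p := fun G => T.lev G = T.lev p.1.1)]
  · refine sum_bij (fun q _ => q.1.1) (fun q hq => ?_) (fun q hq q' hq' e => ?_) (fun G hG => ?_)
      fun q hq => ?_
    · exact mem_filter.2 ⟨mem_univ _, (mem_filter.1 hq).2.2⟩
    · exact Subtype.ext (Prod.ext e ((mem_filter.1 hq).2.1.trans (mem_filter.1 hq').2.1.symm))
    · exact ⟨⟨(G, p.1.2), p.2.trans_eq (mem_filter.1 hG).2.symm⟩,
        mem_filter.2 ⟨mem_univ _, rfl, (mem_filter.1 hG).2⟩, rfl⟩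
    · rw [(mem_filter.1 hq).2.1, dk, if_pos rfl, Pi.one_apply]; ring
  · exact fun G _ z => by_contra fun n =>
      left_ne_zero_of_mul (left_ne_zero_of_mul z) (h _ _ (Ne.symm n))
  · intro q _ z
    refine ⟨by_contra fun ne => ?_, by_contra fun n =>
      left_ne_zero_of_mul (left_ne_zero_of_mul z) (h _ _ (Ne.symm n))⟩
    rw [dk, if_neg fun e => ne (Subtype.ext e.symm)] at z
    simp at z

theorem kj_one : T.kj W 1 (dk 1) = 1 := by
  ext p p'
  simp only [kj, of_apply, one_apply, dk, Pi.one_apply, Subtype.ext_iff, Prod.ext_iff]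
  by_cases a : p.1.1 = p'.1.1 <;> simp [a]

theorem mul_kj {B : Matrix T.C T.C ℝ} (h : Rw.Blk T.lev B) (B' : Matrix T.C T.C ℝ) :
    T.kj W B' Kw * (T.kj W B (dk 1))ᵀ = T.kj W (B' * Bᵀ) Kw := by
  apply transpose_injective
  rw [transpose_mul, transpose_transpose]
  exact (kj_mul (Kw := fun μ ν => Kw ν μ) h B'ᵀ).trans (by
    rw [← transpose_transpose B, ← transpose_mul, transpose_transpose]; rfl)

theorem kj_inv {B : Matrix T.C T.C ℝ} (h : Rw.Blk T.lev B) (hd : B.det ≠ 0) :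
    (T.kj W B (dk 1))⁻¹ = T.kj W B⁻¹ (dk 1) ∧ (T.kj W B (dk 1)).det ≠ 0 := by
  have e : T.kj W B (dk 1) * T.kj W B⁻¹ (dk 1) = 1 := by
    rw [kj_mul h, mul_nonsing_inv _ hd.isUnit, kj_one]
  exact ⟨inv_eq_right_inv e, (isUnit_det_of_right_inverse e).ne_zero⟩

theorem kj_blk {B : Matrix T.C T.C ℝ} (h : Rw.Blk T.lev B) :
    Rw.Blk (fun p : T.Jd W => T.lev p.1.1) (T.kj W B Kw) := fun p p' e => by
  rw [kj, of_apply, h _ _ e, zero_mul]

theorem jet_A (h : T.Tri) (p p' : T.Jd W) (hl : T.lev p.1.1 ≤ T.lev p'.1.1) :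
    (T.jet col W ε η Kw b).A p p' = T.kj W T.A (dk 1) p p' := by
  change (if (T.jet col W ε η Kw b).lev p = (T.jet col W ε η Kw b).lev p' then
    coeff (Finsupp.single p' 1) ((T.jet col W ε η Kw b).Φ p) else 0) = T.A _ _ * dk 1 _ _
  split_ifs with e
  · exact jet_lin h p p' hl
  · by_contra n
    have a : T.lev p.1.1 = T.lev p'.1.1 := by_contra fun k =>
      left_ne_zero_of_mul (Ne.symm n) (T.blk_A _ _ k)
    have c : p.1.2.1 = p'.1.2.1 := by_contra fun k =>
      right_ne_zero_of_mul (Ne.symm n) (if_neg k)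
    exact e (by rw [jet_lev, jet_lev, a, c])

theorem _root_.Crest.Agent.N49.Tw.det_of_tri {ι : Type} [Fintype ι] [DecidableEq ι] {l : ι → ℕ}
    {M M0 : Matrix ι ι ℝ} (h : ∀ i j, l i ≤ l j → M i j = M0 i j) (h0 : Rw.Blk l M0) :
    M.det = M0.det := by
  have t : Mᵀ.BlockTriangular l := fun i j k => (h j i k.le).trans (h0 j i k.ne)
  have t0 : M0ᵀ.BlockTriangular l := fun i j k => h0 j i k.ne
  rw [← det_transpose, t.det, ← det_transpose M0, t0.det]
  refine prod_congr rfl fun a _ => congrArg det (Matrix.ext fun i j => ?_)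
  exact h j i (j.2.trans i.2.symm).le

theorem jet_tri' (h : T.Tri) (hK : (Matrix.of fun μ ν : W => Kw μ ν).PosDef)
    (hb : ∀ μ ∈ W, ∀ ν ∈ W, Kw μ ν ≠ 0 → μ.degree = ν.degree) : (T.jet col W ε η Kw b).Tri where
  tri p m hm := by
    set w : T.Jd W → ℕ := (T.jet col W ε η Kw b).lev
    have g : Gr (fun m μ => Finsupp.weight w m + μ.degree ≤ T.lev p.1.1)
        (T.hz (∑ a, ε a • X a + η • 1) (T.Yb col W b (X (R := ℝ))) p.1.1) :=
      Gr.sum _ fun m hm => (Gr.term (fun a m μ => Finsupp.weight w m + μ.degree ≤ a) (by simp)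
        (fun _ _ _ _ _ _ a b => by rw [map_add, map_add]; omega) 1 ((gr_eps fun a _ => by simp).add
        (gr_C (m := 0) (by simp))) T.lev (fun F => gr_Yb id (fun q e => by
          have := q.2
          rw [Finsupp.weight_single, one_smul, ← e]
          change (T.jet col W ε η Kw b).lev q + _ ≤ _
          rw [jet_lev]; omega) fun q e => by rw [← e, lev_wd]; simp) _ m _).mono
        fun _ _ a => by
          have := h.tri _ m hm
          rw [smul_eq_mul] at a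
          omega
    have := g p.1.2.1 m (mem_support_iff.1 hm)
    change _ ≤ (T.jet col W ε η Kw b).lev p
    rw [jet_lev]; omega
  ne p e := by
    have := p.2
    have := Finsupp.single_eq_zero.1 e
    omega
  det := by
    rw [det_of_tri (l := fun p : T.Jd W => T.lev p.1.1) (jet_A h) (kj_blk T.blk_A)]
    exact (kj_inv T.blk_A h.det).2
  pd := (h.pd.kronecker hK).submatrix Subtype.val_injective
  blk p p' k := by
    rw [jet_lev, jet_lev, h.blk _ _ (left_ne_zero_of_mul k),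
      hb _ p.1.2.2 _ p'.1.2.2 (right_ne_zero_of_mul k)]

theorem jet_tri (h : T.Tri) {a c : ℝ} (hK : KB W Kw a c) (ha : 0 < a) :
    (T.jet col W ε η Kw b).Tri := jet_tri' h (hK.posDef ha) hK.blk

/-! ### the decomposition of a shape over a background -/

section split
variable (colV : V → Unit) (WV : Finset (V →₀ ℕ)) (cl : U ⊕ V → Unit)

variable (T W) in
/-- the coordinates of a shape of the jet tower (`= (T.jet ..).Wd colV WV`) -/
abbrev Jw : Type := {p : T.Jd W × WV //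
  p.2.1.mapDomain colV = Finsupp.single () (T.lev p.1.1.1 - p.1.1.2.1.degree)}

theorem jw_deg (q : T.Jw W colV WV) :
    q.1.2.1.degree = T.lev q.1.1.1.1 - q.1.1.1.2.1.degree := by
  rw [← degree_col colV, q.2, Finsupp.degree_single]

variable (T col W) in
/-- the coordinates of a product shape -/
def spl (h0 : 0 ∈ WV) : T.Wd col W ⊕ T.Jw W colV WV ≃ T.Wd cl (wprod W WV) where
  toFun := Sum.elim
    (fun q => ⟨(q.1.1, ⟨q.1.2.1.sumElim 0, elim_mem q.1.2.2 h0⟩), (unit_iff ..).2 (by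
      rw [degree_elim, map_zero, add_zero, lev_wd])⟩)
    fun q => ⟨(q.1.1.1.1, ⟨q.1.1.1.2.1.sumElim q.1.2.1, elim_mem q.1.1.1.2.2 q.1.2.2⟩),
      (unit_iff ..).2 (by
        have a := jw_deg colV WV q
        have c := q.1.1.2
        rw [degree_elim]; dsimp only; omega)⟩
  invFun p := if h : (wdl p.1.2.1).degree < T.lev p.1.1 then
      .inr ⟨(⟨(p.1.1, ⟨wdl p.1.2.1, (mem_wprod.1 p.1.2.2).1⟩), h⟩,
        ⟨wdr p.1.2.1, (mem_wprod.1 p.1.2.2).2⟩), unit_ext (by
          have a := lev_wd p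
          rw [degree_wd] at a
          rw [degree_col, Finsupp.degree_single]; dsimp only; omega)⟩
    else .inl ⟨(p.1.1, ⟨wdl p.1.2.1, (mem_wprod.1 p.1.2.2).1⟩), (unit_iff ..).2 (by
      have a := lev_wd p
      rw [degree_wd] at a
      dsimp only; omega)⟩
  left_inv := by
    rintro (q | q)
    · refine (dif_neg ?_).trans ?_
      · simp only [Sum.elim_inl, wdl_elim, lev_wd q, lt_irrefl, not_false_eq_true]
      · simp only [Sum.elim_inl, wdl_elim]
    · refine (dif_pos ?_).trans ?_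
      · simp only [Sum.elim_inr, wdl_elim]; exact q.1.1.2
      · simp only [Sum.elim_inr, wdl_elim, wdr_elim]
  right_inv p := by
    dsimp only
    split_ifs with h
    · exact Subtype.ext (Prod.ext rfl (Subtype.ext (elim_wd _)))
    · refine Subtype.ext (Prod.ext rfl (Subtype.ext ?_))
      have a := lev_wd p
      rw [degree_wd] at a
      have c : wdr p.1.2.1 = 0 := (Finsupp.degree_eq_zero_iff _).1 (by omega)
      change (wdl p.1.2.1).sumElim 0 = _
      rw [← c, elim_wd]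

variable {colV WV cl}

variable (cl) in
/-- merge a background and a configuration of the jet tower -/
def mrg {R : Type} (h0 : 0 ∈ WV) (x : T.Wd col W → R) (y : T.Jw W colV WV → R) :
    T.Wd cl (wprod W WV) → R := fun p => Sum.elim x y ((T.spl col W colV WV cl h0).symm p)

theorem mrg_spl {R : Type} (h0 : 0 ∈ WV) (x : T.Wd col W → R)
    (y : T.Jw W colV WV → R) (q) :
    mrg cl h0 x y (T.spl col W colV WV cl h0 q) = Sum.elim x y q := by
  rw [mrg, Equiv.symm_apply_apply]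

theorem zc_mrg (h0 : 0 ∈ WV) (x : T.Wd col W → ℤ) (y : T.Jw W colV WV → ℤ) :
    zc (mrg cl h0 x y) = mrg cl h0 (zc x) (zc y) := funext fun p => by
  simp only [zc, mrg]
  cases (T.spl col W colV WV cl h0).symm p <;> rfl

theorem sum_mrg {R M : Type} [AddCommMonoid M] (h0 : 0 ∈ WV) (x : T.Wd col W → R)
    (y : T.Jw W colV WV → R) (F : T.C) (f : (U ⊕ V →₀ ℕ) → R → M) :
    ∑ p : T.Wd cl (wprod W WV) with p.1.1 = F, f p.1.2.1 (mrg cl h0 x y p) =
      ∑ p : T.Jd W with p.1.1 = F, ∑ q : T.Jw W colV WV with q.1.1 = p,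
        f (p.1.2.1.sumElim q.1.2.1) (y q) +
      ∑ q : T.Wd col W with q.1.1 = F, f (q.1.2.1.sumElim 0) (x q) := by
  rw [sum_filter, ← (T.spl col W colV WV cl h0).sum_comp, Fintype.sum_sum_type, add_comm]
  simp only [mrg_spl]
  congr 1
  · rw [← sum_fiberwise (s := univ) (g := fun q : T.Jw W colV WV => q.1.1),
      sum_filter]
    refine sum_congr rfl fun p _ => ?_
    split_ifs with e
    · refine sum_congr rfl fun q hq => ?_
      obtain rfl := (mem_filter.1 hq).2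
      exact if_pos e
    · refine sum_eq_zero fun q hq => ?_
      obtain rfl := (mem_filter.1 hq).2
      exact if_neg e
  · rw [sum_filter]; rfl

theorem sae_Yp (h0 : 0 ∈ WV) (y : T.Jw W colV WV → ℝ) (F : T.C) :
    sumAlgEquiv ℝ U V (T.Yp cl (wprod W WV) (mrg cl h0 (zc b) y) F) =
      T.Yb col W b ((T.jet col W ε η Kw b).Yp colV WV y) F := by
  rw [Yp, map_sum, sum_mrg h0 (zc b) y F fun μ a => sumAlgEquiv ℝ U V (monomial μ a)]
  simp only [sae_mon, wdl_elim, wdr_elim, Yb, Yj, Yp, map_sum, ← C_apply, zc, map_intCast]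

variable {εV : V → ℤ} {KV : (V →₀ ℕ) → (V →₀ ℕ) → ℝ}

theorem u_mrg (h : T.Tri) (h0 : 0 ∈ WV) (y : T.Jw W colV WV → ℝ)
    (K : (U ⊕ V →₀ ℕ) → (U ⊕ V →₀ ℕ) → ℝ) (q) :
    (T.shape cl (wprod W WV) (Sum.elim ε fun a => η * εV a) K).u (mrg cl h0 (zc b) y)
      (T.spl col W colV WV cl h0 q) = Sum.elim ((T.shape col W ε Kw).u (zc b))
        (((T.jet col W ε η Kw b).shape colV WV εV KV).u y) q := by
  have key : ∀ F α ν, coeff (Finsupp.sumElim α ν) (T.hz (∑ a, (Sum.elim ε fun a => η * εV a) a • X a)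
      (T.Yp cl (wprod W WV) (mrg cl h0 (zc b) y)) F) = coeff ν (coeff α (T.hz
        (∑ a, ε a • X a + η • MvPolynomial.C (∑ a, εV a • X a))
        (T.Yb col W b ((T.jet col W ε η Kw b).Yp colV WV y)) F)) := fun F α ν => by
    rw [← coeff_sae]
    have := T.hz_map (sumAlgEquiv ℝ U V).toAlgHom (∑ a, (Sum.elim ε fun a => η * εV a) a • X a)
      (T.Yp cl (wprod W WV) (mrg cl h0 (zc b) y)) F
    simp only [AlgEquiv.coe_toAlgHom, sae_Yp (ε := ε) (η := η) (Kw := Kw)] at this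
    rw [this]
    congr 3
    simp only [Fintype.sum_sum_type, Sum.elim_inl, Sum.elim_inr, map_add, map_sum, map_zsmul,
      sumAlgEquiv_X_inl, sumAlgEquiv_X_inr, smul_sum, mul_smul]
  rw [shape_u]
  rcases q with q | q
  · refine (key _ _ _).trans (Eq.trans ?_ (shape_u (zc b) q).symm)
    have a : ∀ P : MvPolynomial V ℝ, coeff 0 P = aeval (0 : V → ℝ) P := fun P => by
      rw [aeval_zero]; rfl
    have c : ∀ p, aeval (0 : V → ℝ) ((T.jet col W ε η Kw b).Yp colV WV y p) = 0 := fun p => by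
      rw [← a]
      by_contra n
      have := (unit_iff ..).1 (coeff_Yp_ne n).2
      have := p.2
      rw [jet_lev, map_zero] at *
      omega
    rw [a, coeff_hz_map]
    simp only [c, map_sum, map_zsmul, aeval_X, Pi.zero_apply, smul_zero, sum_const_zero, map_zero,
      add_zero]
    congr 2
    funext F
    simp only [Yb, Yj, map_zero, sum_const_zero, zero_add]; rfl
  · refine (key _ _ _).trans (Eq.trans ?_ (shape_u (T := T.jet col W ε η Kw b) y q).symm)
    rw [jet_hz h]; rfl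

theorem K_spl (h0 : 0 ∈ WV) (h1 : KV 0 0 = 1) (hb : ∀ μ ∈ WV, ∀ ν ∈ WV, KV μ ν ≠ 0 → μ.degree = ν.degree)
    (e : U ⊕ V → ℤ) : (T.shape cl (wprod W WV) e (kprod Kw KV)).K.submatrix
      (T.spl col W colV WV cl h0) (T.spl col W colV WV cl h0) =
      fromBlocks (T.shape col W ε Kw).K 0 0 ((T.jet col W ε η Kw b).shape colV WV εV KV).K := by
  have z : ∀ q : T.Jw W colV WV, q.1.2.1.degree ≠ 0 := fun q => by
    have := q.1.1.2
    rw [jw_deg]; omega
  ext (q | q) (q' | q')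
  · change T.K _ _ * (Kw (wdl (Finsupp.sumElim _ _)) (wdl (Finsupp.sumElim _ _)) *
      KV (wdr (Finsupp.sumElim _ _)) (wdr (Finsupp.sumElim _ _))) = T.K _ _ * Kw _ _
    rw [wdl_elim, wdl_elim, wdr_elim, wdr_elim, h1, mul_one]; rfl
  · change T.K _ _ * (Kw (wdl (Finsupp.sumElim _ _)) (wdl (Finsupp.sumElim _ _)) *
      KV (wdr (Finsupp.sumElim _ _)) (wdr (Finsupp.sumElim _ _))) = 0
    rw [wdr_elim, wdr_elim, by_contra fun n => z q' (hb _ h0 _ q'.1.2.2 n).symm, mul_zero, mul_zero]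
  · change T.K _ _ * (Kw (wdl (Finsupp.sumElim _ _)) (wdl (Finsupp.sumElim _ _)) *
      KV (wdr (Finsupp.sumElim _ _)) (wdr (Finsupp.sumElim _ _))) = 0
    rw [wdr_elim, wdr_elim, by_contra fun n => z q (hb _ q.1.2.2 _ h0 n), mul_zero, mul_zero]
  · change T.K _ _ * (Kw (wdl (Finsupp.sumElim _ _)) (wdl (Finsupp.sumElim _ _)) *
      KV (wdr (Finsupp.sumElim _ _)) (wdr (Finsupp.sumElim _ _))) = T.K _ _ * Kw _ _ * KV _ _
    rw [wdl_elim, wdl_elim, wdr_elim, wdr_elim, mul_assoc]; rfl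

theorem _root_.Crest.Agent.N49.Tw.gs_blocks {ι κ κ' : Type} [Fintype ι] [DecidableEq ι]
    [Fintype κ] [DecidableEq κ] [Fintype κ'] [DecidableEq κ'] (e : κ ⊕ κ' ≃ ι) {K : Matrix ι ι ℝ}
    {K1 : Matrix κ κ ℝ} {K2 : Matrix κ' κ' ℝ} (h1 : K1.PosDef) (h2 : K2.PosDef)
    (h : K.submatrix e e = fromBlocks K1 0 0 K2) {u : ι → ℝ} {u1 : κ → ℝ} {u2 : κ' → ℝ}
    (hu : ∀ q, u (e q) = Sum.elim u1 u2 q) : gs K⁻¹ u = gs K1⁻¹ u1 * gs K2⁻¹ u2 := by
  have a : qf K⁻¹ u = qf (K.submatrix e e)⁻¹ (Sum.elim u1 u2) := by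
    rw [inv_submatrix_equiv, ← funext hu, qf, qf, submatrix_mulVec_equiv]
    simp only [dotProduct, Function.comp_def, Equiv.apply_symm_apply]
    exact (e.sum_comp _).symm
  rw [gs, a, h, inv_fromBlocks_zero₂₁_of_isUnit_iff _ _ _ (iff_of_true h1.isUnit h2.isUnit),
    Matrix.mul_zero, Matrix.zero_mul, neg_zero, Rw.qf_blocks, gs, gs, ← Real.exp_add]
  ring_nf

/-- **JET**: given the background, the free words have the law of the shape of the jet tower -/
theorem jet_wt (h : T.Tri) {a c a' c' : ℝ} (hK : KB W Kw a c) (ha : 0 < a) (hV : KB WV KV a' c')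
    (ha' : 0 < a') (h0 : 0 ∈ WV) (h1 : KV 0 0 = 1) (y : T.Jw W colV WV → ℤ) :
    (T.shape cl (wprod W WV) (Sum.elim ε fun a => η * εV a) (kprod Kw KV)).wt (mrg cl h0 b y) =
      (T.shape col W ε Kw).wt b * ((T.jet col W ε η Kw b).shape colV WV εV KV).wt y :=
  gs_blocks (ι := (T.shape cl (wprod W WV) (Sum.elim ε fun a => η * εV a) (kprod Kw KV)).C)
    (κ := (T.shape col W ε Kw).C) (κ' := ((T.jet col W ε η Kw b).shape colV WV εV KV).C)
    (T.spl col W colV WV cl h0) (shape_tri h.cl hK ha).pd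
    (shape_tri (jet_tri h hK ha).cl hV ha').pd (K_spl h0 h1 hV.blk _) fun q =>
      (congrArg (fun z => (T.shape cl (wprod W WV) _ (kprod Kw KV)).u z _) (zc_mrg h0 b y)).trans
        (u_mrg h h0 (zc y) _ q)

/-- the points of a merged configuration -/
theorem pt_mrg (h0 : 0 ∈ WV) (x : T.Wd col W → ℤ) (y : T.Jw W colV WV → ℤ)
    (s : U → ℤ) (t : V → ℤ) (F : T.C) :
    T.pt cl (wprod W WV) (mrg cl h0 x y) (Sum.elim s t) F =
      eval s (T.Yj W ((T.jet col W ε η Kw b).pt colV WV y t) F) + T.pt col W x s F := by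
  have m : ∀ (α : U →₀ ℕ) (ν : V →₀ ℕ) (a : ℤ), eval (Sum.elim s t) (monomial (α.sumElim ν) a) =
      eval s (monomial α (eval t (monomial ν a))) := fun α ν a => by
    simp only [eval_monomial, Finsupp.prod_sumElim, Function.comp_def, Sum.elim_inl, Sum.elim_inr]
    ring
  rw [pt, Yp, map_sum, sum_mrg h0 x y F fun μ a => eval (Sum.elim s t) (monomial μ a)]
  simp only [m, pt, Yj, Yp, map_sum]
  congr 1
  exact sum_congr rfl fun q _ => by rw [← C_apply, eval_C]

variable (cl) in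
/-- configurations of the product shape are pairs -/
def mrgE (h0 : 0 ∈ WV) : (T.Wd col W → ℤ) × (T.Jw W colV WV → ℤ) ≃
    (T.Wd cl (wprod W WV) → ℤ) :=
  (Equiv.sumArrowEquivProdArrow _ _ ℤ).symm.trans
    (Equiv.arrowCongr (T.spl col W colV WV cl h0) (Equiv.refl ℤ))

theorem mrgE_apply (h0 : 0 ∈ WV) (y : T.Jw W colV WV → ℤ) :
    mrgE cl h0 (b, y) = mrg cl h0 b y := rfl

theorem KB.kprod {a c a' c' : ℝ} (hK : KB W Kw a c) (ha : 0 < a) (hV : KB WV KV a' c')
    (ha' : 0 < a') : (Matrix.of fun μ ν : wprod W WV => kprod Kw KV μ ν).PosDef ∧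
      ∀ μ ∈ wprod W WV, ∀ ν ∈ wprod W WV, kprod Kw KV μ ν ≠ 0 → μ.degree = ν.degree := by
  refine ⟨((hK.posDef ha).kronecker (hV.posDef ha')).submatrix (e := fun μ : wprod W WV =>
    ((⟨wdl μ.1, (mem_wprod.1 μ.2).1⟩, ⟨wdr μ.1, (mem_wprod.1 μ.2).2⟩) : W × WV)) fun μ ν e => ?_,
    fun μ hμ ν hν k => ?_⟩
  · refine Subtype.ext ?_
    have a : wdl μ.1 = wdl ν.1 := Subtype.ext_iff.1 (Prod.ext_iff.1 e).1
    have c : wdr μ.1 = wdr ν.1 := Subtype.ext_iff.1 (Prod.ext_iff.1 e).2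
    rw [← elim_wd μ.1, a, c, elim_wd]
  · rw [degree_wd, degree_wd, hK.blk _ (mem_wprod.1 hμ).1 _ (mem_wprod.1 hν).1
      (left_ne_zero_of_mul k), hV.blk _ (mem_wprod.1 hμ).2 _ (mem_wprod.1 hν).2
      (right_ne_zero_of_mul k)]

theorem prod_tri (h : T.Tri) {a c a' c' : ℝ} (hK : KB W Kw a c) (ha : 0 < a) (hV : KB WV KV a' c')
    (ha' : 0 < a') (e : U ⊕ V → ℤ) : (T.shape cl (wprod W WV) e (kprod Kw KV)).Tri :=
  shape_tri' h.cl (KB.kprod hK ha hV ha').1 (KB.kprod hK ha hV ha').2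

/-- Fubini over the background -/
theorem jet_Sc (h : T.Tri) {a c a' c' : ℝ} (hK : KB W Kw a c) (ha : 0 < a) (hV : KB WV KV a' c')
    (ha' : 0 < a') (h0 : 0 ∈ WV) (h1 : KV 0 0 = 1) {g : (T.Wd cl (wprod W WV) → ℤ) → ℂ}
    (hg : Bb g) :
    (T.shape cl (wprod W WV) (Sum.elim ε fun a => η * εV a) (kprod Kw KV)).Sc g =
      (T.shape col W ε Kw).Sc fun b =>
        ((T.jet col W ε η Kw b).shape colV WV εV KV).Sc fun y => g (mrg cl h0 b y) := by
  have s := (mrgE (col := col) (colV := colV) cl h0).summable_iff.2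
    ((prod_tri (cl := cl) h hK ha hV ha' (Sum.elim ε fun a => η * εV a)).smc hg)
  refine ((mrgE (col := col) (colV := colV) cl h0).tsum_eq _).symm.trans (s.tsum_prod.trans
    (tsum_congr fun x => Eq.trans (tsum_congr fun y => ?_) tsum_mul_left))
  exact (congrArg (fun z : ℝ => (z : ℂ) * g (mrg cl h0 x y))
    (jet_wt (b := x) h hK ha hV ha' h0 h1 y)).trans (by push_cast; ring)

theorem jet_S (h : T.Tri) {a c a' c' : ℝ} (hK : KB W Kw a c) (ha : 0 < a) (hV : KB WV KV a' c')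
    (ha' : 0 < a') (h0 : 0 ∈ WV) (h1 : KV 0 0 = 1) {g : (T.Wd cl (wprod W WV) → ℤ) → ℝ}
    (hg : Bb g) :
    (T.shape cl (wprod W WV) (Sum.elim ε fun a => η * εV a) (kprod Kw KV)).S g =
      (T.shape col W ε Kw).S fun b =>
        ((T.jet col W ε η Kw b).shape colV WV εV KV).S fun y => g (mrg cl h0 b y) := by
  have := jet_Sc (col := col) (colV := colV) (ε := ε) (η := η) (εV := εV) h hK ha hV ha' h0 h1
    hg.ofReal
  simp only [Sc_ofReal] at this
  exact Complex.ofReal_injective ((Sc_ofReal (T.shape cl (wprod W WV) _ _) g).symm.trans this)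

/-- the summands of `jet_S` are summable -/
theorem jet_sm (h : T.Tri) {a c a' c' : ℝ} (hK : KB W Kw a c) (ha : 0 < a) (hV : KB WV KV a' c')
    (ha' : 0 < a') (h0 : 0 ∈ WV) (h1 : KV 0 0 = 1) {g : (T.Wd cl (wprod W WV) → ℤ) → ℝ}
    (hg : Bb g) : Summable fun b => (T.shape col W ε Kw).wt b *
        ((T.jet col W ε η Kw b).shape colV WV εV KV).S fun y => g (mrg cl h0 b y) := by
  have s := (mrgE (col := col) (colV := colV) cl h0).summable_iff.2
    ((prod_tri (cl := cl) h hK ha hV ha' (Sum.elim ε fun a => η * εV a)).sm hg)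
  refine s.prod.congr fun x => Eq.trans (tsum_congr fun y => ?_) tsum_mul_left
  exact (congrArg (fun z : ℝ => z * g (mrg cl h0 x y))
    (jet_wt (b := x) h hK ha hV ha' h0 h1 y)).trans (mul_assoc ..)

end split

/-! ### costs -/

theorem jet_R (l s : ℕ) (hs : ∀ F, T.lev F ≤ s) :
    (T.jet col W ε η Kw b).R l ≤ #W * ∑ j ∈ Icc l s, T.R j := by
  have : ∑ j ∈ Icc l s, T.R j = #{F : T.C | l ≤ T.lev F} := by
    rw [card_eq_sum_card_fiberwise (f := T.lev) (t := Icc l s) fun F hF =>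
      mem_coe.2 (mem_Icc.2 ⟨(mem_filter.1 hF).2, hs F⟩)]
    refine sum_congr rfl fun j hj => congrArg card ?_
    ext F
    simp only [mem_filter, mem_univ, true_and]
    exact ⟨fun e => ⟨e ▸ (mem_Icc.1 hj).1, e⟩, fun e => e.2⟩
  rw [this, mul_comm, ← Fintype.card_coe W, ← card_univ, ← card_product]
  refine card_le_card_of_injOn Subtype.val (fun p hp => ?_) Subtype.val_injective.injOn
  have := (mem_filter.1 hp).2
  rw [jet_lev] at this
  exact mem_coe.2 (mem_product.2 ⟨mem_filter.2 ⟨mem_univ _, by omega⟩, mem_univ _⟩)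

theorem _root_.Crest.Agent.N49.Tw.th_tri {ι : Type} [Fintype ι] [DecidableEq ι] {l : ι → ℕ}
    {A A0 K : Matrix ι ι ℝ} (h : ∀ i j, l i ≤ l j → A i j = A0 i j) (h0 : Rw.Blk l A0)
    (hd : A0.det ≠ 0) (hK : K.PosDef) (hb : Rw.Blk l K) {s : ℕ} (hs : ∀ i, l i < s) :
    Po.th (A⁻¹ * K * A⁻¹ᵀ) 0 ≤ ∏ j ∈ range s, Po.th (Rw.blk l (A0⁻¹ * K * A0⁻¹ᵀ) j) 0 := by
  have e := det_of_tri h h0
  have pd : ∀ {B : Matrix ι ι ℝ}, B.det ≠ 0 → (Bᵀ * K⁻¹ * B).PosDef ∧
      (Bᵀ * K⁻¹ * B)⁻¹ = B⁻¹ * K * B⁻¹ᵀ := fun {B} hB =>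
    ⟨posDef_conj hK.inv (mulVec_injective_iff_isUnit.2 ((isUnit_iff_isUnit_det _).2 hB.isUnit)), by
      rw [Matrix.mul_inv_rev, Matrix.mul_inv_rev, inv_inv' hK, transpose_nonsing_inv,
        Matrix.mul_assoc]⟩
  obtain ⟨p1, q1⟩ := pd (e.trans_ne hd)
  obtain ⟨p0, q0⟩ := pd hd
  have b0 : Rw.Blk l (A0ᵀ * K⁻¹ * A0) := blk_mul (blk_mul (blk_tr h0) (blk_inv hb)) h0
  have d : dt (Aᵀ * K⁻¹ * A) = dt (A0ᵀ * K⁻¹ * A0) := by
    simp only [dt, det_mul, det_transpose, e]
  have t : Rw.Tri l fun y => -(A0⁻¹ *ᵥ ((A - A0) *ᵥ zc y)) := fun y y' i k => by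
    simp only [Pi.neg_apply, neg_inj]
    refine sum_congr rfl fun j _ => ?_
    by_cases a : l i = l j
    · refine congrArg _ (sum_congr rfl fun m _ => ?_)
      by_cases c : l j ≤ l m
      · simp [h j m c]
      · simp [zc, k m (by omega)]
    · simp [blk_inv h0 i j a]
  have z : Po.th (Aᵀ * K⁻¹ * A) 0 ≤ ∏ j ∈ range s, Po.th (Rw.blk l (A0ᵀ * K⁻¹ * A0) j) 0 := by
    refine le_trans (le_of_eq (Eq.trans (tsum_congr fun y => ?_) (Rw.Z_eq hs))) (Rw.Zl_le t b0 p0 s)
    rw [Rw.wt, gs, gs, qf_conj, qf_conj, sub_zero, sub_neg_eq_add, mulVec_add, mulVec_mulVec,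
      mulVec_mulVec, mul_nonsing_inv _ hd.isUnit, Matrix.one_mul, sub_mulVec, add_sub_cancel]
  rw [th_dual p1, q1, d, Rw.dt_blk b0 p0 hs] at z
  refine le_of_mul_le_mul_left (z.trans_eq ?_) (prod_pos fun j _ => dt_pos (Rw.blk_pd p0 j))
  rw [← prod_mul_distrib]
  refine prod_congr rfl fun j _ => ?_
  rw [th_dual (Rw.blk_pd p0 j), ← q0, Rw.blk, Rw.Bk.sub_inv (fun _ _ e k => e ▸ k) b0 p0.det_pos.ne']
  rfl

theorem _root_.Crest.Agent.N49.Tw.th_inj {ι κ : Type} [Fintype ι] [DecidableEq ι] [Fintype κ]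
    [DecidableEq κ] {M : Matrix ι ι ℝ} (hM : M.PosDef) {f : κ → ι} (hf : f.Injective) :
    Po.th (M.submatrix f f) 0 ≤ Po.th M 0 := by
  have := La.th_sub hM ((1 : Matrix ι ι ℤ).submatrix id f) fun u v e => funext fun i => by
    simpa [mulVec, dotProduct, one_apply, hf.eq_iff] using congrFun e (f i)
  refine le_of_eq_of_le (congrArg (Po.th · 0) ?_) this
  ext i j
  simp [mul_apply, one_apply, apply_ite]

theorem _root_.Crest.Agent.N49.Tw.KB.th_kron {τ d : Type} [DecidableEq τ] [Fintype d]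
    [DecidableEq d] {W : Finset (τ →₀ ℕ)} {Kw : (τ →₀ ℕ) → (τ →₀ ℕ) → ℝ} {a c : ℝ}
    (hK : KB W Kw a c) (ha : 0 < a) (ha1 : a ≤ 1) {D : Matrix d d ℝ} (hD : D.PosDef) :
    Po.th ((Matrix.of fun μ ν : W => Kw μ ν) ⊗ₖ D) 0 ≤
      ((√a)⁻¹ ^ Fintype.card d * Po.th D 0) ^ #W := by
  have h1 := hD.smul ha
  have h : ((Matrix.of fun μ ν : W => Kw μ ν) - a • (1 : Matrix W W ℝ)).PosSemidef := by
    refine PosSemidef.of_dotProduct_mulVec_nonneg ((hK.posDef ha).1.sub
      (PosDef.one.smul ha).1) fun x => ?_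
    have := hK.lo fun μ => if k : μ ∈ W then x ⟨μ, k⟩ else 0
    simp only [← sum_coe_sort W, coe_mem, dif_pos, Subtype.coe_eta] at this
    rw [sub_mulVec, dotProduct_sub, smul_mulVec, one_mulVec, dotProduct_smul, sub_nonneg]
    simpa only [dotProduct, mulVec, star_trivial, of_apply, mul_sum, mul_assoc, sq,
      smul_eq_mul] using this
  refine (th_mono (PosDef.one.kronecker h1) ((hK.posDef ha).kronecker hD) (fun x => ?_) 0).trans ?_
  · have := (h.kronecker hD.posSemidef).dotProduct_mulVec_nonneg x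
    rw [show ((Matrix.of fun μ ν : W => Kw μ ν) - a • (1 : Matrix W W ℝ)) ⊗ₖ D =
      (Matrix.of fun μ ν : W => Kw μ ν) ⊗ₖ D - (1 : Matrix W W ℝ) ⊗ₖ (a • D) by
      ext i j; simp; ring, sub_mulVec, dotProduct_sub] at this
    exact sub_nonneg.1 this
  · rw [La.th_one_kron h1, Fintype.card_coe]
    exact pow_le_pow_left₀ (th_nonneg _ _) (th_scale hD ha ha1 0) _

/-- the cost of the jet tower -/
theorem jet_ct (h : T.Tri) {a c : ℝ} (hK : KB W Kw a c) (ha : 0 < a) (ha1 : a ≤ 1) (l s : ℕ)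
    (hs : ∀ F, T.lev F ≤ s) :
    (T.jet col W ε η Kw b).ct l ≤ ∏ j ∈ Icc l s, ((√a)⁻¹ ^ T.R j * T.ct j) ^ #W := by
  have t := jet_tri (col := col) (ε := ε) (η := η) (b := b) h hK ha
  set J := T.jet col W ε η Kw b
  have hp : ∀ i j, J.lev i = J.lev j → J.lev i = l → J.lev j = l := fun _ _ e k => e ▸ k
  have bk : ∀ {B : Matrix T.C T.C ℝ}, Rw.Blk T.lev B → Rw.Blk J.lev (T.kj W B (dk 1)) :=
    fun {B} hB p p' e => by
      by_contra n
      have a : T.lev p.1.1 = T.lev p'.1.1 := by_contra fun k => left_ne_zero_of_mul n (hB _ _ k)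
      have c : p.1.2.1 = p'.1.2.1 := by_contra fun k => right_ne_zero_of_mul n (if_neg k)
      exact e (by rw [jet_lev, jet_lev, a, c])
  have sb : ∀ {B : Matrix J.C J.C ℝ}, Rw.Blk J.lev B → B.det ≠ 0 →
      (B⁻¹ * J.K * B⁻¹ᵀ).submatrix (Subtype.val : {c // J.lev c = l} → J.C) Subtype.val =
      (B.submatrix (Subtype.val : {c // J.lev c = l} → J.C) Subtype.val)⁻¹ *
        J.K.submatrix Subtype.val Subtype.val *
        (B.submatrix (Subtype.val : {c // J.lev c = l} → J.C) Subtype.val)⁻¹ᵀ := fun {B} hB hd => by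
    rw [Rw.Bk.sub_mul hp (blk_mul (blk_inv hB) t.blk_K), Rw.Bk.sub_mul hp (blk_inv hB),
      Rw.Bk.sub_inv hp hB hd]; rfl
  obtain ⟨i1, i2⟩ := kj_inv (W := W) T.blk_A h.det
  have d0 : ((T.kj W T.A (dk 1)).submatrix (Subtype.val : {c // J.lev c = l} → J.C)
      Subtype.val).det ≠ 0 := (isUnit_det_of_right_inverse (B := (T.kj W T.A (dk 1))⁻¹.submatrix
        (Subtype.val : {c // J.lev c = l} → J.C) Subtype.val) (by
      rw [← Rw.Bk.sub_mul hp (bk T.blk_A), mul_nonsing_inv _ i2.isUnit,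
        submatrix_one _ Subtype.val_injective])).ne_zero
  have z := th_tri (ι := {c // J.lev c = l}) (l := fun p => T.lev p.1.1.1)
    (A := J.A.submatrix Subtype.val Subtype.val)
    (A0 := (T.kj W T.A (dk 1)).submatrix Subtype.val Subtype.val) (K := J.K.submatrix Subtype.val Subtype.val)
    (fun p p' e => jet_A h p.1 p'.1 e) (fun p p' e => kj_blk T.blk_A p.1 p'.1 e) d0
    (t.pd.submatrix Subtype.val_injective) (fun p p' e => kj_blk (Kw := Kw) h.blk_K p.1 p'.1 e)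
    (s := s + 1) fun p => Nat.lt_succ_of_le (hs _)
  rw [← sb J.blk_A t.det, ← sb (bk T.blk_A) i2, i1, show J.K = T.kj W T.K Kw from rfl,
    kj_mul (blk_inv T.blk_A), mul_kj (blk_inv T.blk_A)] at z
  refine z.trans ?_
  rw [← prod_subset (s₁ := Icc l s) (fun j hj => mem_range.2 (Nat.lt_succ_of_le (mem_Icc.1 hj).2))]
  · refine prod_le_prod (fun j _ => th_nonneg _ _) fun j _ => ?_
    have pD : (T.D.submatrix (Subtype.val : {c // T.lev c = j} → T.C) Subtype.val).PosDef :=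
      h.pd_D.submatrix Subtype.val_injective
    have := (@th_inj _ (Rw.At (fun p : {c // J.lev c = l} => T.lev p.1.1.1) j) _ _ _
      (Classical.decEq _) _ ((hK.posDef ha).kronecker pD) (fun p => (p.1.1.1.2, ⟨p.1.1.1.1, p.2⟩)) fun p p' e => Subtype.ext (Subtype.ext
        (Subtype.ext (Prod.ext (Subtype.ext_iff.1 (Prod.ext_iff.1 e).2)
          (Prod.ext_iff.1 e).1)))).trans (hK.th_kron ha ha1 pD)
    rw [Fintype.card_subtype] at this
    exact le_of_eq_of_le (congrArg (Po.th · 0) (Matrix.ext fun p p' => mul_comm _ _)) this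
  · intro j h1 h2
    have : IsEmpty (Rw.At (fun p : {c // J.lev c = l} => T.lev p.1.1.1) j) := ⟨fun p => h2 (by
      have a := p.1.2
      have c : T.lev p.1.1.1.1 = j := p.2
      rw [jet_lev] at a
      exact mem_Icc.2 ⟨by omega, Nat.le_of_lt_succ (mem_range.1 h1)⟩)⟩
    simp [Po.th, gs, qf]

end TS

/-- the container seen from the point `s` of the background -/
def Ctr.jet (V : Ctr) {U : Type} [DecidableEq U] [Fintype U] (col : U → Unit)
    (W : Finset (U →₀ ℕ)) (ε : U → ℤ) (η : ℤ) (Kw : (U →₀ ℕ) → (U →₀ ℕ) → ℝ)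
    (b : V.T.Wd col W → ℤ) (s : U → ℤ) : Ctr where
  T := V.T.jet col W ε η Kw b
  π p := if p.1.2.1 = 0 then V.π p.1.1 else 0
  c := V.x (V.T.pt col W b s)

section
variable {V : Ctr} {U U' : Type} [DecidableEq U] [Fintype U] [DecidableEq U'] [Fintype U']
  {col : U → Unit} {W : Finset (U →₀ ℕ)} {ε : U → ℤ} {η : ℤ} {Kw : (U →₀ ℕ) → (U →₀ ℕ) → ℝ}
  {b : V.T.Wd col W → ℤ} {s : U → ℤ} {n : ℕ}

theorem Ctr.Ok.jet (h : V.Ok n) {a c : ℝ} (hK : KB W Kw a c) (ha : 0 < a) :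
    (V.jet col W ε η Kw b s).Ok n := by
  refine ⟨TS.jet_tri h.1 hK ha, fun p => (TS.jet_lev p).trans_le ((Nat.sub_le ..).trans (h.2.1 _)),
    fun p k => (TS.jet_lev p).trans ?_⟩
  change (if p.1.2.1 = 0 then V.π p.1.1 else 0) ≠ (0 : ℤ) at k
  split_ifs at k with e
  · rw [h.2.2 _ k, e]; rfl
  · exact absurd rfl k

theorem Ctr.Ok.jet_x (h : V.Ok n) (y : V.T.Jd W → ℤ) :
    V.x (fun F => eval s (V.T.Yj W y F) + V.T.pt col W b s F) = (V.jet col W ε η Kw b s).x y := by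
  change V.c + ∑ F, V.π F * _ = V.c + ∑ F, V.π F * _ + 
    ∑ p : V.T.Jd W, (if p.1.2.1 = 0 then V.π p.1.1 else 0) * y p
  simp only [mul_add, sum_add_distrib, TS.Yj, map_sum, mul_sum]
  rw [add_assoc, add_comm (∑ F, V.π F * _), ← sum_fiberwise (s := univ)
    (g := fun p : V.T.Jd W => p.1.1)]
  congr 2
  refine sum_congr rfl fun F _ => sum_congr rfl fun p hp => ?_
  obtain rfl := (mem_filter.1 hp).2
  split_ifs with e
  · rw [e, ← C_apply, eval_C]
  · rw [zero_mul, mul_eq_zero]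
    refine .inl (by_contra fun k => e ((Finsupp.degree_eq_zero_iff _).1 ?_))
    have := p.2
    rw [h.2.2 _ k] at this; omega

/-- the integer of a point of the product shape is read in the jet container -/
theorem Ctr.Ok.x_mrg (h : V.Ok n) {colV : U' → Unit} {WV : Finset (U' →₀ ℕ)} {cl : U ⊕ U' → Unit}
    (h0 : 0 ∈ WV) (y : V.T.Jw W colV WV → ℤ) (t : U' → ℤ) :
    V.x (V.T.pt cl (wprod W WV) (TS.mrg cl h0 b y) (Sum.elim s t)) =
      (V.jet col W ε η Kw b s).x ((V.T.jet col W ε η Kw b).pt colV WV y t) := by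
  rw [← h.jet_x]
  exact congrArg V.x (funext (TS.pt_mrg h0 b y s t))

end

end Crest.Agent.N49.Tw

end
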