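import Crest.Agent.N49.Tw.Mast0
import Crest.Agent.N49.Tw.Ap2

/-!
# Row 49 (helper59): the induction on the stages and the thresholds
-/

set_option autoImplicit false

open Matrix MvPolynomial Finset

noncomputable section

namespace Crest.Agent.N49.Tw

open Po

/-- the size of a stage on a shape -/
def LWC : Prop := ∀ (σ τ : Type) [DecidableEq σ] (T : TS σ) (S : Sh σ τ) (st : T.C → ℕ)
  (Ψ : T.Twd S) (M n t : ℕ) (a b : ℝ), T.Stg st M → T.Adm S st Ψ → S.Sz n a → 0 < b → b ≤ 1 →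
  b ≤ a → (T.lw S st Ψ).R t ≤ n * (T.stg st).R t ∧ Real.log ((T.lw S st Ψ).ct t) ≤
    n * (Real.log ((T.stg st).ct t) + (T.stg st).R t * Real.log b⁻¹)

theorem lwc : LWC := fun _ _ _ T S st Ψ _ n t a b hs hA h b0 b1 ba => by
  refine ⟨(TS.lw_R t).trans (by rw [mul_comm]; exact Nat.mul_le_mul_right _ h.card), ?_⟩
  have c1 := TS.one_le_ct hs.tri t
  have s0 := Real.sqrt_pos.2 b0
  have s1 : 1 ≤ (√b)⁻¹ := (one_le_inv₀ s0).2 (Real.sqrt_le_one.2 b1)
  have s2 : (√b)⁻¹ ≤ b⁻¹ := inv_anti₀ b0 (Real.le_sqrt_of_sq_le (by nlinarith))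
  have x1 : 1 ≤ (√b)⁻¹ ^ (T.stg st).R t * (T.stg st).ct t :=
    one_le_mul_of_one_le_of_one_le (one_le_pow₀ s1) c1
  have := (TS.lw_ct hs hA h.toOk b0 b1 (fun x => le_trans (mul_le_mul_of_nonneg_right ba
    (sum_nonneg fun _ _ => sq_nonneg _)) (h.lo x)) t).trans (pow_le_pow_right₀ x1 h.card)
  refine (Real.log_le_log (zero_lt_one.trans_le
    (TS.one_le_ct (TS.lw_tri hs hA h.toOk) t)) this).trans ?_
  rw [Real.log_pow, Real.log_mul (by positivity) (by positivity), Real.log_pow, add_comm]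
  gcongr

theorem step_tail {R n R' : ℕ} {ct c0 l η : ℝ} (h0 : 0 < η) (hc : 1 ≤ ct)
    (hR : R ≤ n * R') (hl : Real.log ct ≤ n * (c0 + R' * l)) {g : ℝ}
    (hg : g = 3 + Real.log η⁻¹ + n * (c0 + R' * (1 + l))) (g0 : 0 ≤ g) :
    (Real.exp (-g) + √2 ^ R * Real.exp (-(Real.pi * g / 2))) * ct ≤ η / 4 := by
  have s1 : (1 : ℝ) ≤ √2 := Real.one_le_sqrt.2 one_le_two
  have s2 : √2 ≤ Real.exp 1 := by
    have := Real.add_one_le_exp (1 : ℝ)
    have : √2 ≤ 2 := Real.sqrt_le_iff.2 ⟨by norm_num, by norm_num⟩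
    linarith
  have a : √2 ^ R ≤ Real.exp (n * R') := by
    refine (pow_le_pow_left₀ (by positivity) s2 R).trans ?_
    rw [← Real.exp_nat_mul, mul_one]
    exact Real.exp_le_exp.2 (by exact_mod_cast hR)
  have b : Real.exp (-(Real.pi * g / 2)) ≤ Real.exp (-g) :=
    Real.exp_le_exp.2 (by nlinarith [Real.pi_gt_three])
  have c : ct ≤ Real.exp (n * (c0 + R' * l)) := (Real.log_le_iff_le_exp (by linarith)).1 hl
  have d : Real.exp (n * R') * Real.exp (-g) * Real.exp (n * (c0 + R' * l)) =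
      η * Real.exp (-3) := by
    rw [← Real.exp_add, ← Real.exp_add, hg, Real.log_inv]
    conv_rhs => rw [← Real.exp_log h0, ← Real.exp_add]
    congr 1; ring
  have e : Real.exp (-3) ≤ 1 / 8 := by
    rw [Real.exp_neg, one_div]
    refine inv_anti₀ (by norm_num) ?_
    have := Real.add_one_le_exp (1 : ℝ)
    rw [show (3 : ℝ) = (3 : ℕ) * 1 by norm_num, Real.exp_nat_mul]
    exact le_trans (by norm_num) (pow_le_pow_left₀ (by norm_num : (0 : ℝ) ≤ 2) (by linarith) 3)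
  have f : (1 : ℝ) ≤ Real.exp (n * R') := Real.one_le_exp (by positivity)
  calc _ ≤ (Real.exp (n * R') * Real.exp (-g) + Real.exp (n * R') * Real.exp (-g)) *
        Real.exp (n * (c0 + R' * l)) := by
        gcongr
        exact le_mul_of_one_le_left (Real.exp_pos _).le f
    _ = 2 * (η * Real.exp (-3)) := by rw [add_mul, d]; ring
    _ ≤ η / 4 := by nlinarith

theorem root_le {N : ℕ} (hN : 1 ≤ N) {x g τ : ℝ} (ht : τ ≤ Real.exp (-(N * (g + 2))))
    (h : x ^ N ≤ N * (τ + Real.exp (-(N * (g + 2))))) : x ≤ Real.exp (-g) := by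
  refine le_of_pow_le_pow_left₀ (Nat.one_le_iff_ne_zero.1 hN) (Real.exp_pos _).le (h.trans ?_)
  have a : Real.exp (-g) ^ N = Real.exp (2 * N) * Real.exp (-(N * (g + 2))) := by
    rw [← Real.exp_nat_mul, ← Real.exp_add]; congr 1; ring
  have b := Real.add_one_le_exp (2 * N : ℝ)
  have c := Real.exp_pos (-(N * (g + 2)))
  have d : (0 : ℝ) ≤ N := Nat.cast_nonneg N
  rw [a]
  nlinarith [mul_le_mul_of_nonneg_left ht d]

/-- regularity of the stages `≤ t` gives the semantic Master estimate -/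
def RGS (M t C : ℕ) : Prop := ∀ (σ : Type) [DecidableEq σ] (T : TS σ) (st : T.C → ℕ) (n : ℕ)
  (a η : ℝ), T.Stg st M → 1 ≤ n → 0 < η → η ≤ 1 → T.RgS st t C n a η → T.Sem st (t + 1) n a η

theorem rgs_zero (M : ℕ) : RGS M 0 0 := fun _ _ T st _ _ _ hs _ h0 _ _ _ S Ψ _ _ =>
  have : IsEmpty ((T.lw S st Ψ).lt (0 + 1)).C := ⟨fun p => by
    have a : (T.lw S st Ψ).lev p.1 < 0 + 1 := p.2
    have b := hs.pos p.1.1.1
    rw [TS.lw_lev] at a; omega⟩
  TS.mas_empty _ h0.le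

theorem rgs_succ {M c t C : ℕ} (hc : CHAR M c) (ih : RGS M t C) :
    RGS M (t + 1) ((2 * c + 1) * C + (2 * c + 4) + C) := by
  intro σ _ T st n a η hs hn h0 h1 hr τ S Ψ hS hA
  obtain ⟨κ, lb, k⟩ := TS.rgS_iff.1 hr
  have n1 : (1 : ℝ) ≤ n := by exact_mod_cast hn
  have lo := loss c C hn
  set N : ℕ := (n + 2) ^ c with hN
  have N1 : 1 ≤ N := Nat.one_le_pow _ _ (by omega)
  have Nr : ((n : ℝ) + 2) ^ c = N := by rw [hN]; push_cast; rfl
  rw [Nr] at lo
  have N1' : (1 : ℝ) ≤ N := by exact_mod_cast N1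
  set P : ℝ := (n + 1) ^ ((2 * c + 1) * C + (2 * c + 4) + C) with hP
  have p1 : ∀ e : ℕ, (1 : ℝ) ≤ (n + 1) ^ e := fun e => one_le_pow₀ (by linarith)
  have q1 : (1 : ℝ) ≤ (N + 1) ^ C := one_le_pow₀ (by linarith)
  have nN : (1 : ℝ) ≤ n * N := one_le_mul_of_one_le_of_one_le n1 N1'
  have lP : ((N : ℝ) + 1) ^ C * (1 + 5 * n * N) * (n + 1) ^ C ≤ P := by
    rw [hP, pow_add _ _ C]; exact mul_le_mul_of_nonneg_right lo (by positivity)
  have lP1 : ((N : ℝ) + 1) ^ C * (1 + 5 * n * N) ≤ P :=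
    (le_mul_of_one_le_right (by positivity) (p1 C)).trans lP
  have lP2 : 1 + 5 * (n : ℝ) * N ≤ P := (le_mul_of_one_le_left (by positivity) q1).trans lP1
  have lP3 : 2 * ((n : ℝ) + 1) ^ C ≤ P := le_trans (mul_le_mul_of_nonneg_right
    (le_trans (by linarith) (le_mul_of_one_le_left (by positivity) q1)) (by positivity)) lP
  have NP : (N : ℝ) ≤ P := by nlinarith
  obtain ⟨b0, b1, b2⟩ := k.lo (t + 1) le_rfl
  have bd : BddBelow (Set.range (κ (t + 1))) := ⟨lb (t + 1), by rintro _ ⟨j, rfl⟩; exact (b2 j).1⟩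
  set b := ⨅ j, κ (t + 1) j with hb
  have lbb : lb (t + 1) ≤ b := le_ciInf fun j => (b2 j).1
  have la : lb (t + 1) ≤ a := by
    have := b2 0
    nlinarith
  have l0 := TS.log_inv_nonneg h0 h1
  set l := Real.log η⁻¹ with hl
  set X := T.cst st lb (t + 1) with hX
  have X0 : 0 ≤ X := TS.cst_nonneg hs.tri b0 b1
  have nX : 0 ≤ n * X := by positivity
  set g := 3 + l + n * X with hg
  have g0 : 0 ≤ g := by positivity
  have gP : N * (g + 2) ≤ 5 * n * N * (1 + l + X) := by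
    rw [show 5 * (n : ℝ) * N * (1 + l + X) = N * (5 * n * (1 + l + X)) by ring]
    exact mul_le_mul_of_nonneg_left (by nlinarith) (by positivity)
  have sm : ∀ s ∈ Icc 1 t, ∑ j ∈ Icc s (t + 1), T.cst st lb j = ∑ j ∈ Icc s t, T.cst st lb j + X :=
    fun s k => sum_Icc_succ_top (by have := (mem_Icc.1 k).2; omega) _
  have hL := TS.lw_tri hs hA hS.toOk
  -- the two instances of the induction hypothesis
  have i1 : T.Sem st (t + 1) n a (η / 2) := by
    refine ih σ T st n a _ hs hn (by positivity) (by linarith) (TS.rgS_iff.2 ⟨κ, lb,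
      k.mono (Nat.le_succ t) (by nlinarith [p1 C]) (fun s e j => ?_) fun s e => ?_⟩)
    · obtain ⟨x, -, y⟩ := k.lo s (e.trans (Nat.le_succ t))
      exact (mul_le_mul_of_nonneg_right (by nlinarith [p1 C]) (x.le.trans (y j).1)).trans (y j).2
    · have s0 := k.sum_nonneg hs.tri s (Nat.le_succ t)
      have e2 : Real.log (η / 2)⁻¹ ≤ 1 + l := by
        rw [inv_div, div_eq_mul_inv, Real.log_mul two_ne_zero (inv_pos.2 h0).ne']
        linarith [Real.log_le_sub_one_of_pos (two_pos (α := ℝ))]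
      rw [sm s e]
      calc _ ≤ ((n : ℝ) + 1) ^ C * (2 * (1 + l + (∑ j ∈ Icc s t, T.cst st lb j + X))) :=
            mul_le_mul_of_nonneg_left (by linarith) (by positivity)
        _ = 2 * ((n : ℝ) + 1) ^ C * (1 + l + (∑ j ∈ Icc s t, T.cst st lb j + X)) := by ring
        _ ≤ _ := mul_le_mul_of_nonneg_right lP3 (by positivity)
  have e0 : 0 ≤ N * (g + 2) := by positivity
  have i2 : T.Sem st (t + 1) N (b / N) (Real.exp (-(N * (g + 2)))) := by
    refine ih σ T st N _ _ hs N1 (Real.exp_pos _) (Real.exp_le_one_iff.2 (by linarith))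
      (TS.rgS_iff.2 ⟨κ, lb, k.mono (Nat.le_succ t) (by nlinarith) (fun s e j => ?_) fun s e => ?_⟩)
    · obtain ⟨x, -, y⟩ := k.lo s (e.trans (Nat.le_succ t))
      have z : P * κ s j ≤ b := le_ciInf fun i => k.sep _ le_rfl s (Nat.lt_succ_of_le e) i j
      rw [le_div_iff₀ (by linarith), mul_right_comm]
      refine le_trans (mul_le_mul_of_nonneg_right (le_trans ?_ lP1) (x.le.trans (y j).1)) z
      exact mul_le_mul_of_nonneg_left (by nlinarith) (by positivity)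
    · have s0 := k.sum_nonneg hs.tri s (Nat.le_succ t)
      rw [sm s e, ← Real.exp_neg, neg_neg, Real.log_exp]
      calc _ ≤ ((N : ℝ) + 1) ^ C * ((1 + 5 * n * N) *
            (1 + l + (∑ j ∈ Icc s t, T.cst st lb j + X))) :=
            mul_le_mul_of_nonneg_left (by nlinarith [mul_nonneg (zero_le_one.trans nN) s0])
              (by positivity)
        _ ≤ _ := by rw [← mul_assoc]; exact mul_le_mul_of_nonneg_right lP1 (by positivity)
  have sy := k.sym (t + 1) (mem_Icc.2 ⟨Nat.succ_pos t, le_rfl⟩)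
  rw [Icc_self, sum_singleton, ← hX] at sy
  have gL : N * (g + 2) ≤ P * (1 + l + X) :=
    gP.trans (mul_le_mul_of_nonneg_right (by linarith) (by positivity))
  obtain ⟨w1, w2⟩ := lwc σ τ T S st Ψ M n (t + 1) a _ hs hA hS b0 b1 la
  have := hL.mas_succ (r := g) (i1 τ S Ψ hS hA) (by linarith) (Real.exp_pos (-g)).le
    (fun q q0 q1 q2 => root_le N1 (Real.exp_le_exp.2 (neg_le_neg gL)) ?_)
    (step_tail h0 (TS.one_le_ct hL _) w1 w2 rfl g0)
  · rwa [show η / 2 + 2 * (η / 4) = η by ring] at this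
  · have := hc σ τ T S st Ψ (t + 1) n a b _ _ _ (κ (t + 1)) q hs hA hS (b0.trans_le lbb)
      (fun j => ⟨ciInf_le bd j, ?_⟩) (Real.exp_pos (-(N * (g + 2))))
      (Real.exp_le_one_iff.2 (by linarith)) (Real.exp_pos _).le (Nr ▸ i2) sy q0
      (fun p e => q1 p (by rwa [TS.lw_lev])) ?_
    · rwa [Nr] at this
    · rw [Nr]
      exact (mul_le_mul_of_nonneg_right NP (b0.le.trans (b2 j).1)).trans (b2 j).2
    · rw [Nr, mul_div_assoc', mul_comm a, mul_div_assoc]
      refine le_trans ?_ (le_mul_of_one_le_right (e0.trans gL) ((one_le_div b0).2 la))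
      exact (mul_le_mul_of_nonneg_left (by linarith) (by positivity)).trans gL

theorem rgs {M c : ℕ} (hc : CHAR M c) (t : ℕ) : ∃ C, RGS M t C := by
  induction t with
  | zero => exact ⟨0, rgs_zero M⟩
  | succ t ih => obtain ⟨C, h⟩ := ih; exact ⟨_, rgs_succ hc h⟩

theorem Sh.Sz.empty {σ τ : Type} {S : Sh σ τ} {a : ℝ} (h : S.Sz 0 a) : IsEmpty S.W :=
  Fintype.card_eq_zero_iff.1 (Nat.le_zero.1 h.card)

theorem RGS.mast {M C : ℕ} (h : RGS M M C) : MAST M C := fun σ τ _ T S st Ψ n a η k => by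
  rcases n.eq_zero_or_pos with rfl | hn
  · have := k.sz.empty
    have : IsEmpty (T.lw S st Ψ).C := ⟨fun p => this.elim p.1.2⟩
    exact TS.mas_empty _ k.pos.le
  · exact k.tri.mas_top (fun p => by rw [TS.lw_lev]; exact Nat.lt_succ_of_le (k.stg.le _).1)
      (h σ T st n a η k.stg hn k.pos k.le k.rg τ S Ψ k.sz k.adm)

/-- the semantic estimate after polynomial losses -/
theorem RGS.sem {M C : ℕ} (h : RGS M M C) (c : ℕ) {σ τ : Type} [DecidableEq σ] {T : TS σ}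
    {S : Sh σ τ} {st : T.C → ℕ} {Ψ : T.Twd S} {n : ℕ} {a η : ℝ} (hn : 1 ≤ n)
    (k : T.Hy S st Ψ M ((2 * c + 1) * C + (2 * c + 4)) n a η) :
    ∃ η', 0 < η' ∧ (n + 2) ^ c * √η' = η ∧
      T.Sem st (M + 1) ((n + 2) ^ c) (a / (n + 2) ^ c) η' := by
  have n1 : (1 : ℝ) ≤ n := by exact_mod_cast hn
  have lo := loss c C hn
  have N1 : (1 : ℝ) ≤ (n + 2) ^ c := one_le_pow₀ (by linarith)
  have h0 := k.pos
  have h1 := k.le
  have a0 := k.rg.pos
  set N : ℝ := (n + 2) ^ c with hN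
  have nN : N ≤ n * N := le_mul_of_one_le_left (by linarith) n1
  have q : (0 : ℝ) < (((n + 2) ^ c : ℕ) + 1 : ℝ) ^ C := by positivity
  have e1 : η / N ≤ 1 := (div_le_one (by linarith)).2 (by linarith)
  refine ⟨(η / N) ^ 2, by positivity, by rw [Real.sqrt_sq (by positivity)]; field_simp,
    h σ T st _ _ _ k.stg (Nat.one_le_pow _ _ (by omega)) (by positivity)
      (pow_le_one₀ (by positivity) e1) (k.rg.mono'' k.stg.tri h0 h1 (Q := 1 + 5 * n * N)
        (by nlinarith) (by rwa [mul_comm]) ?_ ?_)⟩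
  · rw [mul_div_assoc', le_div_iff₀ (by linarith), mul_right_comm]
    refine mul_le_mul_of_nonneg_right (le_trans ?_ lo) a0.le
    exact mul_le_mul_of_nonneg_left (by linarith) q.le
  · have l0 := TS.log_inv_nonneg h0 h1
    rw [← inv_pow, Real.log_pow, inv_div, div_eq_mul_inv,
      Real.log_mul (by linarith) (inv_pos.2 h0).ne']
    have := Real.log_le_sub_one_of_pos (by linarith : 0 < N)
    push_cast
    nlinarith [mul_nonneg (by linarith : 0 ≤ n * N - 1) l0]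

theorem RGS.margt {M C c : ℕ} (h : RGS M M C) (g : MARGS M c) :
    MARGT M ((2 * c + 1) * C + (2 * c + 4)) := fun σ τ _ T S st Ψ n a η p _ k i j => by
  rcases n.eq_zero_or_pos with rfl | hn
  · have := k.sz.empty
    have : IsEmpty (T.tw S Ψ).C := ⟨fun p => this.elim p.1.2⟩
    have : IsEmpty (T.tw (S.sub p) (T.tp S (S.sub p) (S.prj p) Ψ)).C :=
      ⟨fun p => k.sz.empty.elim p.1.2.1⟩
    exact TS.push_empty _ _ _ k.pos.le
  · obtain ⟨η', a0, a1, a2⟩ := h.sem c hn k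
    exact a1 ▸ g σ τ T S st Ψ n a η' p k.stg k.adm k.sz k.rg.pos a0 a2 i j

theorem RGS.marht {M C c : ℕ} (h : RGS M M C) (g : MARHS M c) :
    MARHT M ((2 * c + 1) * C + (2 * c + 4)) := fun σ τ τ' J _ _ _ T S st Ψ n a η S' φ ψ N Q cj k i => by
  rcases n.eq_zero_or_pos with rfl | hn
  · have := k.sz.empty
    have : IsEmpty (T.tw S Ψ).C := ⟨fun p => this.elim p.1.2⟩
    have : IsEmpty (T.tw S' (T.tp S S' φ Ψ)).C := ⟨fun p => by
      have := congrFun₂ i.φψ p.1.2 p.1.2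
      simp [mul_apply] at this⟩
    exact TS.push_empty _ _ _ k.pos.le
  · obtain ⟨η', a0, a1, a2⟩ := h.sem c hn k
    exact a1 ▸ g σ τ τ' J T S st Ψ n a η' S' φ ψ N Q cj k.stg k.adm k.sz k.rg.pos a0 a2 i

theorem RGS.ptmt {M C c : ℕ} (h : RGS M M C) (g : PTMS M c) :
    PTMT M ((2 * c + 1) * C + (2 * c + 4)) := fun τ T S st Ψ n a η χ k i j l => by
  rcases n.eq_zero_or_pos with rfl | hn
  · have := k.sz.empty
    have : IsEmpty (T.tw S Ψ).C := ⟨fun p => this.elim p.1.2⟩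
    have : IsEmpty (T.ev S Ψ χ).C := ⟨fun p =>
      let ⟨w, _⟩ := l 1 (mem_Icc.2 ⟨le_rfl, (k.stg.pos p).trans_le (k.stg.le p).1⟩)
      k.sz.empty.elim w⟩
    exact TS.push_empty _ _ _ k.pos.le
  · obtain ⟨η', a0, a1, a2⟩ := h.sem c hn k
    exact a1 ▸ g τ T S st Ψ n a η' χ k.stg k.adm k.sz k.rg.pos a0 a2 i j l

/-- **the Master lemma and its marginal forms** from the semantic leaves -/
theorem mast_of {M : ℕ} (h0 : ∃ c, CHAR M c) (h1 : ∃ c, MARGS M c)
    (h2 : ∃ c, MARHS M c) (h3 : ∃ c, PTMS M c) :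
    ∃ C, MAST M C ∧ MARGT M C ∧ MARHT M C ∧ PTMT M C := by
  obtain ⟨⟨c0, h0⟩, ⟨c1, h1⟩, ⟨c2, h2⟩, c3, h3⟩ := And.intro h0 (And.intro h1 (And.intro h2 h3))
  obtain ⟨C, h⟩ := rgs h0 M
  exact ⟨C + ((2 * c1 + 1) * C + (2 * c1 + 4)) + ((2 * c2 + 1) * C + (2 * c2 + 4)) +
    ((2 * c3 + 1) * C + (2 * c3 + 4)), h.mast.mono (by omega), (h.margt h1).mono (by omega),
    (h.marht h2).mono (by omega), (h.ptmt h3).mono (by omega)⟩

end Crest.Agent.N49.Tw

end
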