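import Crest.Agent.N49.Tw.Cc1

/-!
# Row 49 (helper61): the core estimate `CH0`
-/

set_option autoImplicit false
set_option linter.unusedSectionVars false

open Matrix MvPolynomial Finset

noncomputable section

namespace Crest.Agent.N49.Tw.Cc

open Po Sh TS

theorem chain {x : ℕ → ℝ} {l M : ℕ} {ρ : ℝ} (h0 : ∀ j, 0 ≤ x j)
    (h : ∀ j < l, x j ^ 2 ≤ 2 * x (j + 1)) (hl : l ≤ M) (r0 : 0 ≤ ρ) (r1 : ρ ≤ 1)
    (e : x l ≤ ρ ^ 2 ^ M) : x 0 ≤ 2 * ρ := by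
  have a : ∀ j ≤ l, (x 0 / 2) ^ 2 ^ j ≤ x j / 2 := fun j => by
    induction j with
    | zero => simp
    | succ j ih =>
      intro k
      have := pow_le_pow_left₀ (by have := h0 0; positivity) (ih (by omega)) 2
      rw [pow_succ, pow_mul]
      nlinarith [h j k]
  have b : (x 0 / 2) ^ 2 ^ l ≤ ρ ^ 2 ^ l := (a l le_rfl).trans (by
    have := pow_le_pow_of_le_one r0 r1 (Nat.pow_le_pow_right two_pos hl)
    linarith [h0 l])
  have := le_of_pow_le_pow_left₀ (by positivity) r0 b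
  linarith

theorem lin1 {a b c η : ℝ} (h0 : 0 ≤ η) (h : |a - b| ≤ η) (k : b + 2 * η ≤ c) : a ≤ c := by
  linarith [(abs_le.1 h).2]

theorem lin0 {a b c η : ℝ} (h0 : 0 ≤ η) (h : |a - b| ≤ η) (k : a ≤ c) : b ≤ 2 * η + c := by
  linarith [(abs_le.1 h).1]

theorem sizes (M : ℕ) : ∃ c, ∀ n l : ℕ, 1 ≤ n → l ≤ M →
    2 * ((n + 1) ^ 4 * (n + M + 1) ^ (l * 2)) ≤ (n + 1) ^ c ∧ 2 ^ l ≤ (n + 1) ^ c := by
  refine ⟨1 + (4 + (M + 1) * (M * 2)) + M, fun n l hn hl => ⟨?_, ?_⟩⟩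
  · have a : n + M + 1 ≤ (n + 1) ^ (M + 1) := by
      have : M + 1 ≤ (n + 1) ^ M := Nat.lt_two_pow_self.trans_le (Nat.pow_le_pow_left (by omega) _)
      rw [pow_succ]; nlinarith
    have b : (n + M + 1) ^ (l * 2) ≤ (n + 1) ^ ((M + 1) * (M * 2)) := by
      rw [pow_mul (n + 1)]
      exact (Nat.pow_le_pow_left a _).trans (Nat.pow_le_pow_right (by positivity) (by omega))
    refine le_trans ?_ (Nat.pow_le_pow_right (by omega) (Nat.le_add_right _ M))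
    rw [pow_add, pow_add, pow_one]
    exact Nat.mul_le_mul (by omega) (Nat.mul_le_mul_left _ b)
  · exact (Nat.pow_le_pow_left (by omega) _).trans (Nat.pow_le_pow_right (by omega) (by omega))

variable {σ τ τ' : Type} [DecidableEq σ] {T : TS σ} {S : Sh σ τ} {S' : Sh σ τ'}

theorem sec_mono {n n' : ℕ} {φ : Matrix S'.W S.W ℤ} {ι : S'.W → S.W} (h : S.Sec S' n φ ι)
    (k : n ≤ n') : S.Sec S' n' φ ι :=
  ⟨h.ok, h.hm, h.K, h.sec, fun w x => (h.ht w x).trans (by exact_mod_cast k), h.gen⟩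

theorem push_val {st : T.C → ℕ} {M n : ℕ} {a η : ℝ} {Ψ : T.Twd S} {φ : Matrix S'.W S.W ℤ}
    {ι : S'.W → S.W} (hs : T.Stg st M) (hp : T.HP st n a η) (ha : T.Adm S st Ψ) (hz : S.Sz n a)
    (h : S.Sec S' n φ ι) (hn : 1 ≤ n) (Θ : S'.W → MvPolynomial T.C (MvPolynomial S.W ℝ))
    {Ψ' : T.Twd S'} {Θ₁ : S.W → MvPolynomial T.C (MvPolynomial S.W ℝ)}
    {Θ₂ : S'.W → MvPolynomial T.C (MvPolynomial S'.W ℝ)} (t0 : ∀ F, map (S.pu S' φ) (Ψ F) = Ψ' F)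
    (t1 : ∀ w, ∑ w', φ w' w • Θ w' = Θ₁ w) (t2 : ∀ w', map (S.pu S' φ) (Θ w') = Θ₂ w') :
    |‖(T.tw S Ψ).Ec fun y => ee (T.val S Θ₁ y)‖ -
      ‖(T.tw S' Ψ').Ec fun y => ee (T.val S' Θ₂ y)‖| ≤ η := by
  obtain rfl : T.tp S S' φ Ψ = Ψ' := funext t0
  obtain rfl := funext t1
  obtain rfl := funext t2
  obtain ⟨J, _, _, ψ, N, Q, cj, k⟩ := lsec _ _ _ S S' n φ ι h hn
  have := (hp _ _ J S Ψ S' φ ψ N Q cj ha hz k).Ec (tw_tri hs.cl ha hz.toOk)
    (tw_tri hs.cl (ha.tp h.hm.dg) h.ok) (B := 1)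
    (g := fun y => ee (T.val S' (fun w' => map (S.pu S' φ) (Θ w')) y)) fun y => (norm_ee _).le
  rw [one_mul] at this
  refine (abs_norm_sub_norm_le _ _).trans (le_of_eq_of_le ?_ this)
  congr 3
  exact _root_.funext fun y => congrArg ee (val_hm h.hm hz.toOk h.ok Θ y).symm

/-- the size of the `j`-th average -/
def xj {l : ℕ} (Ψ : T.Twd S) (lam : Fin l → S.W) (Θ : S.W → MvPolynomial T.C (MvPolynomial S.W ℝ))
    (K : Matrix S.W S.W ℝ) (col : Fin l → σ) (v : ℕ → ℝ) (s j : ℕ) : ℝ :=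
  ‖(T.tw ((S.setK K).ext (fun x => col x.1) (Bj l s j) v)
    fun F => lf T S (zero_Bj l s j) (Ψ F)).Ec fun y => ee (T.val _ (tj lam Θ s j) y)‖

theorem cs_step {st : T.C → ℕ} {M n l s : ℕ} {a η : ℝ} {Ψ : T.Twd S} (hs : T.Stg st M)
    (hm : T.HM st n a η) (ha : T.Adm S st Ψ) (η0 : 0 ≤ η) (η1 : η ≤ 1 / 8) (lam : Fin l → S.W)
    (Θ : S.W → MvPolynomial T.C (MvPolynomial S.W ℝ)) (K : Matrix S.W S.W ℝ) (col : Fin l → σ)
    (v : ℕ → ℝ) (z : ∀ j, ((S.setK K).ext (fun x => col x.1) (Bj l s j) v).Sz n a) (j : Fin l) :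
    xj Ψ lam Θ K col v s j ^ 2 ≤ 2 * xj Ψ lam Θ K col v s (j + 1) := by
  have ad := fun j => adm_lf ha (zero_Bj l s j) K (fun x : Fin l × Bool => col x.1) v
  have k := cn (S := S.setK K) (s := s) j col v
  have := lcs σ σ σ T _ _ st M _ _ _ _ _ k η (fun y => ee (T.val _ (tj lam Θ s j) y)) hs
    (z j).toOk (z (j + 1)).toOk (ad j) (ad (j + 1)) (fun F => kill_lf (zero_Bj _ _ _) (zero_Bj _ _ _) _)
    (fun F => kill_lf (zero_Bj _ _ _) (zero_Bj _ _ _) _) η0 η1 (hm _ _ _ (ad j) (z j)) (hm _ _ _ (ad (j + 1)) (z (j + 1)))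
    (hm _ _ _ ((ad j).tp (Mh.hm_sub k.idl).dg) (sz_sub (z j) k.idl)) fun y => (norm_ee _).le
  refine this.trans_eq ?_
  unfold xj
  congr 3
  funext y
  rw [ee_conj, val_step lam Θ K col v s j y]

theorem end0 {st : T.C → ℕ} {M n l s : ℕ} {a η : ℝ} {Ψ : T.Twd S} (hs : T.Stg st M)
    (hp : T.HP st n a η) (ha : T.Adm S st Ψ) (lam : Fin l → S.W)
    (Θ : S.W → MvPolynomial T.C (MvPolynomial S.W ℝ)) (col : Fin l → σ) (v : ℕ → ℝ)
    (K : Matrix S.W S.W ℝ) (z : ((S.setK K).ext (fun x => col x.1) (Bj l s 0) v).Sz n a)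
    (e : ((S.setK K).ext (fun x => col x.1) (Bj l s 0) v).Sec S n
      (S.f0 (Bj l s 0) fun x => lam x.1) (S.inc (zero_Bj l s 0))) (hn : 1 ≤ n) :
    |xj Ψ lam Θ K col v s 0 - ‖(T.tw S Ψ).Ec fun y => ee (T.val S Θ y)‖| ≤ η := by
  have q : ∀ P, map (((S.setK K).ext (fun x => col x.1) (Bj l s 0) v).pu S
      (S.f0 (Bj l s 0) fun x => lam x.1)) (lf T S (zero_Bj l s 0) P) = P := fun P =>
    (pu_lf _ _ (RingHom.id _) (fun a => algHom_C _ a) (fun w => (aeval_X _ _).trans (by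
      rw [show (fun w' => S.f0 (Bj l s 0) (fun x => lam x.1) w' (S.inc (zero_Bj l s 0) w)) =
        fun w' => if w' = w then 1 else 0 from _root_.funext fun w' => e.sec w' w]
      simp [Sh.el])) P).trans (map_id P)
  have t : ∀ x, ∑ w, S.f0 (Bj l s 0) (fun x => lam x.1) w x • lf T S (zero_Bj l s 0) (Θ w) =
      tj lam Θ s 0 x := fun x => by
    simp only [tj, xi, sgn, Nat.not_lt_zero, filter_false, prod_empty, one_smul, map_sum,
      map_zsmul]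
    rfl
  exact push_val hs hp (adm_lf ha (zero_Bj l s 0) K _ v) z e hn
    (fun w => lf T S (zero_Bj l s 0) (Θ w)) (fun F => q _) t fun w => q _

theorem end1 {st : T.C → ℕ} {M n l s : ℕ} {a η : ℝ} {Ψ : T.Twd S} (hs : T.Stg st M)
    (hp : T.HP st n a η) (ha : T.Adm S st Ψ) (o : S.Ok) (l1 : 1 ≤ l) (lam : Fin l → S.W)
    (Θ : S.W → MvPolynomial T.C (MvPolynomial S.W ℝ)) (col : Fin l → σ)
    (hl : ∀ i, S.cd (lam i) = Finsupp.single (col i) 1) (hΘ : ∀ w, Θ w ≠ 0 → S.dg w = l)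
    (κ : ℕ → ℝ) (K : Matrix S.W S.W ℝ) {v : ℕ → ℝ} {ι}
    (z : ((S.setK K).ext (fun x => col x.1) (Bj l s l) v).Sz n a)
    (e : ((S.setK K).ext (fun x => col x.1) (Bj l s l) v).Sec (Sh.sym col κ) n
      ((S.setK K).f1 (Bj l s l) col κ) ι) (hn : 1 ≤ n) :
    |xj Ψ lam Θ K col v s l -
      ‖(T.tw (Sh.sym col κ) fun F => T.c0 S _ (Ψ F)).Ec fun y => ee (T.val (Sh.sym col κ)
        (fun d => if (Sh.sym col κ).dg d = l then
          T.c0 S _ (∑ w, S.r w (∑ i, Finsupp.single (lam i) 1) • Θ w) else 0) y)‖| ≤ η := by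
  have q : ∀ P, map (((S.setK K).ext (fun x => col x.1) (Bj l s l) v).pu (Sh.sym col κ)
      ((S.setK K).f1 (Bj l s l) col κ)) (lf T S (zero_Bj l s l) P) = T.c0 S _ P := fun P =>
    pu_lf _ _ _ (fun a => (algHom_C _ a).trans (by simp)) (fun w => (aeval_X _ _).trans (by
      rw [show (fun d => (S.setK K).f1 (Bj l s l) col κ d (S.inc (zero_Bj l s l) w)) =
        fun _ => 0 from _root_.funext fun d => (Matrix.of_apply _ _ _).trans
          (if_neg fun k => by cases k.1)]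
      simp [Sh.el])) P
  refine push_val hs hp (adm_lf ha (zero_Bj l s l) K _ v) z e hn
    (fun d => if (Sh.sym col κ).dg d = l then lf T S (zero_Bj l s l)
      (∑ w, S.r w (∑ i, Finsupp.single (lam i) 1) • Θ w) else 0) (fun F => q _)
    (fun w => tj_top lam Θ o l1
      (fun i => by rw [← Sh.cd_degree, hl, Finsupp.degree_single]) hΘ col κ s w) fun d => ?_
  by_cases k : (Sh.sym col κ).dg d = l
  · exact (congrArg _ (if_pos k)).trans ((q _).trans (if_pos k).symm)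
  · exact (congrArg _ (if_neg k)).trans ((map_zero _).trans (if_neg k).symm)

theorem core {st : T.C → ℕ} {M n l s : ℕ} {a η ρ : ℝ} {Ψ : T.Twd S} (hs : T.Stg st M)
    (hm : T.HM st n a η) (hp : T.HP st n a η) (ha : T.Adm S st Ψ) (o : S.Ok) (η0 : 0 ≤ η)
    (η1 : η ≤ 1 / 8) (l1 : 1 ≤ l) (lM : l ≤ M) (lam : Fin l → S.W)
    (Θ : S.W → MvPolynomial T.C (MvPolynomial S.W ℝ)) (col : Fin l → σ)
    (hl : ∀ i, S.cd (lam i) = Finsupp.single (col i) 1) (hΘ : ∀ w, Θ w ≠ 0 → S.dg w = l)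
    (κ : ℕ → ℝ) (K : Matrix S.W S.W ℝ) {v : ℕ → ℝ} {ι}
    (z : ∀ j, ((S.setK K).ext (fun x => col x.1) (Bj l s j) v).Sz n a)
    (e0 : ((S.setK K).ext (fun x => col x.1) (Bj l s 0) v).Sec S n
      (S.f0 (Bj l s 0) fun x => lam x.1) (S.inc (zero_Bj l s 0)))
    (e1 : ((S.setK K).ext (fun x => col x.1) (Bj l s l) v).Sec (Sh.sym col κ) n
      ((S.setK K).f1 (Bj l s l) col κ) ι) (hn : 1 ≤ n) (r0 : 0 ≤ ρ) (r1 : ρ ≤ 1)
    (hy : ‖(T.tw (Sh.sym col κ) fun F => T.c0 S _ (Ψ F)).Ec fun y => ee (T.val (Sh.sym col κ)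
        (fun d => if (Sh.sym col κ).dg d = l then
          T.c0 S _ (∑ w, S.r w (∑ i, Finsupp.single (lam i) 1) • Θ w) else 0) y)‖ + 2 * η ≤
        ρ ^ 2 ^ M) : ‖(T.tw S Ψ).Ec fun y => ee (T.val S Θ y)‖ ≤ 2 * η + 2 * ρ :=
  lin0 η0 (end0 hs hp ha lam Θ col v K (z 0) e0 hn) (chain (x := xj Ψ lam Θ K col v s)
    (fun _ => norm_nonneg _) (fun j hj => cs_step hs hm ha η0 η1 lam Θ K col v z ⟨j, hj⟩) lM r0 r1
    (lin1 η0 (end1 hs hp ha o l1 lam Θ col hl hΘ κ K (z l) e1 hn) hy))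

end Crest.Agent.N49.Tw.Cc

namespace Crest.Agent.N49.Tw

open Po Sh TS Cc

/-- **the core estimate** -/
theorem ch0 (s0 : LS0) (s1 : LS1) : CH0 := fun M => by
  obtain ⟨c, hc⟩ := sizes M
  refine ⟨c, fun σ τ _ T S st Ψ n l a η lb ρ κ col lam Θ hs ha hz l1 lM hl hΘ lb0 hκ η0 η1 hm hp r0 r1
    hy => ?_⟩
  have n1 : 1 ≤ n := le_trans (Fintype.card_pos_iff.2 ⟨lam ⟨0, l1⟩⟩) hz.card
  obtain ⟨c1, c2⟩ := hc n l n1 lM
  have N1 : (1 : ℝ) ≤ (n + 1) ^ c := one_le_pow₀ (by simp)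
  have N2 : (2 : ℝ) ≤ (n + 1) ^ c := by
    exact_mod_cast (Nat.le_self_pow (by omega) 2).trans c2
  have κ0 : ∀ j, 0 < κ j := fun j => lb0.trans_le (hκ j).1
  have a0 : 0 < a := (mul_pos (by linarith) (κ0 0)).trans_le (hκ 0).2
  obtain ⟨s, es⟩ : ∃ s, s = n + M := ⟨_, rfl⟩
  rw [← es] at c1
  let v : ℕ → ℝ := fun j => κ j / 2 ^ min j l
  have cB : ∀ j, (n + 1) ^ 4 * #(Bj l s j) ≤ (n + 1) ^ 4 * (s + 1) ^ (l * 2) := fun j =>
    Nat.mul_le_mul_left _ (card_Bj l s j)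
  obtain ⟨z0, e0⟩ := s0 σ τ S l n s a col lam v (zero_Bj l s 0) hz a0
    (fun w => ((lgen σ τ S).2 n a hz w).trans (by omega)) hl fun j =>
      ⟨(div_pos (κ0 j) (by positivity)).le, le_trans (mul_le_mul (by
        exact_mod_cast (Nat.mul_le_mul_left 2 (cB 0)).trans c1)
        (div_le_self (κ0 j).le (one_le_pow₀ one_le_two)) (div_pos (κ0 j) (by positivity)).le
        (by linarith)) (hκ j).2⟩
  generalize S.k0 (Bj l s 0) (fun x => lam x.1) v = K at z0 e0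
  have b0 : 0 < lb / (n + 1) ^ c := by positivity
  have z : ∀ j, ((S.setK K).ext (fun x => col x.1) (Bj l s j) v).Sz ((n + 1) ^ c)
      (lb / (n + 1) ^ c) := fun j =>
    (lext lgen σ τ _ _ _ _ v n _ _ (z0.mono le_rfl (by
      have := (hκ 0).1
      have := (hκ 0).2
      rw [div_le_div_iff₀ (by linarith) two_pos]; nlinarith [κ0 0])) (dn_Bj l s j) (zero_Bj l s j)
      (card_Bj l s j) b0 fun i => div_le_div₀ (κ0 i).le (hκ i).1 (by positivity) (by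
        exact_mod_cast (Nat.pow_le_pow_right two_pos (min_le_right _ _)).trans c2)).mono
      (le_trans (Nat.mul_le_mul_right _ (Nat.le_self_pow (by omega : 4 ≠ 0) _)) (by omega)) le_rfl
  have nN : n ≤ (n + 1) ^ c := by
    have : c ≠ 0 := fun e => by rw [e] at N2; norm_num at N2
    exact (Nat.le_succ n).trans (Nat.le_self_pow this _)
  obtain ⟨ι, e1⟩ := s1 σ τ (S.setK K) l n s _ col κ z0 (by omega) κ0
  exact core hs hm hp ha hz.toOk η0 η1 l1 lM lam Θ col hl hΘ κ K z (sec_mono e0 nN)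
    (sec_mono e1 (n1.trans nN)) (n1.trans nN) r0 r1 hy

end Crest.Agent.N49.Tw

end
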