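import Crest.Agent.N49.Tw.Cd
import Crest.Agent.N49.Tw.Ap2
import Crest.Agent.N49.Tw.ConD

/-!
# Row 49 (helper61): the chain of clones (combinatorics of the extensions)
-/

set_option autoImplicit false
set_option linter.unusedSectionVars false

open Matrix MvPolynomial Finset

noncomputable section

namespace Crest.Agent.N49.Tw.Cc

open Po Sh

theorem mem_fl {L : Type} [Fintype L] [DecidableEq L] {s : ℕ} {μ : L →₀ ℕ} :
    μ ∈ full L s ↔ μ.degree ≤ s := by
  simp only [full, mem_biUnion, mem_range, mem_finsuppAntidiag, subset_univ, and_true,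
    Finsupp.degree_eq_sum]
  exact ⟨fun ⟨l, a, b⟩ => b.le.trans (Nat.lt_succ_iff.1 a), fun h => ⟨_, Nat.lt_succ_of_le h, rfl⟩⟩

theorem card_fl (L : Type) [Fintype L] [DecidableEq L] (s : ℕ) :
    #(full L s) ≤ (s + 1) ^ Fintype.card L := by
  have : #(Fintype.piFinset fun _ : L => range (s + 1)) = (s + 1) ^ Fintype.card L := by simp
  rw [← this]
  refine card_le_card_of_injOn (fun μ => (μ : L → ℕ)) (fun μ h => ?_) DFunLike.coe_injective.injOn
  exact mem_coe.2 (Fintype.mem_piFinset.2 fun a => mem_range.2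
    (Nat.lt_succ_of_le ((Finsupp.le_degree a μ).trans (mem_fl.1 h))))

theorem mem_Bj {l s j : ℕ} {β : Fin l × Bool →₀ ℕ} : β ∈ Bj l s j ↔ β.degree ≤ s ∧
    (∀ i, β (i, false) = 0 ∨ β (i, true) = 0) ∧ ∀ i : Fin l, j ≤ i.1 → β (i, true) = 0 := by
  rw [Bj, mem_filter, mem_fl]

theorem zero_Bj (l s j : ℕ) : 0 ∈ Bj l s j := mem_Bj.2 (by simp)

theorem deg_mono {L : Type} {μ ν : L →₀ ℕ} (h : ν ≤ μ) : ν.degree ≤ μ.degree := by
  obtain ⟨c, rfl⟩ := exists_add_of_le h
  rw [map_add]; omega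

theorem dn_Bj (l s j : ℕ) : Dn (Bj l s j) := fun μ h ν k => by
  obtain ⟨a, b, c⟩ := mem_Bj.1 h
  refine mem_Bj.2 ⟨(deg_mono k).trans a, fun i => ?_, fun i hi => ?_⟩
  · have := k (i, false); have := k (i, true); have := b i; omega
  · have := k (i, true); have := c i hi; omega

theorem card_Bj (l s j : ℕ) : #(Bj l s j) ≤ (s + 1) ^ (l * 2) :=
  (card_filter_le _ _).trans ((card_fl _ s).trans_eq (by simp))

theorem le_weight {ι L : Type} (f : ι → L →₀ ℕ) {m : ι →₀ ℕ} {y : ι} (hy : y ∈ m.support) :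
    f y ≤ Finsupp.weight f m := by
  rw [Finsupp.weight_apply, Finsupp.sum]
  refine le_trans ?_ (single_le_sum (f := fun i => m i • f i) (fun _ _ => zero_le) hy)
  obtain ⟨n, hn⟩ := Nat.exists_eq_succ_of_ne_zero (Finsupp.mem_support_iff.1 hy)
  rw [hn, succ_nsmul]; exact le_add_self

variable {σ τ : Type} {S : Sh σ τ}

theorem sz_sub {n : ℕ} {a : ℝ} (h : S.Sz n a) {q : S.W → Prop} [DecidablePred q] (hq : S.Idl q) :
    (S.sub q).Sz n a where
  toOk := Mh.sub_ok h.toOk hq
  card := (Fintype.card_subtype_le q).trans h.card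
  ht w m := h.ht _ _
  lo (x : {w // q w} → ℝ) := by
    have := h.lo fun w => if k : q w then x ⟨w, k⟩ else 0
    have e : ∀ f : S.W → ℝ, (∀ w, ¬ q w → f w = 0) → ∑ w, f w = ∑ w : {w // q w}, f w := fun f k => by
      rw [← sum_subtype (univ.filter q) (by simp), sum_filter_of_ne fun w _ z => by_contra
        fun n => z (k w n)]
    rw [e _ fun w k => by simp [k], qf, dotProduct, e _ fun w k => by simp [k]] at this
    refine le_of_eq_of_le (congrArg _ (sum_congr rfl fun (w : {w // q w}) _ => by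
      rw [dif_pos w.2])) (this.trans_eq (sum_congr rfl fun w _ => ?_))
    rw [dif_pos w.2, mulVec, dotProduct, e _ fun w k => by simp [k]]
    exact congrArg _ (sum_congr rfl fun w' _ => by rw [dif_pos w'.2]; rfl)
  gen (κ : {w // q w} → ℤ) _ x hx := by
    obtain ⟨l, lam, e1, e2, -, e4⟩ := h.gen (fun w => if k : q w then κ ⟨w, k⟩ else 0)
      (fun _ => False.elim) x.1 (by rwa [dif_pos x.2])
    obtain ⟨w, -, hw⟩ := exists_ne_zero_of_sum_ne_zero e4
    have qw : q w := by_contra fun k => hw (by rw [dif_neg k, zero_mul])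
    have ql : ∀ i, q (lam i) := fun i => hq w _ qw (right_ne_zero_of_mul hw) _ (by
      rw [Finsupp.mem_support_iff, Finsupp.finsetSum_apply]
      exact fun z => by simpa using sum_eq_zero_iff.1 z i (mem_univ i))
    refine ⟨l, fun i => ⟨lam i, ql i⟩, e1, e2, id, fun z => e4 (Eq.trans ?_ z)⟩
    rw [← sum_filter_of_ne (p := q), sum_subtype (p := q) _ (by simp)]
    · refine sum_congr rfl fun y _ => ?_
      rw [dif_pos y.2]
      change _ = κ y * S.r y.1 (Finsupp.mapDomain Subtype.val (∑ i, Finsupp.single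
        (⟨lam i, ql i⟩ : {w // q w}) 1))
      rw [Finsupp.mapDomain_finsetSum]
      simp only [Finsupp.mapDomain_single]
    · intro w _ e
      by_contra z; rw [dif_neg z, zero_mul] at e; exact e rfl

section ch
variable {L : Type} [DecidableEq L] {B B' : Finset (L →₀ ℕ)} (π : L ≃ L)

theorem mem_XW {W : Type} [Fintype W] [DecidableEq W] {x : Option W × (L →₀ ℕ)} :
    x ∈ ((univ : Finset (Option W)) ×ˢ B).erase (none, 0) ↔ x ≠ (none, 0) ∧ x.2 ∈ B := by simp

theorem XW.mem {W : Type} [Fintype W] [DecidableEq W] (x : XW W B) : x.1.2 ∈ B := (mem_XW.1 x.2).2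

/-- relabel the new letters -/
def xe {W : Type} [Fintype W] [DecidableEq W] (h : ∀ β ∈ B, Finsupp.domCongr π β ∈ B')
    (x : XW W B) : XW W B' := ⟨(x.1.1, Finsupp.domCongr π x.1.2), mem_XW.2 ⟨fun e =>
  (mem_XW.1 x.2).1 (Prod.ext (congrArg Prod.fst e :)
    ((AddEquiv.map_eq_zero_iff _).1 (congrArg Prod.snd e))), h _ (XW.mem x)⟩⟩

variable {π} {h : ∀ β ∈ B, Finsupp.domCongr π β ∈ B'}

theorem xe_inj {W : Type} [Fintype W] [DecidableEq W] : Function.Injective (xe (W := W) π h) :=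
  fun _ _ e => Subtype.ext (Prod.ext (congrArg (·.1.1) e)
    ((Finsupp.domCongr π).injective (congrArg (·.1.2) e)))

theorem mem_xe {W : Type} [Fintype W] [DecidableEq W] (y : XW W B')
    (k : (Finsupp.domCongr π).symm y.1.2 ∈ B) : y ∈ Set.range (xe π h) :=
  ⟨⟨(y.1.1, (Finsupp.domCongr π).symm y.1.2), mem_XW.2 ⟨fun e => (mem_XW.1 y.2).1
    (Prod.ext (congrArg Prod.fst e :) ((AddEquiv.map_eq_zero_iff _).1 (congrArg Prod.snd e))), k⟩⟩,
    Subtype.ext (Prod.ext rfl (AddEquiv.apply_symm_apply _ _))⟩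

theorem map_dc {M : Type} {f : L → M} (hf : ∀ a, f (π a) = f a) (β : L →₀ ℕ) :
    (Finsupp.domCongr π β).mapDomain f = β.mapDomain f := by
  rw [Finsupp.domCongr_apply, Finsupp.equivMapDomain_eq_mapDomain, ← Finsupp.mapDomain_comp]
  exact congrArg (fun g => Finsupp.mapDomain g β) (funext hf)

theorem deg_dc (β : L →₀ ℕ) : (Finsupp.domCongr π β).degree = β.degree := by
  rw [Finsupp.domCongr_apply, Finsupp.equivMapDomain_eq_mapDomain, degree_col]

variable {cl : L → σ} {v : ℕ → ℝ}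

theorem ch_xe (hc : ∀ a, cl (π a) = cl a) (hB : Dn B) :
    (S.ext cl B v).Ch (S.ext cl B' v) (xe π h) where
  inj := xe_inj
  cd x := by
    change Finsupp.mapDomain id (_ + Finsupp.mapDomain cl (Finsupp.domCongr π x.1.2)) = _
    rw [map_dc hc]; rfl
  r1 x (m : XW S.W B →₀ ℕ) := by
    change (if Finsupp.weight (fun y : XW S.W B' => y.1.2) (m.mapDomain (xe π h)) =
      Finsupp.domCongr π x.1.2 then S.ru x.1.1 (Finsupp.weight (fun y : XW S.W B' => S.sg y.1.1)
        (m.mapDomain (xe π h))) else 0) = if _ then _ else _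
    rw [Mh.weight_mapDomain, Mh.weight_mapDomain]
    exact if_congr ((Eq.congr_left (weight_hom (Finsupp.domCongr (M := ℕ) π).toAddMonoidHom
      (fun y : XW S.W B => y.1.2) m)).trans (Finsupp.domCongr π).injective.eq_iff) rfl rfl
  r2 x (m : XW S.W B' →₀ ℕ) z y hy := mem_xe y (hB _ (XW.mem x) _ fun a => by
    have e : Finsupp.weight (fun y : XW S.W B' => y.1.2) m = Finsupp.domCongr π x.1.2 :=
      by_contra fun k => z (if_neg k)
    have := le_weight (fun y : XW S.W B' => y.1.2) hy (π a)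
    rw [e] at this
    simpa using this)

theorem k_xe (x x' : XW S.W B) :
    (S.ext cl B' v).K (xe π h x) (xe π h x') = (S.ext cl B v).K x x' :=
  if_congr (and_congr (AddEquiv.map_eq_zero_iff _) (AddEquiv.map_eq_zero_iff _)) rfl
    (if_congr xe_inj.eq_iff (congrArg (fun d => v (_ + d)) (deg_dc _)) rfl)

end ch

section cn
variable {l s : ℕ} (j : Fin l)

/-- exchange the two clones of the letter `j` -/
def sw : Fin l × Bool ≃ Fin l × Bool := Equiv.swap (j, false) (j, true)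

theorem sw_fst (a : Fin l × Bool) : (sw j a).1 = a.1 := by
  rw [sw, Equiv.swap_apply_def]
  split_ifs with a b
  · rw [a]
  · rw [b]
  · rfl

theorem dc_sw (β : Fin l × Bool →₀ ℕ) (i : Fin l) (b : Bool) :
    Finsupp.domCongr (sw j) β (i, b) = if i = j then β (i, !b) else β (i, b) := by
  rw [Finsupp.domCongr_apply, Finsupp.equivMapDomain_apply, sw, Equiv.symm_swap]
  split_ifs with e
  · subst e; cases b <;> simp
  · rw [Equiv.swap_apply_of_ne_of_ne (by simp [e]) (by simp [e])]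

theorem dc_rf {L : Type} (β : L →₀ ℕ) : Finsupp.domCongr (Equiv.refl L) β = β := by simp

theorem h1 : ∀ β ∈ Bj l s j, Finsupp.domCongr (Equiv.refl _) β ∈ Bj l s (j + 1) := fun β h => by
  obtain ⟨a, b, c⟩ := mem_Bj.1 h
  rw [dc_rf]
  exact mem_Bj.2 ⟨a, b, fun i hi => c i (by omega)⟩

theorem h2 : ∀ β ∈ Bj l s j, Finsupp.domCongr (sw j) β ∈ Bj l s (j + 1) := fun β h => by
  obtain ⟨a, b, c⟩ := mem_Bj.1 h
  refine mem_Bj.2 ⟨by rwa [deg_dc], fun i => ?_, fun i hi => ?_⟩
  · rw [dc_sw, dc_sw]; split_ifs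
    · exact (b i).symm
    · exact b i
  · rw [dc_sw, if_neg (by rintro rfl; omega)]; exact c i (by omega)

theorem r1 {W : Type} [Fintype W] [DecidableEq W] (y : XW W (Bj l s (j + 1))) :
    y ∈ Set.range (xe _ (h1 j)) ↔ y.1.2 (j, true) = 0 := by
  refine ⟨?_, fun k => mem_xe y ?_⟩
  · rintro ⟨x, rfl⟩
    exact (congrFun (congrArg _ (dc_rf x.1.2)) _).trans ((mem_Bj.1 (XW.mem x)).2.2 j le_rfl)
  · obtain ⟨a, b, c⟩ := mem_Bj.1 (XW.mem y)
    rw [Finsupp.domCongr_symm, Equiv.refl_symm, dc_rf]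
    exact mem_Bj.2 ⟨a, b, fun i hi => by
      by_cases e : i = j
      · rwa [e]
      · exact c i (by have := Fin.val_ne_of_ne e; omega)⟩

theorem r2 {W : Type} [Fintype W] [DecidableEq W] (y : XW W (Bj l s (j + 1))) :
    y ∈ Set.range (xe _ (h2 j)) ↔ y.1.2 (j, false) = 0 := by
  refine ⟨?_, fun k => mem_xe y ?_⟩
  · rintro ⟨x, rfl⟩
    exact (dc_sw j x.1.2 j false).trans ((if_pos rfl).trans ((mem_Bj.1 (XW.mem x)).2.2 j le_rfl))
  · obtain ⟨a, b, c⟩ := mem_Bj.1 (XW.mem y)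
    rw [Finsupp.domCongr_symm, show (sw j).symm = sw j from Equiv.symm_swap _ _]
    refine mem_Bj.2 ⟨by rwa [deg_dc], fun i => ?_, fun i hi => ?_⟩
    · rw [dc_sw, dc_sw]; split_ifs
      · exact (b i).symm
      · exact b i
    · rw [dc_sw]; split_ifs with e
      · rwa [e]
      · exact c i (by have := Fin.val_ne_of_ne e; omega)

theorem ne12 {W : Type} [Fintype W] [DecidableEq W] (x x' : XW W (Bj l s j))
    (e : xe _ (h1 j) x = xe _ (h2 j) x') : x'.1.2 (j, false) = 0 := by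
  have := (r1 j _).1 ⟨x, e⟩
  exact ((if_pos rfl).symm.trans (dc_sw j x'.1.2 j true).symm).trans this

theorem cn (col : Fin l → σ) (v : ℕ → ℝ) :
    (S.ext (fun x => col x.1) (Bj l s j) v).Cn (S.ext (fun x => col x.1) (Bj l s (j + 1)) v)
      (fun x : XW S.W (Bj l s j) => x.1.2 (j, false) = 0) (xe _ (h1 j)) (xe _ (h2 j)) where
  c1 := ch_xe (fun _ => rfl) (dn_Bj _ _ _)
  c2 := ch_xe (fun a => congrArg col (sw_fst j a)) (dn_Bj _ _ _)
  eq (x : XW S.W (Bj l s j)) k := Subtype.ext (Prod.ext rfl ((dc_rf _).trans (Finsupp.ext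
    fun ⟨i, b⟩ => by
      have := (mem_Bj.1 (XW.mem x)).2.2 j le_rfl
      refine Eq.trans ?_ (dc_sw j x.1.2 i b).symm
      split_ifs with e
      · subst e; cases b <;> simp [k, this]
      · rfl)))
  ne := ne12 j
  all y := ((mem_Bj.1 (XW.mem y)).2.1 j).symm.imp (r1 j y).2 (r2 j y).2
  idl (x : XW S.W (Bj l s j)) (m : XW S.W (Bj l s j) →₀ ℕ) k z y hy := by
    have e : Finsupp.weight (fun y : XW S.W (Bj l s j) => y.1.2) m = x.1.2 :=
      by_contra fun k => z (if_neg k)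
    have := le_weight (fun y : XW S.W (Bj l s j) => y.1.2) hy (j, false)
    rw [e, k] at this
    exact Nat.le_zero.1 this
  sep x x' k k' := (if_neg fun a => k' (by rw [a.2]; rfl)).trans (if_neg fun a : x = x' => k' (a ▸ k))
  k1 := k_xe
  k2 := k_xe
  k3 x x' k k' := (if_neg fun a => k (by
    rw [(AddEquiv.map_eq_zero_iff _).1 a.1]; rfl)).trans (if_neg fun a => k' (ne12 j x x' a))

end cn

end Crest.Agent.N49.Tw.Cc

end
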