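import Crest.Agent.N49.Tw.Cd
import Crest.Agent.N49.Tw.Api
import Crest.Agent.N49.Tw.Exp

/-!
# Row 49 (helper88): the last glue of the characteristic lemma
-/

set_option autoImplicit false

open Matrix MvPolynomial Finset

noncomputable section

namespace Crest.Agent.N49.Tw

open Po

namespace Cf

variable {σ τ : Type}

theorem mem_sqf {l : ℕ} {μ : Fin l →₀ ℕ} : μ ∈ sqf (Fin l) l ↔ ∀ a, μ a ≤ 1 := by
  simp only [sqf, full, mem_filter, mem_biUnion, mem_range, mem_finsuppAntidiag, subset_univ,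
    and_true, and_iff_right_iff_imp]
  intro h
  refine ⟨_, ?_, rfl⟩
  have := sum_le_card_nsmul univ μ 1 fun a _ => h a
  simp only [card_univ, Fintype.card_fin, smul_eq_mul, mul_one] at this
  omega

theorem top_sqf {l : ℕ} {μ : Fin l →₀ ℕ} (h : ∀ a, μ a ≤ 1) (e : μ.degree = l) :
    μ = ∑ i, Finsupp.single i 1 := by
  rw [Finsupp.degree_eq_sum] at e
  have := (sum_eq_sum_iff_of_le (s := univ) fun a _ => h a).1 (by simpa using e)
  ext a
  rw [this a (mem_univ a), Finsupp.finsetSum_apply]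
  simp [Finsupp.single_apply]

theorem sym_ok {l : ℕ} (col : Fin l → σ) {κ : ℕ → ℝ} (hκ : ∀ j, 0 < κ j) : (Sh.sym col κ).Ok := by
  have r : ∀ (w : (Sh.sym col κ).W) m, (Sh.sym col κ).r w m =
      if Finsupp.weight (Sh.sym col κ).ty m = (Sh.sym col κ).ty w then 1 else 0 := fun _ _ => rfl
  have ne : ∀ w, (Sh.sym col κ).ty w ≠ 0 := fun w => ne_of_mem_erase w.2
  have ij : ∀ w w', (Sh.sym col κ).ty w = (Sh.sym col κ).ty w' ↔ w = w' := fun _ _ => Subtype.val_inj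
  have le : ∀ w a, (Sh.sym col κ).ty w a ≤ 1 := fun w => mem_sqf.1 (mem_of_mem_erase w.2)
  have ex : ∀ μ, μ ≠ 0 → (∀ a, μ a ≤ 1) → ∃ w, (Sh.sym col κ).ty w = μ := fun μ a b =>
    ⟨⟨μ, mem_erase.2 ⟨a, mem_sqf.2 b⟩⟩, rfl⟩
  have K : ∀ w w', (Sh.sym col κ).K w w' = if (Sh.sym col κ).ty w = (Sh.sym col κ).ty w' then
    κ ((Sh.sym col κ).dg w) else 0 := fun _ _ => rfl
  have c : (Sh.sym col κ).col = col := rfl
  have z : ∀ w, (Sh.sym col κ).ε w = 0 := fun w => by simp [Sh.sym, Sh.mono, Finsupp.sum]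
  generalize Sh.sym col κ = S at *
  refine ⟨ne, fun w w' => ?_, fun w m h => ?_, fun w m m' hm => ?_, fun w h => (h (z w)).elim, ?_,
    fun w w' h => ?_⟩
  · rw [r, Finsupp.weight_single, one_smul]
    exact if_congr (by rw [eq_comm]; exact ij _ _) rfl rfl
  · have e : Finsupp.weight S.ty m = S.ty w := by
      by_contra c; exact h ((r _ _).trans (if_neg c))
    exact (weight_hom (Finsupp.mapDomain.addMonoidHom S.col) S.ty m).trans (congrArg _ e)
  · simp only [r, map_add, Finsupp.weight_single, one_smul]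
    by_cases e : Finsupp.weight S.ty m + Finsupp.weight S.ty m' = S.ty w
    · obtain ⟨v, hv⟩ := ex (Finsupp.weight S.ty m) (fun c => by
        obtain ⟨x, hx⟩ := Finsupp.support_nonempty_iff.2 hm
        rw [Finsupp.weight_apply, Finsupp.sum, sum_eq_zero_iff] at c
        exact smul_ne_zero (Finsupp.mem_support_iff.1 hx) (ne x) (c x hx)) fun a => by
          have := le w a
          rw [← e, Finsupp.add_apply] at this
          omega
      rw [if_pos e, sum_eq_single v (fun w' _ c => by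
        rw [if_neg fun c' => c ((ij _ _).1 (c'.symm.trans hv.symm)), zero_mul]) (by simp),
        if_pos hv.symm, hv, if_pos e, mul_one]
    · rw [if_neg e, eq_comm]
      refine sum_eq_zero fun w' _ => ?_
      split_ifs with a b
      · exact (e (a ▸ b)).elim
      all_goals simp
  · have : S.K = diagonal fun w => κ (S.dg w) := by
      ext w w'
      exact (K _ _).trans (if_congr (ij _ _) rfl rfl)
    rw [this]
    exact PosDef.diagonal fun w => hκ _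
  · have : S.ty w = S.ty w' := by
      by_contra c; exact h ((K _ _).trans (if_neg c))
    rw [(ij _ _).1 this]

theorem sz_mono {S : Sh σ τ} {n n' : ℕ} {a a' : ℝ} (h : S.Sz n a) (hn : n ≤ n') (ha : a' ≤ a) :
    S.Sz n' a' :=
  { h with
    card := h.card.trans hn
    ht := fun w m => (h.ht w m).trans (by exact_mod_cast hn)
    lo := fun x => (mul_le_mul_of_nonneg_right ha (sum_nonneg fun _ _ => sq_nonneg _)).trans
      (h.lo x) }

theorem mas_mono {T : TS σ} {η η' : ℝ} (h : T.Mas η) (e : η ≤ η') : T.Mas η' :=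
  h.trans (mul_le_mul_of_nonneg_right e (inv_nonneg.2 (Real.sqrt_nonneg _)))

variable [DecidableEq σ] {T : TS σ} {S : Sh σ τ} {st : T.C → ℕ} {M : ℕ} {Ψ : T.Twd S}

/-- the frequency of the symbol -/
def kt (S : Sh σ τ) (k : T.Cw S → ℤ) (ρ : S.W → ℤ) (F : T.C) : ℤ :=
  ∑ p : T.Cw S with p.1.1 = F, k p * ρ p.1.2

theorem sum_kt (k : T.Cw S → ℤ) (ρ : S.W → ℤ) {E : Type} [AddCommGroup E] [Module ℝ E]
    (g : T.C → E) : ∑ F, (kt S k ρ F : ℝ) • g F = ∑ p, ((k p : ℝ) * ρ p.1.2) • g p.1.1 := by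
  rw [← sum_fiberwise univ fun p : T.Cw S => p.1.1]
  refine sum_congr rfl fun F _ => ?_
  rw [kt, Int.cast_sum, sum_smul]
  exact sum_congr rfl fun p hp => by rw [(mem_filter.1 hp).2]; push_cast; rfl

theorem qf_kt {D : Matrix T.C T.C ℝ} (hD : D.PosDef) {n : ℕ} {a : ℝ} (hz : S.Sz n a) (a0 : 0 ≤ a)
    (k : T.Cw S → ℤ) {ρ : S.W → ℤ} (hρ : ∀ w, |ρ w| ≤ n) :
    a * qf D (zc (kt S k ρ)) ≤ n ^ 3 * qf (T.kw S D S.K) (zc k) := by
  have H : ((n : ℝ) ^ 3 • S.K - a • vecMulVec (zc ρ) (zc ρ)).PosSemidef := by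
    refine .of_dotProduct_mulVec_nonneg ?_ fun x => ?_
    · refine IsHermitian.sub (hz.pd.1.smul (by simp [IsSelfAdjoint])) ?_
      ext i j; simp [vecMulVec_apply, mul_comm]
    · have c := sum_mul_sq_le_sq_mul_sq univ (zc ρ) x
      have d : ∑ w, zc ρ w ^ 2 ≤ (n : ℝ) ^ 3 := by
        refine (sum_le_card_nsmul _ _ ((n : ℝ) ^ 2) fun w _ => ?_).trans ?_
        · have : |(ρ w : ℝ)| ≤ n := by exact_mod_cast hρ w
          exact sq_le_sq' (abs_le.1 this).1 (abs_le.1 this).2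
        · rw [nsmul_eq_mul, pow_succ' _ 2]
          exact mul_le_mul_of_nonneg_right (by exact_mod_cast hz.card) (by positivity)
      have e := hz.lo x
      have s : 0 ≤ ∑ w, x w ^ 2 := sum_nonneg fun _ _ => sq_nonneg _
      have v : x ⬝ᵥ vecMulVec (zc ρ) (zc ρ) *ᵥ x = (∑ w, zc ρ w * x w) ^ 2 := by
        rw [vecMulVec_mulVec, dotProduct_smul, dotProduct_comm x, sq]; rfl
      rw [star_trivial, sub_mulVec, smul_mulVec, smul_mulVec, dotProduct_sub, dotProduct_smul,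
        dotProduct_smul, v, smul_eq_mul, smul_eq_mul]
      have f := mul_le_mul_of_nonneg_left (c.trans (mul_le_mul_of_nonneg_right d s)) a0
      have g := mul_le_mul_of_nonneg_left e (show (0 : ℝ) ≤ n ^ 3 by positivity)
      unfold qf at g
      linarith
  have P := ((hD.posSemidef.kronecker H).submatrix
    (Subtype.val : T.Cw S → T.C × S.W)).dotProduct_mulVec_nonneg (zc k)
  have e1 : qf D (zc (kt S k ρ)) = ∑ p : T.Cw S, ∑ p' : T.Cw S,
      zc k p * (D p.1.1 p'.1.1 * (zc ρ p.1.2 * zc ρ p'.1.2) * zc k p') := by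
    have a1 := sum_kt k ρ fun F => ∑ F', D F F' * zc (kt S k ρ) F'
    have a2 := fun F => sum_kt k ρ fun F' => D F F'
    simp only [smul_eq_mul] at a1 a2
    refine a1.trans (sum_congr rfl fun p _ => ?_)
    rw [sum_congr rfl fun F' _ => mul_comm _ _]
    erw [a2]
    rw [mul_sum]
    exact sum_congr rfl fun p' _ => by simp only [zc]; ring
  rw [e1, ← sub_nonneg]
  refine P.trans_eq ?_
  simp only [qf, dotProduct, mulVec, mul_sum, ← sum_sub_distrib, star_trivial, submatrix_apply,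
    kroneckerMap_apply, Matrix.sub_apply, Matrix.smul_apply, vecMulVec_apply, smul_eq_mul, TS.kw, of_apply]
  exact sum_congr rfl fun p _ => sum_congr rfl fun p' _ => by ring

theorem tw0_sym (h : T.Tri) (ha : T.Adm S st Ψ) {l : ℕ} (col : Fin l → σ) (κ : ℕ → ℝ) (F : T.C) :
    T.tw0 (Sh.sym col κ) F = T.c0 S _ (Ψ F) := by
  have z : (Sh.sym col κ).el (R := ℝ) (Sh.sym col κ).ε = 0 :=
    sum_eq_zero fun w _ => by
      rw [show (Sh.sym col κ).ε w = 0 by simp [Sh.sym, Sh.mono, Finsupp.sum], zero_smul]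
  ext1 m
  rw [TS.coeff_tw0, z, TS.c0, coeff_map, RingHom.comp_apply]
  rcases lt_trichotomy (Finsupp.weight T.lev m) (T.lev F) with c | c | c
  · rw [zero_pow (by omega), smul_zero, constantCoeff_eq,
      (ha.gr F m).coeff_eq_zero 0 (by rw [map_zero]; omega), map_zero]
  · rw [ha.top F m c, c, Nat.sub_self, pow_zero, constantCoeff_C, smul_eq_C_mul, mul_one]
  · rw [notMem_support_iff.1 fun k => (h.tri F m k).not_gt c,
      notMem_support_iff.1 fun k => (ha.le F m k).1.not_gt c, zero_smul, map_zero, map_zero]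

omit [DecidableEq σ] in
theorem c0_smul {τ' : Type} (S' : Sh σ τ') (a : ℝ) (P : MvPolynomial T.C (MvPolynomial S.W ℝ)) :
    T.c0 S S' (a • P) = a • T.c0 S S' P := by
  ext1 m
  simp only [TS.c0, coeff_map, coeff_smul, RingHom.comp_apply, constantCoeff_C, map_mul,
    smul_eq_C_mul]

omit [DecidableEq σ] in
theorem c0_sum {τ' ι : Type} (S' : Sh σ τ') (s : Finset ι)
    (P : ι → MvPolynomial T.C (MvPolynomial S.W ℝ)) :
    T.c0 S S' (∑ i ∈ s, P i) = ∑ i ∈ s, T.c0 S S' (P i) := map_sum (MvPolynomial.map _) _ _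

/-- the phase polynomial of a family -/
def gk (B : Matrix T.C T.C ℝ) (p : T.C → Prop) [DecidablePred p] (Ψ : T.Twd S) (G : T.C) :
    MvPolynomial (T.cut p 0).C (MvPolynomial S.W ℝ) := ∑ F, (-B G F) • killCompl
      (Subtype.val_injective (p := p)) (Ψ F)

theorem θk_eq (p : T.C → Prop) [DecidablePred p] (k : T.Cw S → ℤ) (w : S.W) :
    T.θk S st p Ψ k w = ∑ x : T.Cw S with x.1.2 = w, (k x : ℝ) • gk (T := T) (T.stg st).A⁻¹ p Ψ x.1.1 :=
  sum_congr rfl fun x _ => (sum_congr rfl fun F _ => by rw [neg_mul_comm, mul_smul]; rfl).trans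
    smul_sum.symm

theorem gk_sym (h : T.Tri) (ha : T.Adm S st Ψ) {l : ℕ} (col : Fin l → σ) (κ : ℕ → ℝ)
    (B : Matrix T.C T.C ℝ) (p : T.C → Prop) [DecidablePred p] (G : T.C) :
    gk B p (T.tw0 (Sh.sym col κ)) G = (T.cut p 0).c0 S _ (gk B p Ψ G) := by
  refine Eq.trans ?_ (c0_sum (T := T.cut p 0) _ _ _).symm
  refine sum_congr rfl fun F _ => Eq.trans ?_ (c0_smul (T := T.cut p 0) _ _ _).symm
  rw [tw0_sym h ha, TS.c0, killCompl_map]; rfl

theorem θk_sym (h : T.Tri) (ha : T.Adm S st Ψ) {l : ℕ} (col : Fin l → σ) (κ : ℕ → ℝ)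
    (p : T.C → Prop) [DecidablePred p] (k : T.Cw S → ℤ) (ρ : S.W → ℤ)
    (hk : ∀ F, kt S k ρ F ≠ 0 → T.deg F = ∑ i, Finsupp.single (col i) 1) (d : (Sh.sym col κ).W) :
    T.θk (Sh.sym col κ) st p (T.tw0 _)
      (fun x => if (Sh.sym col κ).dg x.1.2 = l then kt S k ρ x.1.1 else 0) d =
    if (Sh.sym col κ).dg d = l then (T.cut p 0).c0 S _ (∑ w, ρ w • T.θk S st p Ψ k w) else 0 := by
  rw [θk_eq]
  simp only [θk_eq (S := S), gk_sym h ha]
  generalize gk (T := T) (T.stg st).A⁻¹ p Ψ = g0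
  split_ifs with e
  swap
  · refine sum_eq_zero fun x hx => ?_
    rw [(mem_filter.1 hx).2, if_neg e, Int.cast_zero, zero_smul]; rfl
  have cd : (Sh.sym col κ).cd d = ∑ i, Finsupp.single (col i) 1 := by
    change Finsupp.mapDomain col d.1 = _
    rw [top_sqf (mem_sqf.1 (mem_of_mem_erase d.2)) e, Finsupp.mapDomain_finsetSum]
    simp only [Finsupp.mapDomain_single]
  set g := fun G => (T.cut p 0).c0 S (Sh.sym col κ) (g0 G) with hg
  have a1 : ∀ G, ∑ x : T.Cw (Sh.sym col κ) with x.1.1 = G, (if x.1.2 = d then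
      (kt S k ρ G : ℝ) • g G else 0) = (kt S k ρ G : ℝ) • g G := fun G => by
    rw [TS.sum_cw G fun w => if w = d then (kt S k ρ G : ℝ) • g G else 0, sum_ite_eq']
    split_ifs with c
    · rfl
    · by_cases z : kt S k ρ G = 0
      · simp [z]
      · exact (c (mem_filter.2 ⟨mem_univ _, cd.trans (hk G z).symm⟩)).elim
  calc _ = ∑ G, (kt S k ρ G : ℝ) • g G := by
        rw [sum_filter, ← sum_fiberwise univ fun x : T.Cw (Sh.sym col κ) => x.1.1]
        refine sum_congr rfl fun G _ => (sum_congr rfl fun x hx => ?_).trans (a1 G)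
        rw [← (mem_filter.1 hx).2]
        exact if_ctx_congr Iff.rfl (fun c => by rw [c, if_pos e]) fun _ => rfl
    _ = _ := by
        rw [sum_kt, ← sum_fiberwise univ fun x : T.Cw S => x.1.2]
        refine Eq.trans ?_ (c0_sum (T := T.cut p 0) _ _ _).symm
        refine sum_congr rfl fun w _ => ?_
        refine Eq.trans ?_ ((c0_smul (T := T.cut p 0) _ (ρ w : ℝ) _).symm.trans
          (congrArg _ (Int.cast_smul_eq_zsmul ℝ _ _)))
        rw [c0_sum, smul_sum]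
        refine sum_congr rfl fun x hx => ?_
        rw [(mem_filter.1 hx).2, c0_smul, smul_smul, mul_comm]

theorem num (M c c0 : ℕ) : ∃ c', ∀ n : ℕ, n ^ 3 ≤ (n + 2) ^ c' ∧
    64 * 3 ^ 2 ^ (M + 1) * ((n + 1) ^ c0 + 2) ^ (2 * c + 1) ≤ (n + 2) ^ c' := by
  refine ⟨6 + 2 * 2 ^ (M + 1) + (c0 + 2) * (2 * c + 1), fun n => ⟨?_, ?_⟩⟩
  · exact (Nat.pow_le_pow_left (by omega) 3).trans (Nat.pow_le_pow_right (by omega) (by omega))
  · have a : ∀ j, 2 ^ j ≤ (n + 2) ^ j := fun j => Nat.pow_le_pow_left (by omega) j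
    have b : (n + 1) ^ c0 ≤ (n + 2) ^ c0 := Nat.pow_le_pow_left (by omega) _
    have b1 : 1 ≤ (n + 2) ^ c0 := Nat.one_le_pow _ _ (by omega)
    rw [pow_add (n + 2), pow_add (n + 2), pow_mul (n + 2), pow_mul (n + 2) (c0 + 2)]
    refine Nat.mul_le_mul (Nat.mul_le_mul (a 6) (Nat.pow_le_pow_left (le_trans (by norm_num) (a 2)) _))
      (Nat.pow_le_pow_left ?_ _)
    rw [pow_add]
    nlinarith [a 2]

theorem num2 {n1 Q Y N e : ℕ} (Q1 : 1 ≤ Q) (Y1 : e < Y)
    (h : 64 * Y * (Q ^ 2 * (n1 + 2)) ≤ N) :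
    64 * Y * Q ^ 2 ≤ N ∧ n1 * Q ≤ N ∧ n1 ≤ N ∧ Q ≤ N ∧ e ≤ N := by
  have a : Q ≤ Q ^ 2 := by nlinarith
  have b : n1 * Q ≤ Q ^ 2 * (n1 + 2) := by nlinarith
  have c : Q ^ 2 * (n1 + 2) ≤ 64 * Y * (Q ^ 2 * (n1 + 2)) := Nat.le_mul_of_pos_left _ (by omega)
  have d : 64 * Y * Q ^ 2 ≤ N := le_trans (Nat.mul_le_mul_left _ (by nlinarith)) h
  have f : 64 * Y ≤ 64 * Y * Q ^ 2 := Nat.le_mul_of_pos_right _ (by omega)
  refine ⟨d, by omega, ?_, ?_, by omega⟩ <;> nlinarith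

theorem num3 {τ η η' Q Y N : ℝ} (t0 : 0 ≤ τ) (t1 : τ ≤ 1 / 2) (η0 : 0 ≤ η) (sq : η' ^ 2 = Q ^ 2 * η)
    (rQ : 1 ≤ Q) (rY : 1 ≤ Y) (j1 : 64 * Y * Q ^ 2 ≤ N) : Y * (τ + 2 * η') ^ 2 ≤ N * (τ + η) := by
  have y3 : (τ + 2 * η') ^ 2 ≤ 64 * Q ^ 2 * (τ + η) := by
    have := one_le_pow₀ (n := 2) rQ
    nlinarith [sq_nonneg (τ - 2 * η'), mul_le_mul_of_nonneg_right this t0,
      mul_nonneg (sq_nonneg Q) η0]
  nlinarith [mul_le_mul_of_nonneg_left y3 (show (0 : ℝ) ≤ Y by positivity),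
    mul_le_mul_of_nonneg_right j1 (show 0 ≤ τ + η by positivity)]

end Cf

open Cf in
theorem lfin : LFin := by
  intro hch hbr hsem M c hm
  obtain ⟨c0, hch⟩ := hch M
  obtain ⟨c', hn⟩ := num M c c0
  refine ⟨c', fun σ τ _ T S st Ψ t n a b η R τ0 κ k hs ha hz b0 hκ η0 η1 τ00 hse hsy k0 hk hq => ?_⟩
  obtain ⟨n3, nK⟩ := hn n
  obtain ⟨N, hN⟩ : ∃ N, N = (n + 2) ^ c' := ⟨_, rfl⟩
  obtain ⟨n1, h1⟩ : ∃ n1, n1 = (n + 1) ^ c0 := ⟨_, rfl⟩
  have cN : ((n : ℝ) + 2) ^ c' = N := by rw [hN]; push_cast; rfl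
  have c1 : ((n : ℝ) + 1) ^ c0 = n1 := by rw [h1]; push_cast; rfl
  rw [cN] at hκ hse hq ⊢
  rw [← hN] at hse n3 nK ⊢
  rw [← h1] at nK
  have p1 : 1 ≤ n1 := h1 ▸ Nat.one_le_pow _ _ (by omega)
  obtain ⟨Q, hQ⟩ : ∃ Q, Q = (n1 + 2) ^ c := ⟨_, rfl⟩
  obtain ⟨X, hX⟩ : ∃ X, X = 3 ^ 2 ^ (M + 1) := ⟨_, rfl⟩
  have Q1 : 1 ≤ Q := hQ ▸ Nat.one_le_pow _ _ (by omega)
  have X1 : 2 ^ (M + 1) < X := hX ▸ Nat.lt_pow_self (by norm_num)
  have X0 : 1 ≤ X := Nat.succ_le_of_lt (lt_of_le_of_lt (Nat.zero_le _) X1)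
  rw [← hX, pow_succ, mul_comm 2 c, pow_mul, ← hQ] at nK
  obtain ⟨i1, i2, i3, i4, i5⟩ := num2 Q1 X1 nK
  have r1 : (1 : ℝ) ≤ n1 := by exact_mod_cast p1
  have rQ : (1 : ℝ) ≤ Q := by exact_mod_cast Q1
  have rX : (1 : ℝ) ≤ X := by exact_mod_cast X0
  have j1 : (64 : ℝ) * X * Q ^ 2 ≤ N := by exact_mod_cast i1
  have κ0 : ∀ j, 0 < κ j := fun j => b0.trans_le (hκ j).1
  have N1 : (64 : ℝ) ≤ N := by
    nlinarith [mul_le_mul rX (one_le_pow₀ (n := 2) rQ) zero_le_one (by positivity)]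
  have a0 : 0 < a := lt_of_lt_of_le (mul_pos (by linarith) (κ0 0)) (hκ 0).2
  obtain ⟨s1, s2, s3⟩ := hbr σ τ T S st M t Ψ hs hz.toOk ha
  have hb := s3 k fun p z => by by_contra e; exact z (hk p e)
  have B1 : (T.lw S st Ψ).bias t k ≤ 1 := hb ▸
    (TS.tw_tri s1.cl s2 hz.toOk).norm_Ec_le' fun y => (norm_ee _).le
  have B0 : 0 ≤ (T.lw S st Ψ).bias t k := norm_nonneg _
  rcases le_or_gt 1 (N * (τ0 + η)) with big | sm
  · exact (pow_le_one₀ B0 B1).trans big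
  obtain ⟨m1, m2⟩ := hsem σ T st M t N (b / N) η hs hse
  set η' := Q * √η with hη'
  have sq : η' ^ 2 = Q ^ 2 * η := by rw [hη', mul_pow, Real.sq_sqrt η0.le]
  have e0 : 0 ≤ η' := by positivity
  have e1 : η ≤ η' := by
    have : η ≤ √η := Real.le_sqrt_of_sq_le (by nlinarith)
    nlinarith [Real.sqrt_nonneg η]
  have e2 : η' ≤ 1 / 8 := by
    refine (abs_le_of_sq_le_sq' ?_ (by norm_num)).2
    have : 64 * Q ^ 2 * η ≤ N * η := mul_le_mul_of_nonneg_right (le_trans (by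
      nlinarith [sq_nonneg (Q : ℝ)]) j1) η0.le
    nlinarith
  have τ1 : τ0 ≤ 1 / 2 := by nlinarith
  obtain ⟨p0, hp0⟩ := Function.ne_iff.1 k0
  have st0 : ∀ p, k p ≠ 0 → st p.1.1 = t := fun p z => by by_contra e; exact z (hk p e)
  obtain ⟨l, lam, hl, hd, -, hne⟩ := hz.gen
    (fun w => if h : S.cd w = T.deg p0.1.1 then k ⟨(p0.1.1, w), h⟩ else 0) (fun _ => False.elim)
    p0.1.2 (by rw [dif_pos p0.2]; exact hp0)
  have hc : ∀ i, ∃ x, Finsupp.single x 1 = S.cd (lam i) := fun i => by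
    have : S.cd (lam i) ∈ {d : σ →₀ ℕ | d.degree = 1} := (Sh.cd_degree _).trans (hd i)
    rwa [← Finsupp.range_single_one] at this
  choose col hcol using hc
  set ρ : S.W → ℤ := fun w => S.r w (∑ i, Finsupp.single (lam i) 1) with hρ
  have kd : ∀ F, kt S k ρ F ≠ 0 → st F = t ∧ T.deg F = ∑ i, Finsupp.single (col i) 1 := fun F z => by
    obtain ⟨p, hp, z⟩ := exists_ne_zero_of_sum_ne_zero z
    rw [← (mem_filter.1 hp).2]
    refine ⟨st0 p (left_ne_zero_of_mul z), ?_⟩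
    rw [← p.2, ← hz.gr _ _ (right_ne_zero_of_mul z), map_sum]
    simp only [Finsupp.weight_single, one_smul, hcol]
  have sy := hsy (l + 1) col (kt S k ρ) (Function.ne_iff.2 ⟨p0.1.1, by
      refine fun z => hne (Eq.trans (Eq.symm ?_) z)
      rw [kt, ← sum_filter_of_ne (p := fun w => S.cd w = T.deg p0.1.1) fun w _ z => by
        by_contra e; exact z (by rw [dif_neg e, zero_mul]), ← TS.sum_cw]
      refine sum_congr rfl fun p hp => ?_
      obtain ⟨⟨F, w⟩, e⟩ := p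
      obtain rfl : F = p0.1.1 := (mem_filter.1 hp).2
      rw [dif_pos e]⟩) kd (by
      have q := qf_kt (T := T) hs.tri.pd_D hz a0.le k (ρ := ρ) fun w => hz.ht w _
      rw [← TS.lw_D hs ha hz.toOk] at q
      have q0 : 0 ≤ qf (T.lw S st Ψ).D (zc k) :=
        (TS.lw_tri hs ha hz.toOk).pd_D.posSemidef.dotProduct_mulVec_nonneg _
      have : (n : ℝ) ^ 3 ≤ N := by exact_mod_cast n3
      exact le_of_mul_le_mul_left (q.trans ((mul_le_mul_of_nonneg_right this q0).trans hq)) a0)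
  have so := sym_ok col κ0
  obtain ⟨-, -, u3⟩ := hbr σ _ T (Sh.sym col κ) st M t (T.tw0 _) hs so (hs.adm so)
  have u4 := u3 (fun x => if (Sh.sym col κ).dg x.1.2 = l + 1 then kt S k ρ x.1.1 else 0)
    fun x z => (kd _ fun e => z (by simp [e])).1
  have u0 : (T.tw (Sh.sym col κ) (T.tw0 _)).Φ = (T.sh (Sh.sym col κ)).Φ :=
    funext fun p => congrArg ((Sh.sym col κ).cf _ p.1.2) (TS.eval₂_tw0 _ _)
  have u5 : T.sbS st t col κ (kt S k ρ) = _ := Eq.trans (congrArg (fun Φ =>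
    (((T.sh (Sh.sym col κ)).setΦ Φ).stg fun p => st p.1.1).bias t
      fun x => if (Sh.sym col κ).dg x.1.2 = l + 1 then kt S k ρ x.1.1 else 0) u0.symm) u4
  have rt : T.rt (Sh.sym col κ) (fun F => st F < t) (T.tw0 _) =
      fun F => (T.cut (fun F => st F < t) 0).c0 S _ (T.rt S _ Ψ F) := funext fun F => by
    rw [TS.rt, tw0_sym hs.cl.1 ha, TS.c0, killCompl_map]; rfl
  rw [u5, rt, funext (θk_sym hs.cl.1 ha col κ _ k ρ fun F z => (kd F z).2)] at sy
  have x0 : 0 ≤ τ0 + 2 * η' := by positivity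
  have x1 : τ0 + 2 * η' ≤ 1 := by linarith
  set r := (τ0 + 2 * η') ^ ((2 ^ M : ℕ) : ℝ)⁻¹ with hr
  have rp : r ^ 2 ^ M = τ0 + 2 * η' := Real.rpow_inv_natCast_pow x0 (by positivity)
  have r0 : 0 ≤ r := Real.rpow_nonneg x0 _
  have rl : r ≤ 1 := Real.rpow_le_one x0 x1 (by positivity)
  have nN : (n1 : ℝ) ≤ N := by exact_mod_cast i3
  have key := hch σ τ _ S _ (T.rt S _ Ψ) n (l + 1) a η' b r κ col lam
    (T.θk S st (fun F => st F < t) Ψ k) s1 s2 hz (by omega)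
    (by rw [hl, ← TS.lev_cw]; exact (hs.le _).2) (fun i => (hcol i).symm) (fun w z => by
      obtain ⟨p, hp, z⟩ := exists_ne_zero_of_sum_ne_zero z
      have : k p ≠ 0 := fun e => z (by simp [e]; rfl)
      rw [hl, ← (mem_filter.1 hp).2, ← TS.lev_cw, ← TS.lev_cw]
      exact hs.lev _ _ ((st0 p this).trans (st0 p0 hp0).symm)) b0
    (fun j => ⟨(hκ j).1, by
      rw [c1]; exact (mul_le_mul_of_nonneg_right nN (κ0 j).le).trans (hκ j).2⟩) e0 e2
    (by
      rw [c1, ← h1]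
      exact fun τ S Ψ u v => mas_mono (m2 τ S Ψ u (sz_mono v i3
        (div_le_div_of_nonneg_left b0.le (by linarith) nN))) e1)
    (by
      rw [c1, ← h1]
      intro τ τ' J _ _ S Ψ S' φ ψ N' Q' cj u v w
      have cQ : ((n1 : ℝ) + 2) ^ c = Q := by rw [hQ]; push_cast; rfl
      have := hm σ τ τ' J _ S _ Ψ n1 (b / n1) η S' φ ψ N' Q' cj s1 u v (by positivity) η0 (by
        rw [cQ, ← hQ, div_div]
        exact fun τ S Ψ u v => m1 τ S Ψ (sz_mono u i4 (div_le_div_of_nonneg_left b0.le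
          (by positivity) (by exact_mod_cast i2))) v) w
      rwa [cQ] at this) r0 rl (by rw [rp]; exact add_le_add sy le_rfl)
  rw [← hb] at key
  have y1 : τ0 + 2 * η' ≤ r := rp ▸ pow_le_of_le_one r0 rl (by positivity)
  have y2 : (T.lw S st Ψ).bias t k ^ 2 ^ (M + 1) ≤ X * (τ0 + 2 * η') ^ 2 := by
    refine (pow_le_pow_left₀ B0 (show _ ≤ 3 * r by linarith) _).trans_eq ?_
    rw [mul_pow, ← rp, ← pow_mul, ← pow_succ, hX]; push_cast; rfl
  refine (pow_le_pow_of_le_one B0 B1 i5).trans (y2.trans ?_)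
  exact num3 τ00 τ1 η0.le sq rQ rX j1

end Crest.Agent.N49.Tw

end
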