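import Crest.Agent.N49.Tw.Cc0
import Crest.Agent.N49.Tw.Ccs
import Crest.Agent.N49.Tw.Cext
import Crest.Agent.N49.Tw.Cgen

/-!
# Row 49 (helper61): the phases along the chain of clones, the core estimate `CH0`
-/

set_option autoImplicit false
set_option linter.unusedSectionVars false

open Matrix MvPolynomial Finset

noncomputable section

namespace Crest.Agent.N49.Tw.Cc

open Po Sh TS

theorem ee_conj (a b : ℝ) : ee a * (starRingEnd ℂ) (ee b) = ee (a - b) := by
  rw [sub_eq_add_neg, ee_add]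
  congr 1
  rw [ee, ee, ← Complex.exp_conj]
  simp [map_ofNat]

variable {σ τ τ' : Type} [DecidableEq σ] {T : TS σ} {S : Sh σ τ} {S' : Sh σ τ'}

theorem val_hm {φ : Matrix S'.W S.W ℤ} (h : S.Hm S' φ) (o : S.Ok) (o' : S'.Ok)
    (Θ : S'.W → MvPolynomial T.C (MvPolynomial S.W ℝ)) (y : T.Cw S → ℤ) :
    T.val S' (fun w' => map (S.pu S' φ) (Θ w')) (T.hm S S' φ y) =
      T.val S (fun w => ∑ w', φ w' w • Θ w') y := by
  have e : ∀ P : MvPolynomial T.C (MvPolynomial S.W ℝ),
      eval (T.Yw S' (zc (T.hm S S' φ y))) (map (S.pu S' φ) P) =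
        Sh.hA ℝ S' φ (eval (T.Yw S (zc y)) P) := fun P => by
    rw [zc_hm, eval_map, ← Sh.pu_eq, eval, coe_eval₂Hom, eval₂_comp_left, RingHom.comp_id]
    congr 1
    exact funext fun F => (hA_Yw h.cd _ F).symm
  simp only [TS.val, e, h.cf o o', map_sum, map_zsmul]
  simp only [zsmul_eq_mul]
  exact sum_comm

theorem cf_smul (w : S.W) (Y : T.C → MvPolynomial S.W ℝ) (n : ℤ)
    (P : MvPolynomial T.C (MvPolynomial S.W ℝ)) :
    S.cf ℝ w (eval Y (n • P)) = n • S.cf ℝ w (eval Y P) := by rw [map_zsmul, map_zsmul]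

theorem val_pb {e : S.W → S'.W} (h : S.Ch S' e) (P : MvPolynomial T.C (MvPolynomial S'.W ℝ))
    (y : T.Cw S' → ℤ) (w : S.W) :
    S.cf ℝ w (eval (T.Yw S (zc (T.pb S h y))) (map (killCompl h.inj).toRingHom P)) =
      S'.cf ℝ (e w) (eval (T.Yw S' (zc y)) P) := by
  rw [h.cf, show zc (T.pb S h y) = T.pb S h (zc y) from rfl, ← funext (kill_Yw h (zc y)), eval_map,
    eval, coe_eval₂Hom]
  exact congrArg _ ((eval₂_comp_left (killCompl h.inj).toRingHom (RingHom.id _) _ P).trans
    (by rw [RingHom.comp_id]; rfl)).symm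

section lift
variable {L : Type} [DecidableEq L] {B B' : Finset (L →₀ ℕ)}

variable (T S) in
/-- coefficients seen in an extension -/
def lf (h : 0 ∈ B) : MvPolynomial T.C (MvPolynomial S.W ℝ) →+*
    MvPolynomial T.C (MvPolynomial (XW S.W B) ℝ) := map (rename (S.inc h)).toRingHom

theorem kill_lf {π : L ≃ L} {k : ∀ β ∈ B, Finsupp.domCongr π β ∈ B'} (h : 0 ∈ B) (h' : 0 ∈ B')
    (P : MvPolynomial T.C (MvPolynomial S.W ℝ)) :
    map (killCompl (xe_inj (h := k))).toRingHom (lf T S h' P) = lf T S h P := by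
  rw [lf, lf, MvPolynomial.map_map]
  congr 2
  refine RingHom.ext fun Q => ?_
  have : S.inc h' = xe π k ∘ S.inc h := funext fun w => Subtype.ext (Prod.ext rfl (map_zero _).symm)
  rw [this]
  exact (congrArg _ (rename_rename _ _ Q).symm).trans (killCompl_rename_app _ _)

theorem pu_lf {W : Type} (h : 0 ∈ B) (f : MvPolynomial (XW S.W B) ℝ →+* MvPolynomial W ℝ)
    (g : MvPolynomial S.W ℝ →+* MvPolynomial W ℝ) (hC : ∀ a, f (C a) = g (C a))
    (hX : ∀ w, f (X (S.inc h w)) = g (X w)) (P : MvPolynomial T.C (MvPolynomial S.W ℝ)) :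
    map f (lf T S h P) = map g P := by
  rw [lf, MvPolynomial.map_map]
  congr 2
  exact ringHom_ext (fun a => by simpa using hC a) fun w => by simpa using hX w

theorem adm_lf {st : T.C → ℕ} {Ψ : T.Twd S} (a : T.Adm S st Ψ) (h : 0 ∈ B) (K : Matrix S.W S.W ℝ)
    (cl : L → σ) (v : ℕ → ℝ) : T.Adm ((S.setK K).ext cl B v) st fun F => lf T S h (Ψ F) where
  gr F m := fun d hd => by
    have hd' : coeff d (rename (S.inc h) (coeff m (Ψ F))) ≠ 0 := fun z =>
      hd ((congrArg (coeff d) (coeff_map _ _ m)).trans z)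
    obtain ⟨u, rfl, hu⟩ := coeff_rename_ne_zero _ _ _ hd'
    refine (Mh.weight_mapDomain _ _ _).trans (Eq.trans ?_ (a.gr F m hu))
    exact congrArg (fun f => Finsupp.weight f u) (funext fun w =>
      (Xt.ext_dg (S := S.setK K) _).trans (add_zero _))
  le F m hm := a.le F m (support_map_subset _ _ hm)
  top F m e := (coeff_map _ _ m).trans ((congrArg _ (a.top F m e)).trans (rename_C _ _))

end lift

variable {l : ℕ}

/-- the sign of a word after `j` clonings -/
def sgn (j : ℕ) (β : Fin l × Bool →₀ ℕ) : ℤ := ∏ i : Fin l with i.1 < j,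
  if β (i, false) ≠ 0 then 1 else if β (i, true) ≠ 0 then -1 else 0

theorem sgn_succ (j : Fin l) (β : Fin l × Bool →₀ ℕ) : sgn (j + 1) β =
    sgn j β * if β (j, false) ≠ 0 then 1 else if β (j, true) ≠ 0 then -1 else 0 := by
  rw [sgn, sgn, show (univ.filter fun i : Fin l => i.1 < j.1 + 1) =
    insert j (univ.filter fun i : Fin l => i.1 < j.1) from
    Finset.ext fun i => by
      simp only [mem_filter, mem_univ, true_and, mem_insert, Fin.ext_iff]; omega,
    prod_insert (by simp), mul_comm]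

theorem sgn_sw (j : Fin l) (β : Fin l × Bool →₀ ℕ) : sgn j (Finsupp.domCongr (sw j) β) = sgn j β :=
  prod_congr rfl fun i hi => by
    have : i ≠ j := fun e => by simp [e] at hi
    rw [dc_sw, dc_sw, if_neg this, if_neg this]

variable (lam : Fin l → S.W) (Θ : S.W → MvPolynomial T.C (MvPolynomial S.W ℝ))

/-- the pulled back phase -/
def xi (x : Option S.W × (Fin l × Bool →₀ ℕ)) : MvPolynomial T.C (MvPolynomial S.W ℝ) :=
  ∑ w, S.r w (S.sg x.1 + x.2.mapDomain fun a => lam a.1) • Θ w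

/-- the phase after `j` clonings -/
def tj (s j : ℕ) (x : XW S.W (Bj l s j)) : MvPolynomial T.C (MvPolynomial (XW S.W (Bj l s j)) ℝ) :=
  sgn j x.1.2 • lf T S (zero_Bj l s j) (xi lam Θ x.1)

theorem val_ch {e : S.W → S'.W} (h : S.Ch S' e) (P : S'.W → MvPolynomial T.C (MvPolynomial S'.W ℝ))
    (c : S'.W → ℤ) (p : S'.W → Prop) [DecidablePred p] (hp : ∀ x, x ∈ Set.range e ↔ p x)
    (y : T.Cw S' → ℤ) :
    T.val S (fun w => c (e w) • map (killCompl h.inj).toRingHom (P (e w))) (T.pb S h y) =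
      ∑ x, (if p x then c x else 0) • S'.cf ℝ x (eval (T.Yw S' (zc y)) (P x)) :=
  Fintype.sum_of_injective e h.inj _ _
    (fun x k => by rw [if_neg fun z => k ((hp x).2 z), zero_smul]) fun w => by
      rw [if_pos ((hp _).1 ⟨w, rfl⟩), cf_smul, val_pb]

theorem tj_xe {s j j' : ℕ} {π : Fin l × Bool ≃ Fin l × Bool}
    (k : ∀ β ∈ Bj l s j, Finsupp.domCongr π β ∈ Bj l s j') (h1 : ∀ a, (π a).1 = a.1)
    (h2 : ∀ β, sgn j (Finsupp.domCongr π β) = sgn j β) : tj lam Θ s j = fun x =>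
      sgn j (xe π k x).1.2 • map (killCompl (xe_inj (h := k))).toRingHom
        (lf T S (zero_Bj l s j') (xi lam Θ (xe π k x).1)) := funext fun x => by
  rw [kill_lf (zero_Bj l s j), tj, ← h2 x.1.2, xi, xi,
    ← map_dc (π := π) (f := fun a => lam a.1) (fun a => congrArg lam (h1 a)) x.1.2]
  rfl

theorem val_step (K : Matrix S.W S.W ℝ) (col : Fin l → σ) (v : ℕ → ℝ) (s : ℕ) (j : Fin l)
    (y : T.Cw ((S.setK K).ext (fun x => col x.1) (Bj l s (j + 1)) v) → ℤ) :
    T.val _ (tj lam Θ s j) (T.pb _ (cn (S := S.setK K) j col v).c1 y) -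
      T.val _ (tj lam Θ s j) (T.pb _ (cn (S := S.setK K) j col v).c2 y) =
        T.val _ (tj lam Θ s (j + 1)) y := by
  have a := val_ch (cn (S := S.setK K) (s := s) j col v).c1
    (fun x : XW S.W (Bj l s (j + 1)) => lf T S (zero_Bj l s (j + 1)) (xi lam Θ x.1))
    (fun x : XW S.W (Bj l s (j + 1)) => sgn j x.1.2) _ (r1 j) y
  have b := val_ch (cn (S := S.setK K) (s := s) j col v).c2
    (fun x : XW S.W (Bj l s (j + 1)) => lf T S (zero_Bj l s (j + 1)) (xi lam Θ x.1))
    (fun x : XW S.W (Bj l s (j + 1)) => sgn j x.1.2) _ (r2 j) y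
  have a' := tj_xe lam Θ (h1 (s := s) j) (fun _ => rfl) fun β => congrArg _ (dc_rf β)
  have b' := tj_xe lam Θ (h2 (s := s) j) (sw_fst j) (sgn_sw j)
  refine (congrArg₂ (· - ·) (Eq.trans (by rw [a']; rfl) a) (Eq.trans (by rw [b']; rfl) b)).trans ?_
  rw [← sum_sub_distrib]
  refine sum_congr rfl fun x _ => ?_
  have e : (if x.1.2 (j, true) = 0 then sgn j x.1.2 else 0) -
      (if x.1.2 (j, false) = 0 then sgn j x.1.2 else 0) = sgn (j + 1) x.1.2 := by
    rw [sgn_succ]
    rcases (mem_Bj.1 (XW.mem x)).2.1 j with k | k <;> by_cases k' : x.1.2 (j, false) = 0 <;>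
      by_cases k'' : x.1.2 (j, true) = 0 <;> simp_all
  rw [← sub_smul, e]
  exact (cf_smul (S := (S.setK K).ext (fun x => col x.1) (Bj l s (j + 1)) v) x _
    (sgn (j + 1) x.1.2) (lf T S (zero_Bj l s (j + 1)) (xi lam Θ x.1))).symm

/-- the full word -/
def tp (l : ℕ) : Fin l →₀ ℕ := ∑ i, Finsupp.single i 1

theorem tp_apply (i : Fin l) : tp l i = 1 := by
  simp [tp, Finsupp.finsetSum_apply, Finsupp.single_apply]

theorem deg_tp : (tp l).degree = l := by simp [Finsupp.degree_eq_sum, tp_apply]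

theorem eq_tp {γ : Fin l →₀ ℕ} (h : γ.degree = l) (k : (∀ i, γ i ≤ 1) ∨ ∀ i, 1 ≤ γ i) :
    γ = tp l := by
  replace h := h.trans deg_tp.symm
  rw [Finsupp.degree_eq_sum, Finsupp.degree_eq_sum] at h
  ext i
  rcases k with k | k
  · exact (sum_eq_sum_iff_of_le fun i _ => (k i).trans (tp_apply i).ge).1 h i (mem_univ i)
  · exact ((sum_eq_sum_iff_of_le fun i _ => (tp_apply i).le.trans (k i)).1 h.symm i
      (mem_univ i)).symm

theorem fst_apply (β : Fin l × Bool →₀ ℕ) (i : Fin l) :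
    β.mapDomain Prod.fst i = β (i, false) + β (i, true) := by
  induction β using Finsupp.induction_linear with
  | zero => simp
  | add a b h k => rw [Finsupp.mapDomain_add]; simp only [Finsupp.add_apply, h, k]; ring
  | single a n =>
    obtain ⟨a, b⟩ := a
    rw [Finsupp.mapDomain_single]
    by_cases e : a = i <;> cases b <;> simp [e]

theorem mem_sq {μ : Fin l →₀ ℕ} : μ ∈ sqf (Fin l) l ↔ μ.degree ≤ l ∧ ∀ a, μ a ≤ 1 := by
  simp [sqf, mem_fl]

theorem sum_top (hl : 1 ≤ l) {N : Type} [AddCommGroup N] (P : N) (c : Prop) [Decidable c]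
    (γ : Fin l →₀ ℕ) (z : ℤ) : ∑ d : {μ // μ ∈ (sqf (Fin l) l).erase 0},
      (if c ∧ γ = d.1 then z else 0) • (if d.1.degree = l then P else 0) =
        if c ∧ γ = tp l then z • P else 0 := by
  have t : tp l ∈ (sqf (Fin l) l).erase 0 := mem_erase.2 ⟨fun z => by
    have := deg_tp (l := l); rw [z, map_zero] at this; omega,
    mem_sq.2 ⟨deg_tp.le, fun a => (tp_apply a).le⟩⟩
  rw [sum_eq_single_of_mem ⟨tp l, t⟩ (mem_univ _) fun d _ ne => ?_, if_pos deg_tp, ite_smul,
    zero_smul]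
  rw [if_neg (c := d.1.degree = l) fun k => ne (Subtype.ext
    (eq_tp k (.inl (mem_sq.1 (mem_erase.1 d.2).2).2))), smul_zero]

theorem tj_top (o : S.Ok) (hl : 1 ≤ l) (h1 : ∀ i, S.dg (lam i) = 1) (hΘ : ∀ w, Θ w ≠ 0 → S.dg w = l)
    (col : Fin l → σ) (κ : ℕ → ℝ) (s : ℕ) (x : XW S.W (Bj l s l)) :
    ∑ d, S.f1 (Bj l s l) col κ d x • (if (Sh.sym col κ).dg d = l then lf T S (zero_Bj l s l)
      (∑ w, S.r w (∑ i, Finsupp.single (lam i) 1) • Θ w) else 0) = tj lam Θ s l x := by
  have hf : (univ.filter fun i : Fin l => i.1 < l) = univ := filter_true_of_mem fun i _ => i.2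
  refine (sum_top hl _ (x.1.1 = none) (x.1.2.mapDomain Prod.fst) _).trans ?_
  split_ifs with c
  · rw [tj, xi, c.1,
      show (x.1.2.mapDomain fun a => lam a.1) = (x.1.2.mapDomain Prod.fst).mapDomain lam from
        Finsupp.mapDomain_comp, c.2, tp, Finsupp.mapDomain_finsetSum, sgn, hf,
      ← prod_pow_eq_pow_sum]
    simp only [Finsupp.mapDomain_single, Sh.sg, Option.elim, zero_add]
    congr 1
    refine prod_congr rfl fun i _ => ?_
    have := fst_apply x.1.2 i
    rw [c.2, tp_apply] at this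
    split_ifs with a b
    · rw [show x.1.2 (i, true) = 0 by omega, pow_zero]
    · rw [show x.1.2 (i, true) = 1 by omega, pow_one]
    · omega
  · by_contra z
    have z1 : sgn l x.1.2 ≠ 0 := fun e => z (by rw [tj, e, zero_smul])
    have z2 : xi lam Θ x.1 ≠ 0 := fun e => z (by rw [tj, e, map_zero, smul_zero])
    obtain ⟨w, -, hw⟩ := exists_ne_zero_of_sum_ne_zero z2
    have e := o.gr_dg (left_ne_zero_of_smul hw)
    rw [hΘ w (right_ne_zero_of_smul hw), map_add, Mh.weight_mapDomain,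
      show (S.dg ∘ fun a : Fin l × Bool => lam a.1) = fun _ => 1 from funext fun a => h1 a.1,
      ← Finsupp.degree_eq_weight_one] at e
    have g : ∀ i, 1 ≤ x.1.2.mapDomain Prod.fst i := fun i => by
      have := prod_ne_zero_iff.1 z1 i (by simp)
      rw [fst_apply]
      split_ifs at this <;> omega
    have g' : l ≤ x.1.2.degree := deg_tp.ge.trans
      ((deg_mono fun i => (tp_apply i).trans_le (g i)).trans_eq (degree_col _ _))
    refine c ⟨?_, eq_tp (by rw [degree_col]; omega) (.inr g)⟩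
    cases k : x.1.1 with
    | none => rfl
    | some w' =>
      have := o.dg_pos w'
      rw [k, show S.sg (some w') = Finsupp.single w' 1 from rfl, Finsupp.weight_single,
        one_smul] at e
      omega

end Crest.Agent.N49.Tw.Cc

end
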