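import Crest.Agent.N49.Tw.Mp

/-!
# Row 49 (helper10): normalised Cauchy–Schwarz by cloning, truncations of renamings
-/

set_option autoImplicit false

open Matrix MvPolynomial Finset

noncomputable section

namespace Crest.Agent.N49.Tw

open Po Db

namespace TS

variable {σ : Type} {T : TS σ}

/-- low sets stay low in a cut -/
theorem Low.cut {p : T.C → Prop} (hp : T.Low p) (q : T.C → Prop) [DecidablePred q] (b : T.C → ℤ) :
    (T.cut q b).Low fun c : {c // q c} => p c.1 := by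
  intro (c : {c // q c}) hc (c' : {c // q c}) h'
  obtain ⟨n : {c // q c} →₀ ℕ, h1, h2⟩ := (mem_vars_iff_mem_support _).1 h'
  obtain ⟨m, hm, -⟩ := exists_ne_zero_of_sum_ne_zero
    ((coeff_cut q (fun c => (b c : ℝ)) (T.Φ c.1) n).symm.trans_ne (mem_support_iff.1 h1))
  obtain ⟨h3, rfl⟩ := mem_filter.1 hm
  exact hp c.1 hc c'.1 ((mem_vars_iff_mem_support _).2
    ⟨m, h3, Finsupp.mem_support_iff.2 (Finsupp.mem_support_iff.1 h2 :)⟩)

/-- **normalised Cauchy–Schwarz** -/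
theorem Tri.csE {p : T.C → Prop} [DecidablePred p] (h : T.Tri) (hp : T.Low p) {η : ℝ}
    (hη : η ≤ 1 / 8) (m0 : (T.cut p 0).Mas η) (m1 : T.Mas η) (m2 : (T.dbl p).Mas η)
    {f : ({c // p c} → ℤ) → ℂ} {g : (T.C → ℤ) → ℂ} (hf : ∀ a, ‖f a‖ ≤ 1) (hg : ∀ y, ‖g y‖ ≤ 1) :
    ‖T.Ec fun y => f (fun c => y c.1) * g y‖ ^ 2 ≤
      2 * ((T.dbl p).Ec fun y => g (fun c => y (.inl c)) *
        (starRingEnd ℂ) (g fun c => y (T.snd p c))).re := by
  have hc := h.cut_low hp 0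
  have hd := h.dbl hp
  have a := h.cs_dbl hp hf hg
  have b : (T.cut p 0).S (fun a : {c // p c} → ℤ => ‖f a‖ ^ 2) ≤ (T.cut p 0).Z := by
    rw [← S_one]
    refine hc.S_mono (.of (B := 1) fun a => ?_) (.const 1) fun a =>
      pow_le_one₀ (norm_nonneg _) (hf a)
    rw [Real.norm_of_nonneg (sq_nonneg _)]
    exact pow_le_one₀ (norm_nonneg _) (hf a)
  have s := h.hasSum_dbl_sq hp hg
  have x0 := (tsum_nonneg fun a => mul_nonneg (wt_pos (T.cut p 0) a).le (sq_nonneg _)).trans_eq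
    s.tsum_eq
  rw [Ec, Ec, norm_div, div_pow, Complex.div_ofReal_re, Complex.norm_real,
    Real.norm_of_nonneg h.Z_pos.le, div_le_iff₀ (pow_pos h.Z_pos 2)]
  refine (a.trans (mul_le_mul_of_nonneg_right b x0)).trans ?_
  generalize ((T.dbl p).Sc fun y => g (fun c => y (.inl c)) *
        (starRingEnd ℂ) (g fun c => y (T.snd p c))).re = X at x0 ⊢
  have z := h.Zc_dbl hp 0
  have k : (T.cut p 0).Z * (T.dbl p).Z ≤ 2 * T.Z ^ 2 := by
    have c0 := hc.Zc_pos
    have c1 := h.Zc_pos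
    have c2 := hd.Zc_pos
    have a0 : (T.cut p 0).Z ≤ 9 / 8 * (T.cut p 0).Zc := by nlinarith [(abs_le.1 m0).2]
    have a2 : (T.dbl p).Z ≤ 9 / 8 * (T.dbl p).Zc := by nlinarith [(abs_le.1 m2).2]
    have a1 : 7 / 8 * T.Zc ≤ T.Z := by nlinarith [(abs_le.1 m1).1]
    have := mul_le_mul a0 a2 hd.Z_pos.le (by positivity)
    have := pow_le_pow_left₀ (by positivity) a1 2
    nlinarith [sq_nonneg T.Zc]
  rw [mul_div_assoc', div_mul_eq_mul_div, le_div_iff₀ hd.Z_pos]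
  nlinarith [mul_le_mul_of_nonneg_left k x0]

end TS

end Crest.Agent.N49.Tw

end
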