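import Crest.Agent.N49.Tw.Iso
import Crest.Agent.N49.Tw.Cs

/-!
# Row 49 (helper10): normalised Cauchy–Schwarz by cloning, truncations of renamings
-/

set_option autoImplicit false

open Matrix MvPolynomial Finset

noncomputable section

namespace Crest.Agent.N49.Tw

open Po Db

namespace TS

variable {σ σ' σ0 σ2 : Type} {T : TS σ} {T' : TS σ'}

theorem ren_aeval {α β γ : Type} (e : β → γ) (v : α → MvPolynomial β ℝ) (P : MvPolynomial α ℝ) :
    rename e (aeval v P) = aeval (fun a => rename e (v a)) P := comp_aeval_apply v (rename e) P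

theorem glue_ren {α α' : Type} (j : α → α') (p : α → Prop) (p' : α' → Prop) [DecidablePred p]
    [DecidablePred p'] (k : ∀ a, p a ↔ p' (j a)) (f : {a // p a} → {a // p' a})
    (hf : ∀ a, (f a).1 = j a.1) (P : MvPolynomial α ℝ) :
    aeval (glue p' X fun c => MvPolynomial.C (((0 : α' → ℤ) c : ℤ) : ℝ)) (rename j P) =
      rename f (aeval (glue p X fun c => MvPolynomial.C (((0 : α → ℤ) c : ℤ) : ℝ)) P) := by
  rw [aeval_rename, ren_aeval]
  congr 2
  funext a
  by_cases m : p a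
  · rw [Function.comp, glue_pos _ _ ((k a).1 m), glue_pos _ _ m, rename_X]
    exact congrArg X (Subtype.ext (hf ⟨a, m⟩).symm)
  · rw [Function.comp, glue_neg _ _ fun x => m ((k a).2 x), glue_neg _ _ m, rename_C]; rfl

/-- cuts of renamings -/
theorem Ren.cut {e : T.C ≃ T'.C} (h : T.Ren T' e) (p : T.C → Prop) (p' : T'.C → Prop)
    [DecidablePred p] [DecidablePred p'] (k : ∀ c, p c ↔ p' (e c)) :
    (T.cut p 0).Ren (T'.cut p' 0) (e.subtypeEquiv k) where
  lev c := h.lev c.1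
  K c c' := h.K c.1 c'.1
  Φ c := by
    have := glue_ren e p p' k (e.subtypeEquiv k) (fun _ => rfl) (T.Φ c.1)
    rw [← h.Φ] at this
    exact this

theorem Ren.lt {e : T.C ≃ T'.C} (h : T.Ren T' e) (l : ℕ) : (T.lt l).Ren (T'.lt l)
    (e.subtypeEquiv fun c => (by rw [h.lev] : T.lev c < l ↔ T'.lev (e c) < l)) := h.cut _ _ _

theorem Ren.trans {σ'' : Type} {T'' : TS σ''} {e : T.C ≃ T'.C} {e' : T'.C ≃ T''.C} (h : T.Ren T' e)
    (h' : T'.Ren T'' e') : T.Ren T'' (e.trans e') where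
  lev c := (h'.lev _).trans (h.lev c)
  K c c' := (h'.K _ _).trans (h.K c c')
  Φ c := by rw [Equiv.trans_apply, h'.Φ, h.Φ, rename_rename]; rfl

/-- exchange two conditions -/
def sw2 {C : Type} (p q : C → Prop) : {c : {c // q c} // p c.1} ≃ {c : {c // p c} // q c.1} where
  toFun c := ⟨⟨c.1.1, c.2⟩, c.1.2⟩
  invFun c := ⟨⟨c.1.1, c.2⟩, c.1.2⟩

theorem ren_cut_cut (T : TS σ) (p q : T.C → Prop) [DecidablePred p] [DecidablePred q] :
    ((T.cut q 0).cut (fun c : {c // q c} => p c.1) 0).Ren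
      ((T.cut p 0).cut (fun c : {c // p c} => q c.1) 0) (sw2 p q) where
  lev _ := rfl
  K _ _ := rfl
  Φ c := by
    have k : ∀ P : MvPolynomial T.C ℝ,
        aeval (glue (fun c : {c // p c} => q c.1) X fun _ => MvPolynomial.C ((0 : ℤ) : ℝ))
          (aeval (glue p X fun _ => MvPolynomial.C ((0 : ℤ) : ℝ)) P) = rename (sw2 p q)
        (aeval (glue (fun c : {c // q c} => p c.1) X fun _ => MvPolynomial.C ((0 : ℤ) : ℝ))
          (aeval (glue q X fun _ => MvPolynomial.C ((0 : ℤ) : ℝ)) P)) := fun P => by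
      rw [comp_aeval_apply, ren_aeval, comp_aeval_apply]
      congr 2
      funext a
      by_cases m : p a <;> by_cases n : q a <;> simp [glue, m, n, sw2]
    exact k _

/-- the double of a truncation -/
def dl2 (T : TS σ) (p : T.C → Prop) [DecidablePred p] (l : ℕ) :
    ((T.lt l).dbl fun c : {c // T.lev c < l} => p c.1).C ≃ ((T.dbl p).lt l).C where
  toFun := Sum.elim (fun c => ⟨.inl c.1, c.2⟩) fun c => ⟨.inr ⟨c.1.1, c.2⟩, c.1.2⟩
  invFun c := match c with
    | ⟨.inl c, h⟩ => .inl ⟨c, h⟩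
    | ⟨.inr c, h⟩ => .inr ⟨⟨c.1, h⟩, c.2⟩
  left_inv c := by rcases c with c | c <;> rfl
  right_inv c := by rcases c with ⟨c | c, h⟩ <;> rfl

theorem dl2_snd (T : TS σ) (p : T.C → Prop) [DecidablePred p] (l : ℕ) (c : (T.lt l).C) :
    (T.dl2 p l ((T.lt l).snd (fun c : {c // T.lev c < l} => p c.1) c)).1 = T.snd p c.1 := by
  by_cases n : p c.1
  · exact (congrArg (fun x => (T.dl2 p l x).1) (dif_pos n)).trans (snd_pos n).symm
  · exact (congrArg (fun x => (T.dl2 p l x).1) (dif_neg n)).trans (snd_neg ⟨c.1, n⟩).symm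

theorem cr_sub {C : Type} [Fintype C] [DecidableEq C] {K : Matrix C C ℝ} (hK : K.PosDef)
    (p q : C → Prop) [DecidablePred p] [DecidablePred q] (hs : ∀ c c', q c → ¬ q c' → K c c' = 0)
    (c c' : {c // q c}) :
    cr (fun c : {c // q c} => p c.1) (pp q K) c c' = cr p K c.1 c'.1 := by
  have hs' : ∀ c c', ¬ q c → q c' → K c c' = 0 := fun c c' a b => by
    rw [← tr_eq hK, transpose_apply, hs _ _ b a]
  have k := cr_mulVec (p := fun c : {c // q c} => p c.1) (pp q K) (Pi.single c' 1)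
  have k' := cr_mulVec (p := p) K (Pi.single c'.1 1)
  simp only [mulVec_single_one] at k k'
  refine (congrFun k c).trans (Eq.trans ?_ (congrFun k' c.1).symm)
  obtain ⟨x, hx⟩ : ∃ x, x = (pp (fun c : {c // q c} => p c.1) (pp q K))⁻¹ *ᵥ
    fun d : {c : {c // q c} // p c.1} => (pp q K).col c' d := ⟨_, rfl⟩
  have e1 : pp (fun c : {c // q c} => p c.1) (pp q K) *ᵥ x =
      fun d : {c : {c // q c} // p c.1} => (pp q K).col c' d := by
    rw [hx, mulVec_inv (pd_pp (pd_pp hK))]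
  have s : ∀ d : C, ∑ j : {c // p c}, K d j.1 * (if h : q j.1 then x ⟨⟨j.1, h⟩, j.2⟩ else 0) =
      ∑ j : {c : {c // q c} // p c.1}, K d j.1.1 * x j := fun d => by
    rw [sum_spl fun j : {c // p c} => q j.1, ← (sw2 p q).sum_comp]
    have : ∑ j : {j : {c // p c} // ¬ q j.1}, K d j.1.1 *
      (if h : q j.1.1 then x ⟨⟨j.1.1, h⟩, j.1.2⟩ else 0) = 0 :=
      sum_eq_zero fun j _ => by rw [dif_neg j.2, mul_zero]
    rw [this, add_zero]
    exact sum_congr rfl fun j _ => congrArg _ (dif_pos j.1.2)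
  have e2 : pp p K *ᵥ (fun j : {c // p c} => if h : q j.1 then x ⟨⟨j.1, h⟩, j.2⟩ else 0) =
      fun d : {c // p c} => K.col c'.1 d := funext fun d => by
    refine (s d.1).trans ?_
    by_cases m : q d.1
    · exact congrFun e1 ⟨⟨d.1, m⟩, d.2⟩
    · exact (sum_eq_zero fun j _ => by rw [hs' _ _ m j.1.2, zero_mul]).trans (hs' _ _ m c'.2).symm
  rw [← hx, ← e2, inv_mulVec (pd_pp hK)]
  exact (s c.1).symm

theorem Tri.ren_dbl_lt (h : T.Tri) (p : T.C → Prop) [DecidablePred p] (l : ℕ) :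
    ((T.lt l).dbl fun c : {c // T.lev c < l} => p c.1).Ren ((T.dbl p).lt l) (T.dl2 p l) where
  lev c := by rcases c with c | c <;> rfl
  K c c' := by
    have k := cr_sub h.pd p (fun c => T.lev c < l) (h.sep_lev (· < l))
    rcases c with c | c <;> rcases c' with c' | c'
    exacts [rfl, (k c c'.1).symm, (k c.1 c').symm, rfl]
  Φ c := by
    rcases c with c | c
    · have := glue_ren (α' := (T.dbl p).C) .inl (fun c => T.lev c < l)
        (fun c => (T.dbl p).lev c < l) (fun _ => Iff.rfl) (T.dl2 p l ∘ .inl) (fun _ => rfl) (T.Φ c.1)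
      refine Eq.trans this (Eq.symm ?_)
      exact rename_rename (R := ℝ) (σ := (T.lt l).C) Sum.inl (T.dl2 p l) ((T.lt l).Φ c)
    · have := glue_ren (α' := (T.dbl p).C) (T.snd p) (fun c => T.lev c < l)
        (fun c => (T.dbl p).lev c < l) (fun a => by rw [lev_snd])
        (T.dl2 p l ∘ (T.lt l).snd fun c : {c // T.lev c < l} => p c.1) (T.dl2_snd p l) (T.Φ c.1.1)
      refine Eq.trans this (Eq.symm ?_)
      exact rename_rename (R := ℝ) (σ := (T.lt l).C)
        ((T.lt l).snd fun c : {c // T.lev c < l} => p c.1) (T.dl2 p l) ((T.lt l).Φ c.1)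

/-- **Cauchy–Schwarz with renamed quotient and double** -/
theorem Tri.csR {p : T.C → Prop} [DecidablePred p] (h : T.Tri) (hp : T.Low p) {T0 : TS σ0}
    {T2 : TS σ2} {e0 : (T.cut p 0).C ≃ T0.C} {e2 : (T.dbl p).C ≃ T2.C} (r0 : (T.cut p 0).Ren T0 e0)
    (r2 : (T.dbl p).Ren T2 e2) {η : ℝ} (hη : η ≤ 1 / 8) (m0 : T0.Mas η) (m1 : T.Mas η)
    (m2 : T2.Mas η) {f g : (T.C → ℤ) → ℂ} (hf : ∀ a, ‖f a‖ ≤ 1) (hg : ∀ y, ‖g y‖ ≤ 1)
    (fp : ∀ y y', (∀ c, p c → y c = y' c) → f y = f y') :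
    ‖T.Ec fun y => f y * g y‖ ^ 2 ≤ 2 * (T2.Ec fun y => g (fun c => y (e2 (.inl c))) *
      (starRingEnd ℂ) (g fun c => y (e2 (T.snd p c)))).re := by
  have := h.csE hp hη (r0.mas.2 m0) m1 (r2.mas.2 m2) (f := fun a => f (glue p a 0))
    (fun a => hf _) hg
  rw [← r2.Ec] at this
  simpa only [fun y : T.C → ℤ => fp (glue p (fun c : {c // p c} => y c.1) 0) y
    fun c hc => glue_pos _ _ hc] using this

/-- **Cauchy–Schwarz on the levels `< l`** -/
theorem Tri.csL {p : T.C → Prop} [DecidablePred p] (h : T.Tri) (hp : T.Low p) {T0 : TS σ0}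
    {T2 : TS σ2} {e0 : (T.cut p 0).C ≃ T0.C} {e2 : (T.dbl p).C ≃ T2.C} (r0 : (T.cut p 0).Ren T0 e0)
    (r2 : (T.dbl p).Ren T2 e2) (l : ℕ) {η : ℝ} (hη : η ≤ 1 / 8) (m0 : (T0.lt l).Mas η)
    (m1 : (T.lt l).Mas η) (m2 : (T2.lt l).Mas η) {f g : (T.C → ℤ) → ℂ} (hf : ∀ a, ‖f a‖ ≤ 1)
    (hg : ∀ y, ‖g y‖ ≤ 1) (fp : ∀ y y', (∀ c, p c → y c = y' c) → f y = f y') :
    ‖T.Ecp (fun c => T.lev c < l) 0 fun y => f y * g y‖ ^ 2 ≤
      2 * (T2.Ecp (fun c => T2.lev c < l) 0 fun y => g (fun c => y (e2 (.inl c))) *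
        (starRingEnd ℂ) (g fun c => y (e2 (T.snd p c)))).re := by
  have := (h.lt l).csR (hp.cut (fun c => T.lev c < l) 0)
    ((T.ren_cut_cut p fun c => T.lev c < l).trans (r0.lt l)) ((h.ren_dbl_lt p l).trans (r2.lt l))
    hη m0 m1 m2 (f := fun y => f (glue (fun c => T.lev c < l) y 0))
    (g := fun y => g (glue (fun c => T.lev c < l) y 0)) (fun _ => hf _) (fun _ => hg _)
    fun y y' e => fp _ _ fun c hc => by
      by_cases m : T.lev c < l
      · exact (glue_pos (p := fun c => T.lev c < l) y 0 m).trans ((e ⟨c, m⟩ hc).trans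
          (glue_pos (p := fun c => T.lev c < l) y' 0 m).symm)
      · exact (glue_neg (p := fun c => T.lev c < l) y 0 m).trans
          (glue_neg (p := fun c => T.lev c < l) y' 0 m).symm
  refine this.trans_eq (congrArg (fun x : ℂ => 2 * x.re) (congrArg (T2.lt l).Ec (funext fun y => ?_)))
  have k : ∀ (j : T.C → (T.dbl p).C) (j' : (T.lt l).C → _), (∀ c, (T.dbl p).lev (j c) = T.lev c) →
      (∀ c, (T.dl2 p l (j' c)).1 = j c.1) →
      glue (fun c => T.lev c < l) (fun c => y (((T.dl2 p l).trans (e2.subtypeEquiv fun c =>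
        (by rw [r2.lev] : (T.dbl p).lev c < l ↔ T2.lev (e2 c) < l))) (j' c))) 0 =
      fun c => glue (fun c => T2.lev c < l) y 0 (e2 (j c)) := fun j j' a b => funext fun c => by
    by_cases m : T.lev c < l
    · exact (dif_pos m).trans ((congrArg y (Subtype.ext (congrArg e2 (b ⟨c, m⟩)))).trans
        (glue_pos (p := fun c => T2.lev c < l) y 0 (((r2.lev _).trans (a c)).trans_lt m)).symm)
    · exact (dif_neg m).trans (glue_neg (p := fun c => T2.lev c < l) y 0
        fun x => m (((r2.lev _).trans (a c)).symm.trans_lt x)).symm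
  exact congrArg₂ (fun a b => g a * (starRingEnd ℂ) (g b)) (k .inl .inl (fun _ => rfl) fun _ => rfl)
    (k (T.snd p) _ lev_snd (T.dl2_snd p l))

end TS

end Crest.Agent.N49.Tw

end
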