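import Crest.Agent.N49.Po.Mix

/-!
# Row 49 (helper9): typed structures, Gibbs laws, shapes (FROZEN definitions)

A typed structure `T : TS σ` has integer coordinates `y : T.C → ℤ`, a multi-degree `deg c` in the
letters `σ`, errors `u c = Φ c (y)` (`Φ c` of weighted degree `≤ lev c`, invertible linear part `A`;
`Ok` = multi-homogeneous of degree `deg c`) and a covariance `K`; the weight is `exp (-π uᵀ K⁻¹ u)`.  A point tower is a `TS Unit`.
-/

set_option autoImplicit false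

open Matrix MvPolynomial Finset

noncomputable section

namespace Crest.Agent.N49.Tw

open Po

/-- typed structures -/
structure TS (σ : Type) where
  C : Type
  [fin : Fintype C]
  [dec : DecidableEq C]
  deg : C → σ →₀ ℕ
  Φ : C → MvPolynomial C ℝ
  K : Matrix C C ℝ

attribute [instance] TS.fin TS.dec

/-- active coordinates `y`, the others from `b` -/
def glue {C R : Type} (p : C → Prop) [DecidablePred p] (y : {c // p c} → R) (b : C → R) : C → R :=
  fun c => if h : p c then y ⟨c, h⟩ else b c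

/-- down-closed sets of words -/
def Dn {τ : Type} (W : Finset (τ →₀ ℕ)) : Prop := ∀ μ ∈ W, ∀ ν, ν ≤ μ → ν ∈ W

/-- all the words of length at most `s` -/
def full (τ : Type) [Fintype τ] [DecidableEq τ] (s : ℕ) : Finset (τ →₀ ℕ) :=
  (range (s + 1)).biUnion fun l => finsuppAntidiag univ l

/-- words without a repeated letter -/
def sqf (τ : Type) [Fintype τ] [DecidableEq τ] (s : ℕ) : Finset (τ →₀ ℕ) :=
  (full τ s).filter fun μ => ∀ a, μ a ≤ 1

/-- kernels on words: symmetric, graded by the length, spectrum in `[a, b]` -/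
structure KB {τ : Type} (W : Finset (τ →₀ ℕ)) (Kw : (τ →₀ ℕ) → (τ →₀ ℕ) → ℝ) (a b : ℝ) : Prop where
  sym : ∀ μ ν, Kw μ ν = Kw ν μ
  blk : ∀ μ ∈ W, ∀ ν ∈ W, Kw μ ν ≠ 0 → μ.degree = ν.degree
  lo : ∀ x : (τ →₀ ℕ) → ℝ, a * ∑ μ ∈ W, x μ ^ 2 ≤ ∑ μ ∈ W, ∑ ν ∈ W, x μ * Kw μ ν * x ν
  hi : ∀ x : (τ →₀ ℕ) → ℝ, ∑ μ ∈ W, ∑ ν ∈ W, x μ * Kw μ ν * x ν ≤ b * ∑ μ ∈ W, x μ ^ 2

/-- diagonal kernels -/
def dk {τ : Type} [DecidableEq τ] (v : (τ →₀ ℕ) → ℝ) : (τ →₀ ℕ) → (τ →₀ ℕ) → ℝ :=
  fun μ ν => if μ = ν then v μ else 0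

/-- the substitution `t a = ∑ φ a a' t' a'` -/
def lsub {τ τ' R : Type} [Fintype τ'] [CommRing R] (φ : τ → τ' → ℤ) :
    MvPolynomial τ R →ₐ[R] MvPolynomial τ' R := aeval fun a => ∑ a', φ a a' • X a'

/-- its matrix on the words: the coefficient of `t' ^ ν` in `t ^ μ` -/
def smat {τ τ' : Type} [Fintype τ'] (φ : τ → τ' → ℤ) (ν : τ' →₀ ℕ) (μ : τ →₀ ℕ) : ℤ :=
  coeff ν (lsub φ (monomial μ 1))

/-- the kernel pushed along a substitution -/
def kpush {τ τ' : Type} [Fintype τ'] (φ : τ → τ' → ℤ) (W : Finset (τ →₀ ℕ))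
    (Kw : (τ →₀ ℕ) → (τ →₀ ℕ) → ℝ) : (τ' →₀ ℕ) → (τ' →₀ ℕ) → ℝ :=
  fun ν ν' => ∑ μ ∈ W, ∑ μ' ∈ W, smat φ ν μ * Kw μ μ' * smat φ ν' μ'

namespace TS

variable {σ σ' : Type} (T : TS σ)

/-- the level -/
def lev (c : T.C) : ℕ := (T.deg c).degree
/-- the linear part inside the levels -/
def A : Matrix T.C T.C ℝ :=
  Matrix.of fun c c' => if T.lev c = T.lev c' then coeff (Finsupp.single c' 1) (T.Φ c) else 0
/-- the errors -/
def u (y : T.C → ℝ) : T.C → ℝ := fun c => eval y (T.Φ c)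

/-- triangular (possibly inhomogeneous) structures -/
structure Tri : Prop where
  tri : ∀ c, ∀ m ∈ (T.Φ c).support, Finsupp.weight T.lev m ≤ T.lev c
  ne : ∀ c, T.deg c ≠ 0
  det : T.A.det ≠ 0
  pd : T.K.PosDef
  blk : ∀ c c', T.K c c' ≠ 0 → T.lev c = T.lev c'

/-- homogeneity in the letters `p` -/
def Hom (p : σ → Prop) [DecidablePred p] : Prop :=
  ∀ c, (T.Φ c).IsWeightedHomogeneous (fun c => (T.deg c).filter p) ((T.deg c).filter p)

/-- homogeneous structures -/
structure Ok : Prop extends T.Tri where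
  hom : ∀ c, (T.Φ c).IsWeightedHomogeneous T.deg (T.deg c)

/-- `Φ F (y)` homogenised by `e` -/
def hz {R : Type} [CommRing R] [Algebra ℝ R] (e : R) (y : T.C → R) (F : T.C) : R :=
  ∑ m ∈ (T.Φ F).support,
    e ^ (T.lev F - Finsupp.weight T.lev m) * aeval y (monomial m (coeff m (T.Φ F)))

/-- the Gibbs weight -/
def wt (y : T.C → ℤ) : ℝ := gs T.K⁻¹ (T.u (zc y))
/-- unnormalised sums -/
def S (g : (T.C → ℤ) → ℝ) : ℝ := ∑' y, T.wt y * g y
/-- unnormalised complex sums -/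
def Sc (g : (T.C → ℤ) → ℂ) : ℂ := ∑' y, (T.wt y : ℂ) * g y
/-- the partition function -/
def Z : ℝ := ∑' y, T.wt y
/-- expectation -/
def E (g : (T.C → ℤ) → ℝ) : ℝ := T.S g / T.Z
/-- complex expectation -/
def Ec (g : (T.C → ℤ) → ℂ) : ℂ := T.Sc g / T.Z
/-- probability -/
def P (s : Set (T.C → ℤ)) : ℝ := T.E (s.indicator 1)
/-- the dual form: `qf T.D (zc k)` is the squared dual norm of the frequency `k` -/
def D : Matrix T.C T.C ℝ := T.A⁻¹ * T.K * T.A⁻¹ᵀ
/-- the centres: `wt y = gs D⁻¹ (y - th y)`, `th y c` depends on the levels `< lev c` -/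
def th (y : T.C → ℝ) : T.C → ℝ := y - T.A⁻¹ *ᵥ T.u y
/-- the continuous partition function -/
def Zc : ℝ := dt T.D⁻¹
/-- the phase of a frequency -/
def ph (k y : T.C → ℤ) : ℂ := ee (zc k ⬝ᵥ T.th (zc y))

/-- keep the coordinates `p`, substitute `b` for the others -/
def cut (p : T.C → Prop) [DecidablePred p] (b : T.C → ℤ) : TS σ where
  C := {c // p c}
  deg c := T.deg c.1
  Φ c := aeval (glue p X fun c' => MvPolynomial.C (b c' : ℝ)) (T.Φ c.1)
  K := T.K.submatrix Subtype.val Subtype.val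

/-- expectation with the coordinates outside `p` frozen at `b` -/
def Ep (p : T.C → Prop) [DecidablePred p] (b : T.C → ℤ) (g : (T.C → ℤ) → ℝ) : ℝ :=
  (T.cut p b).E fun y => g (glue p y b)
/-- complex version -/
def Ecp (p : T.C → Prop) [DecidablePred p] (b : T.C → ℤ) (g : (T.C → ℤ) → ℂ) : ℂ :=
  (T.cut p b).Ec fun y => g (glue p y b)

/-- the levels `< l` -/
def lt (l : ℕ) : TS σ := T.cut (fun c => T.lev c < l) 0
/-- the bias of a frequency (of level `l`) on the levels `< l` -/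
def bias (l : ℕ) (k : T.C → ℤ) : ℝ := ‖T.Ecp (fun c => T.lev c < l) 0 (T.ph k)‖
/-- the number of coordinates of level `l` -/
def R (l : ℕ) : ℕ := #{c | T.lev c = l}
/-- the dual theta function of level `l` (`= exp C_l`) -/
def ct (l : ℕ) : ℝ :=
  Po.th (T.D.submatrix (Subtype.val : {c // T.lev c = l} → T.C) Subtype.val) 0
/-- the primal theta function of level `l` -/
def pt0 (l : ℕ) : ℝ :=
  Po.th (T.D.submatrix (Subtype.val : {c // T.lev c = l} → T.C) Subtype.val)⁻¹ 0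

/-- change of the grading -/
def regr (f : (σ →₀ ℕ) → σ' →₀ ℕ) : TS σ' where
  C := T.C
  deg c := f (T.deg c)
  Φ := T.Φ
  K := T.K
/-- identify colours -/
def recol (f : σ → σ') : TS σ' := T.regr (Finsupp.mapDomain f)
/-- the letters outside `p` become background with values `b` (tangent structure) -/
def fix (p : σ → Prop) [DecidablePred p] (b : T.C → ℤ) : TS σ :=
  (T.cut (fun c => ∃ a ∈ (T.deg c).support, p a) b).regr (Finsupp.filter p)
/-- a new covariance -/
def setK (K : Matrix T.C T.C ℝ) : TS σ where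
  C := T.C
  deg := T.deg
  Φ := T.Φ
  K := K
/-- multiply the width of level `l` by `κ l` -/
def shr (κ : ℕ → ℝ) : TS σ := T.setK (Matrix.of fun c c' => κ (T.lev c) * T.K c c' * κ (T.lev c'))
/-- the covariance does not couple `p` and its complement -/
def Sep (p : T.C → Prop) : Prop := ∀ c c', p c → ¬ p c' → T.K c c' = 0
/-- the errors on `p` depend on the coordinates in `p` only -/
def Low (p : T.C → Prop) : Prop := ∀ c, p c → ∀ c' ∈ (T.Φ c).vars, p c'

/-- the covariance of two clones that are independent given `p` -/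
def crs (p : T.C → Prop) [DecidablePred p] : Matrix T.C T.C ℝ :=
  T.K.submatrix id (Subtype.val : {c // p c} → T.C) *
    (T.K.submatrix (Subtype.val : {c // p c} → T.C) (Subtype.val : {c // p c} → T.C))⁻¹ *
    T.K.submatrix (Subtype.val : {c // p c} → T.C) id
/-- the second copy -/
def snd (p : T.C → Prop) [DecidablePred p] (c : T.C) : T.C ⊕ {c // ¬ p c} :=
  if h : p c then .inl c else .inr ⟨c, h⟩
/-- clone the coordinates outside `p` -/
def dbl (p : T.C → Prop) [DecidablePred p] : TS σ where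
  C := T.C ⊕ {c // ¬ p c}
  deg := Sum.elim T.deg fun c => T.deg c.1
  Φ := Sum.elim (fun c => rename .inl (T.Φ c)) fun c => rename (T.snd p) (T.Φ c.1)
  K := Matrix.fromBlocks T.K ((T.crs p).submatrix id Subtype.val)
    ((T.crs p).submatrix Subtype.val id) (T.K.submatrix Subtype.val Subtype.val)

/-- same weights -/
def Eqv (T' : TS σ') (U : (T.C → ℤ) ≃ (T'.C → ℤ)) : Prop := ∀ y, T'.wt (U y) = T.wt y
/-- the image of the law of `T` under `f` is `η`-close to the law of `T'` -/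
def Push (T' : TS σ') (f : (T.C → ℤ) → T'.C → ℤ) (η : ℝ) : Prop :=
  ∀ g : (T'.C → ℤ) → ℝ, (∀ y, |g y| ≤ 1) → |T.E (fun y => g (f y)) - T'.E g| ≤ η
/-- the Master estimate -/
def Mas (η : ℝ) : Prop := |T.Z - T.Zc| ≤ η * T.Zc
/-- the polynomial `P` is trivial: integral `/ q` plus a bounded form in the errors -/
def Triv (q : ℕ) (r : ℝ) (P : MvPolynomial T.C ℝ) : Prop :=
  ∃ (I : MvPolynomial T.C ℤ) (g : MvPolynomial T.C ℝ),
    P = (q : ℝ)⁻¹ • MvPolynomial.map (Int.castRingHom ℝ) I + aeval T.Φ g ∧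
      ∑ m ∈ g.support, coeff m g ^ 2 ≤ r ^ 2

section shape
variable [DecidableEq σ] {τ τ' : Type} [DecidableEq τ] (col : τ → σ) (W : Finset (τ →₀ ℕ))

/-- the coordinates of a shape: a family and a word of its degree -/
abbrev Wd : Type := {p : T.C × W // p.2.1.mapDomain col = T.deg p.1}

/-- the polynomial of the family `F` -/
def Yp {R : Type} [CommSemiring R] (y : T.Wd col W → R) (F : T.C) : MvPolynomial τ R :=
  ∑ p : T.Wd col W with p.1.1 = F, monomial p.1.2.1 (y p)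

/-- the law on a shape: Taylor coefficients; `ε` is the mass of the letters (points have mass `1`;
`ε = 0` gives the symbol law; irrelevant for homogeneous `T`) -/
def shape [Fintype τ] (ε : τ → ℤ) (Kw : (τ →₀ ℕ) → (τ →₀ ℕ) → ℝ) : TS τ where
  C := T.Wd col W
  deg p := p.1.2.1
  Φ p := coeff p.1.2.1 (T.hz (∑ a, ε a • X a) (T.Yp col W (X (R := ℝ))) p.1.1)
  K := Matrix.of fun p p' => T.K p.1.1 p'.1.1 * Kw p.1.2.1 p'.1.2.1

/-- the point `t` of a configuration -/
def pt (y : T.Wd col W → ℤ) (t : τ → ℤ) : T.C → ℤ := fun F => eval t (T.Yp col W y F)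

/-- the configuration pulled back along a substitution -/
def sb [Fintype τ'] (col' : τ' → σ) (W' : Finset (τ' →₀ ℕ)) (φ : τ → τ' → ℤ)
    (y : T.Wd col W → ℤ) : T.Wd col' W' → ℤ :=
  fun p => coeff p.1.2.1 (lsub φ (T.Yp col W y p.1.1))

end shape

end TS

/-- a substitution that respects the colours and the words -/
structure Cmp {σ τ τ' : Type} [Fintype τ] [Fintype τ'] (col : τ → σ) (W : Finset (τ →₀ ℕ))
    (ε : τ → ℤ) (col' : τ' → σ) (W' : Finset (τ' →₀ ℕ)) (ε' : τ' → ℤ) (φ : τ → τ' → ℤ) : Prop where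
  col : ∀ a a', φ a a' ≠ 0 → col a = col' a'
  wd : ∀ ν ∈ W', ∀ μ, smat φ ν μ ≠ 0 → μ ∈ W
  mass : ∀ a', ∑ a, ε a * φ a a' = ε' a'

/-- containers: a point tower, a linear map to `ℤ` on level `1`, a centre -/
structure Ctr where
  T : TS Unit
  π : T.C → ℤ
  c : ℤ

/-- the integer attached to a point -/
def Ctr.x (V : Ctr) (y : V.T.C → ℤ) : ℤ := V.c + V.π ⬝ᵥ y
/-- well-formed containers with levels `≤ s` -/
def Ctr.Ok (V : Ctr) (s : ℕ) : Prop :=
  V.T.Tri ∧ (∀ F, V.T.lev F ≤ s) ∧ ∀ F, V.π F ≠ 0 → V.T.lev F = 1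
/-- the density of a set -/
def Ctr.den (V : Ctr) (A : Set ℤ) : ℝ := V.T.P {y | V.x y ∈ A}

end Crest.Agent.N49.Tw

end
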