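import Crest.Agent.N49.Tw.Mh1

/-! # Row 49 (helper29): a split surjection is a quotient by words after a change of basis -/

set_option autoImplicit false

open Matrix MvPolynomial Finset

noncomputable section

namespace Crest.Agent.N49.Tw.Mh

open Po

variable {σ τ τ' τ'' : Type} {S : Sh σ τ} {S' : Sh σ τ'} {S'' : Sh σ τ''} {s : ℕ}

theorem row_congr {m n o R : Type} [Fintype n] [Semiring R] {A : Matrix m n R}
    {M M' : Matrix n o R} {i : m} {z : o} (h : ∀ j, A i j ≠ 0 → M j z = M' j z) :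
    (A * M) i z = (A * M') i z := by
  rw [mul_apply, mul_apply]
  refine sum_congr rfl fun j _ => ?_
  by_cases e : A i j = 0
  · rw [e, zero_mul, zero_mul]
  · rw [h j e]

theorem rl_ne {m n : Type} {A : Matrix m n ℤ} {i : m} {j : n} (e : rl A i j ≠ 0) : A i j ≠ 0 := by
  simpa [rl] using e

theorem Iso.trans {φ : Matrix S'.W S.W ℤ} {ψ : Matrix S.W S'.W ℤ} {φ' : Matrix S''.W S'.W ℤ}
    {ψ' : Matrix S'.W S''.W ℤ} (h : Iso s S S' φ ψ) (h' : Iso s S' S'' φ' ψ') :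
    Iso s S S'' (φ' * φ) (ψ * ψ') where
  ok := h.ok
  ok' := h'.ok'
  hm := hm_comp h.ok h.ok' h'.ok' h.hm h'.hm
  cd w x e := by
    obtain ⟨w', -, e⟩ := exists_ne_zero_of_sum_ne_zero (show ∑ w', ψ w w' * ψ' w' x ≠ 0 from e)
    rw [h.cd w w' (left_ne_zero_of_mul e), h'.cd w' x (right_ne_zero_of_mul e)]
  l w w2 d := by
    rw [← h.l w w2 d, Matrix.mul_assoc]
    refine row_congr fun j e => ?_
    rw [← Matrix.mul_assoc, mul_apply, sum_congr rfl fun k _ => by
      rw [h'.l j k (dg_eq (h.cd w j e) ▸ d)], ← mul_apply, Matrix.one_mul]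
  r w w2 d := by
    rw [← h'.r w w2 d, Matrix.mul_assoc]
    refine row_congr fun j e => ?_
    rw [← Matrix.mul_assoc, mul_apply, sum_congr rfl fun k _ => by
      rw [h.r j k (dg_eq (h'.hm.cd w j e) ▸ d)], ← mul_apply, Matrix.one_mul]
  K w w2 d d2 := by
    rw [h'.K w w2 d d2, rl_mul, transpose_mul]
    simp only [Matrix.mul_assoc]
    refine row_congr fun j e => ?_
    simp only [← Matrix.mul_assoc]
    rw [mul_apply, mul_apply]
    refine sum_congr rfl fun k _ => ?_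
    by_cases e2 : rl φ' w2 k = 0
    · rw [transpose_apply, e2, mul_zero, mul_zero]
    · rw [h.K j k (dg_eq (h'.hm.cd w j (rl_ne e)) ▸ d) (dg_eq (h'.hm.cd w2 k (rl_ne e2)) ▸ d2)]

/-- the matrix of a map of words -/
def emb {X W : Type} [DecidableEq W] (e : X → W) : Matrix X W ℤ :=
  Matrix.of fun x w => if w = e x then 1 else 0

theorem emb_mul {X W Z : Type} [Fintype W] [DecidableEq W] (e : X → W) (M : Matrix W Z ℤ) (x : X)
    (z : Z) : (emb e * M) x z = M (e x) z := by simp [emb, mul_apply]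

theorem iso_emb (h : S.Ok) (h' : S'.Ok) {e : S'.W → S.W} (he : Function.Injective e)
    (hs : ∀ w, S.dg w ≤ s → ∃ x, e x = w) (H : S.Hm S' (emb e))
    (K : ∀ x x2, S'.K x x2 = S.K (e x) (e x2)) : Iso s S S' (emb e) (emb e)ᵀ where
  ok := h
  ok' := h'
  hm := H
  cd w x z := (H.cd x w z).symm
  l w w2 d := by
    obtain ⟨x, rfl⟩ := hs w d
    rw [mul_apply, sum_eq_single x (fun y _ z => by simp [emb, he.eq_iff, z.symm]) (by simp)]
    simp [emb, one_apply, eq_comm]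
  r x x2 _ := by rw [emb_mul]; simp [emb, he.eq_iff, one_apply]
  K x x2 _ _ := by rw [K]; simp [emb, rl, mul_apply]

theorem iso_sub (h : S.Ok) (s : ℕ) : Iso s S (S.sub fun w => S.dg w ≤ s)
    (S.prj fun w => S.dg w ≤ s) (S.prj fun w => S.dg w ≤ s)ᵀ :=
  iso_emb (S' := S.sub fun w => S.dg w ≤ s) h (sub_ok h (idl_le h s)) Subtype.val_injective
    (fun w d => ⟨⟨w, d⟩, rfl⟩) (hm_sub (idl_le h s)) fun _ _ => rfl

/-- the shape `S` in another basis, typed by the colours -/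
@[reducible] def bcs (S : Sh σ τ) {J : Type} [Fintype J] [DecidableEq J] (ty : J → σ →₀ ℕ)
    (U : Matrix S.W J ℤ) (V : Matrix J S.W ℤ) : Sh σ σ where
  W := J
  col := id
  ty := ty
  r j m := ∑ w, V j w * S.cf ℤ w (pu ℤ U (monomial m 1))
  ε := V *ᵥ S.ε
  K := rl V * S.K * (rl V)ᵀ

variable {J : Type} [Fintype J] [DecidableEq J] {n : ℕ} {a : ℝ} {φ : Matrix S'.W S.W ℤ}
  {ψ : Matrix S.W S'.W ℤ} {N : Matrix S.W J ℤ} {Q : Matrix J S.W ℤ} {cj : J → σ →₀ ℕ}

theorem core (hS : S.Sz n a) (H : Spw S s S' n φ ψ N Q cj) : ∃ (B : Sh σ σ) (p : B.W → Prop)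
    (_ : DecidablePred p) (φ1 : Matrix B.W S.W ℤ) (ψ1 : Matrix S.W B.W ℤ)
    (φ2 : Matrix (B.sub p).W S'.W ℤ) (ψ2 : Matrix S'.W (B.sub p).W ℤ),
    B.Sz ((n + 1) ^ (2 * s + 3)) (a / (n + 1) ^ 4) ∧ B.Idl p ∧ B.Gen p ∧ Iso s S B φ1 ψ1 ∧
      Iso s S' (B.sub p) φ2 ψ2 ∧ φ2 * φ = B.prj p * φ1 := by
  have o := hS.toOk
  let B := bcs S (Sum.elim S'.cd cj) (fromCols ψ N) (fromRows φ Q)
  have cB : ∀ j, B.cd j = Sum.elim S'.cd cj j := fun j => Finsupp.mapDomain_id
  have hB : Bc S B (fromCols ψ N) (fromRows φ Q) := by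
    refine ⟨fun _ _ => rfl, rfl, rfl, (fromCols_mul_fromRows _ _ _ _).trans H.one, ?_, ?_⟩
    · rw [fromRows_mul_fromCols, H.φψ, H.φN, H.Qψ, H.QN, fromBlocks_one]
    · rintro w (j | j) e <;> rw [cB]
      · exact e.elim (H.cψ w j) fun z => (H.hm.cd j w z).symm
      · exact H.cN w j e
  have oB := hB.ok o
  have hU : ∀ w j, |fromCols ψ N w j| ≤ n := by rintro w (j | j); exacts [H.hψ w j, H.hN w j]
  have hV : ∀ j w, |fromRows φ Q j w| ≤ n := by rintro (j | j) w; exacts [H.hφ j w, H.hQ j w]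
  have iB : B.Idl fun j => j.isLeft := by
    rintro (w' | j) m hw e (w2 | j2) hm
    · rfl
    · refine (e ?_).elim
      have := hm_cf o H.ok H.hm w' (pu ℤ (fromCols ψ N) (monomial m 1))
      rw [pu_pu, pu_mon (φ * _), prod_eq_zero hm, map_zero] at this
      · exact this
      · rw [sum_eq_zero fun b _ => ?_, zero_pow (Finsupp.mem_support_iff.1 hm)]
        rw [mul_fromCols, fromCols_apply_inr, H.φN, Matrix.zero_apply, zero_smul]
    · rfl
    · simp at hw
  have gB : ∀ κ : B.W → ℤ, (∀ w : B.W, w.isLeft → κ w = 0) → ∀ w, κ w ≠ 0 → B.dg w ≤ s →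
      ∃ (l : ℕ) (lam : Fin (l + 1) → B.W), l + 1 = B.dg w ∧ (∀ i, B.dg (lam i) = 1) ∧
        ¬ (lam 0).isLeft ∧ ∑ w', κ w' * B.r w' (∑ i, Finsupp.single (lam i) 1) ≠ 0 := by
    rintro κ hκ (w | j) hj d
    · exact (hj (hκ _ rfl)).elim
    obtain ⟨l, j0, lam, e1, e2, e3, e4⟩ := H.gen (fun j => κ (.inr j)) j hj d
    have k : κ ᵥ* fromRows φ Q = (fun j => κ (.inr j)) ᵥ* Q := by
      ext w
      refine (Fintype.sum_sum_type fun x : S'.W ⊕ J => κ x * fromRows φ Q x w).trans ?_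
      simp [vecMul, dotProduct, fun x => hκ (.inl x) rfl]
    obtain ⟨mu, m1, m2⟩ := hB.expand κ (X (.inr j0)) lam (by
      rw [k, pu_X]
      simp only [sum_mul, map_sum, smul_mul_assoc, map_zsmul, ← mon_sum]
      simpa only [X, monomial_mul, mul_one, cf_mon1, smul_eq_mul, fromCols_apply_inr] using e4)
    refine ⟨l, Fin.cons (.inr j0) mu, e1, fun i => ?_, by simp, ?_⟩
    · refine Fin.cases e2 (fun i => ?_) i
      rw [Fin.cons_succ, m1, e3]
    · simpa only [← cf_mon1, mon_sum, Fin.prod_univ_succ, Fin.cons_zero, Fin.cons_succ] using m2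
  have iq := idl_le oB s
  let B1 := B.sub fun w => B.dg w ≤ s
  have o1 : B1.Ok := sub_ok oB iq
  have i1 : B1.Idl fun x => x.1.isLeft := sub_idl iB
  have I1 := (hB.iso o s).trans (iso_sub oB s)
  let B2 := B1.sub fun x => x.1.isLeft
  have o2 : B2.Ok := sub_ok o1 i1
  let e : B2.W → S'.W := fun x => x.1.1.getLeft x.2
  have he : ∀ x : B2.W, x.1.1 = .inl (e x) := fun x => (Sum.inl_getLeft _ _).symm
  have hφ : emb e * φ = B1.prj (fun x => x.1.isLeft) * (B.prj (fun w => B.dg w ≤ s) *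
      fromRows φ Q) := by
    ext x w
    rw [emb_mul, prj_mul, prj_mul, he]; rfl
  have cN : (Fintype.card B1.W) ≤ n :=
    (Fintype.card_subtype_le _).trans ((card_le hB.VU).trans hS.card)
  refine ⟨B1, fun x => x.1.isLeft, inferInstance, _, _, emb e, (emb e)ᵀ,
    ⟨o1, cN.trans ?_, fun x m => (hB.ht hS hU hV x.1 _).trans ?_, fun x => ?_,
      sub_gen fun κ hκ w hw _ => hB.gen hS.gen κ hκ w hw⟩, i1, sub_gen gB, I1,
    iso_emb H.ok o2 (fun x y z => Subtype.ext (Subtype.ext (by rw [he, he, z])))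
      (fun w d => ⟨⟨⟨.inl w, (dg_cd S' w).trans_le d⟩, rfl⟩, rfl⟩)
      (hm_desc o H.ok o2 H.hm (hφ ▸ hm_comp o o1 o2 I1.hm (hm_sub i1)) H.φψ fun x w z => ?_)
      fun x y => ?_, hφ⟩
  · exact (Nat.le_succ n).trans (Nat.le_self_pow (by omega) _)
  · push_cast
    exact pow_le_pow_right₀ (by omega) (by have := x.2; omega)
  · have := hB.lo hS hU fun j => if h : B.dg j ≤ s then x ⟨j, h⟩ else 0
    have sb : ∀ f : B.W → ℝ, (∀ j, ¬ B.dg j ≤ s → f j = 0) → ∑ j, f j = ∑ y : B1.W, f y.1 :=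
      fun f hf => by
        rw [← sum_filter_of_ne (p := fun w => B.dg w ≤ s) fun j _ z => of_not_not fun y => z (hf j y)]
        exact sum_subtype (p := fun w => B.dg w ≤ s) _ (by simp) _
    rw [sb _ fun j z => by simp [z], qf, dotProduct, sb _ fun j z => by simp [z]] at this
    refine le_of_eq_of_le (congrArg _ (sum_congr rfl fun y _ => by rw [dif_pos y.2]; rfl))
      (this.trans_eq (sum_congr rfl fun y _ => ?_))
    rw [dif_pos y.2, mulVec, dotProduct, sb _ fun j z => by simp [z]]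
    exact congrArg _ (sum_congr rfl fun y' _ => by rw [dif_pos y'.2]; rfl)
  · have : w = e x := by by_contra y; simp [emb, y] at z
    rw [this]
    exact (cB x.1.1).trans (by rw [he]; rfl)
  · change (rl (fromRows φ Q) * S.K * (rl (fromRows φ Q))ᵀ) x.1.1 y.1.1 = _
    rw [he x, he y, H.K]; rfl

/-- the frozen form of a split surjection: the degenerate cases -/
theorem spl_cases (hS : S.Sz n a) (H : S.Spl S' n φ ψ N Q cj) (s : ℕ) :
    Iso s S S' φ ψ ∨ Spw S s S' n φ ψ N Q cj ∨ Spw S s S' n φ ψ 1 1 S.cd := by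
  rcases isEmpty_or_nonempty J with hJ | ⟨⟨j0⟩⟩
  · have : ψ * φ = 1 := by rw [← H.one]; ext; simp [mul_apply]
    exact .inl ⟨hS.toOk, H.ok, H.hm, H.cψ, fun _ _ _ => by rw [this], fun _ _ _ => by rw [H.φψ],
      fun _ _ _ _ => by rw [H.K]⟩
  rcases isEmpty_or_nonempty S'.W with hW | ⟨⟨w0⟩⟩
  · have b : ∀ w j : S.W, |(1 : Matrix S.W S.W ℤ) w j| ≤ n := fun w j => by
      have := hS.card
      have := Fintype.card_pos_iff.2 ⟨w⟩
      rw [one_apply]; split_ifs <;> simp; omega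
    refine .inr (.inr ⟨H.ok, H.hm, H.K, H.φψ, by ext w; exact hW.elim w, Matrix.one_mul _,
      by ext _ w; exact hW.elim w, by ext; simp [mul_apply, one_apply], H.cψ, fun w j e => ?_,
      fun _ w => hW.elim w, fun w => hW.elim w, b, b, fun κ j hj _ => ?_⟩)
    · have : w = j := by by_contra z; simp [one_apply, z, Ne.symm z] at e
      rw [this]
    · obtain ⟨l, lam, e1, e2, -, e4⟩ := hS.gen κ (fun _ z => z.elim) j hj
      refine ⟨l, lam 0, fun i => lam i.succ, e1.trans (dg_cd S j).symm, (dg_cd S _).trans (e2 0),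
        fun i => e2 _, ?_⟩
      simpa [one_apply, Fin.sum_univ_succ] using e4
  · exact .inr (.inl ⟨H.ok, H.hm, H.K, H.φψ, H.φN, H.QN, H.Qψ, H.one, H.cψ, H.cN,
      fun w w' => (H.ht w w' j0).1, fun w' w => (H.ht w w' j0).2.1,
      fun w j => (H.ht w w0 j).2.2.1, fun j w => (H.ht w w0 j).2.2.2, fun κ j h _ => H.gen κ j h⟩)

end Crest.Agent.N49.Tw.Mh

end
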