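import Crest.Agent.N49.Tw.Defs

/-!
# Row 49 (helper32): the second moment argument and the determinant of a cloned covariance
-/

set_option autoImplicit false

open Matrix Finset

noncomputable section

namespace Crest.Agent.N49.Tw

namespace Mp

/-- second moments control the fibre sums in `L¹` -/
theorem l1 {X : Type*} {w F : X → ℝ} (w0 : ∀ x, 0 ≤ w x) (s0 : Summable w)
    (s1 : Summable fun x => w x * F x) (s2 : Summable fun x => w x * F x ^ 2) {κ c η : ℝ}
    (hκ : 0 < κ) (hη : 0 < η) (h0 : ∑' x, w x ≤ (1 + η) * c)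
    (h1 : (1 - η) * (κ * c) ≤ ∑' x, w x * F x) (h2 : ∑' x, w x * F x ^ 2 ≤ (1 + η) * (κ ^ 2 * c)) :
    (Summable fun x => w x * |F x - κ|) ∧ ∑' x, w x * |F x - κ| ≤ (2 + η) * √η * (κ * c) := by
  have hs : 0 < √η := Real.sqrt_pos.2 hη
  have hq : √η * √η = η := Real.mul_self_sqrt hη.le
  set t := 2 * κ * √η with ht
  have t0 : 0 < t := by positivity
  have hb : HasSum (fun x => (w x * F x ^ 2 - 2 * κ * (w x * F x) + κ ^ 2 * w x) / (2 * t) +
      t / 2 * w x) (((∑' x, w x * F x ^ 2) - 2 * κ * (∑' x, w x * F x) + κ ^ 2 * ∑' x, w x) /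
        (2 * t) + t / 2 * ∑' x, w x) :=
    (((s2.hasSum.sub (s1.hasSum.mul_left _)).add (s0.hasSum.mul_left _)).div_const _).add
      (s0.hasSum.mul_left _)
  have hp : ∀ x, w x * |F x - κ| ≤
      (w x * F x ^ 2 - 2 * κ * (w x * F x) + κ ^ 2 * w x) / (2 * t) + t / 2 * w x := fun x => by
    have a : |F x - κ| ≤ (F x - κ) ^ 2 / (2 * t) + t / 2 := by
      rw [← sq_abs, div_add_div _ _ (by positivity) two_ne_zero, le_div_iff₀ (by positivity)]
      nlinarith [sq_nonneg (|F x - κ| - t)]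
    refine (mul_le_mul_of_nonneg_left a (w0 x)).trans (le_of_eq ?_)
    ring
  have sa : Summable fun x => w x * |F x - κ| :=
    .of_nonneg_of_le (fun x => mul_nonneg (w0 x) (abs_nonneg _)) hp hb.summable
  refine ⟨sa, (sa.tsum_le_tsum hp hb.summable).trans ?_⟩
  rw [hb.tsum_eq]
  have a : (∑' x, w x * F x ^ 2) - 2 * κ * (∑' x, w x * F x) + κ ^ 2 * ∑' x, w x ≤
      √η * (κ * c) * (2 * t) := by
    have e : √η * (κ * c) * (2 * t) = 4 * η * (κ ^ 2 * c) := by
      rw [ht]; linear_combination (4 * κ ^ 2 * c) * hq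
    rw [e]
    nlinarith [mul_le_mul_of_nonneg_left h1 hκ.le, mul_le_mul_of_nonneg_left h0 (sq_nonneg κ)]
  have b := (div_le_iff₀ (by positivity : 0 < 2 * t)).2 a
  have d := mul_le_mul_of_nonneg_left h0 (by positivity : 0 ≤ t / 2)
  rw [ht] at d
  nlinarith

/-- the normalised form -/
theorem tv {X : Type*} {w F : X → ℝ} (w0 : ∀ x, 0 ≤ w x) (F0 : ∀ x, 0 ≤ F x) (s0 : Summable w)
    (s1 : Summable fun x => w x * F x) (s2 : Summable fun x => w x * F x ^ 2) {κ c η : ℝ}
    (hκ : 0 < κ) (hc : 0 < c) (hη : 0 < η) (h0 : ∑' x, w x ≤ (1 + η) * c)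
    (h1 : (1 - η) * (κ * c) ≤ ∑' x, w x * F x) (h2 : ∑' x, w x * F x ^ 2 ≤ (1 + η) * (κ ^ 2 * c))
    (p0 : 0 < ∑' x, w x) (p1 : 0 < ∑' x, w x * F x) {g : X → ℝ} (hg : ∀ x, |g x| ≤ 1) :
    |(∑' x, w x * F x * g x) / (∑' x, w x * F x) - (∑' x, w x * g x) / ∑' x, w x| ≤ 10 * √η := by
  have bd : ∀ {v : X → ℝ}, (∀ x, 0 ≤ v x) → Summable v →
      (Summable fun x => v x * g x) ∧ |∑' x, v x * g x| ≤ ∑' x, v x := fun {v} v0 sv => by
    have a : ∀ x, ‖v x * g x‖ ≤ v x := fun x => by
      rw [norm_mul, Real.norm_of_nonneg (v0 x)]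
      exact mul_le_of_le_one_right (v0 x) (hg x)
    exact ⟨.of_norm_bounded sv a, tsum_of_norm_bounded sv.hasSum a⟩
  obtain ⟨a1, a2⟩ := bd w0 s0
  obtain ⟨b1, b2⟩ := bd (fun x => mul_nonneg (w0 x) (F0 x)) s1
  by_cases hh : 1 / 2 ≤ η
  · have : 1 / 2 ≤ √η := Real.le_sqrt_of_sq_le (by linarith)
    refine (abs_sub _ _).trans ?_
    rw [abs_div, abs_div, abs_of_pos p0, abs_of_pos p1]
    linarith [(div_le_one p0).2 a2, (div_le_one p1).2 b2]
  obtain ⟨c1, c2⟩ := l1 w0 s0 s1 s2 hκ hη h0 h1 h2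
  have df : ∀ {k : X → ℝ}, (∀ x, |k x| ≤ 1) → (Summable fun x => w x * F x * k x) →
      (Summable fun x => w x * k x) →
      |∑' x, w x * F x * k x - κ * ∑' x, w x * k x| ≤ (2 + η) * √η * (κ * c) :=
    fun {k} hk u1 u2 => by
      refine le_trans ?_ c2
      rw [← tsum_mul_left, ← u1.tsum_sub (u2.mul_left _)]
      refine tsum_of_norm_bounded (E := ℝ) c1.hasSum fun x => ?_
      rw [show w x * F x * k x - κ * (w x * k x) = w x * (F x - κ) * k x by ring, norm_mul, norm_mul,
        Real.norm_of_nonneg (w0 x)]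
      exact mul_le_of_le_one_right (mul_nonneg (w0 x) (norm_nonneg _)) (hk x)
  have d1 := df hg b1 a1
  have d2 := df (k := fun _ => 1) (by simp) (by simpa using s1) (by simpa using s0)
  simp only [mul_one] at d2
  set Z := ∑' x, w x * F x
  set Z0 := ∑' x, w x
  set G := ∑' x, w x * F x * g x
  set G0 := ∑' x, w x * g x
  have e : G / Z - G0 / Z0 = (G - κ * G0) / Z - (Z - κ * Z0) / Z * (G0 / Z0) := by
    field_simp; ring
  have r : |G0 / Z0| ≤ 1 := by rw [abs_div, abs_of_pos p0]; exact (div_le_one p0).2 a2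
  have hs : 0 ≤ √η := Real.sqrt_nonneg _
  have kc : 0 < κ * c := mul_pos hκ hc
  have q : (2 + η) * √η * (κ * c) ≤ 5 * √η * Z := by
    have : κ * c ≤ 2 * Z := by nlinarith
    nlinarith [mul_le_mul_of_nonneg_left this hs, mul_nonneg hs kc.le]
  rw [e]
  refine (abs_sub _ _).trans ?_
  rw [abs_mul, abs_div, abs_div (Z - _), abs_of_pos p1]
  have m1 := (div_le_iff₀ p1).2 (d1.trans q)
  have m2 := (div_le_iff₀ p1).2 (d2.trans q)
  have m3 := mul_le_mul m2 r (abs_nonneg _) (by positivity)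
  linarith

variable {C : Type} [Fintype C] [DecidableEq C] (p : C → Prop) [DecidablePred p]

/-- the part of a covariance that passes through `p` -/
def cr (K : Matrix C C ℝ) : Matrix C C ℝ :=
  K.submatrix id (Subtype.val : {c // p c} → C) *
    (K.submatrix (Subtype.val : {c // p c} → C) (Subtype.val : {c // p c} → C))⁻¹ *
    K.submatrix (Subtype.val : {c // p c} → C) id

theorem det_split {K : Matrix C C ℝ} (hK : K.PosDef) :
    K.det = (K.submatrix (Subtype.val : {c // p c} → C) Subtype.val).det *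
      ((K - cr p K).submatrix (Subtype.val : {c // ¬ p c} → C) Subtype.val).det := by
  have hp : (K.submatrix (Subtype.val : {c // p c} → C) Subtype.val).PosDef :=
    hK.submatrix Subtype.val_injective
  let _ := invertibleOfIsUnitDet _ hp.det_pos.ne'.isUnit
  rw [← det_submatrix_equiv_self (Equiv.sumCompl p), ← fromBlocks_toBlocks (K.submatrix _ _)]
  have e : (K.submatrix (Equiv.sumCompl p) (Equiv.sumCompl p)).toBlocks₁₁ =
      K.submatrix (Subtype.val : {c // p c} → C) Subtype.val := rfl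
  rw [e, det_fromBlocks₁₁, invOf_eq_nonsing_inv]
  rfl

theorem cr_inv {K : Matrix C C ℝ} (hK : K.PosDef) : cr p K * K⁻¹ * cr p K = cr p K := by
  have hp : (K.submatrix (Subtype.val : {c // p c} → C) Subtype.val).PosDef :=
    hK.submatrix Subtype.val_injective
  have h : K.submatrix (Subtype.val : {c // p c} → C) id * K⁻¹ *
      K.submatrix id (Subtype.val : {c // p c} → C) = K.submatrix Subtype.val Subtype.val := by
    have a := submatrix_mul K K⁻¹ (Subtype.val : {c // p c} → C) id id Function.bijective_id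
    have b := submatrix_mul (K * K⁻¹) K (Subtype.val : {c // p c} → C) id
      (Subtype.val : {c // p c} → C) Function.bijective_id
    rw [submatrix_id_id] at a
    rw [← a, ← b, mul_nonsing_inv _ hK.det_pos.ne'.isUnit, Matrix.one_mul]
  unfold cr
  simp only [Matrix.mul_assoc] at h ⊢
  rw [← Matrix.mul_assoc K⁻¹, ← Matrix.mul_assoc (K.submatrix Subtype.val id), h,
    mul_nonsing_inv_cancel_left _ _ hp.det_pos.ne'.isUnit]

/-- the determinant of the cloned covariance -/
theorem det_dbl {K : Matrix C C ℝ} (hK : K.PosDef) :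
    (fromBlocks K ((cr p K).submatrix id (Subtype.val : {c // ¬ p c} → C))
      ((cr p K).submatrix (Subtype.val : {c // ¬ p c} → C) id)
      (K.submatrix Subtype.val Subtype.val)).det *
      (K.submatrix (Subtype.val : {c // p c} → C) Subtype.val).det = K.det ^ 2 := by
  let _ := invertibleOfIsUnitDet _ hK.det_pos.ne'.isUnit
  have a := submatrix_mul (cr p K) K⁻¹ (Subtype.val : {c // ¬ p c} → C) id id Function.bijective_id
  have b := submatrix_mul (cr p K * K⁻¹) (cr p K) (Subtype.val : {c // ¬ p c} → C) id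
    (Subtype.val : {c // ¬ p c} → C) Function.bijective_id
  rw [submatrix_id_id] at a
  rw [det_fromBlocks₁₁, invOf_eq_nonsing_inv, ← a, ← b, cr_inv p hK, sq, mul_assoc, mul_comm (det (_ - _))]
  exact congrArg _ (det_split p hK).symm

end Mp

end Crest.Agent.N49.Tw

end
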