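import Crest.Agent.N49.Tw.Sa
import Crest.Agent.N49.Tw.Mh0
import Crest.Agent.N49.Tw.Exp

/-! # Row 49 (helper79): the point ring and the split surjection attached to a point -/

set_option autoImplicit false

open Matrix MvPolynomial Finset

noncomputable section

namespace Crest.Agent.N49.Tw.Pr

open Po

variable {τ : Type} (S : Sh Unit τ) (M : ℕ) (χ : S.W → ℤ)

/-- evaluation at `χ`, level by level -/
def ph : Matrix (Fin M) S.W ℤ := Matrix.of fun j w => if S.dg w = j + 1 then χ w else 0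

/-- the point ring: one word per level `1, …, M` -/
abbrev pS : Sh Unit Unit where
  W := Fin M
  col := id
  ty j := Finsupp.single () (j + 1)
  r j m := if Finsupp.weight (fun i : Fin M => i.1 + 1) m = j + 1 then 1 else 0
  ε := ph S M χ *ᵥ S.ε
  K := rl (ph S M χ) * S.K * (rl (ph S M χ))ᵀ

variable {S M χ}

theorem dg_pS (j : Fin M) : (pS S M χ).dg j = j + 1 := by simp [Sh.dg]

theorem cd_eq {τ' : Type} {S' : Sh Unit τ'} {w : S.W} {w' : S'.W} (h : S.dg w = S'.dg w') :
    S.cd w = S'.cd w' := unit_ext (by rw [Sh.cd_degree, Sh.cd_degree, h])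

theorem ph_ne {j : Fin M} {w : S.W} (h : ph S M χ j w ≠ 0) : S.dg w = j + 1 :=
  of_not_not fun e => h (if_neg e)

variable (w0 : Fin M → S.W)

/-- the section -/
def ps : Matrix S.W (Fin M) ℤ := Matrix.of fun w j => if w = w0 j then 1 else 0
/-- the other words -/
abbrev J : Type := {w // ∀ j, w ≠ w0 j}
/-- coordinates on the kernel -/
def Qm : Matrix (J w0) S.W ℤ := Matrix.of fun j w => if w = j.1 then 1 else 0
variable (χ) in
/-- the basis of the kernel -/
def Nm : Matrix S.W (J w0) ℤ := (1 - ps w0 * ph S M χ).submatrix id Subtype.val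

variable {w0}

theorem ph_ps (h : ∀ j, S.dg (w0 j) = j + 1 ∧ χ (w0 j) = 1) : ph S M χ * ps w0 = 1 := by
  ext i j
  simp only [mul_apply, ps, of_apply, mul_ite, mul_one, mul_zero, sum_ite_eq', mem_univ, if_true,
    ph, (h j).1, (h j).2, one_apply, Nat.add_right_cancel_iff, Fin.val_inj, eq_comm]

theorem Q_mul {A : Type} (V : Matrix S.W A ℤ) : Qm w0 * V = V.submatrix Subtype.val id := by
  ext j a; simp [Qm, mul_apply]

theorem Q_ps : Qm w0 * ps w0 = 0 := by
  ext j i; rw [Q_mul]; exact if_neg (j.2 i)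

theorem ph_N (h : ∀ j, S.dg (w0 j) = j + 1 ∧ χ (w0 j) = 1) : ph S M χ * Nm χ w0 = 0 := by
  have : ph S M χ * (1 - ps w0 * ph S M χ) = 0 := by
    rw [Matrix.mul_sub, ← Matrix.mul_assoc, ph_ps h, Matrix.one_mul, Matrix.mul_one, sub_self]
  ext i j; exact congrFun (congrFun this i) j.1

theorem Q_N : Qm w0 * Nm χ w0 = 1 := by
  have : Qm w0 * (1 - ps w0 * ph S M χ) = Qm w0 := by
    rw [Matrix.mul_sub, ← Matrix.mul_assoc, Q_ps, Matrix.zero_mul, Matrix.mul_one, sub_zero]
  ext i j
  refine (congrFun (congrFun this i) j.1).trans ?_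
  simp only [Qm, of_apply, one_apply, Subtype.val_inj, eq_comm]

theorem one_eq (h : ∀ j, S.dg (w0 j) = j + 1 ∧ χ (w0 j) = 1) :
    ps w0 * ph S M χ + Nm χ w0 * Qm w0 = 1 := by
  rw [← eq_sub_iff_add_eq']
  ext w w'
  by_cases e : ∀ j, w' ≠ w0 j
  · rw [mul_apply, sum_eq_single ⟨w', e⟩ (fun j _ z => by
      rw [Qm, of_apply, if_neg fun k => z (Subtype.ext k.symm), mul_zero]) (by simp)]
    simp [Qm, Nm]
  · obtain ⟨i, rfl⟩ : ∃ i, w' = w0 i := by simpa using e
    have : (1 - ps w0 * ph S M χ) * ps w0 = 0 := by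
      rw [Matrix.sub_mul, Matrix.mul_assoc, ph_ps h, Matrix.one_mul, Matrix.mul_one, sub_self]
    have := congrFun (congrFun this w) i
    rw [mul_apply] at this
    simp only [ps, of_apply, mul_ite, mul_one, mul_zero, sum_ite_eq', mem_univ, if_true] at this
    rw [mul_apply, sum_eq_zero fun j _ => by rw [Qm, of_apply, if_neg (j.2 i).symm, mul_zero]]
    exact this.symm

theorem N_apply (h : ∀ j, S.dg (w0 j) = j + 1 ∧ χ (w0 j) = 1) (w : S.W) (j : J w0) :
    Nm χ w0 w j = (if w = j.1 then 1 else 0) -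
      if (∃ i, w = w0 i) ∧ S.dg w = S.dg j.1 then χ j.1 else 0 := by
  rw [Nm, submatrix_apply, id, Matrix.sub_apply, one_apply, mul_apply]
  congr 1
  by_cases e : ∃ i, w = w0 i
  · obtain ⟨i, rfl⟩ := e
    rw [sum_eq_single i (fun k _ z => by
      rw [ps, of_apply, if_neg, zero_mul]
      intro y
      exact z (Fin.ext (by have := (h k).1; rw [← y, (h i).1] at this; omega))) (by simp)]
    simp [ps, ph, (h i).1, eq_comm]
  · rw [if_neg fun z => e z.1]
    exact sum_eq_zero fun i _ => by rw [ps, of_apply, if_neg fun z => e ⟨i, z⟩, zero_mul]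

theorem pS_ok (o : S.Ok) (h : ∀ j, S.dg (w0 j) = j + 1 ∧ χ (w0 j) = 1) : (pS S M χ).Ok where
  ne j := by simp
  one (j j' : Fin M) := by
    simp [pS, Finsupp.weight_single, Fin.val_inj, eq_comm]
  gr (j : Fin M) m e := unit_ext (by
    rw [← Sh.weight_dg, Sh.cd_degree, dg_pS, show (pS S M χ).dg = _ from funext dg_pS]
    exact of_not_not fun z => e (if_neg z))
  mul (j : Fin M) (m m' : Fin M →₀ ℕ) m0 := by
    simp only [pS, map_add, Finsupp.weight_single, smul_eq_mul, one_mul]
    have p : 0 < Finsupp.weight (fun i : Fin M => i.1 + 1) m := Nat.pos_of_ne_zero fun z => m0 (by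
      ext i
      have := (Finsupp.le_weight (fun i : Fin M => i.1 + 1) (s := i) (by simp) m).trans_eq z
      exact Nat.le_zero.1 this)
    generalize Finsupp.weight (fun i : Fin M => i.1 + 1) m = a at p
    by_cases e : a - 1 < M
    · rw [sum_eq_single (⟨a - 1, e⟩ : Fin M) (fun k _ z => by
        rw [if_neg fun y => z (Fin.ext (by simp; omega)), zero_mul]) (by simp)]
      simp [show a - 1 + 1 = a by omega]
    · rw [if_neg (by omega), sum_eq_zero fun k _ => by rw [if_neg (by omega), zero_mul]]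
  eps (j : Fin M) e := by
    obtain ⟨w, -, k⟩ := exists_ne_zero_of_sum_ne_zero e
    rw [dg_pS, ← ph_ne (left_ne_zero_of_mul k), o.eps w (right_ne_zero_of_mul k)]
  pd := by
    refine o.pd.mul_mul_conjTranspose_same (B := rl (ph S M χ)) fun x y e => ?_
    have := congrArg (· ᵥ* rl (ps w0)) e
    simpa only [vecMul_vecMul, ← rl_mul, ph_ps h, rl_one, vecMul_one] using this
  blk (j j' : Fin M) e := by
    obtain ⟨w', -, k⟩ := exists_ne_zero_of_sum_ne_zero e
    obtain ⟨w, -, k'⟩ := exists_ne_zero_of_sum_ne_zero (left_ne_zero_of_mul k)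
    have a := ph_ne (Int.cast_ne_zero.1 (right_ne_zero_of_mul k))
    have b := ph_ne (Int.cast_ne_zero.1 (left_ne_zero_of_mul k'))
    have c := congrArg Finsupp.degree (o.blk _ _ (right_ne_zero_of_mul k'))
    rw [Sh.cd_degree, Sh.cd_degree] at c
    exact cd_eq (by rw [dg_pS, dg_pS, ← a, ← b, c])

theorem el_ph (w : S.W) : ((pS S M χ).el fun j => ph S M χ j w : MvPolynomial (Fin M) ℤ) =
    if h : S.dg w - 1 < M ∧ 0 < S.dg w then monomial (Finsupp.single ⟨_, h.1⟩ 1) (χ w) else 0 := by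
  rw [Sh.el]
  split_ifs with h
  · rw [sum_eq_single (⟨_, h.1⟩ : Fin M) (fun k _ z => by
      rw [ph, of_apply, if_neg fun y => z (Fin.ext (by simp; omega)), zero_smul]) (by simp),
      ph, of_apply, if_pos (by simp; omega), X, smul_monomial, smul_eq_mul, mul_one]
  · exact sum_eq_zero fun (k : Fin M) _ => by
      rw [ph, of_apply, if_neg fun y => h (by omega), zero_smul]

theorem pS_hm (o : S.Ok) (hχ : ∀ m, m ≠ 0 → Finsupp.weight S.dg m ≤ M →
    m.prod (fun w n => χ w ^ n) = ∑ w, S.r w m * χ w) : S.Hm (pS S M χ) (ph S M χ) where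
  cd j w e := cd_eq (by rw [dg_pS, ph_ne e])
  mass := rfl
  mul (j : Fin M) m m0 := by
    have key : ∀ m : S.W →₀ ℕ, ∃ μ : Fin M →₀ ℕ, ∃ c : ℤ,
        aeval (fun w => (pS S M χ).el fun j => ph S M χ j w) (monomial m (1 : ℤ)) = monomial μ c ∧
        (c = 0 ∨ Finsupp.weight (fun i : Fin M => i.1 + 1) μ = Finsupp.weight S.dg m) ∧
        (Finsupp.weight S.dg m ≤ M → c = m.prod fun w n => χ w ^ n) := fun m => by
      induction m using Finsupp.induction_linear with
      | zero => exact ⟨0, 1, by simp, by simp, by simp⟩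
      | add a b ha hb =>
        obtain ⟨μ, c, a1, a2, a3⟩ := ha
        obtain ⟨ν, d, b1, b2, b3⟩ := hb
        refine ⟨μ + ν, c * d, by rw [← monomial_mul, ← a1, ← b1, ← map_mul, monomial_mul, one_mul],
          ?_, fun e => ?_⟩
        · rcases a2 with rfl | a2
          · simp
          rcases b2 with rfl | b2
          · simp
          · right; rw [map_add, map_add, a2, b2]
        · rw [map_add] at e
          rw [Finsupp.prod_add_index' (by simp) (by simp [pow_add]), a3 (by omega), b3 (by omega)]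
      | single w n =>
        rw [aeval_monomial, Finsupp.prod_single_index (by simp), el_ph, map_one, one_mul,
          Finsupp.prod_single_index (by simp), Finsupp.weight_single, smul_eq_mul]
        have p := o.dg_pos w
        split_ifs with h
        · refine ⟨_, _, monomial_pow, .inr ?_, fun _ => rfl⟩
          rw [map_nsmul, Finsupp.weight_single]; simp; omega
        · rcases n with _ | n
          · exact ⟨0, 1, by simp, by simp, by simp⟩
          · refine ⟨0, 0, by simp, by simp, fun e => absurd ⟨?_, p⟩ h⟩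
            have : S.dg w ≤ (n + 1) * S.dg w := Nat.le_mul_of_pos_left _ n.succ_pos
            omega
    obtain ⟨μ, c, a1, a2, a3⟩ := key m
    rw [a1, Sh.cf_monomial]
    by_cases e : Finsupp.weight S.dg m = j + 1
    · rw [sum_congr rfl fun w _ => show ph S M χ j w * S.r w m = S.r w m * χ w from by
        by_cases z : S.r w m = 0
        · simp [z]
        · rw [ph, of_apply, if_pos ((o.gr_dg z).symm.trans e), mul_comm], ← hχ m m0 (by omega),
        ← a3 (by omega)]
      rcases a2 with rfl | a2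
      · simp
      · simp [a2, e]
    · rw [sum_eq_zero fun w _ => by
        by_cases z : S.r w m = 0
        · simp [z]
        · rw [ph, of_apply, if_neg fun y => e ((o.gr_dg z).trans y), zero_mul]]
      rcases a2 with rfl | a2
      · simp
      · simp [a2, e]

theorem c_ps (h : ∀ j, S.dg (w0 j) = j + 1 ∧ χ (w0 j) = 1) (w : S.W) (j : Fin M)
    (e : ps w0 w j ≠ 0) : S.cd w = (pS S M χ).cd j := by
  obtain rfl : w = w0 j := of_not_not fun z => e (if_neg z)
  exact cd_eq ((h j).1.trans (dg_pS j).symm)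

theorem c_N (h : ∀ j, S.dg (w0 j) = j + 1 ∧ χ (w0 j) = 1) (w : S.W) (j : J w0)
    (e : Nm χ w0 w j ≠ 0 ∨ Qm w0 j w ≠ 0) : S.cd w = S.cd j.1 := by
  by_contra z
  have a : w ≠ j.1 := fun y => z (y ▸ rfl)
  rcases e with e | e
  · rw [N_apply h, if_neg a, if_neg fun y => z (cd_eq y.2)] at e; exact e rfl
  · exact e (if_neg a)

theorem one_le {n : ℕ} {a : ℝ} (o : S.Sz n a) (w : S.W) : (1 : ℤ) ≤ n := by
  have := (Fintype.card_pos_iff.2 ⟨w⟩).trans_le o.card
  omega

theorem h_ps {n : ℕ} {a : ℝ} (o : S.Sz n a) (w : S.W) (j : Fin M) : |ps w0 w j| ≤ n := by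
  have := one_le o w
  rw [ps, of_apply]; split_ifs <;> simp [this]

theorem h_Q {n : ℕ} {a : ℝ} (o : S.Sz n a) (j : J w0) (w : S.W) : |Qm w0 j w| ≤ n := by
  have := one_le o w
  rw [Qm, of_apply]; split_ifs <;> simp [this]

theorem h_ph {n : ℕ} (hn : ∀ w, |χ w| ≤ n) (j : Fin M) (w : S.W) : |ph S M χ j w| ≤ n := by
  rw [ph, of_apply]; split_ifs <;> simp [hn]

theorem h_N {n : ℕ} {a : ℝ} (o : S.Sz n a) (h : ∀ j, S.dg (w0 j) = j + 1 ∧ χ (w0 j) = 1)
    (hn : ∀ w, |χ w| ≤ n) (w : S.W) (j : J w0) : |Nm χ w0 w j| ≤ n := by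
  have := one_le o w
  rw [N_apply h]
  by_cases e : w = j.1
  · rw [if_pos e, if_neg fun z => by obtain ⟨i, hi⟩ := z.1; exact j.2 i (e ▸ hi)]; simpa
  · rw [if_neg e]; split_ifs <;> simp [hn]

/-- the kernel is generated in degree one (in the degrees `≤ M`) -/
theorem gen (o : S.Ok) (g : S.Gen fun _ => False)
    (h : ∀ j, S.dg (w0 j) = j + 1 ∧ χ (w0 j) = 1) (hχ : ∀ m, m ≠ 0 → Finsupp.weight S.dg m ≤ M →
      m.prod (fun w n => χ w ^ n) = ∑ w, S.r w m * χ w) (κ : J w0 → ℤ) (j : J w0) (hj : κ j ≠ 0)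
    (hd : (S.cd j.1).degree ≤ M) : ∃ (l : ℕ) (j0 : J w0) (lam : Fin l → S.W),
      l + 1 = (S.cd j.1).degree ∧ (S.cd j0.1).degree = 1 ∧ (∀ i, S.dg (lam i) = 1) ∧
      ∑ w, (κ ᵥ* Qm w0) w * ∑ w', Nm χ w0 w' j0 *
        S.r w (Finsupp.single w' 1 + ∑ i, Finsupp.single (lam i) 1) ≠ 0 := by
  simp only [Sh.cd_degree] at hd ⊢
  by_contra! hc
  obtain ⟨l, hl⟩ : ∃ l, l + 1 = S.dg j.1 := ⟨S.dg j.1 - 1, by have := o.dg_pos j.1; omega⟩
  set k := κ ᵥ* Qm w0
  let L : (S.W →₀ ℕ) → ℤ := fun m => ∑ w, k w * S.r w m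
  let e : S.W := w0 ⟨0, by omega⟩
  have e1 : S.dg e = 1 := (h _).1
  have s1 : ∀ v, S.dg v = 1 → ∀ lam : Fin l → S.W, (∀ i, S.dg (lam i) = 1) →
      L (Finsupp.single v 1 + ∑ i, Finsupp.single (lam i) 1) =
        χ v * L (Finsupp.single e 1 + ∑ i, Finsupp.single (lam i) 1) := fun v hv lam hlam => by
    have u : ∀ i, S.dg (w0 i) = 1 → w0 i = e := fun i hi =>
      congrArg w0 (Fin.ext (by have := (h i).1; simp; omega))
    by_cases z : ∀ i, v ≠ w0 i
    · have := hc l ⟨v, z⟩ lam hl hv hlam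
      simp only [N_apply h, sub_mul, sum_sub_distrib, ite_mul, one_mul, zero_mul, sum_ite_eq',
        mem_univ, if_true, mul_sub] at this
      rw [sub_eq_zero] at this
      refine this.trans ?_
      simp only [L, mul_sum]
      refine sum_congr rfl fun w _ => ?_
      rw [sum_eq_single e (fun w' _ y => by
        rw [if_neg, mul_zero]
        rintro ⟨⟨i, rfl⟩, a⟩
        exact y (u i (a.trans hv))) (by simp), if_pos ⟨⟨_, rfl⟩, e1.trans hv.symm⟩]
      ring
    · obtain ⟨i, rfl⟩ : ∃ i, v = w0 i := by simpa using z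
      rw [(h i).2, one_mul, u i hv]
  have s2 : ∀ (lam : Fin (l + 1) → S.W), (∀ i, S.dg (lam i) = 1) → ∀ s : Finset (Fin (l + 1)),
      L (∑ i, Finsupp.single (lam i) 1) =
        (∏ i ∈ s, χ (lam i)) * L (∑ i, Finsupp.single (if i ∈ s then e else lam i) 1) :=
    fun lam hlam s => by
    induction s using Finset.induction_on with
    | empty => simp
    | insert i s hi ih =>
      rw [ih, prod_insert hi, mul_comm (χ _), mul_assoc, Fin.sum_univ_succAbove _ i,
        Fin.sum_univ_succAbove _ i, if_neg hi, if_pos (mem_insert_self _ _), s1 _ (hlam i) _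
        fun i' => by split_ifs; exacts [e1, hlam _]]
      simp only [mem_insert, Fin.succAbove_ne, false_or]
  set c := L (∑ _i : Fin (l + 1), Finsupp.single e 1)
  have s3 : ∀ w, S.dg w = l + 1 → k w = c * χ w := fun w hw => by
    by_contra z
    obtain ⟨l', lam, a1, a2, -, a3⟩ := g (fun w => if S.dg w = l + 1 then k w - c * χ w else 0)
      (fun _ => False.elim) w (by rwa [if_pos hw, sub_ne_zero])
    obtain rfl : l' = l := by omega
    have wt : Finsupp.weight S.dg (∑ i, Finsupp.single (lam i) 1) = l' + 1 := by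
      simp [map_sum, Finsupp.weight_single, a2]
    have b1 := s2 lam a2 univ
    simp only [mem_univ, if_true] at b1
    have b2 := hχ (∑ i, Finsupp.single (lam i) 1) (fun y => by simp [y] at wt) (by omega)
    rw [← Finsupp.prod_finsetSum_index (by simp) (by simp [pow_add])] at b2
    simp only [Finsupp.prod_single_index (h := fun w n => χ w ^ n) (pow_zero _), pow_one] at b2
    refine a3 (Eq.trans (sum_congr rfl fun w' _ => ?_) (?_ : ∑ w', (k w' * S.r w' (∑ i,
      Finsupp.single (lam i) 1) - c * (S.r w' (∑ i, Finsupp.single (lam i) 1) * χ w')) = 0))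
    · by_cases y : S.r w' (∑ i, Finsupp.single (lam i) 1) = 0
      · simp [y]
      · rw [if_pos ((o.gr_dg y).symm.trans wt)]; ring
    · rw [sum_sub_distrib, ← mul_sum, ← b2, mul_comm c]; exact sub_eq_zero.2 b1
  have k0 : k (w0 ⟨l, by omega⟩) = 0 := sum_eq_zero fun i _ =>
    mul_eq_zero_of_right _ (if_neg (i.2 _).symm)
  have k1 : k j.1 = κ j := by
    simp [k, vecMul, dotProduct, Qm, Subtype.val_inj]
  rw [s3 _ (h _).1, (h _).2, mul_one] at k0
  rw [s3 _ hl.symm, k0, zero_mul] at k1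
  exact hj k1.symm

end Crest.Agent.N49.Tw.Pr

end
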