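import Crest.Agent.N49.Tw.Vis1
import Crest.Agent.N49.Tw.Mono
import Crest.Agent.N49.Tw.ConM

/-!
# Row 49 (helper50): **invisible words** (VIS, CLONE)

Functions of the faces `ps a` do not see the words outside all the faces.
-/

set_option autoImplicit false
set_option linter.unusedSectionVars false

open Matrix MvPolynomial Finset

noncomputable section

namespace Crest.Agent.N49.Tw

open Po Db

namespace TS

section ren
variable {σ σ' : Type} {T : TS σ} {T' : TS σ'}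

theorem cut_ren (h : T.Tri) (h' : T'.Tri) (e : T'.C ≃ T.C) (lv : ∀ c, T'.lev c = T.lev (e c))
    (hu : ∀ (y : T.C → ℤ) c, T'.u (zc (y ∘ e)) c = T.u (zc y) (e c))
    (hK : ∀ c c', T'.K c c' = T.K (e c) (e c')) {q : T.C → Prop} {q' : T'.C → Prop}
    [DecidablePred q] [DecidablePred q'] (hq : T.Low q) (hq' : T'.Low q')
    (k : ∀ c, q' c ↔ q (e c)) (G : (T'.C → ℤ) → ℂ) :
    (T.cut q 0).Sc (fun y => G (glue q y 0 ∘ e)) / (T.cut q 0).Zc =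
      (T'.cut q' 0).Sc (fun y => G (glue q' y 0)) / (T'.cut q' 0).Zc := by
  have g : ∀ y : {c // q c} → ℤ, glue q' (y ∘ e.subtypeEquiv k) 0 = glue q y 0 ∘ e := fun y =>
    funext fun c => by
      by_cases a : q' c
      · exact (glue_pos _ _ a).trans (glue_pos y _ ((k c).1 a)).symm
      · exact (glue_neg _ _ a).trans (glue_neg y 0 fun z => a ((k c).2 z)).symm
  have i := Iso.of_equiv (h.cut_low hq 0) (h'.cut_low hq' 0) (e.subtypeEquiv k) (fun c => lv c.1)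
    (fun y c => ((u_cut _ _ _ _ _).trans ((congrArg (T'.u · c.1) ((zc_glue _ _).symm.trans
      (congrArg zc (g y)))).trans ((hu _ _).trans (congrArg (T.u · (e c.1)) (zc_glue _ _))))).trans
      (u_cut T q 0 (zc y) (e.subtypeEquiv k c)).symm) fun c c' => hK c.1 c'.1
  rw [← i.Zc, ← i.Sc]
  exact congrArg (fun t : ℂ => t / (T.cut q 0).Zc)
    (congrArg (T.cut q 0).Sc (funext fun y => congrArg G (g y).symm))

theorem Tri.cut_top (h : T.Tri) (G : (T.C → ℤ) → ℂ) :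
    (T.cut (fun _ => True) 0).Sc (fun y => G (glue (fun _ => True) y 0)) /
      (T.cut (fun _ => True) 0).Zc = T.Sc G / T.Zc := by
  have i := Iso.of_equiv (h.cut_low (p := fun _ => True) (fun _ _ _ _ => trivial) 0) h
    (Equiv.subtypeUnivEquiv fun _ => trivial).symm (fun _ => rfl)
    (fun y c => (u_cut T (fun _ => True) 0 (zc y) ⟨c, trivial⟩).symm) fun _ _ => rfl
  rw [← i.Zc, ← i.Sc]; rfl

theorem Tri.Ec_Zc (h : T.Tri) {η : ℝ} (m : T.Mas η) {G : (T.C → ℤ) → ℂ} (hG : ∀ y, ‖G y‖ ≤ 1) :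
    ‖T.Sc G / T.Zc - T.Ec G‖ ≤ η := by
  have a := h.Z_pos
  have b := h.Zc_pos
  have e : T.Sc G / T.Zc - T.Ec G = T.Ec G * (((T.Z - T.Zc) / T.Zc : ℝ) : ℂ) := by
    have := Complex.ofReal_ne_zero.2 a.ne'
    have := Complex.ofReal_ne_zero.2 b.ne'
    rw [Ec]; push_cast; field_simp
  rw [e, norm_mul, Complex.norm_real, Real.norm_eq_abs, abs_div, abs_of_pos b]
  exact (mul_le_of_le_one_left (by positivity) (h.norm_Ec_le' hG)).trans ((div_le_iff₀ b).2 m)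

variable {ι : Type} [Fintype ι] {c : ι → ℝ} {Q : ι → T.C → Prop} [∀ j, DecidablePred (Q j)]

theorem lam_ren (h : T.Tri) (h' : T'.Tri) (e : T'.C ≃ T.C) (lv : ∀ c, T'.lev c = T.lev (e c))
    (hu : ∀ (y : T.C → ℤ) c, T'.u (zc (y ∘ e)) c = T.u (zc y) (e c))
    (hK : ∀ c c', T'.K c c' = T.K (e c) (e c')) {Q' : ι → T'.C → Prop} [∀ j, DecidablePred (Q' j)]
    (hQ : ∀ j, T.Low (Q j)) (hQ' : ∀ j, T'.Low (Q' j)) (k : ∀ j c, Q' j c ↔ Q j (e c))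
    {G : (T.C → ℤ) → ℂ} {G' : (T'.C → ℤ) → ℂ} (hG : ∀ y, ‖G' y‖ ≤ 1) (eG : ∀ y, G y = G' (y ∘ e)) :
    T'.lam c Q' G' = T.lam c Q G := by
  rw [h'.lam_eq hQ' hG, h.lam_eq hQ fun y => eG y ▸ hG _]
  simp only [eG, fun j => cut_ren h h' e lv hu hK (hQ j) (hQ' j) (k j) G']

theorem Tri.lam_one (h : T.Tri) (hQ : ∀ j, T.Low (Q j)) {η B : ℝ} (h0 : 0 ≤ η)
    (m : ∀ j, (T.cut (Q j) 0).Mas η) (c0 : ∑ j, c j = 0) (cB : ∑ j, |c j| ≤ B) :
    ‖T.lam c Q fun _ => 1‖ ≤ B * η := by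
  have e : ∀ j, ‖(T.cut (Q j) 0).Sc (fun _ => 1) / (T.cut (Q j) 0).Zc - 1‖ ≤ η := fun j => by
    have u := h.cut_low (hQ j) 0
    have := u.Ec_Zc (m j) (G := fun _ => 1) (by simp)
    rwa [u.Ec_const] at this
  have c1 : ∑ j, (c j : ℂ) = 0 := by exact_mod_cast c0
  rw [h.lam_eq hQ (by simp), ← sub_zero (∑ j, _), ← c1, ← sum_sub_distrib]
  refine (norm_sum_le _ _).trans ((sum_le_sum (g := fun j => |c j| * η) fun j _ => ?_).trans ?_)
  · rw [← mul_sub_one, norm_mul, Complex.norm_real]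
    exact mul_le_mul_of_nonneg_left (e j) (abs_nonneg _)
  · rw [← sum_mul]; exact mul_le_mul_of_nonneg_right cB h0

theorem vis_num {x x' Z Zc B η : ℝ} {l : ℕ} (h : x ^ 2 ≤ Z / Zc * x') (zc : 0 < Zc) (h1 : η ≤ 1)
    (m : |Z - Zc| ≤ η * Zc) (x0 : 0 ≤ x') (I : x' ^ 2 ^ l ≤ (2 * B ^ 2) ^ 2 ^ l * η) :
    x ^ 2 ^ (l + 1) ≤ (2 * B) ^ 2 ^ (l + 1) * η := by
  have r := (div_le_iff₀ zc).2 (show Z ≤ 2 * Zc by nlinarith [(abs_le.1 m).2])
  rw [pow_succ', pow_mul, pow_mul, show (2 * B) ^ 2 = 2 * (2 * B ^ 2) by ring, mul_pow, mul_assoc]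
  refine (pow_le_pow_left₀ (by positivity) (h.trans (mul_le_mul_of_nonneg_right r x0)) _).trans ?_
  rw [mul_pow]
  exact mul_le_mul_of_nonneg_left I (by positivity)

end ren

variable {σ τ : Type} [DecidableEq σ] {T : TS σ} {st : T.C → ℕ} {M : ℕ}

theorem sub_ren {S : Sh σ τ} {Ψ : T.Twd S} {q : S.W → Prop} [DecidablePred q] (hs : T.Stg st M)
    (o : S.Ok) (ha : T.Adm S st Ψ) (hq : S.Idl q) (G : (T.Cw (S.sub q) → ℤ) → ℂ) :
    ((T.lw S st Ψ).cut (fun x : T.Cw S => q x.1.2) 0).Sc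
        (fun y => G (T.rs S q (glue (fun x : T.Cw S => q x.1.2) y 0))) /
      ((T.lw S st Ψ).cut (fun x : T.Cw S => q x.1.2) 0).Zc =
    (T.lw (S.sub q) st (T.tp S (S.sub q) (S.prj q) Ψ)).Sc G /
      (T.lw (S.sub q) st (T.tp S (S.sub q) (S.prj q) Ψ)).Zc := by
  let E : T.Cw (S.sub q) ≃ {x : T.Cw S // q x.1.2} :=
    ⟨fun x => ⟨T.ce hq.ch x, x.1.2.2⟩, fun x => ⟨(x.1.1.1, ⟨x.1.1.2, x.2⟩), x.1.2⟩,
      fun _ => rfl, fun _ => rfl⟩
  have i := Iso.of_equiv ((lw_tri hs ha o).cut_low (lw_low hq) 0)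
    (lw_tri hs (ha.tp (Mh.hm_sub hq).dg) (Mh.sub_ok o hq)) E
    (fun c => (lw_lev _).trans (lw_lev (Ψ := Ψ) (T.ce hq.ch c)).symm) (fun y c => by
      refine Eq.trans ?_ (u_cut _ _ _ _ _).symm
      refine Eq.trans ?_ (u_pb hq.ch (fun F => by rw [← Sh.pu_prj hq]) _ c).symm
      exact congrArg (fun z => (T.tw (S.sub q) (T.tp S (S.sub q) (S.prj q) Ψ)).u z c)
        (funext fun x => (glue_pos (zc y) _ x.1.2.2).symm)) fun _ _ => rfl
  refine congrArg₂ (fun (t : ℂ) (r : ℝ) => t / r) (Eq.trans (congrArg _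
    (funext fun y => congrArg G (funext fun x => ?_))) (i.Sc G)) i.Zc
  exact glue_pos y _ x.1.2.2

theorem norm_prod_le {ι : Type} [Fintype ι] {f : ι → ℂ} (h : ∀ i, ‖f i‖ ≤ 1) : ‖∏ i, f i‖ ≤ 1 := by
  rw [norm_prod]; exact prod_le_one (fun _ _ => norm_nonneg _) fun i _ => h i

theorem vis_aux (hs : T.Stg st M) {η : ℝ} (h0 : 0 ≤ η) (h1 : η ≤ 1) (l : ℕ) :
    ∀ (S : Sh σ τ) (Ψ : T.Twd S) (n : ℕ) (a B : ℝ) (ι : Type) [Fintype ι] (c : ι → ℝ)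
      (Q : ι → S.W → Prop) [∀ j, DecidablePred (Q j)] (ps : Fin l → S.W → Prop)
      (F : Fin l → (T.Cw S → ℤ) → ℂ), T.HM st (2 ^ l * n) (a / 2 ^ l) η → T.Adm S st Ψ →
      S.Sz n a → 0 ≤ a → (∀ j, S.Idl (Q j)) → (∀ i, S.Idl (ps i)) → (∀ i j w, ps i w → Q j w) →
      S.MG ps → (∀ i y, ‖F i y‖ ≤ 1) →
      (∀ i y y', (∀ x : T.Cw S, ps i x.1.2 → y x = y' x) → F i y = F i y') →
      ∑ j, c j = 0 → ∑ j, |c j| ≤ B →
      ‖(T.lw S st Ψ).lam c (fun j (x : T.Cw S) => Q j x.1.2) fun y => ∏ i, F i y‖ ^ 2 ^ l ≤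
        (2 * B) ^ 2 ^ l * η := by
  induction l with
  | zero =>
    intro S Ψ n a B ι _ c Q _ ps F hm ha hz _ hQ _ _ _ hF _ c0 cB
    simp only [univ_eq_empty, prod_empty, pow_zero, pow_one, one_mul, div_one] at hm ⊢
    have : 0 ≤ B := (sum_nonneg fun j _ => abs_nonneg (c j)).trans cB
    exact ((lw_tri hs ha hz.toOk).lam_one (fun j => lw_low (hQ j)) h0 (fun j =>
      (cut_sub hs hz.toOk (Mh.sub_ok hz.toOk (hQ j)) ha (hQ j) η).2
        (hm _ _ _ (ha.tp (Mh.hm_sub (hQ j)).dg) ((hQ j).sub_sz hz))) c0 cB).trans (by nlinarith)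
  | succ l ih =>
    intro S Ψ n a B ι _ c Q _ ps F hm ha hz a0 hQ hp hpQ mg hF hD c0 cB
    classical
    have o := hz.toOk
    have t := lw_tri hs ha o
    have lp := lw_low (T := T) (st := st) (Ψ := Ψ) (hp 0)
    have ha' := ha.tp (Sh.hm_dia (S := S) (p := ps 0)).dg
    have z2 := Sh.dbl_sz hz (hp 0) (mg.gen 0)
    have t' := lw_tri hs ha' z2.toOk
    obtain ⟨J, eJ⟩ : ∃ J : ι × ι → (S.dbl (ps 0)).W → Prop,
      J = fun j => Vs.jn (ps 0) (Q j.1) (Q j.2) := ⟨_, rfl⟩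
    have hJ : ∀ j : ι × ι, (S.dbl (ps 0)).Idl (J j) := fun j =>
      eJ ▸ (hQ j.1).jn (hQ j.2) (hpQ 0 j.1)
    have cs := t.lam_cs (c := c) lp (fun j => lw_low (hQ j)) (fun j x => hpQ 0 j x.1.2) (hF 0)
      (g := fun y => ∏ i : Fin l, F i.succ y) (fun y => norm_prod_le fun i => hF _ y) (hD 0)
    have n1 : ∀ {x y : ℂ}, ‖x‖ ≤ 1 → ‖y‖ ≤ 1 → ‖x * (starRingEnd ℂ) y‖ ≤ 1 := fun x y => by
      rw [norm_mul, Complex.norm_conj]; exact mul_le_one₀ x (norm_nonneg _) y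
    have I := ih (S.dbl (ps 0)) _ (2 * n) (a / 2) (B ^ 2) (ι × ι) (fun j => c j.1 * c j.2)
      J (fun i w => ps i.succ (S.fo (ps 0) w))
      (fun i y => F i.succ (fun x => y (T.ce (S.ch1 (ps 0)) x)) *
        (starRingEnd ℂ) (F i.succ fun x => y (T.ce (hp 0).ch2 x)))
      (by rwa [← mul_assoc, ← pow_succ, div_div, ← pow_succ']) ha' z2 (by positivity) hJ
      (fun i => Sh.dbl_idl (hp _)) (fun i j w x => by
        subst eJ
        rcases w with w | w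
        exacts [hpQ _ _ _ x, hpQ _ _ _ x]) ((mg.dbl o 0).comp Fin.succ)
      (fun i y => n1 (hF _ _) (hF _ _)) (fun i y y' e => by
        rw [hD i.succ _ (fun x => y' (T.ce (S.ch1 (ps 0)) x)) fun x k => e _ k,
          hD i.succ (fun x => y (T.ce (hp 0).ch2 x)) (fun x => y' (T.ce (hp 0).ch2 x))
            fun x k => e _ (by simpa [ce] using k)])
      (by simp only [Fintype.sum_prod_type, ← sum_mul_sum, c0, zero_mul])
      (by
        simp only [abs_mul, Fintype.sum_prod_type, ← sum_mul_sum, sq]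
        exact mul_self_le_mul_self (sum_nonneg fun j _ => abs_nonneg (c j)) cB)
    have e := lam_ren (c := fun j : ι × ι => c j.1 * c j.2) t' (t.dbl lp) (T.dE S (ps 0)) (dE_lev _)
      (dE_u (hp 0)) (dE_K hs.cl.1.pd o _) (fun j => lw_low (hJ j)) (fun j => (lw_low (hQ j.1)).jn
        (lw_low (hQ j.2)) fun x k _ => hpQ 0 _ _ k) (by subst eJ; rintro j (x | x) <;> rfl)
      (G := fun y => ∏ i : Fin l, F i.succ (fun x => y (T.ce (S.ch1 (ps 0)) x)) *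
        (starRingEnd ℂ) (F i.succ fun x => y (T.ce (hp 0).ch2 x)))
      (G' := fun y => (∏ i : Fin l, F i.succ fun c => y (.inl c)) * (starRingEnd ℂ) (∏ i : Fin l,
        F i.succ fun c => y ((T.lw S st Ψ).snd (fun x : T.Cw S => ps 0 x.1.2) c)))
      (fun y => n1 (norm_prod_le fun i => hF _ _) (norm_prod_le fun i => hF _ _)) fun y => by
        rw [map_prod, ← prod_mul_distrib]
        exact prod_congr rfl fun i _ => congrArg (fun z => _ * (starRingEnd ℂ) (F i.succ z))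
          (funext fun x => congrArg y (dE_snd (hp 0) x).symm)
    have m := (cut_sub hs o (Mh.sub_ok o (hp 0)) ha (hp 0) η).2
      (hm _ _ _ (ha.tp (Mh.hm_sub (hp 0)).dg) (((hp 0).sub_sz hz).mono
        (Nat.le_mul_of_pos_left _ (by positivity)) (div_le_self a0 (one_le_pow₀ one_le_two))))
    simp only [Fin.prod_univ_succ]
    exact vis_num cs (t.cut_low lp 0).Zc_pos h1 m (norm_nonneg _)
      ((congrArg (‖·‖ ^ 2 ^ l) e).trans_le I)

/-- **VIS**: the words outside all the faces are invisible -/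
theorem vis {S : Sh σ τ} {Ψ : T.Twd S} {n l : ℕ} {a η : ℝ} (hs : T.Stg st M) (h0 : 0 ≤ η)
    (h1 : η ≤ 1) (hm : T.HM st (2 ^ l * n) (a / 2 ^ l) (η ^ 2 ^ l)) (ha : T.Adm S st Ψ)
    (hz : S.Sz n a) (a0 : 0 ≤ a) {q : S.W → Prop} [DecidablePred q] {ps : Fin l → S.W → Prop}
    (hq : S.Idl q) (hp : ∀ i, S.Idl (ps i)) (hpq : ∀ i w, ps i w → q w) (mg : S.MG ps)
    {F : Fin l → (T.Cw (S.sub q) → ℤ) → ℂ} (hF : ∀ i y, ‖F i y‖ ≤ 1)
    (hD : ∀ i y y', (∀ x : T.Cw (S.sub q), ps i x.1.2.1 → y x = y' x) → F i y = F i y') :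
    ‖(T.tw S Ψ).Ec (fun y => ∏ i, F i (T.rs S q y)) -
      (T.tw (S.sub q) (T.tp S (S.sub q) (S.prj q) Ψ)).Ec (fun y => ∏ i, F i y)‖ ≤ 6 * η := by
  classical
  have o := hz.toOk
  have t := lw_tri hs ha o
  have ha' := ha.tp (Mh.hm_sub hq).dg
  have t' := lw_tri hs ha' (Mh.sub_ok o hq)
  have hQ : ∀ j : Bool, S.Idl (cond j (fun _ => True) q) := by
    rintro (_ | _)
    exacts [hq, fun _ _ _ _ _ _ => trivial]
  let _ : ∀ j : Bool, DecidablePred (cond j (fun _ : S.W => True) q) := fun j => match j with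
    | true => inferInstanceAs (DecidablePred fun _ : S.W => True)
    | false => inferInstanceAs (DecidablePred q)
  have I := vis_aux hs (pow_nonneg h0 _) (pow_le_one₀ h0 h1) l S Ψ n a 2 Bool (cond · 1 (-1))
    (cond · (fun _ => True) q) ps (fun i y => F i (T.rs S q y)) hm ha hz a0 hQ hp
    (by rintro i (_ | _) w x; exacts [hpq i w x, trivial]) mg (fun i y => hF i _)
    (fun i y y' e => hD i _ _ fun x k => e _ k) (by simp) (by norm_num)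
  rw [← mul_pow, pow_le_pow_iff_left₀ (norm_nonneg _) (by positivity) (by positivity)] at I
  replace I := (congrArg norm ((t.lam_eq (fun j => lw_low (hQ j))
    fun y => norm_prod_le fun i => hF i _).trans (Fintype.sum_bool _)).symm).trans_le I
  have e1 := t.cut_top fun y => ∏ i, F i (T.rs S q y)
  have e2 := sub_ren hs o ha hq fun y => ∏ i, F i y
  have le : η ^ 2 ^ l ≤ η := pow_le_of_le_one h0 h1 (by positivity)
  have hz' := fun {S' : Sh σ τ} (h : S'.Sz n a) => h.mono (n' := 2 ^ l * n) (a' := a / 2 ^ l)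
    (Nat.le_mul_of_pos_left _ (by positivity)) (div_le_self a0 (one_le_pow₀ one_le_two))
  have b1 := t.Ec_Zc (hm _ _ _ ha (hz' hz)) (G := fun y => ∏ i, F i (T.rs S q y))
    fun y => norm_prod_le fun i => hF i _
  have b2 := t'.Ec_Zc (hm _ _ _ ha' (hz' (hq.sub_sz hz))) (G := fun y => ∏ i, F i y)
    fun y => norm_prod_le fun i => hF i _
  have k : ∀ {A B x y : ℂ}, ‖((1 : ℝ) : ℂ) * A + ((-1 : ℝ) : ℂ) * B‖ ≤ 2 * 2 * η →
      ‖A - x‖ ≤ η ^ 2 ^ l → ‖B - y‖ ≤ η ^ 2 ^ l → ‖x - y‖ ≤ 6 * η := fun {A B x y} u v w => by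
    have : x - y = (((1 : ℝ) : ℂ) * A + ((-1 : ℝ) : ℂ) * B) - (A - x) + (B - y) := by
      push_cast; ring
    rw [this]
    linarith [norm_add_le ((((1 : ℝ) : ℂ) * A + ((-1 : ℝ) : ℂ) * B) - (A - x)) (B - y),
      norm_sub_le (((1 : ℝ) : ℂ) * A + ((-1 : ℝ) : ℂ) * B) (A - x)]
  exact k I ((congrArg (‖· - _‖) e1).trans_le b1) ((congrArg (‖· - _‖) e2).trans_le b2)

/-- real version -/
theorem visR {S : Sh σ τ} {Ψ : T.Twd S} {n l : ℕ} {a η : ℝ} (hs : T.Stg st M) (h0 : 0 ≤ η)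
    (h1 : η ≤ 1) (hm : T.HM st (2 ^ l * n) (a / 2 ^ l) (η ^ 2 ^ l)) (ha : T.Adm S st Ψ)
    (hz : S.Sz n a) (a0 : 0 ≤ a) {q : S.W → Prop} [DecidablePred q] {ps : Fin l → S.W → Prop}
    (hq : S.Idl q) (hp : ∀ i, S.Idl (ps i)) (hpq : ∀ i w, ps i w → q w) (mg : S.MG ps)
    {F : Fin l → (T.Cw (S.sub q) → ℤ) → ℝ} (hF : ∀ i y, |F i y| ≤ 1)
    (hD : ∀ i y y', (∀ x : T.Cw (S.sub q), ps i x.1.2.1 → y x = y' x) → F i y = F i y') :
    |(T.tw S Ψ).E (fun y => ∏ i, F i (T.rs S q y)) -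
      (T.tw (S.sub q) (T.tp S (S.sub q) (S.prj q) Ψ)).E (fun y => ∏ i, F i y)| ≤ 6 * η := by
  have := vis hs h0 h1 hm ha hz a0 hq hp hpq mg (F := fun i y => F i y) (by simpa using hF)
    fun i y y' e => congrArg _ (hD i y y' e)
  simp only [← Complex.ofReal_prod] at this
  have e1 := (T.tw S Ψ).Ec_ofReal fun y => ∏ i, F i (T.rs S q y)
  have e2 := (T.tw (S.sub q) (T.tp S (S.sub q) (S.prj q) Ψ)).Ec_ofReal fun y => ∏ i, F i y
  have := (congrArg₂ (‖· - ·‖) e1 e2).symm.trans_le this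
  rwa [← Complex.ofReal_sub, Complex.norm_real] at this

/-- **CLONE**: two faces -/
theorem vis2 {S : Sh σ τ} {Ψ : T.Twd S} {n : ℕ} {a η : ℝ} (hs : T.Stg st M) (h0 : 0 ≤ η)
    (h1 : η ≤ 1) (hm : T.HM st (4 * n) (a / 4) (η ^ 4)) (ha : T.Adm S st Ψ)
    (hz : S.Sz n a) (a0 : 0 ≤ a) {q : S.W → Prop} [DecidablePred q] {p p' : S.W → Prop}
    (hq : S.Idl q) (hp : S.Idl p) (hp' : S.Idl p') (k : ∀ w, p w → q w) (k' : ∀ w, p' w → q w)
    (mg : S.MG ![p, p']) {F G : (T.Cw (S.sub q) → ℤ) → ℂ} (hF : ∀ y, ‖F y‖ ≤ 1)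
    (hG : ∀ y, ‖G y‖ ≤ 1)
    (dF : ∀ y y', (∀ x : T.Cw (S.sub q), p x.1.2.1 → y x = y' x) → F y = F y')
    (dG : ∀ y y', (∀ x : T.Cw (S.sub q), p' x.1.2.1 → y x = y' x) → G y = G y') :
    ‖(T.tw S Ψ).Ec (fun y => F (T.rs S q y) * G (T.rs S q y)) -
      (T.tw (S.sub q) (T.tp S (S.sub q) (S.prj q) Ψ)).Ec (fun y => F y * G y)‖ ≤ 6 * η := by
  have := vis (l := 2) hs h0 h1 (by norm_num; exact hm) ha hz a0 hq (ps := ![p, p'])
    (Fin.forall_fin_two.2 ⟨hp, hp'⟩) (Fin.forall_fin_two.2 ⟨k, k'⟩) mg (F := ![F, G])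
    (Fin.forall_fin_two.2 ⟨hF, hG⟩) (Fin.forall_fin_two.2 ⟨dF, dG⟩)
  simp only [Fin.prod_univ_two] at this
  exact this

/-- the hypothesis of `vis` from regularity -/
theorem RgS.hm_vis {C n l : ℕ} {a η : ℝ} (m : MAST M C) (hs : T.Stg st M) (h0 : 0 < η) (h1 : η ≤ 1)
    (hn : 1 ≤ n) (h : T.RgS st M (l + (l + 1) * C) n a η) :
    T.HM st (2 ^ l * n) (a / 2 ^ l) (η ^ 2 ^ l) := fun τ S Ψ x y => by
  have n1 : (1 : ℝ) ≤ n := by exact_mod_cast hn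
  have b : (2 : ℝ) ^ l ≤ (n + 1) ^ l := pow_le_pow_left₀ zero_le_two (by linarith) l
  have q : (1 : ℝ) ≤ 2 ^ l := one_le_pow₀ one_le_two
  refine m σ τ T S st Ψ _ _ _ ⟨hs, x, pow_pos h0 _, pow_le_one₀ h0.le h1, h.loss hs.tri h0 h1
    (r := 2 ^ l) q (by norm_cast) ?_ le_rfl (div_le_self (by positivity) q), y⟩
  rw [pow_add, pow_mul]
  refine mul_le_mul b (pow_le_pow_left₀ (by positivity) ?_ C) (by positivity) (by positivity)
  push_cast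
  rw [pow_succ]; nlinarith

end TS

/-- **VIS** for regular towers -/
def VIST (M C l : ℕ) : Prop := ∀ (σ τ : Type) [DecidableEq σ] (T : TS σ) (S : Sh σ τ)
  (st : T.C → ℕ) (Ψ : T.Twd S) (n : ℕ) (a η : ℝ) (q : S.W → Prop) [DecidablePred q]
  (ps : Fin l → S.W → Prop) (F : Fin l → (T.Cw (S.sub q) → ℤ) → ℂ), T.Hy S st Ψ M C n a η → 1 ≤ n →
  S.Idl q → (∀ i, S.Idl (ps i)) → (∀ i w, ps i w → q w) → S.MG ps → (∀ i y, ‖F i y‖ ≤ 1) →
  (∀ i y y', (∀ x : T.Cw (S.sub q), ps i x.1.2.1 → y x = y' x) → F i y = F i y') →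
  ‖(T.tw S Ψ).Ec (fun y => ∏ i, F i (T.rs S q y)) -
    (T.tw (S.sub q) (T.tp S (S.sub q) (S.prj q) Ψ)).Ec (fun y => ∏ i, F i y)‖ ≤ 6 * η

theorem vist {M C : ℕ} (m : MAST M C) (l : ℕ) : VIST M (l + (l + 1) * C) l :=
  fun _ _ _ _ _ _ _ _ _ _ _ _ _ _ h hn hq hp k mg hF hD => TS.vis h.stg h.pos.le h.le
    (h.rg.hm_vis m h.stg h.pos h.le hn) h.adm h.sz h.rg.pos.le hq hp k mg hF hD

namespace Sh

variable {σ τ ι : Type} [DecidableEq τ] {col : τ → σ} {W : Finset (τ →₀ ℕ)}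
  {nf : (τ →₀ ℕ) → Option (τ →₀ ℕ)} {ε : τ → ℤ} {Kw : (τ →₀ ℕ) → (τ →₀ ℕ) → ℝ}

/-- every word outside `ps i` has a letter outside `ps i` -/
theorem nfm_mg (h : ∀ μ ∈ W, nf μ = some μ)
    (h1 : ∀ μ ∈ W, ∀ a, μ a ≠ 0 → Finsupp.single a 1 ∈ W) {ps : ι → MW W → Prop}
    (hp : ∀ i w, ¬ ps i w → ∃ a, w.1 a ≠ 0 ∧ ∀ k, ¬ ps i ⟨Finsupp.single a 1, k⟩) :
    (nfm col W nf ε Kw).MG ps := mg_of_fact fun w : MW W => by
  obtain ⟨a, ha⟩ := Finsupp.ne_iff.1 w.ne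
  obtain ⟨l, f, e1, -, e3⟩ := ex_letters' ha
  have m : ∀ i, Finsupp.single (f i) 1 ∈ W.erase 0 := fun i => mem_erase.2
    ⟨by simp, h1 _ w.mem _ (e3 ▸ sum_single_ne.2 ⟨i, rfl⟩)⟩
  refine ⟨l, fun i => (⟨_, m i⟩ : MW W), e1, fun i => Finsupp.degree_single _ _, fun i n => ?_,
    fun w' : MW W => ?_⟩
  · obtain ⟨b, hb, z⟩ := hp i w n
    obtain ⟨j, rfl⟩ := sum_single_ne.1 (e3 ▸ hb)
    exact ⟨j, z _⟩
  · refine (nfm_r w' (∑ i, Finsupp.single (⟨_, m i⟩ : MW W) 1)).trans ?_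
    simp only [map_sum, Finsupp.weight_single, one_smul, e3, h _ w.mem, Option.some_inj]
    by_cases z : w' = w
    · exact (if_pos (congrArg Subtype.val z).symm).trans (if_pos z).symm
    · exact (if_neg fun y => z (Subtype.ext y.symm)).trans (if_neg z).symm

theorem mono_mg (h : Dn W) {ps : ι → MW W → Prop}
    (hp : ∀ i w, ¬ ps i w → ∃ a, w.1 a ≠ 0 ∧ ∀ k, ¬ ps i ⟨Finsupp.single a 1, k⟩) :
    (mono col W ε Kw).MG ps := fun B κ a w b => by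
  obtain ⟨l, lam, e1, e2, e3, e4⟩ :=
    nfm_mg (col := col) (nf := some) (ε := ε) (Kw := Kw) (fun _ _ => rfl) h.single hp B κ a w b
  refine ⟨l, lam, e1, e2, e3, fun z => e4 (Eq.trans (sum_congr rfl fun w _ => ?_) z)⟩
  exact congrArg _ (if_congr Option.some_inj rfl rfl)

theorem let_mg (q : ι → τ → Prop) (i : ι) (w : MW W) (n : ¬ ∀ a, w.1 a ≠ 0 → q i a) :
    ∃ a, w.1 a ≠ 0 ∧ ∀ k : Finsupp.single a 1 ∈ W.erase 0,
      ¬ ∀ b, (⟨Finsupp.single a 1, k⟩ : MW W).1 b ≠ 0 → q i b := by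
  push Not at n
  obtain ⟨a, k, n⟩ := n
  exact ⟨a, k, fun _ z => n (z a (by simp))⟩

/-- the faces spanned by sets of letters -/
theorem mono_mg_let (h : Dn W) (q : ι → τ → Prop) :
    (mono col W ε Kw).MG fun i (w : MW W) => ∀ a, w.1 a ≠ 0 → q i a := mono_mg h (let_mg q)

theorem nfm_mg_let (h : ∀ μ ∈ W, nf μ = some μ)
    (h1 : ∀ μ ∈ W, ∀ a, μ a ≠ 0 → Finsupp.single a 1 ∈ W) (q : ι → τ → Prop) :
    (nfm col W nf ε Kw).MG fun i (w : MW W) => ∀ a, w.1 a ≠ 0 → q i a := nfm_mg h h1 (let_mg q)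

end Sh

end Crest.Agent.N49.Tw

end
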