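import Crest.Agent.N49.Tw.Mp

/-!
# Row 49 (helper50): marginals of a double (asymmetric clones), Cauchy–Schwarz for signed laws
-/

set_option autoImplicit false
set_option linter.unusedSectionVars false

open Matrix MvPolynomial Finset

noncomputable section

namespace Crest.Agent.N49.Tw

open Po Db

namespace Vs

variable {C : Type} [Fintype C] [DecidableEq C] {p q q' : C → Prop} [DecidablePred p]
  [DecidablePred q] [DecidablePred q'] {K : Matrix C C ℝ}

theorem qf_sup (hK : K.PosDef) {v : C → ℝ} (h : ∀ c, ¬ q c → (K⁻¹ *ᵥ v) c = 0) :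
    (qf (pp q K)⁻¹ fun c => v c) = qf K⁻¹ v := by
  have e : K⁻¹ *ᵥ v = mg q (fun c => (K⁻¹ *ᵥ v) c) 0 := funext fun c => by
    by_cases k : q c <;> simp [mg, k, h c]
  have e2 : (pp q K *ᵥ fun c => (K⁻¹ *ᵥ v) c) = fun c : {c // q c} => v c := funext fun c => by
    have := mulVec_mg K (fun c : {c // q c} => (K⁻¹ *ᵥ v) c) 0 c
    rw [← e, mulVec_inv hK, mulVec_zero, Pi.zero_apply, add_zero] at this
    exact this.symm
  rw [qf, qf]
  conv_rhs => rw [e, dot_mg, dotProduct_zero, add_zero]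
  congr 1
  rw [← e2, inv_mulVec (pd_pp hK)]

variable (q K) in
/-- the conditional mean given the coordinates `q` -/
def ex (x : C → ℝ) : C → ℝ := K *ᵥ mg q ((pp q K)⁻¹ *ᵥ fun c => x c) 0

theorem ex_eq (hK : K.PosDef) (x : C → ℝ) {c : C} (h : q c) : ex q K x c = x c := by
  rw [ex, mulVec_mg, mulVec_zero, Pi.zero_apply, add_zero]
  exact congrFun (mulVec_inv (pd_pp (p := q) hK) fun c => x c) ⟨c, h⟩

theorem inv_ex (hK : K.PosDef) (x : C → ℝ) {c : C} (h : ¬ q c) : (K⁻¹ *ᵥ ex q K x) c = 0 := by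
  rw [ex, inv_mulVec hK]; exact mg_neg q _ _ ⟨c, h⟩

theorem qf_ex (hK : K.PosDef) (x : C → ℝ) :
    qf K⁻¹ (ex q K x) = qf (pp q K)⁻¹ fun c => x c := by
  rw [← qf_sup (q := q) hK fun c h => inv_ex hK x h]
  exact congrArg _ (funext fun c => ex_eq hK x c.2)

variable (p q q') in
/-- `q` on the first clone, `q'` on the second one -/
def jn : C ⊕ {c // ¬ p c} → Prop := Sum.elim q fun c => q' c.1

instance : DecidablePred (jn p q q') := fun c => match c with
  | .inl c => inferInstanceAs (Decidable (q c))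
  | .inr c => inferInstanceAs (Decidable (q' c.1))

theorem qf_jn (hK : K.PosDef) (hq : ∀ c, p c → q c) (hq' : ∀ c, p c → q' c) (x : C → ℝ)
    (z : {c // ¬ p c} → ℝ) : (qf (pp (jn p q q') (k2 p K))⁻¹ fun c => Sum.elim x z c) =
      (qf (pp q K)⁻¹ fun c => x c) + (qf (pp q' K)⁻¹ fun c => mg p (fun c => x c) z c) -
        qf (pp p K)⁻¹ fun c => x c := by
  set x' := mg p (fun c => x c) z with hx
  have e1 : (fun c : {c // p c} => ex q K x c) = fun c : {c // p c} => x c :=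
    funext fun c => ex_eq hK x (hq _ c.2)
  have e2 : mg p (fun c => ex q K x c) (fun c => ex q' K x' c) = ex q' K x' := by
    refine Eq.trans ?_ (mg_self p _)
    congr 1
    exact funext fun c => by rw [ex_eq hK x (hq _ c.2), ex_eq hK x' (hq' _ c.2), hx, mg_pos]
  have e3 := qf_k2 (p := p) hK (ex q K x) fun c => ex q' K x' c
  rw [e2, e1, qf_ex hK, qf_ex hK] at e3
  rw [← e3, ← qf_sup (q := jn p q q') (pd_k2 hK)]
  · refine congrArg _ (funext fun c => ?_)
    obtain ⟨c | c, hc⟩ := c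
    · exact (ex_eq hK x hc).symm
    · exact ((ex_eq hK x' hc).trans (mg_neg p _ _ c)).symm
  · rw [← k2_sol hK, inv_mulVec (pd_k2 hK), sol, e2]
    rintro (c | c) hc
    · simp only [Sum.elim_inl, Pi.add_apply]
      rw [inv_ex hK x hc, zero_add]
      exact mg_neg p _ _ ⟨c, fun k => hc (hq c k)⟩
    · exact inv_ex hK x' hc

variable (q) in
/-- the block on `q`, the identity elsewhere -/
def pad (M : Matrix C C ℝ) : Matrix C C ℝ :=
  Matrix.of fun i j => if q i ∧ q j then M i j else if i = j then 1 else 0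

theorem det_pad (M : Matrix C C ℝ) : (pad q M).det = (pp q M).det := by
  rw [twoBlockTriangular_det' _ q fun i hi j hj => by
    have : i ≠ j := fun e => hj (e ▸ hi)
    simp [pad, hj, this]]
  have a : toSquareBlockProp (pad q M) q = pp q M := by
    ext i j; simp [pad, toSquareBlockProp_def, i.2, j.2]
  have b : (toSquareBlockProp (pad q M) fun c => ¬ q c) = 1 := by
    ext i j; simp [pad, toSquareBlockProp_def, i.2, one_apply, Subtype.ext_iff]
  rw [a, b, det_one, mul_one]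

theorem det2 (K1 K2 : Matrix C C ℝ) (h1 : K1.det ≠ 0) (hp : (pp p K1).det ≠ 0)
    (e : pp p K2 = pp p K1) :
    (fromBlocks K1 (K1.submatrix id (Subtype.val : {c // p c} → C) * (pp p K1)⁻¹ *
        K2.submatrix (Subtype.val : {c // p c} → C) (Subtype.val : {c // ¬ p c} → C))
      (K2.submatrix (Subtype.val : {c // ¬ p c} → C) (Subtype.val : {c // p c} → C) * (pp p K1)⁻¹ *
        K1.submatrix (Subtype.val : {c // p c} → C) id)
      (pp (fun c => ¬ p c) K2)).det * (pp p K1).det = K1.det * K2.det := by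
  let _ := invertibleOfIsUnitDet _ h1.isUnit
  let _ := invertibleOfIsUnitDet _ hp.isUnit
  have h : K1.submatrix (Subtype.val : {c // p c} → C) id * K1⁻¹ *
      K1.submatrix id (Subtype.val : {c // p c} → C) = pp p K1 := by
    have a := submatrix_mul K1 K1⁻¹ (Subtype.val : {c // p c} → C) id id Function.bijective_id
    have b := submatrix_mul (K1 * K1⁻¹) K1 (Subtype.val : {c // p c} → C) id
      (Subtype.val : {c // p c} → C) Function.bijective_id
    rw [submatrix_id_id] at a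
    rw [← a, ← b, mul_nonsing_inv _ h1.isUnit, Matrix.one_mul]
  have k : K2.det = (pp p K1).det * (pp (fun c => ¬ p c) K2 -
      K2.submatrix (Subtype.val : {c // ¬ p c} → C) (Subtype.val : {c // p c} → C) * (pp p K1)⁻¹ *
        K2.submatrix (Subtype.val : {c // p c} → C) (Subtype.val : {c // ¬ p c} → C)).det := by
    rw [← det_submatrix_equiv_self (Equiv.sumCompl p), ← fromBlocks_toBlocks (K2.submatrix _ _)]
    have e' : (K2.submatrix (Equiv.sumCompl p) (Equiv.sumCompl p)).toBlocks₁₁ = pp p K1 := e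
    rw [e', det_fromBlocks₁₁, invOf_eq_nonsing_inv]
    rfl
  rw [det_fromBlocks₁₁, invOf_eq_nonsing_inv, k, mul_assoc, mul_comm (det (_ - _))]
  congr 4
  simp only [Matrix.mul_assoc] at h ⊢
  rw [← Matrix.mul_assoc K1⁻¹, ← Matrix.mul_assoc (K1.submatrix Subtype.val id), h,
    mul_nonsing_inv_cancel_left _ _ hp.isUnit]

theorem pp_pad (hq : ∀ c, p c → q c) (M : Matrix C C ℝ) : pp p (pad q M) = pp p M := by
  ext i j; simp [pad, hq _ i.2, hq _ j.2]

theorem pad_l (hq : ∀ c, p c → q c) (M : Matrix C C ℝ) (i : C) (j : {c // p c}) :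
    pad q M i j = if q i then M i j else 0 := by
  by_cases h : q i
  · simp [pad, h, hq _ j.2]
  · have : i ≠ j := fun e => h (e ▸ hq _ j.2)
    simp [pad, h, this]

theorem pad_r (hq : ∀ c, p c → q c) (M : Matrix C C ℝ) (j : {c // p c}) (i : C) :
    pad q M j i = if q i then M j i else 0 := by
  by_cases h : q i
  · simp [pad, h, hq _ j.2]
  · have : j.1 ≠ i := fun e => h (e ▸ hq _ j.2)
    simp [pad, h, this]

theorem det_jn (hK : K.PosDef) (hq : ∀ c, p c → q c) (hq' : ∀ c, p c → q' c) :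
    (pp (jn p q q') (k2 p K)).det * (pp p K).det = (pp q K).det * (pp q' K).det := by
  have h := det2 (p := p) (pad q K) (pad q' K) (by rw [det_pad]; exact (pd_pp hK).det_pos.ne')
    (by rw [pp_pad hq]; exact (pd_pp hK).det_pos.ne') (by rw [pp_pad hq, pp_pad hq'])
  rw [pp_pad hq, det_pad, det_pad] at h
  rw [← h, ← det_pad]
  congr 2
  ext (i | i) (j | j)
  · simp [pad, jn, k2]
  · simp only [fromBlocks_apply₁₂, mul_apply, submatrix_apply, id, pad_l hq, pad_r hq']
    by_cases a : q i <;> by_cases b : q' j.1 <;> simp [pad, jn, k2, a, b, cr, mul_apply]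
  · simp only [fromBlocks_apply₂₁, mul_apply, submatrix_apply, id, pad_l hq', pad_r hq]
    by_cases a : q' i.1 <;> by_cases b : q j <;> simp [pad, jn, k2, a, b, cr, mul_apply]
  · simp [pad, jn, k2, Subtype.ext_iff]

theorem det_jnA (A : Matrix C C ℝ) (Y : Matrix {c // ¬ p c} C ℝ)
    (hq' : ∀ c, p c → q' c) (hA : ∀ c c', p c → ¬ p c' → A c c' = 0) :
    (pp (jn p q q') (fromBlocks A 0 Y (pp (fun c => ¬ p c) A))).det * (pp p A).det =
      (pp q A).det * (pp q' A).det := by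
  have e : pad (jn p q q') (fromBlocks A 0 Y (pp (fun c => ¬ p c) A)) = fromBlocks (pad q A) 0
      (Matrix.of fun i j => if q' i.1 ∧ q j then Y i j else 0) (pp (fun c => ¬ p c) (pad q' A)) := by
    ext (i | i) (j | j) <;> simp [pad, jn, Subtype.ext_iff]
  have k : (pad q' A).det = (pp p (pad q' A)).det * (pp (fun c => ¬ p c) (pad q' A)).det := by
    rw [twoBlockTriangular_det' _ p fun i hi j hj => by
      rw [pad_r hq' A ⟨i, hi⟩, hA i j hi hj, ite_self]]
    congr 1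
  rw [← det_pad, e, det_fromBlocks_zero₁₂, ← det_pad (q := q'), k, pp_pad hq', det_pad]
  ring

omit [Fintype C] [DecidableEq C] in
/-- Cauchy–Schwarz for a signed law -/
theorem acs {μ : (C → ℤ) → ℝ} {μ2 : (C ⊕ {c // ¬ p c} → ℤ) → ℝ} {w : ({c // p c} → ℤ) → ℝ}
    (s1 : Summable μ) (s2 : Summable μ2) (s0 : Summable w) (w0 : ∀ a, 0 < w a)
    (h : ∀ a z z', μ2 (Sum.elim (mg p a z) z') * w a = μ (mg p a z) * μ (mg p a z'))
    {f g : (C → ℤ) → ℂ} (hf : ∀ y, ‖f y‖ ≤ 1) (hg : ∀ y, ‖g y‖ ≤ 1)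
    (hd : ∀ a z, f (mg p a z) = f (mg p a 0)) :
    ‖∑' y, (μ y : ℂ) * (f y * g y)‖ ^ 2 ≤ (∑' a, w a) * ‖∑' y, (μ2 y : ℂ) * (g (fun c => y (.inl c)) *
      (starRingEnd ℂ) (g (mg p (fun c => y (.inl c.1)) fun c => y (.inr c))))‖ := by
  have sm : ∀ {X : Type} {m : X → ℝ} {G : X → ℂ}, Summable m → (∀ x, ‖G x‖ ≤ 1) →
      Summable fun x => (m x : ℂ) * G x := fun s k => .of_norm_bounded s.abs fun x => by
    rw [norm_mul, Complex.norm_real]; exact mul_le_of_le_one_right (norm_nonneg _) (k x)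
  have m1 : ∀ {a b : ℂ}, ‖a‖ ≤ 1 → ‖b‖ ≤ 1 → ‖a * b‖ ≤ 1 := fun a b => by
    rw [norm_mul]; exact mul_le_one₀ a (norm_nonneg _) b
  set φ : ({c // p c} → ℤ) → ℂ := fun a => ∑' z, (μ (mg p a z) : ℂ) * g (mg p a z) with hφ
  have h1 : HasSum (fun a => f (mg p a 0) * φ a) (∑' y, (μ y : ℂ) * (f y * g y)) :=
    HasSum.congr' (hasSum_fib p (sm s1 fun y => m1 (hf y) (hg y))) fun a => by
      rw [hφ, ← tsum_mul_left]; exact tsum_congr fun z => by rw [hd, mul_left_comm]
  have h2 := hasSum_fib2 p (sm (G := fun y => g (fun c => y (.inl c)) *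
      (starRingEnd ℂ) (g (mg p (fun c => y (.inl c.1)) fun c => y (.inr c)))) s2
      fun y => m1 (hg _) (by rw [Complex.norm_conj]; exact hg _))
  have h3 := HasSum.congr' (g := fun a => ((‖φ a‖ ^ 2 / w a : ℝ) : ℂ)) h2 fun a => by
    have sa := (summable_fib p (sm s1 hg) a).norm
    have sb : Summable fun z => ‖(starRingEnd ℂ) ((μ (mg p a z) : ℂ) * g (mg p a z))‖ := by
      simpa only [Complex.norm_conj] using sa
    have wa : (w a : ℂ) ≠ 0 := Complex.ofReal_ne_zero.2 (w0 a).ne'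
    rw [← Complex.normSq_eq_norm_sq, Complex.ofReal_div, ← Complex.mul_conj, eq_div_iff wa, hφ,
      Complex.conj_tsum, tsum_mul_tsum_of_summable_norm sa sb, ← tsum_mul_right]
    refine tsum_congr fun z => ?_
    have := congrArg ((↑) : ℝ → ℂ) (h a z.1 z.2)
    simp only [Sum.elim_inl, Sum.elim_inr, mg_pos, map_mul, Complex.conj_ofReal]
    push_cast at this
    linear_combination (g (mg p a z.1) * (starRingEnd ℂ) (g (mg p a z.2))) * this
  have h4 := Complex.hasSum_re h3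
  simp only [Complex.ofReal_re] at h4
  obtain ⟨h5, h6⟩ := tsum_cs (r := fun a => ‖f (mg p a 0) * φ a‖) (fun a => (w0 a).le)
    (fun a => div_nonneg (sq_nonneg _) (w0 a).le) s0 h4.summable (fun _ => norm_nonneg _) fun a => by
      rw [mul_div_cancel₀ _ (w0 a).ne', norm_mul]
      exact pow_le_pow_left₀ (by positivity) (mul_le_of_le_one_left (norm_nonneg _) (hf _)) 2
  rw [h4.tsum_eq] at h6
  rw [← h1.tsum_eq]
  exact ((pow_le_pow_left₀ (norm_nonneg _) (norm_tsum_le_tsum_norm h5) 2).trans h6).trans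
    (mul_le_mul_of_nonneg_left (Complex.re_le_norm _) (tsum_nonneg fun a => (w0 a).le))

end Vs

namespace TS

open Vs

variable {σ : Type} {T : TS σ} {p q q' : T.C → Prop} [DecidablePred p] [DecidablePred q]
  [DecidablePred q']

variable (T p q q') in
/-- `q` on the first clone, `q'` on the second one -/
def jq : (T.dbl p).C → Prop := jn p q q'

instance : DecidablePred (T.jq p q q') := inferInstanceAs (DecidablePred (jn p q q'))

variable (T q) in
/-- the marginal weight on `q` -/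
def mw (y : T.C → ℤ) : ℝ := gs (pp q T.K)⁻¹ fun c : {c // q c} => T.u (zc y) c.1

variable (T q) in
open Classical in
/-- the normalised marginal law on `q`, on the configurations that vanish outside `q` -/
def nrq (y : T.C → ℤ) : ℝ := if ∀ c, ¬ q c → y c = 0 then T.mw q y / (T.cut q 0).Zc else 0

theorem nr_pos {y : T.C → ℤ} (h : ∀ c, ¬ q c → y c = 0) :
    T.nrq q y = T.mw q y / (T.cut q 0).Zc := if_pos h

theorem nr_neg {y : T.C → ℤ} (h : ¬ ∀ c, ¬ q c → y c = 0) : T.nrq q y = 0 := if_neg h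

theorem glue_inj : Function.Injective fun y : {c // q c} → ℤ => glue q y (0 : T.C → ℤ) :=
  fun y y' e => funext fun c => by simpa [glue_val] using congrFun e c.1

theorem Low.nr_glue (hq : T.Low q) (y : {c // q c} → ℤ) :
    T.nrq q (glue q y 0) = (T.cut q 0).wt y / (T.cut q 0).Zc := by
  rw [nr_pos (y := glue q y 0) fun c h => glue_neg _ _ h, mw, ← hq.wt_cut0]
  congr 2
  exact funext fun c => glue_val _ _ c

theorem nr_out (y : T.C → ℤ)
    (h : y ∉ Set.range fun y : {c // q c} → ℤ => glue q y (0 : T.C → ℤ)) : T.nrq q y = 0 :=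
  nr_neg fun k => h ⟨fun c => y c.1, funext fun c => by
    by_cases e : q c
    · exact glue_pos _ _ e
    · exact (glue_neg _ _ e).trans (k c e).symm⟩

theorem Tri.sm_nr (h : T.Tri) (hq : T.Low q) : Summable (T.nrq q) :=
  (glue_inj.summable_iff nr_out).1
    (((h.cut_low hq 0).summable.div_const _).congr fun y => (hq.nr_glue y).symm)

theorem Low.tsum_nr (hq : T.Low q) (G : (T.C → ℤ) → ℂ) : ∑' y, (T.nrq q y : ℂ) * G y =
    (T.cut q 0).Sc (fun y => G (glue q y 0)) / (T.cut q 0).Zc := by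
  rw [← (glue_inj (q := q)).tsum_eq (f := fun y => (T.nrq q y : ℂ) * G y) fun y k => by
    by_contra n
    exact k (by simp only [nr_out y n, Complex.ofReal_zero, zero_mul]), Sc, ← tsum_div_const]
  exact tsum_congr fun y => by rw [hq.nr_glue]; push_cast; ring

theorem Low.jn (hq : T.Low q) (hq' : T.Low q') (h : ∀ c, p c → q' c → q c) :
    (T.dbl p).Low (T.jq p q q') := by
  intro (c : T.C ⊕ {c // ¬ p c}) hc (c' : T.C ⊕ {c // ¬ p c}) h'
  rcases c with c | c
  · have h2 : c' ∈ (rename (Sum.inl : T.C → T.C ⊕ {c // ¬ p c}) (T.Φ c)).vars := h'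
    obtain ⟨i, hi, rfl⟩ := mem_vars_rename _ _ h2
    exact hq c hc i hi
  · have h2 : c' ∈ (rename (T.snd p) (T.Φ c.1)).vars := h'
    obtain ⟨i, hi, rfl⟩ := mem_vars_rename _ _ h2
    by_cases k : p i
    · rw [snd_pos k]; exact h i k (hq' _ hc i hi)
    · rw [snd_neg ⟨i, k⟩]; exact hq' _ hc i hi

theorem Tri.Zc_jn (h : T.Tri) (hp : T.Low p) (hq : T.Low q) (hq' : T.Low q')
    (k : ∀ c, p c → q c) (k' : ∀ c, p c → q' c) :
    ((T.dbl p).cut (T.jq p q q') 0).Zc * (T.cut p 0).Zc = (T.cut q 0).Zc * (T.cut q' 0).Zc := by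
  have t1 := (h.dbl hp).cut_low (hq.jn hq' fun c a _ => k c a) 0
  have t2 := h.cut_low hp 0
  have t3 := h.cut_low hq 0
  have t4 := h.cut_low hq' 0
  have a := det_jn (q := q) (q' := q') h.pd k k'
  have b : ((T.dbl p).cut (T.jq p q q') 0).A.det * (T.cut p 0).A.det =
      (T.cut q 0).A.det * (T.cut q' 0).A.det := by
    rw [(h.dbl hp).A_cut, h.A_cut, h.A_cut, h.A_cut, A_dbl]
    exact det_jnA _ _ k' fun _ _ x y => hp.A_eq x y
  have a' : ((T.dbl p).cut (T.jq p q q') 0).K.det * (T.cut p 0).K.det =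
      (T.cut q 0).K.det * (T.cut q' 0).K.det := a
  rw [← t1.Zc_sq, ← t2.Zc_sq, ← t3.Zc_sq, ← t4.Zc_sq] at a'
  refine (pow_left_inj₀ (mul_pos t1.Zc_pos t2.Zc_pos).le (mul_pos t3.Zc_pos t4.Zc_pos).le
    two_ne_zero).1 (mul_right_cancel₀ (pow_ne_zero 2 (mul_ne_zero t3.det t4.det)) ?_)
  rw [← sub_eq_zero] at b
  linear_combination a' - (((T.dbl p).cut (T.jq p q q') 0).Zc * (T.cut p 0).Zc) ^ 2 *
    (((T.dbl p).cut (T.jq p q q') 0).A.det * (T.cut p 0).A.det +
      (T.cut q 0).A.det * (T.cut q' 0).A.det) * b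

theorem Tri.mw_jn (h : T.Tri) (hp : T.Low p) (k : ∀ c, p c → q c) (k' : ∀ c, p c → q' c)
    (a : {c // p c} → ℤ) (z z' : {c // ¬ p c} → ℤ) :
    (T.dbl p).mw (T.jq p q q') (Sum.elim (mg p a z) z') * (T.cut p 0).wt a =
      T.mw q (mg p a z) * T.mw q' (mg p a z') := by
  have e : (T.dbl p).u (zc (Sum.elim (mg p a z) z')) = Sum.elim (T.u (zc (mg p a z)))
      fun c : {c // ¬ p c} => T.u (zc (mg p a z')) c.1 := funext fun c => by
    rcases c with c | c
    · exact u_dbl_inl _ c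
    · refine (u_dbl_inr _ c).trans ?_
      rw [← elim_snd a z z']; rfl
  have e2 : mg p (fun c => T.u (zc (mg p a z)) c.1)
      (fun c : {c // ¬ p c} => T.u (zc (mg p a z')) c.1) = T.u (zc (mg p a z')) := by
    refine Eq.trans ?_ (mg_self p _)
    congr 1
    exact funext fun c => hp.u_cg (fun _ k => by simp [zc, mg, k]) c.2
  have e3 := hp.wt_cut0 (mg p a z)
  rw [mg_res] at e3
  have e4 := qf_jn h.pd k k' (T.u (zc (mg p a z))) fun c => T.u (zc (mg p a z')) c.1
  rw [e2, ← e] at e4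
  have e5 : (T.dbl p).mw (T.jq p q q') (Sum.elim (mg p a z) z') = Real.exp (-(Real.pi * _)) :=
    congrArg (fun t => Real.exp (-(Real.pi * t))) e4
  rw [e5, e3, mw, mw, gs, gs, gs, ← Real.exp_add, ← Real.exp_add]
  congr 1; ring

theorem Tri.nr_jn (h : T.Tri) (hp : T.Low p) (hq : T.Low q) (hq' : T.Low q')
    (k : ∀ c, p c → q c) (k' : ∀ c, p c → q' c) (a : {c // p c} → ℤ) (z z' : {c // ¬ p c} → ℤ) :
    (T.dbl p).nrq (T.jq p q q') (Sum.elim (mg p a z) z') * ((T.cut p 0).wt a / (T.cut p 0).Zc) =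
      T.nrq q (mg p a z) * T.nrq q' (mg p a z') := by
  have e : (∀ c, ¬ jn p q q' c → Sum.elim (mg p a z) z' c = 0) ↔
      (∀ c, ¬ q c → mg p a z c = 0) ∧ ∀ c, ¬ q' c → mg p a z' c = 0 :=
    ⟨fun x => ⟨fun c y => x (.inl c) y, fun c y => (mg_neg p a z' ⟨c, fun t => y (k' c t)⟩).trans
      (x (.inr ⟨c, fun t => y (k' c t)⟩) y)⟩, fun x c y => by
        rcases c with c | c
        · exact x.1 c y
        · exact (mg_neg p a z' c).symm.trans (x.2 c.1 y)⟩
  by_cases x : (∀ c, ¬ q c → mg p a z c = 0) ∧ ∀ c, ¬ q' c → mg p a z' c = 0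
  · rw [nr_pos x.1, nr_pos x.2, nr_pos (T := T.dbl p) (q := T.jq p q q') (e.2 x), div_mul_div_comm,
      div_mul_div_comm, h.Zc_jn hp hq hq' k k', h.mw_jn hp k k']
  · rw [nr_neg (T := T.dbl p) (q := T.jq p q q') fun y => x (e.1 y), zero_mul]
    by_cases y : ∀ c, ¬ q c → mg p a z c = 0
    · rw [nr_neg fun t => x ⟨y, t⟩, mul_zero]
    · rw [nr_neg y, zero_mul]

variable {ι : Type} [Fintype ι]

variable (T) in
/-- a signed combination of marginal laws -/
def lam (c : ι → ℝ) (Q : ι → T.C → Prop) [∀ j, DecidablePred (Q j)] (G : (T.C → ℤ) → ℂ) : ℂ :=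
  ∑' y, ((∑ j, c j * T.nrq (Q j) y : ℝ) : ℂ) * G y

variable {c : ι → ℝ} {Q : ι → T.C → Prop} [∀ j, DecidablePred (Q j)]

theorem Tri.sm_lam (h : T.Tri) (hQ : ∀ j, T.Low (Q j)) :
    Summable fun y => ∑ j, c j * T.nrq (Q j) y :=
  summable_sum fun j _ => (h.sm_nr (hQ j)).mul_left _

theorem Tri.lam_eq (h : T.Tri) (hQ : ∀ j, T.Low (Q j)) {G : (T.C → ℤ) → ℂ} (hG : ∀ y, ‖G y‖ ≤ 1) :
    T.lam c Q G = ∑ j, c j * ((T.cut (Q j) 0).Sc (fun y => G (glue (Q j) y 0)) /
      (T.cut (Q j) 0).Zc) := by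
  simp only [lam, ← fun j => (hQ j).tsum_nr G, ← tsum_mul_left]
  rw [← Summable.tsum_finsetSum fun j _ => ?_]
  · exact tsum_congr fun y => by push_cast; rw [sum_mul]; simp only [mul_assoc]
  · refine Summable.mul_left _ (.of_norm_bounded (h.sm_nr (hQ j)).abs fun x => ?_)
    rw [norm_mul, Complex.norm_real]; exact mul_le_of_le_one_right (norm_nonneg _) (hG x)

/-- **one Cauchy–Schwarz step** -/
theorem Tri.lam_cs (h : T.Tri) (hp : T.Low p) (hQ : ∀ j, T.Low (Q j)) (k : ∀ j c, p c → Q j c)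
    {f g : (T.C → ℤ) → ℂ} (hf : ∀ y, ‖f y‖ ≤ 1) (hg : ∀ y, ‖g y‖ ≤ 1)
    (hd : ∀ y y', (∀ c, p c → y c = y' c) → f y = f y') :
    ‖T.lam c Q fun y => f y * g y‖ ^ 2 ≤ (T.cut p 0).Z / (T.cut p 0).Zc *
      ‖(T.dbl p).lam (fun j : ι × ι => c j.1 * c j.2) (fun j => T.jq p (Q j.1) (Q j.2)) fun y =>
        g (fun c => y (.inl c)) * (starRingEnd ℂ) (g fun c => y (T.snd p c))‖ := by
  have t := h.cut_low hp 0
  have s2 : Summable fun y : T.C ⊕ {c // ¬ p c} → ℤ =>
      ∑ j : ι × ι, c j.1 * c j.2 * (T.dbl p).nrq (T.jq p (Q j.1) (Q j.2)) y := (h.dbl hp).sm_lam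
    (c := fun j : ι × ι => c j.1 * c j.2) (Q := fun j => T.jq p (Q j.1) (Q j.2))
      fun j => (hQ j.1).jn (hQ j.2) fun c a _ => k _ c a
  have s0 : Summable fun a : {c // p c} → ℤ => (T.cut p 0).wt a / (T.cut p 0).Zc :=
    t.summable.div_const _
  have e : ∀ a z z', (∑ j : ι × ι, c j.1 * c j.2 * (T.dbl p).nrq (T.jq p (Q j.1) (Q j.2))
      (Sum.elim (mg p a z) z')) * ((T.cut p 0).wt a / (T.cut p 0).Zc) =
      (∑ j, c j * T.nrq (Q j) (mg p a z)) * ∑ j, c j * T.nrq (Q j) (mg p a z') := fun a z z' => by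
    rw [sum_mul, sum_mul_sum, Fintype.sum_prod_type]
    refine sum_congr rfl fun i _ => sum_congr rfl fun j _ => ?_
    rw [mul_assoc, h.nr_jn hp (hQ i) (hQ j) (k i) (k j)]; ring
  have e2 : ∀ a z, f (mg p a z) = f (mg p a 0) := fun a z => hd _ _ fun c x => by simp [mg, x]
  have w0 : ∀ a : {c // p c} → ℤ, 0 < (T.cut p 0).wt a / (T.cut p 0).Zc :=
    fun a => div_pos (wt_pos (T.cut p 0) a) t.Zc_pos
  have := acs (C := T.C) (p := p) (μ := fun y => ∑ j, c j * T.nrq (Q j) y)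
    (μ2 := fun y => ∑ j : ι × ι, c j.1 * c j.2 * (T.dbl p).nrq (T.jq p (Q j.1) (Q j.2)) y)
    (w := fun a => (T.cut p 0).wt a / (T.cut p 0).Zc) (h.sm_lam hQ) s2 s0 w0 e hf hg e2
  have e3 : ∑' a : {c // p c} → ℤ, (T.cut p 0).wt a / (T.cut p 0).Zc =
      (T.cut p 0).Z / (T.cut p 0).Zc := tsum_div_const
  simp only [← snd_mg, e3] at this
  exact this

end TS

end Crest.Agent.N49.Tw

end
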