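import Crest.Agent.N49.Tw.Vis0
import Crest.Agent.N49.Tw.Ccs
import Crest.Agent.N49.Tw.ConD

/-!
# Row 49 (helper50): several ideals generated in degree one; the double of a twisted law
-/

set_option autoImplicit false
set_option linter.unusedSectionVars false

open Matrix MvPolynomial Finset

noncomputable section

namespace Crest.Agent.N49.Tw

open Po Db

namespace Sh

variable {σ τ ι : Type} {S : Sh σ τ}

variable (S) in
/-- for every set `B` of directions, the words outside all the `ps a` (`a ∈ B`) are spanned by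
products of words of length one that have a factor outside `ps a` for every `a ∈ B` -/
def MG (ps : ι → S.W → Prop) : Prop := ∀ (B : ι → Prop) (κ : S.W → ℤ),
  (∀ a w, B a → ps a w → κ w = 0) → ∀ w, κ w ≠ 0 → ∃ (l : ℕ) (lam : Fin (l + 1) → S.W),
    l + 1 = S.dg w ∧ (∀ i, S.dg (lam i) = 1) ∧ (∀ a, B a → ∃ i, ¬ ps a (lam i)) ∧
      ∑ w', κ w' * S.r w' (∑ i, Finsupp.single (lam i) 1) ≠ 0

variable {ps : ι → S.W → Prop}

/-- words that are products of words of length one -/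
theorem mg_of_fact (h : ∀ w, ∃ (l : ℕ) (lam : Fin (l + 1) → S.W), l + 1 = S.dg w ∧
    (∀ i, S.dg (lam i) = 1) ∧ (∀ a, ¬ ps a w → ∃ i, ¬ ps a (lam i)) ∧
    ∀ w', S.r w' (∑ i, Finsupp.single (lam i) 1) = if w' = w then 1 else 0) : S.MG ps :=
  fun _ κ hκ w k => let ⟨l, lam, a, b, c, d⟩ := h w
    ⟨l, lam, a, b, fun i hi => c i fun z => k (hκ i w hi z), by simpa [d] using k⟩

theorem MG.gen (h : S.MG ps) (a : ι) : S.Gen (ps a) := fun κ hκ w k => by
  obtain ⟨l, lam, e1, e2, e3, e4⟩ := h (· = a) κ (fun _ w e z => hκ w (e ▸ z)) w k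
  obtain ⟨i, hi⟩ := e3 a rfl
  refine ⟨l, lam ∘ Equiv.swap 0 i, e1, fun _ => e2 _, by simpa using hi, ?_⟩
  rwa [← Equiv.sum_comp (Equiv.swap 0 i) fun j => Finsupp.single (lam j) 1] at e4

theorem MG.comp {ι' : Type} (h : S.MG ps) (f : ι' → ι) : S.MG fun a => ps (f a) :=
  fun B κ hκ w k => by
    obtain ⟨l, lam, e1, e2, e3, e4⟩ := h (fun b => ∃ a, B a ∧ f a = b) κ
      (fun _ w ⟨a, x, e⟩ z => hκ a w x (by subst e; exact z)) w k
    exact ⟨l, lam, e1, e2, fun a x => e3 _ ⟨a, x, rfl⟩, e4⟩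

theorem MG.dbl (o : S.Ok) (h : S.MG ps) (b : ι) [DecidablePred (ps b)] :
    (S.dbl (ps b)).MG fun a w => ps a (S.fo (ps b) w) := by
  rintro B (κ : S.DW (ps b) → ℤ) hκ (w : S.DW (ps b)) k
  by_cases c : ∃ a : {w // ¬ ps b w}, κ (.inr a) ≠ 0 ∧ S.dg a = S.dg (S.fo (ps b) w)
  · obtain ⟨a, k', d⟩ := c
    obtain ⟨l, lam, e1, e2, e3, e4⟩ := h (fun a => B a ∨ a = b)
      (fun w => if h : ps b w then 0 else κ (.inr ⟨w, h⟩)) (fun a w x hw => by
        split_ifs with y
        · rfl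
        · exact x.elim (fun x => hκ a _ x hw) fun x => absurd (x ▸ hw) y) a (by rwa [dif_neg a.2])
    refine ⟨l, fun i => S.sn (ps b) (lam i), e1.trans (d.trans (dbl_dg w).symm),
      fun i => (dbl_dg _).trans (by simpa using e2 i), fun a x => by simpa using e3 a (.inl x), ?_⟩
    obtain ⟨i, hi⟩ := e3 b (.inr rfl)
    have e : ∀ x, S.rd (ps b) (.inl x) (∑ i, Finsupp.single (S.sn (ps b) (lam i)) 1) = 0 :=
      fun _ => if_neg fun z => sum_single_ne.2 ⟨i, sn_neg hi⟩ (z _)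
    rw [← Fintype.sum_subtype_add_sum_subtype (ps b), sum_eq_zero fun b _ => by
      rw [dif_pos b.2, zero_mul], zero_add] at e4
    change ∑ w' : S.DW (ps b), κ w' * S.rd (ps b) w'
      (∑ i, Finsupp.single (S.sn (ps b) (lam i)) 1) ≠ 0
    simp only [Fintype.sum_sum_type, e, rd_snd, mul_zero, sum_const_zero, zero_add]
    exact fun z => e4 ((sum_congr rfl fun b _ => by rw [dif_neg b.2]).trans z)
  · rcases w with a | a
    swap
    · exact absurd ⟨a, k, rfl⟩ c
    obtain ⟨l, lam, e1, e2, e3, e4⟩ := h B (fun w => κ (.inl w)) (fun a w x hw => hκ a _ x hw) a k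
    refine ⟨l, fun i => .inl (lam i), e1, e2, e3, ?_⟩
    change ∑ w' : S.DW (ps b), κ w' * S.rd (ps b) w' (∑ i, Finsupp.single (.inl (lam i)) 1) ≠ 0
    rw [Fintype.sum_sum_type, sum_eq_zero (s := (univ : Finset {w // ¬ ps b w})) fun b _ => ?_]
    · simpa only [rd_fst, add_zero] using e4
    · refine of_not_not fun z => c ⟨b, left_ne_zero_of_mul z, ?_⟩
      have y := right_ne_zero_of_mul z
      have := Mh.wt_dg o (rd_ne y ▸ y)
      simp only [Finsupp.mapDomain_finsetSum, Finsupp.mapDomain_single, fo_inl, fo_inr, map_sum,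
        Finsupp.weight_single, e2] at this
      simpa [← e1] using this.symm

variable {p q q' : S.W → Prop} [DecidablePred p]

theorem Idl.sub_sz {n : ℕ} {a : ℝ} (hI : S.Idl p) (h : S.Sz n a) : (S.sub p).Sz n a where
  toOk := Mh.sub_ok h.toOk hI
  card := (Fintype.card_subtype_le p).trans h.card
  ht w _ := h.ht w.1 _
  lo (x : {w // p w} → ℝ) := by
    have := h.lo (mg p x 0)
    rw [sum_spl p, qf, dotProduct_comm, dot_mg] at this
    simp only [mg_pos, mg_neg, mulVec_mg, mulVec_zero] at this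
    refine Eq.trans_le (show a * ∑ w : {w // p w}, x w ^ 2 = _ by simp) (this.trans_eq ?_)
    rw [dotProduct_zero, add_zero, dotProduct_comm]
    simp only [Pi.zero_apply, add_zero]; rfl
  gen (κ : {w // p w} → ℤ) _ (x : {w // p w}) k := by
    obtain ⟨l, lam, e1, e2, -, e4⟩ := h.gen (mg p κ 0) (fun _ => False.elim) x.1 (by rwa [mg_pos])
    obtain ⟨w, -, z⟩ := exists_ne_zero_of_sum_ne_zero e4
    have hw : p w := by_contra fun n => left_ne_zero_of_mul z (mg_neg p κ 0 ⟨w, n⟩)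
    have hl : ∀ i, p (lam i) := fun i => hI w _ hw (right_ne_zero_of_mul z) _
      (Finsupp.mem_support_iff.2 (sum_single_ne.2 ⟨i, rfl⟩))
    refine ⟨l, fun i => ⟨lam i, hl i⟩, e1, e2, id, fun z => e4 (Eq.trans ?_ z)⟩
    rw [← sum_sub' (q := p) _ fun w n => by rw [mg_neg p κ 0 ⟨w, n⟩, Pi.zero_apply, zero_mul]]
    refine sum_congr rfl fun y _ => ?_
    change _ = κ y * S.r y.1 (Finsupp.mapDomain Subtype.val (∑ i, Finsupp.single
      (⟨lam i, hl i⟩ : {w // p w}) 1))
    rw [Finsupp.mapDomain_finsetSum, mg_pos]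
    simp only [Finsupp.mapDomain_single]

theorem Idl.jn (hq : S.Idl q) (hq' : S.Idl q') (k : ∀ w, p w → q w) :
    (S.dbl p).Idl (Vs.jn p q q') := by
  rintro (w : S.DW p) (m : S.DW p →₀ ℕ) hw (e : S.rd p w m ≠ 0) (x : S.DW p) hx
  have y := mapD_mem (S.fo p) (Finsupp.mem_support_iff.1 hx)
  rcases w with w | w <;> rcases x with x | x
  · exact hq _ _ hw (rd_ne e ▸ e) _ y
  · exact absurd (if_neg fun z => Finsupp.mem_support_iff.1 hx (z x)) e
  · exact k x (of_not_not fun n => e (if_neg fun z => Finsupp.mem_support_iff.1 hx (z x n)))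
  · exact hq' _ _ hw (rd_ne e ▸ e) _ y

variable (S p) in
theorem ch1 : S.Ch (S.dbl p) (Sum.inl : S.W → S.DW p) where
  inj := Sum.inl_injective
  cd _ := rfl
  r1 w m := (if_pos fun w' => Finsupp.mapDomain_of_notMem_range _ _ (by simp)).trans
    (congrArg (S.r w) ((Finsupp.mapDomain_comp (f := (Sum.inl : S.W → S.DW p))
      (g := S.fo p)).symm.trans Finsupp.mapDomain_id))
  r2 w (m : S.DW p →₀ ℕ) e := by
    rintro (x | x) hx
    · exact ⟨x, rfl⟩
    · exact absurd (if_neg fun z => Finsupp.mem_support_iff.1 hx (z x)) e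

theorem Idl.ch2 (hI : S.Idl p) : S.Ch (S.dbl p) (S.sn p) where
  inj := Function.LeftInverse.injective fo_sn
  cd w := by rw [dbl_cd, fo_sn]
  r1 w m := by
    have e : (m.mapDomain (S.sn p)).mapDomain (S.fo p) = m := by
      rw [← Finsupp.mapDomain_comp, show S.fo p ∘ S.sn p = id from funext fo_sn,
        Finsupp.mapDomain_id]
    change S.rd p (S.sn p w) (m.mapDomain (S.sn p) : S.DW p →₀ ℕ) = _
    by_cases h : p w
    · rw [sn_pos h, rd_inl, e]
      split_ifs with z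
      · rfl
      · refine (of_not_not fun n => z fun x => of_not_not fun y => x.2 (hI w m h (Ne.symm n) _ ?_))
        rw [← e]; exact mapD_mem (S.fo p) y
    · rw [sn_neg h, rd_inr, e, if_pos fun x n => Finsupp.mapDomain_of_notMem_range _ _ ?_]
      rintro ⟨y, z⟩
      have : y = x := by simpa using congrArg (S.fo p) z
      rw [this, sn_neg n] at z; cases z
  r2 w (m : S.DW p →₀ ℕ) (e : S.rd p _ m ≠ 0) := by
    rintro (x | x) hx
    · refine ⟨x, sn_pos ?_⟩
      by_cases h : p w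
      · exact hI _ _ (by simpa using h) (rd_ne e ▸ e) _
          (mapD_mem (S.fo p) (Finsupp.mem_support_iff.1 hx))
      · rw [sn_neg h] at e
        exact of_not_not fun n => e (if_neg fun z => Finsupp.mem_support_iff.1 hx (z x n))
    · exact ⟨x.1, sn_neg x.2⟩

theorem kill_dia2 {e : S.W → S.DW p} (h : Function.Injective e) (k : ∀ w, S.fo p (e w) = w)
    (P : MvPolynomial S.W ℝ) : killCompl h (S.pu (S.dbl p) (S.dia p) P) = P := by
  have : (killCompl h).comp (aeval fun w => ∑ x : S.DW p, S.dia' p x w • X x) =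
      AlgHom.id ℝ (MvPolynomial S.W ℝ) := algHom_ext fun w => by
    rw [AlgHom.comp_apply, aeval_X, map_sum, sum_eq_single (e w)]
    · rw [dia'_apply, k, if_pos rfl, one_smul, kill_X]; rfl
    · intro x _ n
      rw [dia'_apply]
      split_ifs with z
      · rw [one_smul, kill_X0]
        rintro ⟨y, rfl⟩
        exact n (by rw [z, k])
      · rw [zero_smul, map_zero]
    · simp
  exact DFunLike.congr_fun this P

end Sh

theorem Vs.cr_of {C : Type} [Fintype C] [DecidableEq C] {p : C → Prop} [DecidablePred p]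
    {K : Matrix C C ℝ} (hK : K.PosDef) (v : C → ℝ) (hv : ∀ c, ¬ p c → v c = 0) {c' : C}
    (h : ∀ d, p d → (K *ᵥ v) d = K d c') (c : C) : cr p K c c' = (K *ᵥ v) c := by
  have e : v = mg p (fun c => v c) 0 := funext fun c => by by_cases k : p c <;> simp [mg, k, hv c]
  have k := congrFun (cr_mulVec (p := p) K (Pi.single c' 1)) c
  have k' := congrFun (cr_mulVec (p := p) K v) c
  have k'' := cr_mg hK fun c : {c // p c} => v c
  simp only [mulVec_single_one] at k
  rw [← e] at k''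
  rw [show (fun d : {c // p c} => (K *ᵥ v) d) = fun d : {c // p c} => K.col c' d from
    funext fun d => h d d.2, ← k, k''] at k'
  refine k'.symm.trans ?_
  conv_rhs => rw [e, mulVec_mg, mulVec_zero, Pi.zero_apply, add_zero]

namespace TS

variable {σ τ : Type} [DecidableEq σ] {T : TS σ} {S : Sh σ τ} {p : S.W → Prop} [DecidablePred p]

theorem cr_kw2 (hK : T.K.PosDef) (o : S.Ok) (x x' : T.Cw S) :
    cr (fun x : T.Cw S => p x.1.2) (T.kw S T.K S.K) x x' =
      T.K x.1.1 x'.1.1 * cr p S.K x.1.2 x'.1.2 := by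
  set s := mg p ((pp p S.K)⁻¹ *ᵥ fun c => S.K c x'.1.2) 0 with hs
  have s0 : ∀ w, ¬ p w → s w = 0 := fun w n => mg_neg p _ _ ⟨w, n⟩
  have s1 : ∀ w, p w → (S.K *ᵥ s) w = S.K w x'.1.2 := fun w h => Vs.ex_eq o.pd (S.K · x'.1.2) h
  have s2 : ∀ w, s w ≠ 0 → S.cd w = T.deg x'.1.1 := fun w z => by
    have h : p w := of_not_not fun n => z (s0 w n)
    rw [hs, mg_pos p _ _ ⟨w, h⟩] at z
    obtain ⟨b, -, y⟩ := exists_ne_zero_of_sum_ne_zero z
    classical
    have := Db.blk_inv (M := pp p S.K) (l := fun c : {c // p c} => if S.cd w = S.cd c then 0 else 1)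
      (fun a b z => by rw [o.blk _ _ z]) _ _ (left_ne_zero_of_mul y)
    rw [← x'.2, ← o.blk _ _ (right_ne_zero_of_mul y)]
    by_contra n; simp [n] at this
  have e : ∀ d : T.Cw S, (T.kw S T.K S.K *ᵥ fun y => if y.1.1 = x'.1.1 then s y.1.2 else 0) d =
      T.K d.1.1 x'.1.1 * (S.K *ᵥ s) d.1.2 := fun d => by
    have := sum_cw (S := S) x'.1.1 fun w => T.K d.1.1 x'.1.1 * (S.K d.1.2 w * s w)
    rw [sum_filter_of_ne fun w _ z => s2 w (right_ne_zero_of_mul (right_ne_zero_of_mul z)),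
      sum_filter] at this
    refine Eq.trans (sum_congr rfl fun y _ => ?_) (this.trans (mul_sum _ _ _).symm)
    change T.K d.1.1 y.1.1 * S.K d.1.2 y.1.2 * (if y.1.1 = x'.1.1 then s y.1.2 else 0) = _
    split_ifs with z
    · rw [← z, mul_assoc]
    · exact mul_zero _
  rw [Vs.cr_of (kw_posDef hK o.pd) (fun y => if y.1.1 = x'.1.1 then s y.1.2 else 0)
    (fun c n => by rw [s0 _ n, ite_self]) (fun d h => (e d).trans (by rw [s1 _ h]; rfl)), e,
    Vs.cr_of o.pd s s0 s1]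

variable (T S p) in
/-- the coordinates of the double -/
def dE : T.Cw S ⊕ {x : T.Cw S // ¬ p x.1.2} ≃ T.Cw (S.dbl p) where
  toFun := Sum.elim (fun x => ⟨(x.1.1, .inl x.1.2), x.2⟩)
    fun x => ⟨(x.1.1.1, .inr ⟨x.1.1.2, x.2⟩), x.1.2⟩
  invFun x := match x with
    | ⟨(F, .inl w), h⟩ => .inl ⟨(F, w), h⟩
    | ⟨(F, .inr w), h⟩ => .inr ⟨⟨(F, w.1), h⟩, w.2⟩
  left_inv x := by rcases x with x | x <;> rfl
  right_inv x := by rcases x with ⟨⟨F, w | w⟩, h⟩ <;> rfl

variable {st : T.C → ℕ} {M : ℕ} {Ψ : T.Twd S}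

theorem dE_snd (hI : S.Idl p) (x : T.Cw S) :
    T.dE S p ((T.lw S st Ψ).snd (fun x : T.Cw S => p x.1.2) x) = T.ce hI.ch2 x := by
  by_cases a : p x.1.2
  · exact (congrArg (T.dE S p) (snd_pos (T := T.lw S st Ψ) a)).trans
      (Subtype.ext (Prod.ext rfl (Sh.sn_pos a).symm))
  · exact (congrArg (T.dE S p) (snd_neg (T := T.lw S st Ψ) ⟨x, a⟩)).trans
      (Subtype.ext (Prod.ext rfl (Sh.sn_neg a).symm))

theorem dE_u (hI : S.Idl p) (y : T.Cw (S.dbl p) → ℤ)
    (c : T.Cw S ⊕ {x : T.Cw S // ¬ p x.1.2}) :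
    ((T.lw S st Ψ).dbl fun x : T.Cw S => p x.1.2).u (zc (y ∘ T.dE S p)) c =
      (T.lw (S.dbl p) st (T.tp S (S.dbl p) (S.dia p) Ψ)).u (zc y) (T.dE S p c) := by
  have k : ∀ {e : S.W → S.DW p} (h : Function.Injective e), (∀ w, S.fo p (e w) = w) → ∀ F,
      map (killCompl h).toRingHom (T.tp S (S.dbl p) (S.dia p) Ψ F) = Ψ F := fun h k F => by
    refine (MvPolynomial.map_map _ _ _).trans ?_
    rw [show (killCompl h).toRingHom.comp (S.pu (S.dbl p) (S.dia p)) = RingHom.id _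
      from RingHom.ext (Sh.kill_dia2 h k), MvPolynomial.map_id]
  rcases c with x | x
  · exact (u_dbl_inl _ _).trans (u_pb (S.ch1 p) (k _ fun _ => rfl) (zc y) x).symm
  · refine (u_dbl_inr _ _).trans (Eq.trans ?_ ((u_pb hI.ch2 (k _ Sh.fo_sn) (zc y) x.1).symm.trans
      (congrArg _ (Subtype.ext (Prod.ext rfl (Sh.sn_neg x.2))))))
    exact congrArg (fun z => (T.tw S Ψ).u z x.1) (funext fun c => congrArg (zc y) (dE_snd hI c))

theorem dE_K (hK : T.K.PosDef) (o : S.Ok) (Ψ' : T.Twd (S.dbl p))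
    (c c' : T.Cw S ⊕ {x : T.Cw S // ¬ p x.1.2}) :
    ((T.lw S st Ψ).dbl fun x : T.Cw S => p x.1.2).K c c' =
      (T.lw (S.dbl p) st Ψ').K (T.dE S p c) (T.dE S p c') := by
  rcases c with x | x <;> rcases c' with x' | x'
  · rfl
  · exact cr_kw2 hK o x x'.1
  · exact cr_kw2 hK o x.1 x'
  · rfl

theorem dE_lev (Ψ' : T.Twd (S.dbl p)) (c : T.Cw S ⊕ {x : T.Cw S // ¬ p x.1.2}) :
    ((T.lw S st Ψ).dbl fun x : T.Cw S => p x.1.2).lev c =
      (T.lw (S.dbl p) st Ψ').lev (T.dE S p c) := by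
  rcases c with x | x <;> rfl

end TS

end Crest.Agent.N49.Tw

end
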